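import Crest.Agent.T24.Csa1_50

/-! Central simple algebras, part 2: reduced characteristic polynomial, norm and trace
(characteristic zero). -/

set_option autoImplicit false

noncomputable section

namespace Crest.Agent.T24.Csa

open scoped TensorProduct
open Module Polynomial

section Roots

theorem root_unique {L : Type*} [Field L] {p q : L[X]} (hp : p.Monic) (hq : q.Monic) {d : ℕ}
    (hd : d ≠ 0) (h : p ^ d = q ^ d) : p = q :=
  eq_of_monic_of_associated hp hq (associated_of_dvd_dvd
    ((UniqueFactorizationMonoid.pow_dvd_pow_iff_dvd hd).1 h.dvd)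
    ((UniqueFactorizationMonoid.pow_dvd_pow_iff_dvd hd).1 h.symm.dvd))

theorem coeff_X_mul_deriv {L : Type*} [CommRing L] (r : L[X]) (m : ℕ) :
    (X * derivative r).coeff m = m * r.coeff m := by
  cases m with
  | zero => simp
  | succ m => rw [coeff_X_mul, coeff_derivative]; push_cast; ring

theorem natDegree_X_mul_deriv {L : Type*} [CommRing L] (r : L[X]) :
    (X * derivative r).natDegree ≤ r.natDegree := by
  rw [natDegree_le_iff_coeff_eq_zero]
  intro m hm
  rw [coeff_X_mul_deriv, coeff_eq_zero_of_natDegree_lt hm, mul_zero]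

/-- A monic root of a polynomial over `K` is defined over `K`. -/
theorem root_descent {K L : Type*} [Field K] [CharZero K] [Field L] (f : K →+* L) {p : L[X]}
    (hp : p.Monic) {q : K[X]} {d : ℕ} (hd : d ≠ 0) (h : p ^ d = q.map f) :
    ∃ p₀ : K[X], p₀.Monic ∧ p₀.map f = p := by
  classical
  let _ : Algebra K L := f.toAlgebra
  have : CharZero L := charZero_of_injective_ringHom f.injective
  obtain ⟨π, hπ⟩ := (Algebra.linearMap K L).exists_leftInverse_of_injective
    (LinearMap.ker_eq_bot.2 f.injective)
  have hπ1 : ∀ c, π (f c) = c := fun c => LinearMap.congr_fun hπ c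
  have hπm : ∀ (a : L) (c : K), π (a * f c) = π a * c := fun a c => by
    rw [mul_comm, mul_comm (π a), ← smul_eq_mul c (π a), ← map_smul]; rfl
  let P : L[X] → K[X] := fun s => s.sum fun i a => monomial i (π a)
  have hP : ∀ s i, (P s).coeff i = π (s.coeff i) := by
    intro s i
    simp only [P, coeff_monomial, sum_def, finsetSum_coeff, Finset.sum_ite_eq',
      Polynomial.mem_support_iff]
    split_ifs with h0
    · rfl
    · push Not at h0; simp [h0]
  have hPm : ∀ (s : L[X]) (t : K[X]), P (s * t.map f) = P s * t := by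
    intro s t; ext i
    simp only [hP, coeff_mul, map_sum, coeff_map, hπm]
  have hPd : ∀ s : L[X], P (derivative s) = derivative (P s) := by
    intro s; ext i
    rw [hP, coeff_derivative, coeff_derivative, hP, ← hπm]; simp
  have E1 : derivative p * (C (d : K) * q).map f = p * (derivative q).map f := by
    rw [← derivative_map, Polynomial.map_mul, ← h, derivative_pow, map_C, map_natCast]
    obtain ⟨e, rfl⟩ := Nat.exists_eq_succ_of_ne_zero hd
    simp only [Nat.succ_eq_add_one, Nat.add_sub_cancel, pow_succ]; ring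
  have E2 : derivative (P p) * (C (d : K) * q) = P p * derivative q := by
    rw [← hPd, ← hPm, ← hPm, E1]
  set r := p - (P p).map f with hr
  have E3 : (X * derivative r) * (C (d : L) * p ^ d) = r * (X * derivative (p ^ d)) := by
    have := congrArg (Polynomial.map f) E2
    rw [Polynomial.map_mul, Polynomial.map_mul (p := P p), ← derivative_map] at this
    have e1 : C (d : L) * p ^ d = (C (d : K) * q).map f := by
      rw [Polynomial.map_mul, ← h, map_C, map_natCast f]
    rw [e1, h, derivative_map, hr, derivative_sub]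
    linear_combination X * E1 - X * this
  have hlt : ∀ m, p.natDegree ≤ m → r.coeff m = 0 := by
    intro m hm
    rw [hr, coeff_sub, coeff_map, hP]
    rcases hm.eq_or_lt with rfl | hm
    · rw [hp.coeff_natDegree, ← map_one f, hπ1, sub_self]
    · simp [coeff_eq_zero_of_natDegree_lt hm]
  have hr0 : r = 0 := by
    by_contra h0
    have hlc : r.coeff r.natDegree ≠ 0 := mt leadingCoeff_eq_zero.1 h0
    have hm : r.natDegree < p.natDegree := by
      by_contra hh; exact hlc (hlt _ (not_lt.1 hh))
    have hq : (p ^ d).Monic := hp.pow d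
    have : (X * derivative r * (C (d : L) * p ^ d)).coeff (r.natDegree + (p ^ d).natDegree) =
        (r * (X * derivative (p ^ d))).coeff (r.natDegree + (p ^ d).natDegree) := by rw [E3]
    rw [coeff_mul_add_eq_of_natDegree_le (natDegree_X_mul_deriv r) (natDegree_C_mul_le _ _),
      coeff_mul_add_eq_of_natDegree_le le_rfl (natDegree_X_mul_deriv _), coeff_X_mul_deriv,
      coeff_X_mul_deriv, coeff_C_mul, hq.coeff_natDegree, hp.natDegree_pow] at this
    have h2 : (r.natDegree : L) = p.natDegree := by
      have hd' : (d : L) ≠ 0 := Nat.cast_ne_zero.2 hd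
      push_cast at this
      have : (d : L) * r.coeff r.natDegree * ((r.natDegree : L) - p.natDegree) = 0 := by
        linear_combination this
      rcases mul_eq_zero.1 this with h3 | h3
      · exact absurd h3 (mul_ne_zero hd' hlc)
      · exact sub_eq_zero.1 h3
    exact hm.ne (Nat.cast_injective h2)
  have e : (P p).map f = p := (sub_eq_zero.1 hr0).symm
  exact ⟨P p, monic_of_injective f.injective (by rw [e]; exact hp), e⟩

end Roots

section Defs

variable (K : Type*) [Field K] {B : Type*} [Ring B] [Algebra K B]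

variable (B) in
/-- the degree -/
def deg : ℕ := Nat.sqrt (finrank K B)

theorem deg_eq {d : ℕ} (h : finrank K B = d ^ 2) : deg K B = d := by
  rw [deg, h, Nat.sqrt_eq']

variable [FiniteDimensional K B]

/-- characteristic polynomial of left multiplication -/
def lch (b : B) : K[X] := (Algebra.lmul K B b).charpoly

open Classical in
/-- the reduced characteristic polynomial -/
def rch (b : B) : K[X] :=
  if h : ∃ p : K[X], p.Monic ∧ p ^ deg K B = lch K b then h.choose else 1

theorem lch_eq {ι : Type*} [Fintype ι] [DecidableEq ι] (e : Basis ι K B) (b : B) :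
    lch K b = (Algebra.leftMulMatrix e b).charpoly := by
  rw [lch, Algebra.leftMulMatrix_apply, LinearMap.charpoly_toMatrix]

theorem lch_monic (b : B) : (lch K b).Monic := LinearMap.charpoly_monic _

theorem rch_monic (b : B) : (rch K b).Monic := by
  unfold rch
  split_ifs with h
  · exact h.choose_spec.1
  · exact monic_one

theorem rch_eq_of_pow (hd : deg K B ≠ 0) {b : B} {p : K[X]} (hp : p.Monic)
    (h : p ^ deg K B = lch K b) : rch K b = p := by
  have h' : ∃ p : K[X], p.Monic ∧ p ^ deg K B = lch K b := ⟨p, hp, h⟩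
  unfold rch
  rw [dif_pos h']
  exact root_unique h'.choose_spec.1 hp hd (h'.choose_spec.2.trans h.symm)

end Defs

section Mat

variable {L n : Type*} [Field L] [Fintype n] [DecidableEq n]

omit [DecidableEq n] in
theorem finrank_mat : finrank L (Matrix n n L) = Fintype.card n ^ 2 := by
  rw [Module.finrank_matrix]; simp [sq]

theorem deg_mat : deg L (Matrix n n L) = Fintype.card n := deg_eq L finrank_mat

theorem lch_mat (A : Matrix n n L) : lch L A = A.charpoly ^ Fintype.card n := by
  rw [lch_eq L (Matrix.stdBasis L n n)]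
  have : Algebra.leftMulMatrix (Matrix.stdBasis L n n) A = Matrix.blockDiagonal fun _ : n => A := by
    ext ⟨i, j⟩ ⟨k, l⟩
    rw [Algebra.leftMulMatrix_eq_repr_mul, Matrix.stdBasis_eq_single, Matrix.blockDiagonal_apply]
    have : ∀ M : Matrix n n L, (Matrix.stdBasis L n n).repr M (i, j) = M i j := fun M => by
      simp [Matrix.stdBasis]
    rw [this]
    by_cases h : j = l
    · subst h; simp
    · rw [Matrix.mul_single_apply_of_ne (hbj := h)]; simp [h]
  rw [this, Matrix.charpoly, Matrix.charpoly]
  have : Matrix.charmatrix (Matrix.blockDiagonal fun _ : n => A) =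
      Matrix.blockDiagonal fun _ : n => A.charmatrix := by
    ext1 ⟨i, j⟩ ⟨k, l⟩
    simp only [Matrix.charmatrix_apply, Matrix.blockDiagonal_apply, Matrix.diagonal_apply,
      Prod.mk.injEq]
    by_cases h : j = l <;> simp [h]
  rw [this, Matrix.det_blockDiagonal]; simp

theorem rch_mat [Nonempty n] (A : Matrix n n L) : rch L A = A.charpoly :=
  rch_eq_of_pow L (by rw [deg_mat]; exact Fintype.card_ne_zero) A.charpoly_monic
    (by rw [deg_mat, lch_mat])

end Mat

section Main

variable {K : Type*} [Field K] {B : Type*} [Ring B] [Algebra K B] [Algebra.IsCentral K B]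
  [IsSimpleRing B] [FiniteDimensional K B]

variable (K B) in
theorem finrank_eq_deg_sq : finrank K B = deg K B ^ 2 := by
  obtain ⟨n, -, h, -⟩ := exists_split K B (AlgebraicClosure K)
  rw [deg_eq K h, h]

variable (K B) in
theorem deg_pos : 0 < deg K B := by
  obtain ⟨n, hn, h, -⟩ := exists_split K B (AlgebraicClosure K)
  rwa [deg_eq K h]

variable (K B) in
/-- a splitting of size `deg` over an algebraically closed field -/
theorem exists_split' (Ω : Type*) [Field Ω] [Algebra K Ω] [IsAlgClosed Ω] :
    Nonempty (B →ₐ[K] Matrix (Fin (deg K B)) (Fin (deg K B)) Ω) := by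
  obtain ⟨n, -, h, hφ⟩ := exists_split K B Ω
  rwa [deg_eq K h]

theorem lch_map {L C : Type*} [Field L] [Ring C] [Algebra L C] [Nontrivial C]
    [FiniteDimensional L C] (f : K →+* L) (φ : B →+* C)
    (hf : ∀ c, φ (algebraMap K B c) = algebraMap L C (f c)) (h : finrank L C = finrank K B)
    (b : B) : lch L (φ b) = (lch K b).map f := by
  classical
  let e := Module.finBasis K B
  rw [lch_eq K e, lch_eq L (mapBasis e φ h), ← Matrix.charpoly_map]
  congr 1
  ext i j
  rw [Matrix.map_apply, Algebra.leftMulMatrix_eq_repr_mul, Algebra.leftMulMatrix_eq_repr_mul,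
    mapBasis_apply, ← map_mul, mapBasis_repr e φ h f hf]

variable [CharZero K]

theorem rch_pow (b : B) : rch K b ^ deg K B = lch K b := by
  obtain ⟨φ⟩ := exists_split' K B (AlgebraicClosure K)
  have hd := deg_pos K B
  have : Nonempty (Fin (deg K B)) := ⟨⟨0, hd⟩⟩
  have h1 := lch_map (algebraMap K (AlgebraicClosure K)) φ.toRingHom
    (fun c => (φ.commutes c).trans (IsScalarTower.algebraMap_apply _ _ _ _))
    (by rw [finrank_mat, Fintype.card_fin, finrank_eq_deg_sq K B]) b
  rw [lch_mat, Fintype.card_fin] at h1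
  obtain ⟨p, hp, hp'⟩ := root_descent _ (Matrix.charpoly_monic _) hd.ne' h1
  have h2 : p ^ deg K B = lch K b := by
    apply Polynomial.map_injective _ (algebraMap K (AlgebraicClosure K)).injective
    rw [Polynomial.map_pow, hp', h1]
  rw [rch_eq_of_pow K hd.ne' hp h2, h2]

/-- Functoriality of `rch` for semilinear ring maps between algebras of the same dimension. -/
theorem rch_map {L C : Type*} [Field L] [Ring C] [Algebra L C] [Nontrivial C]
    [FiniteDimensional L C] (f : K →+* L) (φ : B →+* C)
    (hf : ∀ c, φ (algebraMap K B c) = algebraMap L C (f c)) (h : finrank L C = finrank K B)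
    (b : B) : rch L (φ b) = (rch K b).map f := by
  have hd : deg L C = deg K B := by rw [deg, deg, h]
  refine rch_eq_of_pow L (hd ▸ (deg_pos K B).ne') ((rch_monic K b).map f) ?_
  rw [hd, ← Polynomial.map_pow, rch_pow, lch_map f φ hf h]

/-- `rch` is computed in any (semilinear) splitting. -/
theorem charpoly_eq' {L n : Type*} [Field L] [Fintype n] [DecidableEq n] (f : K →+* L)
    (φ : B →+* Matrix n n L) (hf : ∀ c, φ (algebraMap K B c) = algebraMap L _ (f c))
    (h : finrank K B = Fintype.card n ^ 2) (b : B) : (φ b).charpoly = (rch K b).map f := by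
  have : Nonempty n := by
    rw [← Fintype.card_pos_iff]
    have := Module.finrank_pos (R := K) (M := B)
    rw [h] at this
    exact Nat.pos_of_ne_zero fun h0 => by simp [h0] at this
  rw [← rch_map f φ hf (by rw [finrank_mat, h]), rch_mat]

/-- `rch` is computed in any splitting. -/
theorem charpoly_eq {L n : Type*} [Field L] [Algebra K L] [Fintype n] [DecidableEq n]
    (φ : B →ₐ[K] Matrix n n L) (h : finrank K B = Fintype.card n ^ 2) (b : B) :
    (φ b).charpoly = (rch K b).map (algebraMap K L) :=
  charpoly_eq' (algebraMap K L) φ.toRingHom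
    (fun c => (φ.commutes c).trans (IsScalarTower.algebraMap_apply _ _ _ _)) h b

/-- the standard splitting -/
def sp (K B : Type*) [Field K] [Ring B] [Algebra K B] [Algebra.IsCentral K B] [IsSimpleRing B]
    [FiniteDimensional K B] :
    B →ₐ[K] Matrix (Fin (deg K B)) (Fin (deg K B)) (AlgebraicClosure K) :=
  (exists_split' K B (AlgebraicClosure K)).some

omit [CharZero K] in
theorem sp_card : finrank K B = Fintype.card (Fin (deg K B)) ^ 2 := by
  rw [Fintype.card_fin, finrank_eq_deg_sq K B]

theorem sp_charpoly (b : B) :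
    (sp K B b).charpoly = (rch K b).map (algebraMap K (AlgebraicClosure K)) :=
  charpoly_eq _ sp_card b

theorem rch_natDegree (b : B) : (rch K b).natDegree = deg K B := by
  rw [← natDegree_map (algebraMap K (AlgebraicClosure K)), ← sp_charpoly,
    Matrix.charpoly_natDegree_eq_dim, Fintype.card_fin]

theorem sp_det (b : B) : (sp K B b).det =
    algebraMap K (AlgebraicClosure K) ((-1) ^ deg K B * (rch K b).coeff 0) := by
  rw [Matrix.det_eq_sign_charpoly_coeff, sp_charpoly, coeff_map, Fintype.card_fin]; simp

theorem sp_trace (b : B) : (sp K B b).trace =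
    algebraMap K (AlgebraicClosure K) (-(rch K b).nextCoeff) := by
  rw [Matrix.trace_eq_neg_charpoly_nextCoeff, sp_charpoly,
    nextCoeff_map (algebraMap K (AlgebraicClosure K)).injective, map_neg]

variable (K) in
/-- the reduced norm -/
def Nrd : B →*₀ K where
  toFun b := (-1) ^ deg K B * (rch K b).coeff 0
  map_zero' := (algebraMap K (AlgebraicClosure K)).injective (by
    have : Nonempty (Fin (deg K B)) := ⟨⟨0, deg_pos K B⟩⟩
    rw [← sp_det, map_zero, map_zero, Matrix.det_zero])
  map_one' := (algebraMap K (AlgebraicClosure K)).injective (by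
    rw [← sp_det, map_one, map_one, Matrix.det_one])
  map_mul' x y := (algebraMap K (AlgebraicClosure K)).injective (by
    rw [← sp_det, map_mul, Matrix.det_mul, sp_det, sp_det, ← map_mul])

variable (K) in
/-- the reduced trace -/
def Trd : B →ₗ[K] K where
  toFun b := -(rch K b).nextCoeff
  map_add' x y := (algebraMap K (AlgebraicClosure K)).injective (by
    rw [← sp_trace, map_add, Matrix.trace_add, sp_trace, sp_trace, ← map_add])
  map_smul' c x := (algebraMap K (AlgebraicClosure K)).injective (by
    rw [← sp_trace, map_smul, Matrix.trace_smul, sp_trace, RingHom.id_apply, smul_eq_mul c,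
      map_mul, Algebra.smul_def])

theorem Nrd_def (b : B) : Nrd K b = (-1) ^ deg K B * (rch K b).coeff 0 := rfl

theorem Trd_def (b : B) : Trd K b = -(rch K b).nextCoeff := rfl

section Split'

variable {L n : Type*} [Field L] [Fintype n] [DecidableEq n]

theorem det_eq' (f : K →+* L) (φ : B →+* Matrix n n L)
    (hf : ∀ c, φ (algebraMap K B c) = algebraMap L _ (f c))
    (h : finrank K B = Fintype.card n ^ 2) (b : B) : (φ b).det = f (Nrd K b) := by
  rw [Matrix.det_eq_sign_charpoly_coeff, charpoly_eq' f φ hf h, coeff_map, Nrd_def, deg_eq K h]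
  simp

theorem trace_eq' (f : K →+* L) (φ : B →+* Matrix n n L)
    (hf : ∀ c, φ (algebraMap K B c) = algebraMap L _ (f c))
    (h : finrank K B = Fintype.card n ^ 2) (b : B) : (φ b).trace = f (Trd K b) := by
  rw [Matrix.trace_eq_neg_charpoly_nextCoeff, charpoly_eq' f φ hf h, nextCoeff_map f.injective,
    Trd_def, map_neg]

variable [Algebra K L]

theorem det_eq (φ : B →ₐ[K] Matrix n n L) (h : finrank K B = Fintype.card n ^ 2) (b : B) :
    (φ b).det = algebraMap K L (Nrd K b) :=
  det_eq' (algebraMap K L) φ.toRingHom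
    (fun c => (φ.commutes c).trans (IsScalarTower.algebraMap_apply _ _ _ _)) h b

theorem trace_eq (φ : B →ₐ[K] Matrix n n L) (h : finrank K B = Fintype.card n ^ 2) (b : B) :
    (φ b).trace = algebraMap K L (Trd K b) :=
  trace_eq' (algebraMap K L) φ.toRingHom
    (fun c => (φ.commutes c).trans (IsScalarTower.algebraMap_apply _ _ _ _)) h b

theorem det_eq_one_iff (φ : B →ₐ[K] Matrix n n L) (h : finrank K B = Fintype.card n ^ 2) (b : B) :
    (φ b).det = 1 ↔ Nrd K b = 1 := by
  rw [det_eq φ h, ← map_one (algebraMap K L), (algebraMap K L).injective.eq_iff]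

end Split'

theorem Nrd_mat {n : Type*} [Fintype n] [DecidableEq n] [Nonempty n] (A : Matrix n n K) :
    Nrd K A = A.det := (det_eq (AlgHom.id K _) finrank_mat A).symm


section Map

variable {L C : Type*} [Field L] [CharZero L] [Ring C] [Algebra L C] [Algebra.IsCentral L C]
  [IsSimpleRing C] [FiniteDimensional L C]

theorem Nrd_map (f : K →+* L) (φ : B →+* C)
    (hf : ∀ c, φ (algebraMap K B c) = algebraMap L C (f c)) (h : finrank L C = finrank K B)
    (b : B) : Nrd L (φ b) = f (Nrd K b) := by
  have hd : deg L C = deg K B := by rw [deg, deg, h]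
  rw [Nrd_def, Nrd_def, rch_map f φ hf h, hd, coeff_map]; simp

theorem Trd_map (f : K →+* L) (φ : B →+* C)
    (hf : ∀ c, φ (algebraMap K B c) = algebraMap L C (f c)) (h : finrank L C = finrank K B)
    (b : B) : Trd L (φ b) = f (Trd K b) := by
  rw [Trd_def, Trd_def, rch_map f φ hf h, nextCoeff_map f.injective, map_neg]

end Map

omit [CharZero K] in
theorem sp_inj {p q : K[X]} (h : p.map (algebraMap K (AlgebraicClosure K)) =
    q.map (algebraMap K (AlgebraicClosure K))) : p = q :=
  Polynomial.map_injective _ (algebraMap K (AlgebraicClosure K)).injective h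

theorem rch_mul_comm (x y : B) : rch K (x * y) = rch K (y * x) := by
  apply sp_inj
  rw [← sp_charpoly, ← sp_charpoly, map_mul, map_mul, Matrix.charpoly_mul_comm]

theorem rch_conj {u v : B} (h : v * u = 1) (x : B) : rch K (u * x * v) = rch K x := by
  rw [rch_mul_comm, ← mul_assoc, h, one_mul]

theorem rch_units_conj (u : Bˣ) (x : B) : rch K ((u : B) * x * (u⁻¹ : Bˣ)) = rch K x :=
  rch_conj u.inv_mul x

theorem Trd_mul_comm (x y : B) : Trd K (x * y) = Trd K (y * x) := by
  rw [Trd_def, Trd_def, rch_mul_comm]

/-- Cayley–Hamilton -/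
theorem aeval_rch (b : B) : aeval b (rch K b) = 0 := by
  have : Nonempty (Fin (deg K B)) := ⟨⟨0, deg_pos K B⟩⟩
  apply RingHom.injective (sp K B).toRingHom
  change sp K B _ = sp K B 0
  rw [map_zero, ← aeval_algHom_apply, ← aeval_map_algebraMap (AlgebraicClosure K), ← sp_charpoly,
    Matrix.aeval_self_charpoly]

theorem minpoly_dvd_rch (b : B) : minpoly K b ∣ rch K b := minpoly.dvd K b (aeval_rch b)

theorem rch_eq_minpoly {b : B} (h : (minpoly K b).natDegree = deg K B) : rch K b = minpoly K b :=
  eq_of_monic_of_dvd_of_natDegree_le (minpoly.monic (Algebra.IsIntegral.isIntegral b))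
    (rch_monic K b) (minpoly_dvd_rch b) (by rw [h, rch_natDegree])


theorem eval_rch (b : B) (t : K) : (rch K b).eval t = Nrd K (algebraMap K B t - b) := by
  apply (algebraMap K (AlgebraicClosure K)).injective
  rw [← det_eq (sp K B) sp_card, ← eval₂_at_apply, ← eval_map, ← sp_charpoly,
    Matrix.eval_charpoly, map_sub, AlgHom.commutes]
  rfl

theorem rch_algebraMap (c : K) : rch K (algebraMap K B c) = (X - C c) ^ deg K B := by
  apply sp_inj
  rw [← sp_charpoly, AlgHom.commutes]
  have : algebraMap K (Matrix (Fin (deg K B)) (Fin (deg K B)) (AlgebraicClosure K)) c =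
      Matrix.diagonal fun _ => algebraMap K (AlgebraicClosure K) c := rfl
  rw [this, Matrix.charpoly_diagonal]; simp

theorem Nrd_algebraMap (c : K) : Nrd K (algebraMap K B c) = c ^ deg K B := by
  rw [Nrd_def, rch_algebraMap, coeff_zero_eq_eval_zero]
  simp [← mul_pow]

theorem Nrd_smul (c : K) (b : B) : Nrd K (c • b) = c ^ deg K B * Nrd K b := by
  rw [Algebra.smul_def, map_mul, Nrd_algebraMap]

theorem Nrd_neg (b : B) : Nrd K (-b) = (-1) ^ deg K B * Nrd K b := by
  rw [← Nrd_smul, neg_one_smul]

theorem Trd_one : Trd K (1 : B) = deg K B := by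
  apply (algebraMap K (AlgebraicClosure K)).injective
  rw [← trace_eq (sp K B) sp_card, map_one, Matrix.trace_one]; simp

theorem Trd_algebraMap (c : K) : Trd K (algebraMap K B c) = deg K B * c := by
  rw [Algebra.algebraMap_eq_smul_one, map_smul, Trd_one, smul_eq_mul, mul_comm]

/-- `Nrd ^ deg` is the determinant of left multiplication -/
theorem Nrd_pow (b : B) : Nrd K b ^ deg K B = LinearMap.det (Algebra.lmul K B b) := by
  rw [LinearMap.det_eq_sign_charpoly_coeff, Nrd_def, mul_pow, ← pow_mul, ← sq,
    ← finrank_eq_deg_sq K B]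
  congr 1
  change _ = (lch K b).coeff 0
  rw [← rch_pow, coeff_zero_eq_eval_zero, coeff_zero_eq_eval_zero, eval_pow]

theorem isUnit_iff_Nrd (b : B) : IsUnit b ↔ Nrd K b ≠ 0 := by
  refine ⟨fun h => (h.map (Nrd K)).ne_zero, fun h => ?_⟩
  have h1 : IsUnit (Algebra.lmul K B b) := by
    rw [LinearMap.isUnit_iff_isUnit_det, ← Nrd_pow]
    exact (pow_ne_zero _ h).isUnit
  exact Algebra.lmul_isUnit_iff.1 h1


/-- the trace form is nondegenerate -/
theorem eq_zero_of_Trd {x : B} (h : ∀ y, Trd K (x * y) = 0) : x = 0 := by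
  by_contra hx
  let I : TwoSidedIdeal B := TwoSidedIdeal.mk' {x | ∀ y, Trd K (x * y) = 0} (by simp)
    (fun {a b} ha hb y => by simp [add_mul, ha y, hb y])
    (fun {a} ha y => by simp [ha y])
    (fun {a b} hb y => by rw [mul_assoc, Trd_mul_comm, mul_assoc]; exact hb _)
    (fun {a b} ha y => by rw [mul_assoc]; exact ha _)
  have h1 := IsSimpleRing.one_mem_of_ne_zero_mem I hx ((TwoSidedIdeal.mem_mk' _ _ _ _ _ _ _).2 h)
  have h2 := (TwoSidedIdeal.mem_mk' _ _ _ _ _ _ _).1 h1 1
  rw [mul_one, Trd_one] at h2
  exact (deg_pos K B).ne' (Nat.cast_eq_zero.1 h2)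

/-- anti-automorphisms (semilinear) -/
theorem rch_anti (σ : K →+* K) (τ : B →+ B) (h1 : τ 1 = 1) (hm : ∀ x y, τ (x * y) = τ y * τ x)
    (hc : ∀ c, τ (algebraMap K B c) = algebraMap K B (σ c)) (b : B) :
    rch K (τ b) = (rch K b).map σ := by
  let ψ : B →+* Matrix (Fin (deg K B)) (Fin (deg K B)) (AlgebraicClosure K) :=
    { toFun := fun x => (sp K B (τ x)).transpose
      map_one' := by rw [h1, map_one, Matrix.transpose_one]
      map_mul' := fun x y => by rw [hm, map_mul, Matrix.transpose_mul]
      map_zero' := by simp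
      map_add' := fun x y => by simp }
  have := charpoly_eq' ((algebraMap K (AlgebraicClosure K)).comp σ) ψ (fun c => by
    change (sp K B (τ _)).transpose = _
    rw [hc, AlgHom.commutes]
    exact Matrix.diagonal_transpose _) sp_card b
  apply sp_inj
  rw [← sp_charpoly, Polynomial.map_map, ← this]
  exact (Matrix.charpoly_transpose _).symm

theorem Nrd_anti (σ : K →+* K) (τ : B →+ B) (h1 : τ 1 = 1) (hm : ∀ x y, τ (x * y) = τ y * τ x)
    (hc : ∀ c, τ (algebraMap K B c) = algebraMap K B (σ c)) (b : B) :
    Nrd K (τ b) = σ (Nrd K b) := by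
  rw [Nrd_def, Nrd_def, rch_anti σ τ h1 hm hc, coeff_map]; simp

theorem Trd_anti (σ : K →+* K) (τ : B →+ B) (h1 : τ 1 = 1) (hm : ∀ x y, τ (x * y) = τ y * τ x)
    (hc : ∀ c, τ (algebraMap K B c) = algebraMap K B (σ c)) (b : B) :
    Trd K (τ b) = σ (Trd K b) := by
  rw [Trd_def, Trd_def, rch_anti σ τ h1 hm hc, nextCoeff_map σ.injective, map_neg]

end Main

end Crest.Agent.T24.Csa
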