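import Mathlib
import Crest.Prelude.Def_UnitaryMP
import Crest.Agent.T24.Csa2_50
import Crest.Agent.T24.AsaA_53

-- ▼ part T24/Zen_52
section

/-!
# Row 24: Baer–Suzuki, Zenkov, and the two-point count (helper52)
-/

set_option autoImplicit false

namespace Crest.Agent.T24.Zen

open Subgroup

variable {G : Type*} [Group G] [Finite G]

/-- in a `p`-group one finds an element of `D` outside `I` that normalises `I` -/
theorem exists_norm {p : ℕ} [Fact p.Prime] {D : Set G} (hD : ∀ u ∈ D, ∀ v ∈ D, u * v * u⁻¹ ∈ D)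
    {P H : Subgroup G} (hP : IsPGroup p P) (hH : H ≤ P) (hne : ¬ D ∩ P ⊆ H) :
    ∃ u ∈ D, u ∈ P ∧ u ∉ H ∧ ∀ v ∈ D, v ∈ H → u * v * u⁻¹ ∈ D ∧ u * v * u⁻¹ ∈ H := by
  obtain ⟨K, ⟨h1, h2, h3⟩, hmax⟩ := (Set.toFinite {K : Subgroup G | H ≤ K ∧ K ≤ P ∧ D ∩ K ⊆ H}).exists_maximal
    ⟨H, le_rfl, hH, Set.inter_subset_right⟩
  have := hP.isNilpotent
  have h4 : K.subgroupOf P < ⊤ := lt_top_iff_ne_top.2 fun h => hne fun y hy =>
    h3 ⟨hy.1, (subgroupOf_eq_top.1 h) hy.2⟩
  obtain ⟨w, hw, hw'⟩ := SetLike.exists_of_lt (Group.normalizerCondition_of_isNilpotent _ h4)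
  have h5 : K ≤ P ⊓ normalizer (K : Set G) := le_inf h2 le_normalizer
  have h6 : ¬ D ∩ (P ⊓ normalizer (K : Set G) : Subgroup G) ⊆ H := fun h => by
    have h7 := hmax ⟨h1.trans h5, inf_le_left, h⟩ h5
    refine hw' (h7 ⟨w.2, ?_⟩)
    refine mem_normalizer_iff.2 fun y => ⟨fun hy => ?_, fun hy => ?_⟩
    · exact (mem_normalizer_iff.1 hw ⟨y, h2 hy⟩).1 hy
    · have hy' : y ∈ P := by simpa [mul_assoc] using P.mul_mem (P.mul_mem (P.inv_mem w.2) (h2 hy)) w.2
      exact (mem_normalizer_iff.1 hw ⟨y, hy'⟩).2 hy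
  obtain ⟨u, ⟨hu, huP, huK⟩, hu'⟩ := Set.not_subset.1 h6
  exact ⟨u, hu, huP, hu', fun v hv hv' =>
    ⟨hD u hu v hv, h3 ⟨hD u hu v hv, (mem_normalizer_iff.1 huK v).1 (h1 hv')⟩⟩⟩

theorem mem_normalizer_closure {I : Set G} {u : G} (h : ∀ v ∈ I, u * v * u⁻¹ ∈ I) :
    u ∈ normalizer (closure I : Set G) := by
  refine mem_normalizer_fintype fun y hy => ?_
  induction hy using closure_induction with
  | mem v hv => exact subset_closure (h v hv)
  | one => simp
  | mul a b _ _ ha hb => simpa [mul_assoc] using mul_mem ha hb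
  | inv a _ ha => simpa [mul_assoc] using inv_mem ha

/-- **Baer–Suzuki** (proof of Alperin and Lyons) -/
theorem baer {p : ℕ} [Fact p.Prime] {D : Set G} (hD : ∀ u ∈ D, ∀ v ∈ D, u * v * u⁻¹ ∈ D)
    (h2 : ∀ u ∈ D, ∀ v ∈ D, IsPGroup p (closure {u, v} : Subgroup G)) : IsPGroup p (closure D) := by
  classical
  let 𝒮 : Set (Set G) := {X | ∃ P : Subgroup G, IsPGroup p P ∧ X = D ∩ P}
  have hex : ∀ X ∈ 𝒮, ∃ Z, X ⊆ Z ∧ Maximal (· ∈ 𝒮) Z := fun X hX =>
    (Set.toFinite 𝒮).exists_le_maximal hX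
  have key : ∀ n : ℕ, ∀ X Y, Maximal (· ∈ 𝒮) X → Maximal (· ∈ 𝒮) Y →
      Nat.card G - (X ∩ Y).ncard = n → X = Y := by
    intro n
    induction n using Nat.strong_induction_on with
    | _ n ih =>
      intro X Y hX hY hn
      by_contra hne
      obtain ⟨P, hP, rfl⟩ := hX.1
      obtain ⟨Q, hQ, rfl⟩ := hY.1
      set I := D ∩ P ∩ (D ∩ Q) with hI
      have hHP : closure I ≤ P := (closure_le _).2 fun y hy => hy.1.2
      have hHQ : closure I ≤ Q := (closure_le _).2 fun y hy => hy.2.2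
      obtain ⟨u, hu, huP, huH, hu'⟩ := exists_norm hD hP hHP fun h =>
        hne (hX.eq_of_subset hY.1 fun y hy => ⟨hy.1, hHQ (h hy)⟩)
      obtain ⟨v, hv, hvQ, hvH, hv'⟩ := exists_norm hD hQ hHQ fun h =>
        hne (hY.eq_of_subset hX.1 fun y hy => ⟨hy.1, hHP (h hy)⟩).symm
      have hn' : ∀ u, (∀ v ∈ D, v ∈ closure I → u * v * u⁻¹ ∈ D ∧ u * v * u⁻¹ ∈ closure I) →
          u ∈ normalizer (closure I : Set G) := fun u h => mem_normalizer_closure fun y hy =>
        have h' := h y hy.1.1 (subset_closure hy)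
        ⟨⟨h'.1, hHP h'.2⟩, h'.1, hHQ h'.2⟩
      have hR : IsPGroup p (closure {u, v} ⊔ closure I : Subgroup G) :=
        (h2 u hu v hv).to_sup_of_normal_right' (hP.to_le hHP) ((closure_le _).2 (by
          rintro y (rfl | rfl)
          exacts [hn' _ hu', hn' _ hv']))
      obtain ⟨Z, hZ, hZm⟩ := hex _ ⟨_, hR, rfl⟩
      have hIZ : I ⊆ Z := fun y hy => hZ ⟨hy.1.1, mem_sup_right (subset_closure hy)⟩
      have lt : ∀ (W : Set G) (w : G), I ⊆ W → w ∈ W → w ∈ Z → w ∉ closure I →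
          Nat.card G - (W ∩ Z).ncard < n := fun W w h1 h3 h4 h5 => by
        have h6 : I.ncard < (W ∩ Z).ncard := Set.ncard_lt_ncard
          ⟨Set.subset_inter h1 hIZ, fun h => h5 (subset_closure (h ⟨h3, h4⟩))⟩
        have h7 : (W ∩ Z).ncard ≤ Nat.card G := Set.ncard_le_card _
        omega
      have e1 := ih _ (lt _ u Set.inter_subset_left ⟨hu, huP⟩
        (hZ ⟨hu, mem_sup_left (subset_closure (by simp))⟩) huH) _ _ hX hZm rfl
      have e2 := ih _ (lt _ v Set.inter_subset_right ⟨hv, hvQ⟩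
        (hZ ⟨hv, mem_sup_left (subset_closure (by simp))⟩) hvH) _ _ hY hZm rfl
      exact hne (e1.trans e2.symm)
  obtain ⟨Z, -, hZ⟩ := hex _ ⟨⊥, IsPGroup.of_bot, rfl⟩
  obtain ⟨P, hP, hZP⟩ := hZ.1
  refine hP.to_le ((closure_le _).2 fun y hy => ?_)
  obtain ⟨Z', h3, hZ'⟩ := hex _ ⟨_, h2 y hy y hy, rfl⟩
  have h4 := h3 ⟨hy, subset_closure (by simp)⟩
  rw [key _ _ _ hZ' hZ rfl, hZP] at h4
  exact h4.2

/-- the class of `x` under `H` -/
def cls (H : Subgroup G) (x : G) : Set G := {y | ∃ h ∈ H, y = h * x * h⁻¹}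

omit [Finite G] in
theorem cls_conj {H : Subgroup G} {x u v : G} (hu : u ∈ H) (hv : v ∈ cls H x) :
    u * v * u⁻¹ ∈ cls H x := by
  obtain ⟨h, hh, rfl⟩ := hv
  exact ⟨u * h, mul_mem hu hh, by group⟩

/-- **Zenkov**: a minimal intersection of two abelian subgroups lies in the Fitting subgroup -/
theorem zen {p : ℕ} [Fact p.Prime] (H : Subgroup G) : ∀ A B : Subgroup G, A ≤ H → B ≤ H →
    (∀ a ∈ A, ∀ a' ∈ A, a * a' = a' * a) → (∀ b ∈ B, ∀ b' ∈ B, b * b' = b' * b) →
    (∀ h ∈ H, (∀ y ∈ A, h⁻¹ * y * h ∈ B → y ∈ B) → ∀ y ∈ A, y ∈ B → h⁻¹ * y * h ∈ B) →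
    ∀ x ∈ A, x ∈ B → x ^ p = 1 → IsPGroup p (closure (cls H x)) := by
  induction H using WellFoundedLT.induction with
  | ind H ih =>
  intro A B hA hB cA cB hmin x hxA hxB hx
  have hz : ∀ y : G, y ^ p = 1 → IsPGroup p (zpowers y) := fun y hy => by
    rintro ⟨_, k, rfl⟩
    refine ⟨1, Subtype.ext ?_⟩
    simp only [pow_one, SubgroupClass.coe_pow, OneMemClass.coe_one]
    rw [← zpow_natCast, ← zpow_mul, mul_comm, zpow_mul, zpow_natCast, hy, one_zpow]
  have key : ∀ g ∈ H, IsPGroup p (closure {x, g * x * g⁻¹} : Subgroup G) := by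
    intro g hg
    let Bg := B.comap (MulAut.conj g⁻¹).toMonoidHom
    have mBg : ∀ y, y ∈ Bg ↔ g⁻¹ * y * g ∈ B := fun y => by simp [Bg]
    have hBg : Bg ≤ H := fun y hy => by
      simpa [mul_assoc] using mul_mem (mul_mem hg (hB ((mBg y).1 hy))) (inv_mem hg)
    rcases (sup_le hA hBg).eq_or_lt with he | hlt
    · have cen : ∀ y ∈ A, g⁻¹ * y * g ∈ B → g * y = y * g := fun y hy hy' => by
        have h1 : A ⊔ Bg ≤ centralizer {y} := sup_le
          (fun a ha => mem_centralizer_singleton_iff.2 (cA a ha y hy)) fun b hb =>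
            mem_centralizer_singleton_iff.2 (by
              have := cB _ ((mBg b).1 hb) _ hy'
              simpa [← mul_assoc] using (by simpa [mul_assoc] using this : b * (y * g) = y * (b * g)))
        exact mem_centralizer_singleton_iff.1 (h1 (he ▸ hg))
      have h2 := hmin g hg (fun y hy hy' => by
        have h3 := cen y hy hy'
        rwa [mul_assoc, ← h3, inv_mul_cancel_left] at hy') x hxA hxB
      rw [cen x hxA h2, mul_inv_cancel_right, Set.pair_eq_singleton, ← zpowers_eq_closure]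
      exact hz x hx
    · have hAH : A ≤ A ⊔ Bg := le_sup_left
      have h1 := ih _ hlt A (B ⊓ (A ⊔ Bg)) le_sup_left inf_le_right cA
        (fun b hb b' hb' => cB b hb.1 b' hb'.1) (fun h hh h0 y hy hy' =>
          ⟨hmin h (hlt.le hh) (fun z hz hz' =>
            (h0 z hz ⟨hz', (A ⊔ Bg).mul_mem (mul_mem (inv_mem hh) (hAH hz)) hh⟩).1) y hy hy'.1,
            (A ⊔ Bg).mul_mem (mul_mem (inv_mem hh) (hAH hy)) hh⟩) x hxA ⟨hxB, hAH hxA⟩ hx
      have h2 : g * x * g⁻¹ ∈ A ⊔ Bg := mem_sup_right ((mBg _).2 (by simpa [mul_assoc] using hxB))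
      have h3 := (hz (g * x * g⁻¹) (by rw [conj_pow, hx]; simp)).to_sup_of_normal_right' h1
        ((zpowers_le).2 (mem_normalizer_closure fun v hv => cls_conj h2 hv))
      refine h3.to_le ((closure_le _).2 ?_)
      rintro y (rfl | rfl)
      · exact mem_sup_right (subset_closure ⟨1, one_mem _, by simp⟩)
      · exact mem_sup_left (mem_zpowers _)
  refine baer (fun u hu v hv => cls_conj ?_ hv) ?_
  · obtain ⟨h, hh, rfl⟩ := hu
    exact mul_mem (mul_mem hh (hA hxA)) (inv_mem hh)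
  · rintro _ ⟨h₁, hh₁, rfl⟩ _ ⟨h₂, hh₂, rfl⟩
    have := (key (h₁⁻¹ * h₂) (mul_mem (inv_mem hh₁) hh₂)).map (MulAut.conj h₁).toMonoidHom
    rw [MonoidHom.map_closure, Set.image_pair] at this
    rw [show h₂ * x * h₂⁻¹ = h₁ * (h₁⁻¹ * h₂ * x * (h₁⁻¹ * h₂)⁻¹) * h₁⁻¹ by group]
    exact this

/-- no non-trivial `p`-subgroup of `H` is normalised by `H`, for any prime `p` -/
def NoP (H : Subgroup G) : Prop := ∀ (p : ℕ) (O : Subgroup G), p.Prime → IsPGroup p O → O ≤ H →
  (∀ h ∈ H, ∀ y ∈ O, h * y * h⁻¹ ∈ O) → O = ⊥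

theorem exists_disjoint {H A B : Subgroup G} (hH : NoP H) (hA : A ≤ H) (hB : B ≤ H)
    (cA : ∀ a ∈ A, ∀ a' ∈ A, a * a' = a' * a) (cB : ∀ b ∈ B, ∀ b' ∈ B, b * b' = b' * b) :
    ∃ g ∈ H, ∀ y ∈ A, g⁻¹ * y * g ∈ B → y = 1 := by
  let S : G → Set G := fun g => {y | y ∈ A ∧ g⁻¹ * y * g ∈ B}
  obtain ⟨g, hg, hmin⟩ := (Set.toFinite (H : Set G)).exists_minimalFor S _ ⟨1, one_mem H⟩
  refine ⟨g, hg, fun y hy hy' => ?_⟩
  by_contra hy1
  let Bg := B.comap (MulAut.conj g⁻¹).toMonoidHom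
  have mBg : ∀ y, y ∈ Bg ↔ g⁻¹ * y * g ∈ B := fun y => by simp [Bg]
  have ho : orderOf y ≠ 1 := mt orderOf_eq_one_iff.1 hy1
  obtain ⟨p, hp, k, hk⟩ := Nat.exists_prime_and_dvd ho
  have := Fact.mk hp
  have hk0 : 0 < k := Nat.pos_of_ne_zero fun h => (orderOf_pos y).ne' (by rw [hk, h, mul_zero])
  have hx1 : y ^ k ≠ 1 := pow_ne_one_of_lt_orderOf hk0.ne' (by
    rw [hk]; exact lt_mul_left hk0 hp.one_lt)
  have h1 := zen (p := p) H A Bg hA (fun y hy => by
      simpa [mul_assoc] using mul_mem (mul_mem hg (hB ((mBg y).1 hy))) (inv_mem hg)) cA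
    (fun b hb b' hb' => by
      have := cB _ ((mBg b).1 hb) _ ((mBg b').1 hb')
      simpa [← mul_assoc] using (by simpa [mul_assoc] using this : b * (b' * g) = b' * (b * g)))
    (fun h hh h0 z hz hz' => by
      have h2 : S (h * g) ≤ S g := fun w hw =>
        ⟨hw.1, (mBg w).1 (h0 w hw.1 ((mBg _).2 (by simpa [mul_assoc] using hw.2)))⟩
      have h3 := (hmin (mul_mem hh hg) h2 ⟨hz, (mBg z).1 hz'⟩).2
      exact (mBg _).2 (by simpa [mul_assoc] using h3))
    (y ^ k) (pow_mem hy k) (pow_mem ((mBg y).2 hy') k)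
    (by rw [← pow_mul, mul_comm, ← hk, pow_orderOf_eq_one])
  have h2 := hH p _ hp h1 ((closure_le _).2 (by
      rintro _ ⟨h, hh, rfl⟩
      exact mul_mem (mul_mem hh (hA (pow_mem hy k))) (inv_mem hh)))
    fun h hh z hz => (mem_normalizer_iff.1 (mem_normalizer_closure fun v hv => cls_conj hh hv) z).1 hz
  exact hx1 (mem_bot.1 (h2 ▸ subset_closure ⟨1, one_mem _, by simp⟩))

/-- **two-point count**: `F` normal with abelian quotient, trivial centraliser, trivial Fitting subgroup -/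
theorem two {F A B : Subgroup G} [F.Normal] (hab : ∀ a b : G, a * b * a⁻¹ * b⁻¹ ∈ F) (hF : NoP F)
    (hC : ∀ g : G, (∀ f ∈ F, g * f = f * g) → g = 1) (hne : F ≠ ⊥)
    (cA : ∀ a ∈ A, ∀ a' ∈ A, a * a' = a' * a) (cB : ∀ b ∈ B, ∀ b' ∈ B, b * b' = b' * b) :
    ∃ f₁ ∈ F, ∃ f₂ ∈ F, f₁ ≠ f₂ ∧ (∀ y ∈ B, f₁⁻¹ * y * f₁ ∈ A → y = 1) ∧
      ∀ y ∈ B, f₂⁻¹ * y * f₂ ∈ A → y = 1 := by
  have hN : F.Normal := inferInstance
  have : (B ⊔ F).Normal := ⟨fun y hy g => by
    have := mul_mem (mem_sup_right (S := B) (hab g y)) hy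
    simpa [mul_assoc] using this⟩
  have hH : NoP (B ⊔ F ⊔ A) := fun p O hp hO _ hn => by
    have h1 := hF p (O ⊓ F) hp (hO.to_le inf_le_left) inf_le_right fun h hh y hy =>
      ⟨hn h (mem_sup_left (mem_sup_right hh)) y hy.1, hN.conj_mem _ hy.2 _⟩
    refine (eq_bot_iff_forall _).2 fun y hy => hC y fun f hf => ?_
    have h2 : f * y * f⁻¹ * y⁻¹ ∈ O ⊓ F :=
      ⟨O.mul_mem (hn f (mem_sup_left (mem_sup_right hf)) y hy) (inv_mem hy), hab f y⟩
    rw [h1, mem_bot, mul_inv_eq_one, mul_inv_eq_iff_eq_mul] at h2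
    exact h2.symm
  obtain ⟨g, hg, h0⟩ := exists_disjoint hH (le_sup_left.trans le_sup_left) le_sup_right cB cA
  obtain ⟨_, hbf, a, ha, rfl⟩ := (mem_sup_of_normal_left).1 hg
  obtain ⟨b, hb, f, hf, rfl⟩ := (mem_sup_of_normal_right).1 hbf
  have tr : ∀ (f b a : G), b ∈ B → a ∈ A → (∀ y ∈ B, (b * f * a)⁻¹ * y * (b * f * a) ∈ A → y = 1) →
      ∀ y ∈ B, f⁻¹ * y * f ∈ A → y = 1 := fun f b a hb ha h y hy hy' => by
    refine h y hy ?_
    have := mul_mem (mul_mem (inv_mem ha) hy') ha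
    rwa [show (b * f * a)⁻¹ * y * (b * f * a) = a⁻¹ * (f⁻¹ * (b⁻¹ * (y * b)) * f) * a by group,
      ← cB b hb y hy, inv_mul_cancel_left]
  have h1 := tr f b a hb ha h0
  by_cases h2 : ∃ b ∈ B, ∃ a ∈ A, b * a ∈ F ∧ (b ≠ 1 ∨ a ≠ 1)
  · obtain ⟨b', hb', a', ha', h3, h4⟩ := h2
    refine ⟨f, hf, b' * f * a', ?_, fun h5 => ?_, h1,
      tr _ b'⁻¹ a'⁻¹ (inv_mem hb') (inv_mem ha') (by simpa [mul_assoc] using h1)⟩
    · have := mul_mem (hN.conj_mem f hf b') h3
      simpa [mul_assoc] using this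
    · have h6 : f⁻¹ * b' * f = a'⁻¹ := by
        rw [eq_inv_iff_mul_eq_one, mul_assoc, mul_assoc, ← mul_assoc b', ← h5, inv_mul_cancel]
      have h7 := h1 b' hb' (h6 ▸ inv_mem ha')
      rw [h7, mul_one, inv_mul_cancel, eq_comm, inv_eq_one] at h6
      tauto
  · obtain ⟨⟨f', hf'⟩, hf1⟩ := ne_bot_iff_exists_ne_one.1 hne
    have all : ∀ f ∈ F, ∀ y ∈ B, f⁻¹ * y * f ∈ A → y = 1 := fun f hf y hy hy' => by
      by_contra hy1
      refine h2 ⟨y, hy, _, inv_mem hy', ?_, Or.inl hy1⟩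
      simpa [mul_assoc] using hab y f⁻¹
    exact ⟨f', hf', 1, one_mem _, fun h => hf1 (Subtype.ext h), all _ hf', all _ (one_mem _)⟩

end Crest.Agent.T24.Zen
end

-- ▼ part T24/Def_26

/-!
# Row 24: the global set-up (star words, depth at `T`) and the top chain of statements.
-/

set_option autoImplicit false
set_option linter.unusedSectionVars false

noncomputable section

namespace Crest.Agent.T24

open Module NumberField IsDedekindDomain WithZero Csa Asa
open scoped NumberField commutatorElement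

universe u v w

/-- `K/k` quadratic and `star` is the non-trivial automorphism -/
class Quad (k K : Type*) [Field k] [Field K] [Algebra k K] [StarRing K] : Prop where
  fr : finrank k K = 2
  star_k : ∀ c : k, star (algebraMap k K c) = algebraMap k K c
  ne : ∃ c : K, star c ≠ c

section Sig
variable (k K : Type*) [Field k] [Field K] [Algebra k K] [StarRing K] [Quad k K]

/-- `star` as a `k`-automorphism of `K` -/
def sig : K ≃ₐ[k] K :=
  { starRingAut with commutes' := Quad.star_k }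

@[simp] theorem sig_apply (x : K) : sig k K x = star x := rfl

theorem sig_ne : sig k K ≠ AlgEquiv.refl := fun h => by
  obtain ⟨c, hc⟩ := Quad.ne (k := k) (K := K)
  exact hc (by simpa using congrArg (fun f : K ≃ₐ[k] K => f c) h)

end Sig

section Glob
variable (K : Type*) [Field K] [NumberField K] [StarRing K] (B : Type*) [Ring B] [StarRing B]
  [Algebra K B] [StarModule K B] [Algebra.IsCentral K B] [IsSimpleRing B] [FiniteDimensional K B]

variable {K B} in
theorem star_algebraMap (c : K) : star (algebraMap K B c) = algebraMap K B (star c) := by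
  rw [Algebra.algebraMap_eq_smul_one, Algebra.algebraMap_eq_smul_one, star_smul, star_one]

variable {B} in
theorem rch_star (b : B) : rch K (star b) = (rch K b).map (starRingEnd K) :=
  rch_anti (starRingEnd K) (starAddEquiv (R := B)).toAddMonoidHom (star_one B)
    (fun x y => star_mul x y) (fun c => star_algebraMap c) b

variable {B} in
theorem Nrd_star (b : B) : Nrd K (star b) = star (Nrd K b) :=
  Nrd_anti (starRingEnd K) (starAddEquiv (R := B)).toAddMonoidHom (star_one B)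
    (fun x y => star_mul x y) (fun c => star_algebraMap c) b

variable {B} in
theorem Trd_star (b : B) : Trd K (star b) = star (Trd K b) :=
  Trd_anti (starRingEnd K) (starAddEquiv (R := B)).toAddMonoidHom (star_one B)
    (fun x y => star_mul x y) (fun c => star_algebraMap c) b

/-- the special unitary group -/
def SU : Subgroup (unitary B) where
  carrier := {u | Nrd K (u : B) = 1}
  one_mem' := by simp
  mul_mem' {a b} ha hb := by
    simp only [Set.mem_ofPred_eq, Submonoid.coe_mul, map_mul] at *; rw [ha, hb, one_mul]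
  inv_mem' {a} ha := by
    simp only [Set.mem_ofPred_eq] at *
    have : Nrd K ((a⁻¹ * a : unitary B) : B) = 1 := by simp
    rwa [Submonoid.coe_mul, map_mul, ha, mul_one] at this

variable {K B} in
theorem mem_SU {u : unitary B} : u ∈ SU K B ↔ Nrd K (u : B) = 1 := Iff.rfl

variable {B} in
theorem Nrd_inv_mul (u : unitary B) : Nrd K ((u⁻¹ : unitary B) : B) * Nrd K (u : B) = 1 := by
  rw [← map_mul, ← Submonoid.coe_mul]; simp

variable {B} in
theorem comm_mem_SU (a b : unitary B) : a * b * a⁻¹ * b⁻¹ ∈ SU K B := by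
  have h1 := Nrd_inv_mul K a
  have h2 := Nrd_inv_mul K b
  simp only [mem_SU, Submonoid.coe_mul, map_mul]
  linear_combination (Nrd K ((b⁻¹ : unitary B) : B) * Nrd K (b : B)) * h1 + h2

instance : (SU K B).Normal := ⟨fun n hn g => by
  have h1 := Nrd_inv_mul K g
  simp only [mem_SU, Submonoid.coe_mul, map_mul] at *
  rw [hn]; linear_combination h1⟩

/-- the involution is anisotropic -/
def Aniso (B : Type*) [Ring B] [StarRing B] : Prop := ∀ x : B, star x * x = 0 → x = 0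

variable {K B} in
/-- the valuation of the reduced norm -/
def val (w : Pl K) (x : B) : ℤᵐ⁰ := w.valuation K (Nrd K x)

variable {K B} in
theorem val_mul (w : Pl K) (x y : B) : val w (x * y) = val w x * val w y := by
  simp [val]

variable {K B} in
@[simp] theorem val_one (w : Pl K) : val w (1 : B) = 1 := by simp [val]

variable {K B} in
@[simp] theorem val_zero (w : Pl K) : val w (0 : B) = 0 := by simp [val]

variable {K B} in
@[simp] theorem val_neg (w : Pl K) (x : B) : val w (-x) = val w x := by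
  simp [val, Nrd_neg]

variable {K} in
/-- the place of `k` under `w` splits -/
def Split (w : Pl K) : Prop := ∃ x : K, w.valuation K (star x) ≠ w.valuation K x

variable {K} in
/-- `val w` is a valuation of `B` (equivalent to: `B ⊗ K_w` is a division algebra) -/
def Ultra (w : Pl K) : Prop := ∀ x y : B, val w (x + y) ≤ max (val w x) (val w y)

/-- the anisotropic places -/
def TT : Set (Pl K) := {w | Split w ∧ Ultra B w}

variable {K B} in
theorem Ultra.val_eq_one {w : Pl K} (h : Ultra B w) {x : B} (hx : val w (x - 1) < 1) :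
    val w x = 1 := by
  have h1 := h (x - 1) 1
  have h2 := h x (-(x - 1))
  rw [sub_add_cancel, val_one] at h1
  rw [val_neg, show x + -(x - 1) = 1 by abel, val_one] at h2
  refine le_antisymm (h1.trans (max_le hx.le le_rfl)) ?_
  rcases le_max_iff.1 h2 with h3 | h3
  · exact h3
  · exact absurd hx (not_lt.2 h3)

/-- `x` is congruent to `1` to depth `m` at `T` -/
def Deep (m : ℕ) : Submonoid B where
  carrier := {x | ∀ w ∈ TT K B, val w (x - 1) < exp (-(m : ℤ))}
  one_mem' w _ := by simp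
  mul_mem' {a b} ha hb w hw := by
    have h1 : val w a = 1 := hw.2.val_eq_one ((ha w hw).trans_le (exp_neg_le_one m))
    have h2 := hw.2 (a * (b - 1)) (a - 1)
    rw [val_mul, h1, one_mul, show a * (b - 1) + (a - 1) = a * b - 1 by noncomm_ring] at h2
    exact h2.trans_lt (max_lt (hb w hw) (ha w hw))


variable {K B} in
theorem Deep.val_eq_one {m : ℕ} {x : B} (hx : x ∈ Deep K B m) {w : Pl K} (hw : w ∈ TT K B) :
    val w x = 1 := hw.2.val_eq_one ((hx w hw).trans_le (exp_neg_le_one m))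

variable {K B} in
theorem Deep.inv {m : ℕ} {x y : B} (hx : x ∈ Deep K B m) (h : y * x = 1) : y ∈ Deep K B m :=
  fun w hw => by
    have h1 : val w y = 1 := by
      have := val_mul w y x
      rwa [h, val_one, Deep.val_eq_one hx hw, mul_one, eq_comm] at this
    have : y - 1 = -(y * (x - 1)) := by rw [mul_sub, h, mul_one, neg_sub]
    rw [this, val_neg, val_mul, h1, one_mul]; exact hx w hw

variable {K B} in
theorem Deep.conj {m : ℕ} {x g g' : B} (hx : x ∈ Deep K B m) (h : g * g' = 1) :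
    g * x * g' ∈ Deep K B m := fun w hw => by
  have h1 : val w g * val w g' = 1 := by rw [← val_mul, h, val_one]
  have : g * x * g' - 1 = g * (x - 1) * g' := by rw [mul_sub, sub_mul, mul_one, h]
  rw [this, val_mul, val_mul, mul_right_comm, h1, one_mul]; exact hx w hw

variable {K B} in
theorem Deep.anti {m n : ℕ} (h : m ≤ n) : Deep K B n ≤ Deep K B m :=
  fun _ hx w hw => (hx w hw).trans_le (exp_neg_anti h)

/-- the unitary elements of depth `m` at `T` -/
def Um (m : ℕ) : Subgroup (unitary B) where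
  carrier := {u | (u : B) ∈ Deep K B m}
  one_mem' := (Deep K B m).one_mem
  mul_mem' ha hb := (Deep K B m).mul_mem ha hb
  inv_mem' {a} ha := Deep.inv ha (by rw [← Submonoid.coe_mul]; simp)


instance (m : ℕ) : (Um K B m).Normal :=
  ⟨fun _ hn g => Deep.conj hn (by rw [← Submonoid.coe_mul]; simp)⟩

variable {K B} in
theorem Um_anti {m n : ℕ} (h : m ≤ n) : Um K B n ≤ Um K B m := fun _ hx => Deep.anti h hx

/-- the elements of `SU` of depth `m` at `T` -/
def SUm (m : ℕ) : Subgroup (unitary B) := SU K B ⊓ Um K B m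

instance (m : ℕ) : (SUm K B m).Normal := Subgroup.normal_inf_normal _ _

variable {K B} in
theorem SUm_anti {m n : ℕ} (h : m ≤ n) : SUm K B n ≤ SUm K B m := inf_le_inf_left _ (Um_anti h)

variable {B} in
/-- a non-central normal subgroup of `SU` -/
structure NC (N : Subgroup (unitary B)) : Prop where
  le : N ≤ SU K B
  nrm : ∀ g ∈ SU K B, ∀ x ∈ N, g * x * g⁻¹ ∈ N
  nc : ∃ x ∈ N, ∃ g ∈ SU K B, x * g ≠ g * x

/-- Margulis–Platonov -/
def MP : Prop := ∀ N : Subgroup (unitary B), NC K N → ∃ m, SUm K B m ≤ N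

/-- Kneser–Tits form: no proper non-central normal subgroup -/
def Iso : Prop := ∀ N : Subgroup (unitary B), NC K N → SU K B ≤ N

/-- finite index -/
def NstK : Prop := ∀ N : Subgroup (unitary B), NC K N → N.relIndex (SU K B) ≠ 0

/-- every `SUm m` has finite index in `SU` and `n`-th powers of its elements are not all central -/
def Pow : Prop := ∀ m n : ℕ, n ≠ 0 → (SUm K B m).relIndex (SU K B) ≠ 0 ∧
  ∃ x ∈ SUm K B m, ∃ g ∈ SU K B, x ^ n * g ≠ g * x ^ n

variable {K B} in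
/-- a finite colouring of `Um m` in which all the `SUm m'`, `m ≤ m'`, have the same image `M ≠ 1` -/
structure Col (m : ℕ) {Q : Type} [Group Q] (c : Um K B m →* Q) (M : Subgroup Q) : Prop where
  surj : Function.Surjective c
  im : ∀ m', m ≤ m' → ((SUm K B m').subgroupOf (Um K B m)).map c = M
  deep : ∀ m', ((Um K B m').subgroupOf (Um K B m)).map c = ⊤
  ne : M ≠ ⊥

/-- no exotic non-abelian chief factor -/
def NA : Prop := ∀ (m : ℕ) (Q : Type) [Group Q] [Finite Q] (c : Um K B m →* Q) (M : Subgroup Q),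
  Col m c M → Zen.NoP M → (∀ q : Q, (∀ x ∈ M, q * x = x * q) → q = 1) → False

/-- no exotic twisted abelian chief factor (Frobenius group with abelian kernel `M`) -/
def TW : Prop := ∀ (m : ℕ) (Q : Type) [Group Q] [Finite Q] (c : Um K B m →* Q) (M : Subgroup Q),
  Col m c M → (∀ x ∈ M, ∀ y ∈ M, x * y = y * x) → M ≠ ⊤ →
  (∀ q : Q, q ∉ M → ∀ x ∈ M, q * x = x * q → x = 1) → False

/-- the central step -/
def Cen : Prop := ∀ (m : ℕ) (N : Subgroup (unitary B)), N.relIndex (SU K B) ≠ 0 →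
  (∀ u ∈ Um K B m, ∀ g ∈ SUm K B m, u * g * u⁻¹ * g⁻¹ ∈ N) → ∃ m', SUm K B m' ≤ N

variable {B} in
/-- `N` is stable under conjugation by all similitudes -/
def GUInv (N : Subgroup (unitary B)) : Prop :=
  ∀ (g : Bˣ) (c : K), star (g : B) * g = algebraMap K B c → ∀ x ∈ N, ∀ y : unitary B,
    (y : B) = g * x * (g⁻¹ : Bˣ) → y ∈ N

/-- the central step with all the invariance one can have for free -/
def CenU : Prop := ∀ (m : ℕ) (N : Subgroup (unitary B)), N ≤ SU K B → N.relIndex (SU K B) ≠ 0 →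
  GUInv K N → (∀ u : unitary B, ∀ g ∈ SUm K B m, u * g * u⁻¹ * g⁻¹ ∈ N) → ∃ m', SUm K B m' ≤ N

/-- `T`-adic continuity of commutators -/
def Cont : Prop := ∀ m : ℕ, ∃ m' : ℕ, ∀ u : unitary B, ∀ g ∈ SUm K B m',
  u * g * u⁻¹ * g⁻¹ ∈ ⁅Um K B m, SUm K B m⁆

/-- division at `w` (words of the statement) is `Ultra`; `T` is finite -/
def Val : Prop := (TT K B).Finite ∧
  ∀ w : Pl K, Crest.NumberTheoryR.UnitaryMP.IsDivisionAt B w ↔ Ultra B w

/-- congruences in a basis are cofinal with depth -/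
def Cof : Prop := ∀ w : Pl K, Ultra B w → ∀ e : Basis (Fin (finrank K B)) K B, ∀ m : ℕ,
  (∃ m' : ℕ, ∀ x : B, (∀ i, w.valuation K (e.repr x i) ≤ exp (-(m' : ℤ))) →
    val w x < exp (-(m : ℤ))) ∧
  ∃ m' : ℕ, ∀ x : B, val w x < exp (-(m' : ℤ)) → ∀ i, w.valuation K (e.repr x i) ≤ exp (-(m : ℤ))

end Glob

set_option linter.checkUnivs false in
/-- the data of the row -/
structure Dat where
  k : Type u
  K : Type v
  B : Type w
  [i1 : Field k] [i2 : NumberField k] [i3 : Field K] [i4 : NumberField K] [i5 : Algebra k K]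
  [i6 : StarRing K] [i7 : Quad k K] [i8 : Ring B] [i9 : StarRing B] [i10 : Algebra K B]
  [i11 : StarModule K B] [i12 : Algebra.IsCentral K B] [i13 : IsSimpleRing B]
  [i14 : FiniteDimensional K B] [i15 : Algebra k B] [i16 : IsScalarTower k K B]

attribute [instance] Dat.i1 Dat.i2 Dat.i3 Dat.i4 Dat.i5 Dat.i6 Dat.i7 Dat.i8 Dat.i9 Dat.i10 Dat.i11
  Dat.i12 Dat.i13 Dat.i14 Dat.i15 Dat.i16

def MPStmt : Prop := ∀ D : Dat.{u, v, w}, 3 ≤ deg D.K D.B → MP D.K D.B
def ValStmt : Prop := ∀ D : Dat.{u, v, w}, 2 ≤ deg D.K D.B → Val D.K D.B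
def CofStmt : Prop := ∀ D : Dat.{u, v, w}, Cof D.K D.B
def PowStmt : Prop := ∀ D : Dat.{u, v, w}, 2 ≤ deg D.K D.B → Pow D.K D.B
def IsoStmt : Prop := ∀ D : Dat.{u, v, w}, 3 ≤ deg D.K D.B → ¬ Aniso D.B → Iso D.K D.B
def NstKStmt : Prop := ∀ D : Dat.{u, v, w}, 3 ≤ deg D.K D.B → Aniso D.B → NstK D.K D.B
def NAStmt : Prop := ∀ D : Dat.{u, v, w}, 3 ≤ deg D.K D.B → Aniso D.B → NA D.K D.B
def TWStmt : Prop := ∀ D : Dat.{u, v, w}, 3 ≤ deg D.K D.B → Aniso D.B → TW D.K D.B
def CenOddStmt : Prop :=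
  ∀ D : Dat.{u, v, w}, 3 ≤ deg D.K D.B → Aniso D.B → Odd (deg D.K D.B) → CenU D.K D.B
def CenEvenStmt : Prop :=
  ∀ D : Dat.{u, v, w}, 3 ≤ deg D.K D.B → Aniso D.B → Even (deg D.K D.B) → CenU D.K D.B
def ContStmt : Prop := ∀ D : Dat.{u, v, w}, 2 ≤ deg D.K D.B → Cont D.K D.B
/-- pure group theory: verbal subgroup -/
def CenRedStmt : Prop := ∀ D : Dat.{u, v, w}, Pow D.K D.B → NstK D.K D.B → Cont D.K D.B →
  CenU D.K D.B → Cen D.K D.B
/-- pure group theory: verbal subgroup, chief factor -/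
def ChiefStmt : Prop := ∀ D : Dat.{u, v, w}, Pow D.K D.B → NstK D.K D.B → NA D.K D.B →
  TW D.K D.B → Cen D.K D.B → MP D.K D.B

theorem mpStmt (h1 : ChiefStmt.{u, v, w}) (h2 : PowStmt.{u, v, w}) (h3 : IsoStmt.{u, v, w})
    (h4 : NstKStmt.{u, v, w}) (h5 : NAStmt.{u, v, w}) (h6 : TWStmt.{u, v, w})
    (h7 : CenOddStmt.{u, v, w}) (h8 : CenEvenStmt.{u, v, w}) (h9 : ContStmt.{u, v, w})
    (h10 : CenRedStmt.{u, v, w}) : MPStmt.{u, v, w} := fun D hd => by
  by_cases ha : Aniso D.B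
  · exact h1 D (h2 D (by omega)) (h4 D hd ha) (h5 D hd ha) (h6 D hd ha)
      (h10 D (h2 D (by omega)) (h4 D hd ha) (h9 D (by omega))
        ((Nat.even_or_odd _).elim (h8 D hd ha) (h7 D hd ha)))
  · exact fun N hN => ⟨0, inf_le_left.trans (h3 D hd ha N hN)⟩

end Crest.Agent.T24
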