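import Crest.Agent.T24.Opn_6

/-!
# Row 24: local openness toolkit, part 2 (helper6): involutions

Congruence classes are open, unitary roots, unitary rigidity, the Cayley transform, pencils,
weak approximation for unitary groups.
-/

set_option autoImplicit false

noncomputable section

namespace Crest.Agent.T24.Opn

open Filter Topology Finset Polynomial

/-- an anti-involution of a ring -/
structure Anti {A : Type*} [Ring A] (τ : A →+ A) : Prop where
  mul : ∀ x y, τ (x * y) = τ y * τ x
  inv : ∀ x, τ (τ x) = x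

/-- an `F`-linear anti-involution -/
structure AntiL (F : Type*) [CommSemiring F] {A : Type*} [Ring A] [Algebra F A] (τ : A →+ A) :
    Prop extends Anti τ where
  alg : ∀ c : F, τ (algebraMap F A c) = algebraMap F A c

/-- the Cayley transform -/
def cay {A : Type*} [Ring A] (X : A) : A := (1 + X) * Ring.inverse (1 - X)

/-- the inverse Cayley transform -/
def icay {A : Type*} [Ring A] (u : A) : A := (u - 1) * Ring.inverse (u + 1)

section Ring

variable {A : Type*} [Ring A] {τ : A →+ A}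

theorem commute_inverse {x y : A} (h : Commute x y) : Commute x (Ring.inverse y) := by
  by_cases hy : IsUnit y
  · obtain ⟨y, rfl⟩ := hy
    rw [Ring.inverse_unit]; exact h.units_inv_right
  · rw [Ring.inverse_non_unit _ hy]; exact Commute.zero_right x

theorem inverse_eq {x y : A} (hx : IsUnit x) (h : y * x = 1) : Ring.inverse x = y := by
  rw [← one_mul (Ring.inverse x), ← h, Ring.mul_inverse_cancel_right _ _ hx]

theorem mul_inverse_eq {x y z : A} (hx : IsUnit x) (h : y = z * x) : y * Ring.inverse x = z := by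
  rw [h, Ring.mul_inverse_cancel_right _ _ hx]

namespace Anti

theorem one (h : Anti τ) : τ 1 = 1 := by
  have := h.mul (τ 1) 1
  rw [mul_one, h.inv, mul_one] at this
  exact this.symm

theorem pow (h : Anti τ) (x : A) (n : ℕ) : τ (x ^ n) = τ x ^ n := by
  induction n with
  | zero => simp [h.one]
  | succ n ih => rw [pow_succ, h.mul, ih, pow_succ']

theorem inj (h : Anti τ) : Function.Injective τ := fun x y e => by rw [← h.inv x, e, h.inv]

theorem isUnit (h : Anti τ) {x : A} (hx : IsUnit x) : IsUnit (τ x) := by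
  obtain ⟨x, rfl⟩ := hx
  exact ⟨⟨τ x, τ ↑x⁻¹, by rw [← h.mul]; simp [h.one], by rw [← h.mul]; simp [h.one]⟩, rfl⟩

theorem isUnit_iff (h : Anti τ) {x : A} : IsUnit (τ x) ↔ IsUnit x :=
  ⟨fun hx => h.inv x ▸ h.isUnit hx, h.isUnit⟩

theorem inverse (h : Anti τ) (x : A) : τ (Ring.inverse x) = Ring.inverse (τ x) := by
  by_cases hx : IsUnit x
  · refine (inverse_eq (h.isUnit hx) ?_).symm
    rw [← h.mul, Ring.mul_inverse_cancel _ hx, h.one]
  · rw [Ring.inverse_non_unit _ hx, Ring.inverse_non_unit _ (mt h.isUnit_iff.1 hx), map_zero]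


theorem unitary_mul (h : Anti τ) {x y : A} (hx : τ x * x = 1) (hy : τ y * y = 1) :
    τ (x * y) * (x * y) = 1 := by
  rw [h.mul, mul_assoc, ← mul_assoc (τ x), hx, one_mul, hy]

theorem natCast (h : Anti τ) (n : ℕ) : τ n = n := by
  rw [← nsmul_one, map_nsmul, h.one]

/-- the Cayley transform of a skew element is unitary -/
theorem cay_unitary (h : Anti τ) {X : A} (hX : τ X = -X) (hu : IsUnit (1 - X)) :
    τ (cay X) * cay X = 1 := by
  have e1 : τ (1 - X) = 1 + X := by rw [map_sub, h.one, hX, sub_neg_eq_add]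
  have e2 : τ (1 + X) = 1 - X := by rw [map_add, h.one, hX, sub_eq_add_neg]
  have hu' : IsUnit (1 + X) := e1 ▸ h.isUnit hu
  have hc : Commute (1 - X) (1 + X) :=
    ((Commute.one_left _).sub_left ((Commute.one_right X).add_right (Commute.refl X)))
  rw [cay, h.mul, h.inverse, e1, e2, mul_assoc, ← mul_assoc (1 - X), hc.eq, mul_assoc,
    Ring.mul_inverse_cancel _ hu, mul_one, Ring.inverse_mul_cancel _ hu']


/-- the inverse Cayley transform of a unitary element is skew -/
theorem icay_skew (h : Anti τ) {u : A} (hu : τ u * u = 1) (hu' : u * τ u = 1)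
    (h1 : IsUnit (u + 1)) : τ (icay u) = -icay u := by
  have e : τ (u + 1) = τ u * (u + 1) := by rw [map_add, h.one, mul_add, hu, mul_one, add_comm]
  have e' : τ (u - 1) = -(τ u * (u - 1)) := by rw [map_sub, h.one, mul_sub, hu, mul_one, neg_sub]
  have hc : Commute (u - 1) (u + 1) :=
    ((Commute.refl u).add_right (Commute.one_right u)).sub_left (Commute.one_left _)
  have hi : Ring.inverse (τ u * (u + 1)) = Ring.inverse (u + 1) * u :=
    inverse_eq (e ▸ h.isUnit h1) (by
      rw [mul_assoc, ← mul_assoc u, hu', one_mul, Ring.inverse_mul_cancel _ h1])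
  rw [icay, h.mul, h.inverse, e, e', hi, mul_neg, mul_assoc, ← mul_assoc u, hu', one_mul,
    (commute_inverse hc).eq]

end Anti

@[simp] theorem cay_zero : cay (0 : A) = 1 := by simp [cay]

@[simp] theorem icay_one : icay (1 : A) = 0 := by simp [icay]

theorem one_sub_icay {u : A} (h1 : IsUnit (u + 1)) : 1 - icay u = 2 * Ring.inverse (u + 1) := by
  rw [icay]
  nth_rewrite 1 [← Ring.mul_inverse_cancel _ h1]
  rw [← sub_mul]
  congr 1
  rw [← one_add_one_eq_two]; abel

theorem cay_icay (h2 : IsUnit (2 : A)) {u : A} (h1 : IsUnit (u + 1)) :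
    IsUnit (1 - icay u) ∧ cay (icay u) = u := by
  have e : 1 - icay u = 2 * Ring.inverse (u + 1) := one_sub_icay h1
  have hu : IsUnit (1 - icay u) := e ▸ h2.mul h1.ringInverse
  refine ⟨hu, ?_⟩
  refine mul_inverse_eq hu ?_
  rw [e, ← mul_assoc, icay]
  nth_rewrite 1 [← Ring.mul_inverse_cancel _ h1]
  rw [← add_mul]
  congr 1
  rw [mul_two]; abel

theorem cay_add_one {X : A} (h1 : IsUnit (1 - X)) : cay X + 1 = 2 * Ring.inverse (1 - X) := by
  rw [cay]
  nth_rewrite 3 [← Ring.mul_inverse_cancel _ h1]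
  rw [← add_mul]
  congr 1
  rw [← one_add_one_eq_two]; abel

theorem icay_cay (h2 : IsUnit (2 : A)) {X : A} (h1 : IsUnit (1 - X)) :
    IsUnit (cay X + 1) ∧ icay (cay X) = X := by
  have e := cay_add_one h1
  have hu : IsUnit (cay X + 1) := e ▸ h2.mul h1.ringInverse
  refine ⟨hu, ?_⟩
  refine mul_inverse_eq hu ?_
  rw [e, ← mul_assoc, cay]
  nth_rewrite 3 [← Ring.mul_inverse_cancel _ h1]
  rw [← sub_mul]
  congr 1
  rw [mul_two]; abel

theorem map_inverse {C : Type*} [Ring C] (φ : A →+* C) {x : A} (hx : IsUnit x) :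
    φ (Ring.inverse x) = Ring.inverse (φ x) :=
  (inverse_eq (hx.map φ) (by rw [← map_mul, Ring.inverse_mul_cancel _ hx, map_one])).symm

theorem map_cay {C : Type*} [Ring C] (φ : A →+* C) {X : A} (h : IsUnit (1 - X)) :
    φ (cay X) = cay (φ X) := by
  rw [cay, map_mul, map_inverse φ h, cay, map_add, map_sub, map_one]


end Ring

section Lin

variable {F : Type*} [Field F] {A : Type*} [Ring A] [Algebra F A] {τ : A →+ A}

theorem AntiL.smul (h : AntiL F τ) (c : F) (x : A) : τ (c • x) = c • τ x := by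
  rw [Algebra.smul_def, h.mul, h.alg, Algebra.smul_def, Algebra.commutes]

/-- the involution as a linear map -/
def AntiL.lin (h : AntiL F τ) : A →ₗ[F] A := { τ with map_smul' := h.smul }

@[simp] theorem AntiL.lin_apply (h : AntiL F τ) (x : A) : h.lin x = τ x := rfl

/-- skew elements -/
def AntiL.skew (h : AntiL F τ) : Submodule F A := LinearMap.ker (h.lin + LinearMap.id)


/-- hermitian elements -/
def AntiL.herm (h : AntiL F τ) : Submodule F A := LinearMap.ker (h.lin - LinearMap.id)


theorem AntiL.aeval (h : AntiL F τ) (x : A) (P : F[X]) : τ (aeval x P) = aeval (τ x) P := by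
  simp only [aeval_eq_sum_range, map_sum, h.smul, h.pow]

/-- elements of `F[x]` are self-adjoint for every form for which `x` is -/
theorem AntiL.adj (h : AntiL F τ) {x m y : A} (hx : τ x * m = m * x)
    (hy : y ∈ Algebra.adjoin F {x}) : τ y * m = m * y := by
  rw [Algebra.adjoin_singleton_eq_range_aeval] at hy
  obtain ⟨P, rfl⟩ := hy
  have : ∀ n : ℕ, τ x ^ n * m = m * x ^ n := fun n => (SemiconjBy.pow_right hx.symm n).symm
  change τ (Polynomial.aeval x P) * m = m * Polynomial.aeval x P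
  simp only [aeval_eq_sum_range, map_sum, h.smul, h.pow, sum_mul, mul_sum, smul_mul_assoc,
    mul_smul_comm, this]

theorem AntiL.adj_herm (h : AntiL F τ) {x y : A} (hx : τ x = x) (hy : y ∈ Algebra.adjoin F {x}) :
    τ y = y := by
  simpa using h.adj (m := 1) (by simpa using hx) hy


variable [FiniteDimensional F A]

variable (F) in
include F in
theorem dedekind' : IsDedekindFiniteMonoid A :=
  IsDedekindFiniteMonoid.of_injective (Algebra.leftMulMatrix (Module.finBasis F A))
    (Algebra.leftMulMatrix_injective _)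

variable (F) in
theorem isUnit_iff_det {x : A} : IsUnit x ↔ LinearMap.det (LinearMap.mulLeft F x) ≠ 0 := by
  have := dedekind' F (A := A)
  rw [← isUnit_iff_ne_zero, ← LinearMap.isUnit_iff_isUnit_det]
  constructor
  · exact fun h => h.map (Algebra.lmul F A)
  · intro h
    obtain ⟨y, hy⟩ := ((Module.End.isUnit_iff _).1 h).2 1
    exact IsUnit.of_mul_eq_one y hy

variable (F) in
/-- a line that contains a unit consists of units, up to finitely many points -/
theorem finite_nonunit {a b : A} {t0 : F} (h : IsUnit (a + t0 • b)) :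
    {t : F | ¬IsUnit (a + t • b)}.Finite := by
  classical
  set e := Module.finBasis F A
  set p : F[X] := ((Algebra.leftMulMatrix e a).map C + (X : F[X]) • (Algebra.leftMulMatrix e b).map C).det
  have hp : ∀ t, p.eval t = LinearMap.det (LinearMap.mulLeft F (a + t • b)) := fun t => by
    rw [← LinearMap.det_toMatrix e, ← coe_evalRingHom, RingHom.map_det]
    congr 1
    ext i j
    have : LinearMap.toMatrix e e (LinearMap.mulLeft F (a + t • b)) =
      Algebra.leftMulMatrix e (a + t • b) := rfl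
    simp [this, mul_comm t]
  have h0 : p ≠ 0 := fun h0 => (isUnit_iff_det F).1 h (by rw [← hp, h0, eval_zero])
  refine (finite_setOfPred_isRoot h0).subset fun t ht => ?_
  rw [Set.mem_ofPred_eq, isUnit_iff_det F, not_not, ← hp] at ht
  exact ht

variable (F) in
/-- a pencil of commuting coprime elements consists of units, up to finitely many points -/
theorem finite_nonunit_of_coprime (C : Subalgebra F A) (hC : ∀ x ∈ C, ∀ y ∈ C, Commute x y)
    {a b u v : A} (ha : a ∈ C) (hb : b ∈ C) (hu : u ∈ C) (hv : v ∈ C) (h : u * a + v * b = 1) :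
    {t : F | ¬IsUnit (a + t • b)}.Finite := by
  let _ : CommRing C := { (inferInstance : Ring C) with
    mul_comm := fun x y => Subtype.ext (hC _ x.2 _ y.2).eq }
  have : IsArtinianRing C := IsArtinianRing.of_finite F C
  have key : ∀ t : {t : F | ¬IsUnit (a + t • b)}, ∃ m : MaximalSpectrum C,
      (⟨a, ha⟩ + t.1 • ⟨b, hb⟩ : C) ∈ m.asIdeal := fun t => by
    obtain ⟨m, hm, hm'⟩ := exists_max_ideal_of_mem_nonunits
      (a := (⟨a, ha⟩ + t.1 • ⟨b, hb⟩ : C)) fun hx => t.2 (hx.map C.val)
    exact ⟨⟨m, hm⟩, hm'⟩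
  choose m hm using key
  refine Set.finite_coe_iff.1 (Finite.of_injective m fun s t e => ?_)
  by_contra hne
  have h1 := hm s
  have h2 := hm t
  rw [← e] at h2
  have hb' : (⟨b, hb⟩ : C) ∈ (m s).asIdeal := by
    have := (m s).asIdeal.mul_mem_left (algebraMap F C (s.1 - t.1)⁻¹) (sub_mem h1 h2)
    rwa [add_sub_add_left_eq_sub, ← sub_smul, ← Algebra.smul_def, smul_smul,
      inv_mul_cancel₀ (sub_ne_zero.2 fun h => hne (Subtype.ext h)), one_smul] at this
  have ha' : (⟨a, ha⟩ : C) ∈ (m s).asIdeal := by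
    have := sub_mem h1 ((m s).asIdeal.mul_mem_left (algebraMap F C s.1) hb')
    rwa [← Algebra.smul_def, add_sub_cancel_right] at this
  refine (m s).isMaximal.ne_top ((Ideal.eq_top_iff_one _).2 ?_)
  have : (1 : C) = ⟨u, hu⟩ * ⟨a, ha⟩ + ⟨v, hv⟩ * ⟨b, hb⟩ := Subtype.ext h.symm
  rw [this]
  exact add_mem ((m s).asIdeal.mul_mem_left _ ha') ((m s).asIdeal.mul_mem_left _ hb')

variable (F) in
include F in
/-- injective ring homomorphisms from finite-dimensional algebras reflect units -/
theorem isUnit_of_map {C : Type*} [Ring C] (φ : A →+* C) (hφ : Function.Injective φ) {x : A}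
    (hx : IsUnit (φ x)) : IsUnit x := by
  have := dedekind' F (A := A)
  have hinj : Function.Injective (LinearMap.mulLeft F x) := fun a b h =>
    hφ (hx.mul_left_cancel (by rw [← map_mul, ← map_mul]; exact congrArg φ h))
  obtain ⟨y, hy⟩ := LinearMap.surjective_of_injective hinj 1
  exact IsUnit.of_mul_eq_one y hy

theorem AntiL.mul_self (_h : AntiL F τ) {x : A} (hx : τ x * x = 1) : x * τ x = 1 := by
  have := dedekind' F (A := A)
  exact mul_eq_one_comm.1 hx

theorem AntiL.unit (h : AntiL F τ) {x : A} (hx : τ x * x = 1) : IsUnit x :=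
  ⟨⟨x, τ x, h.mul_self hx, hx⟩, rfl⟩


end Lin

section Top

variable {F : Type*} [NontriviallyNormedField F] [CompleteSpace F]
variable {A : Type*} [Ring A] [Algebra F A] [FiniteDimensional F A]
  [t : TopologicalSpace A] [IsTopologicalAddGroup A] [ContinuousSMul F A] [T2Space A] {τ : A →+ A}

theorem AntiL.continuous (h : AntiL F τ) : Continuous τ :=
  h.lin.continuous_of_finiteDimensional

theorem AntiL.isClosed_unitary (h : AntiL F τ) : IsClosed {x : A | τ x * x = 1} := by
  have := topRing F (A := A)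
  exact isClosed_eq (h.continuous.mul continuous_id) continuous_const


variable (F) in
include F in
theorem cay_continuousAt {X : A} (h : IsUnit (1 - X)) : ContinuousAt cay X := by
  have := topRing F (A := A)
  exact (continuousAt_const.add continuousAt_id).mul
    (ContinuousAt.comp (f := fun X : A => 1 - X) (inverse_continuousAt F h)
      (continuousAt_const.sub continuousAt_id))


/-- (O2) congruence classes of `ε`-hermitian units are open -/
theorem AntiL.cong_near (hτ : AntiL F τ) (h2 : (2 : F) ≠ 0) {h ε : A} (hu : IsUnit h)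
    (hε : ∀ z, Commute ε z) (hh : τ h = ε * h) {V : Set A} (hV : V ∈ 𝓝 (1 : A)) :
    ∀ᶠ h' in 𝓝 h, τ h' = ε * h' → ∃ g ∈ Algebra.adjoin F {Ring.inverse h * h'}, g ∈ V ∧ IsUnit g ∧
      τ g * h = h * g ∧ τ g * h * g = h' := by
  have := topRing F (A := A)
  have := dedekind F (A := A)
  have ht : Tendsto (fun h' => Ring.inverse h * h') (𝓝 h) (𝓝 1) := by
    rw [← Ring.inverse_mul_cancel _ hu]
    exact tendsto_const_nhds.mul tendsto_id
  have hεu : IsUnit ε := isUnit_of_mul_isUnit_left (hh ▸ hτ.isUnit hu)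
  filter_upwards [ht.eventually (root_one F (n := 2) (by exact_mod_cast h2)
    (inter_mem hV (ev_isUnit F isUnit_one)))] with h' hx hh'
  obtain ⟨g, hg, ⟨hgV, hgu⟩, hg2⟩ := hx
  have e : τ (Ring.inverse h * h') * h = h * (Ring.inverse h * h') := by
    have : Ring.inverse (ε * h) * h = Ring.inverse ε := by
      rw [Ring.inverse_mul_eq_iff_eq_mul _ _ _ (hεu.mul hu), (hε h).eq,
        Ring.mul_inverse_cancel_right _ _ hεu]
    rw [hτ.mul, hτ.inverse, hh, hh', mul_assoc, this, (hε h').eq,
      Ring.mul_inverse_cancel_right _ _ hεu, Ring.mul_inverse_cancel_left _ _ hu]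
  have e' := hτ.adj e hg
  refine ⟨g, hg, hgV, hgu, e', ?_⟩
  rw [e', mul_assoc, ← pow_two, hg2, Ring.mul_inverse_cancel_left _ _ hu]

theorem AntiL.cong_near_herm (hτ : AntiL F τ) (h2 : (2 : F) ≠ 0) {h : A} (hu : IsUnit h)
    (hh : τ h = h) {V : Set A} (hV : V ∈ 𝓝 (1 : A)) :
    ∀ᶠ h' in 𝓝 h, τ h' = h' → ∃ g ∈ V, IsUnit g ∧ τ g * h * g = h' := by
  filter_upwards [hτ.cong_near h2 hu (ε := 1) Commute.one_left (by simpa using hh) hV] with h' H hh'
  obtain ⟨g, -, h1, h2, -, h3⟩ := H (by simpa using hh')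
  exact ⟨g, h1, h2, h3⟩








/-- for an involution of the second kind the domain of the Cayley chart is dense in the unitary group -/
theorem AntiL.cay_dense (hτ : AntiL F τ) (h2 : (2 : F) ≠ 0) {θ : A} (hθ : IsUnit θ)
    (hθc : ∀ z, Commute θ z) (hθs : τ θ = -θ) {g : A} (hg : τ g * g = 1) {V : Set A}
    (hV : V ∈ 𝓝 g) : ∃ X, τ X = -X ∧ IsUnit (1 - X) ∧ cay X ∈ V := by
  have := topRing F (A := A)
  have h2A : IsUnit (2 : A) := by
    simpa using isUnit_natCast F (A := A) (n := 2) (by exact_mod_cast h2)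
  set C := Subalgebra.centralizer F (Subalgebra.centralizer F {g} : Set A)
  have hgC : g ∈ C := fun z hz => (hz g rfl).symm
  have hzC : ∀ z, (∀ w, Commute z w) → z ∈ C := fun z hz w _ => (hz w).symm
  have hC : ∀ x ∈ C, ∀ y ∈ C, Commute x y := fun x hx y hy =>
    hy x fun w hw => by rw [hw]; exact (hx g fun w hw => by rw [hw])
  have hθC := hzC θ hθc
  have hfin := finite_nonunit_of_coprime F C hC (a := 1 + g) (b := θ * (g - 1))
    (u := Ring.inverse 2) (v := -(Ring.inverse 2 * Ring.inverse θ)) (add_mem (one_mem _) hgC)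
    (mul_mem hθC (sub_mem hgC (one_mem _))) (inverse_mem F _ (ofNat_mem _ 2))
    (neg_mem (mul_mem (inverse_mem F _ (ofNat_mem _ 2)) (inverse_mem F _ hθC))) (by
      rw [neg_mul, mul_assoc, Ring.inverse_mul_cancel_left _ _ hθ, ← sub_eq_add_neg, ← mul_sub]
      convert Ring.inverse_mul_cancel _ h2A using 2
      rw [← one_add_one_eq_two]; abel)
  have h0 : Tendsto (fun s : F => s • θ) (𝓝 0) (𝓝 0) := by
    simpa using (tendsto_id (x := 𝓝 (0 : F))).smul_const θ
  have h1 : ∀ᶠ s : F in 𝓝 0, IsUnit (1 - s • θ) :=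
    (h0.const_sub 1).eventually (ev_isUnit F (by simp))
  have h3 : Tendsto (fun s : F => g * cay (s • θ)) (𝓝 0) (𝓝 g) := by
    simpa using ((cay_continuousAt F (X := (0 : A)) (by simp)).tendsto.comp h0).const_mul g
  obtain ⟨s, ⟨hs1, hs2⟩, hs3⟩ := (infinite_of_mem_nhds (0 : F) (h1.and (h3 hV))).exists_notMem_finite hfin
  rw [Set.mem_ofPred_eq, not_not] at hs3
  have hsk : τ (s • θ) = -(s • θ) := by rw [hτ.smul, hθs, smul_neg]
  have hu := hτ.unitary_mul hg (hτ.cay_unitary hsk hs1)
  have hu1 : IsUnit (g * cay (s • θ) + 1) := by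
    have : g * cay (s • θ) + 1 = (1 + g + s • (θ * (g - 1))) * Ring.inverse (1 - s • θ) := by
      rw [Ring.eq_mul_inverse_iff_mul_eq _ _ _ hs1, add_mul, cay, mul_assoc,
        Ring.inverse_mul_cancel_right _ _ hs1, (hθc _).eq]
      simp only [mul_add, mul_one, one_mul, mul_smul_comm, sub_mul, smul_sub]
      abel
    rw [this]
    exact hs3.mul hs1.ringInverse
  obtain ⟨h4, h5⟩ := cay_icay h2A hu1
  exact ⟨_, hτ.icay_skew hu (hτ.mul_self hu) hu1, h4, by rw [h5]; exact hs2⟩

end Top

/-! ## Weak approximation -/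

section WA

variable {ι : Type*} {F : ι → Type*} [∀ i, NontriviallyNormedField (F i)]
variable {A : ι → Type*}

/-- weak approximation for vector spaces -/
theorem wa_vec [∀ i, AddCommGroup (A i)] [∀ i, Module (F i) (A i)] [∀ i, TopologicalSpace (A i)]
    [∀ i, IsTopologicalAddGroup (A i)] [∀ i, ContinuousSMul (F i) (A i)]
    {k B J : Type*} [Semiring k] [AddCommGroup B] [Module k B] [Fintype J] (ψ : ∀ i, k → F i)
    (hψ : DenseRange fun c i => ψ i c) (φ : ∀ i, B →+ A i)
    (hφ : ∀ i c b, φ i (c • b) = ψ i c • φ i b) (e : J → B)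
    (he : ∀ i, Submodule.span (F i) (Set.range fun j => φ i (e j)) = ⊤) :
    DenseRange fun b i => φ i b := by
  set s : (J → ∀ i, F i) → ∀ i, A i := fun c i => ∑ j, c j i • φ i (e j)
  have hs : Function.Surjective s := fun a => by
    have := fun i => (Submodule.mem_span_range_iff_exists_fun (F i)).1
      ((he i).symm ▸ Submodule.mem_top (x := a i))
    choose c hc using this
    exact ⟨fun j i => c i j, funext hc⟩
  have hc : Continuous s := by fun_prop
  have := hs.denseRange.comp (DenseRange.piMap fun _ : J => hψ) hc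
  refine this.mono ?_
  rintro _ ⟨c, rfl⟩
  exact ⟨∑ j, c j • e j, by funext i; simp [s, hφ]⟩

variable [∀ i, CompleteSpace (F i)] [∀ i, Ring (A i)] [∀ i, Algebra (F i) (A i)]
  [∀ i, FiniteDimensional (F i) (A i)] [∀ i, TopologicalSpace (A i)]
  [∀ i, IsTopologicalAddGroup (A i)] [∀ i, ContinuousSMul (F i) (A i)] [∀ i, T2Space (A i)]

/-- (O7) weak approximation for the unitary group of an involution of the second kind -/
theorem wa_unitary [Finite ι] {B : Type*} [Ring B] {τ : B →+ B} (hτ : Anti τ)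
    (h2 : IsUnit (2 : B))
    {σ : ∀ i, A i →+ A i} (hσ : ∀ i, AntiL (F i) (σ i)) (h2' : ∀ i, (2 : F i) ≠ 0)
    (φ : ∀ i, B →+* A i) (hφ : ∀ i b, φ i (τ b) = σ i (φ i b))
    (hd : DenseRange fun b i => φ i b) (hu : ∀ b, (∀ i, IsUnit (φ i b)) → IsUnit b)
    {θ : B} (hθ : IsUnit θ) (hθc : ∀ i z, Commute (φ i θ) z) (hθs : τ θ = -θ)
    {g : ∀ i, A i} (hg : ∀ i, σ i (g i) * g i = 1) {V : Set (∀ i, A i)} (hV : V ∈ 𝓝 g) :
    ∃ X, τ X = -X ∧ IsUnit (1 - X) ∧ (fun i => φ i (cay X)) ∈ V := by
  rw [nhds_pi, mem_pi] at hV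
  obtain ⟨I, -, W, hW, hWV⟩ := hV
  have := fun i => (hσ i).cay_dense (h2' i) (hθ.map (φ i)) (hθc i)
    (by rw [← hφ, hθs, map_neg]) (hg i) (interior_mem_nhds.2 (hW i))
  choose X hX hX1 hXW using this
  set p : ∀ i, A i → A i := fun i x => (x - σ i x) * Ring.inverse 2 with hp
  have h2A : ∀ i, IsUnit (2 : A i) := fun i => by simpa only [map_ofNat] using h2.map (φ i)
  have hpX : ∀ i, Tendsto (p i) (𝓝 (X i)) (𝓝 (X i)) := fun i => by
    have := topRing (F i) (A := A i)
    have e : p i (X i) = X i := mul_inverse_eq (h2A i) (by rw [hX, sub_neg_eq_add, mul_two])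
    have hc : Continuous (p i) := (continuous_id.sub (hσ i).continuous).mul continuous_const
    simpa only [e] using hc.tendsto (X i)
  have hN : ∀ i, {x | IsUnit (1 - p i x) ∧ cay (p i x) ∈ W i} ∈ 𝓝 (X i) := fun i => by
    have := topRing (F i) (A := A i)
    exact (((hpX i).const_sub 1).eventually (ev_isUnit (F i) (hX1 i))).and
      (((cay_continuousAt (F i) (hX1 i)).tendsto.comp (hpX i)) (mem_interior_iff_mem_nhds.1 (hXW i)))
  obtain ⟨b, hb⟩ := hd.mem_nhds (set_pi_mem_nhds Set.finite_univ fun i _ => hN i)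
  have hY : ∀ i, φ i ((b - τ b) * Ring.inverse 2) = p i (φ i b) := fun i => by
    rw [map_mul, map_sub, hφ, map_inverse _ h2, map_ofNat]
  have hU : IsUnit (1 - (b - τ b) * Ring.inverse 2) := hu _ fun i => by
    rw [map_sub, map_one, hY]; exact (hb i trivial).1
  refine ⟨_, ?_, hU, hWV fun i _ => ?_⟩
  · have e2 : τ 2 = 2 := by simpa using hτ.natCast 2
    rw [hτ.mul, hτ.inverse, e2, map_sub, hτ.inv, ← neg_mul, neg_sub]
    exact (commute_inverse (Commute.ofNat_right _ 2)).symm.eq
  · rw [map_cay _ hU, hY]; exact (hb i trivial).2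

/-- the same, in terms of unitary elements -/
theorem wa_unitary' [Finite ι] {B : Type*} [Ring B] {τ : B →+ B} (hτ : Anti τ)
    (h2 : IsUnit (2 : B))
    {σ : ∀ i, A i →+ A i} (hσ : ∀ i, AntiL (F i) (σ i)) (h2' : ∀ i, (2 : F i) ≠ 0)
    (φ : ∀ i, B →+* A i) (hφ : ∀ i b, φ i (τ b) = σ i (φ i b))
    (hd : DenseRange fun b i => φ i b) (hu : ∀ b, (∀ i, IsUnit (φ i b)) → IsUnit b)
    {θ : B} (hθ : IsUnit θ) (hθc : ∀ i z, Commute (φ i θ) z) (hθs : τ θ = -θ)
    {g : ∀ i, A i} (hg : ∀ i, σ i (g i) * g i = 1) {V : Set (∀ i, A i)} (hV : V ∈ 𝓝 g) :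
    ∃ u, τ u * u = 1 ∧ IsUnit (u + 1) ∧ (fun i => φ i u) ∈ V := by
  obtain ⟨X, hX, h1, hXV⟩ := wa_unitary hτ h2 hσ h2' φ hφ hd hu hθ hθc hθs hg hV
  exact ⟨cay X, hτ.cay_unitary hX h1, (icay_cay h2 h1).1, hXV⟩

end WA

end Crest.Agent.T24.Opn
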