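import Crest.Agent.T24.EvDef_20
import Crest.Agent.T24.OpnB_6
import Crest.Agent.T24.BcA_98
import Crest.Agent.T24.LocG_59

/-!
# Row 24, central step for even degree (helper20): the filters `nb`, `nbk`
-/

set_option autoImplicit false
set_option linter.unusedSectionVars false

noncomputable section

namespace Crest.Agent.T24.Ev

open Module NumberField WithZero Csa Asa Topology Filter Polynomial
open scoped Valued

universe u

section Scal
variable {k : Type u} [Field k] [NumberField k] {S : Finset (Pl k)} {α : Type*} {l : Filter α}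

theorem tendsto_nbk {f : α → k} {a : k} : Tendsto f l (nbk k S a) ↔
    Tendsto (fun x => algebraMap k (RS k S) (f x)) l (𝓝 (algebraMap k (RS k S) a)) :=
  tendsto_comap_iff

theorem nbk_const (a : k) : Tendsto (fun _ : α => a) l (nbk k S a) :=
  tendsto_nbk.2 tendsto_const_nhds


theorem nbk_sub {f g : α → k} {a b : k} (hf : Tendsto f l (nbk k S a))
    (hg : Tendsto g l (nbk k S b)) : Tendsto (fun x => f x - g x) l (nbk k S (a - b)) := by
  simpa only [tendsto_nbk, map_sub] using (tendsto_nbk.1 hf).sub (tendsto_nbk.1 hg)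

theorem nbk_mul {f g : α → k} {a b : k} (hf : Tendsto f l (nbk k S a))
    (hg : Tendsto g l (nbk k S b)) : Tendsto (fun x => f x * g x) l (nbk k S (a * b)) := by
  simpa only [tendsto_nbk, map_mul] using (tendsto_nbk.1 hf).mul (tendsto_nbk.1 hg)

theorem nbk_pow {f : α → k} {a : k} (hf : Tendsto f l (nbk k S a)) (n : ℕ) :
    Tendsto (fun x => f x ^ n) l (nbk k S (a ^ n)) := by
  simpa only [tendsto_nbk, map_pow] using (tendsto_nbk.1 hf).pow n

theorem nbk_fin {f : α → k} {a : k} (hf : Tendsto f l (nbk k S a)) {v : Pl k} (hv : v ∈ S) :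
    Tendsto (fun x => algebraMap k (Kv v) (f x)) l (𝓝 (algebraMap k (Kv v) a)) :=
  (((continuous_apply (⟨v, hv⟩ : S)).comp continuous_snd).tendsto _).comp (tendsto_nbk.1 hf)

theorem nbk_inf {f : α → k} {a : k} (hf : Tendsto f l (nbk k S a)) :
    Tendsto (fun x => algebraMap k (Inf k) (f x)) l (𝓝 (algebraMap k (Inf k) a)) :=
  (continuous_fst.tendsto _).comp (tendsto_nbk.1 hf)

theorem nbk_of {f : α → k} {a : k}
    (h1 : Tendsto (fun x => algebraMap k (Inf k) (f x)) l (𝓝 (algebraMap k (Inf k) a)))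
    (h2 : ∀ v ∈ S, Tendsto (fun x => algebraMap k (Kv v) (f x)) l (𝓝 (algebraMap k (Kv v) a))) :
    Tendsto f l (nbk k S a) :=
  tendsto_nbk.2 (h1.prodMk_nhds (tendsto_pi_nhds.2 fun v => h2 v.1 v.2))

theorem nbk_anti {S' : Finset (Pl k)} (h : S ⊆ S') (a : k) : nbk k S' a ≤ nbk k S a :=
  nbk_of (nbk_inf tendsto_id) fun _ hv => nbk_fin tendsto_id (h hv)

theorem isOpen_val (v : Pl k) (m : ℕ) : IsOpen {y : Kv v | Valued.v y ≤ exp (-(m : ℤ))} := by
  obtain ⟨c, hc⟩ := Hn.Loc.exists_val_eq v (-(m : ℤ))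
  have h1 : IsOpen {y : Kv v | Valued.v y ≤ 1} := Valued.isOpen_integer (Kv v)
  convert h1.preimage (continuous_id.div_const (algebraMap k (Kv v) c)) using 1
  ext y
  simp only [Set.mem_preimage, Set.mem_ofPred_eq, map_div₀, id, Hn.Loc.valued_algebraMap, hc]
  rw [div_le_one₀ (by simp)]

theorem ev_val {f : α → k} {a : k} (hf : Tendsto f l (nbk k S a)) {v : Pl k} (hv : v ∈ S)
    (m : ℕ) : ∀ᶠ x in l, v.valuation k (f x - a) ≤ exp (-(m : ℤ)) := by
  have := ((nbk_fin hf hv).sub_const (algebraMap k (Kv v) a)).eventually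
    ((isOpen_val v m).mem_nhds (by simp))
  filter_upwards [this] with x hx
  rwa [← map_sub, Hn.Loc.valued_algebraMap] at hx

theorem continuous_nap (w : InfinitePlace k) :
    Continuous fun x : Inf k => mixedEmbedding.normAtPlace w x :=
  mixedEmbedding.continuous_normAtPlace (K := k) w

theorem ev_inf {f : α → k} {a : k} (hf : Tendsto f l (nbk k S a)) (w : InfinitePlace k) {ε : ℝ}
    (hε : 0 < ε) : ∀ᶠ x in l, w (f x - a) < ε := by
  have h := ((continuous_nap w).tendsto _).comp ((nbk_inf hf).sub_const (algebraMap k (Inf k) a))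
  have h0 : mixedEmbedding.normAtPlace w (algebraMap k (Inf k) a - algebraMap k (Inf k) a) = 0 := by
    rw [sub_self]; exact map_zero _
  rw [h0] at h
  filter_upwards [h.eventually (gt_mem_nhds hε)] with x hx
  rw [← mixedEmbedding.normAtPlace_apply, map_sub]
  exact hx

theorem ev_real {f : α → k} {a : k} (hf : Tendsto f l (nbk k S a)) (φ : k →+* ℝ) {ε : ℝ}
    (hε : 0 < ε) : ∀ᶠ x in l, |φ (f x - a)| < ε := by
  filter_upwards [ev_inf hf (InfinitePlace.mk (Complex.ofRealHom.comp φ)) hε] with x hx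
  rw [InfinitePlace.apply] at hx
  simpa only [RingHom.comp_apply, Complex.ofRealHom_eq_coe, Complex.norm_real,
    Real.norm_eq_abs] using hx

open scoped Classical in
theorem nbk_of_val {f : α → k} {a : k}
    (h1 : ∀ (w : InfinitePlace k) (ε : ℝ), 0 < ε → ∀ᶠ x in l, w (f x - a) < ε)
    (h2 : ∀ v ∈ S, ∀ m : ℕ, ∀ᶠ x in l, v.valuation k (f x - a) ≤ exp (-(m : ℤ))) :
    Tendsto f l (nbk k S a) := by
  refine nbk_of (Metric.tendsto_nhds.2 fun ε hε => ?_) fun v hv => Metric.tendsto_nhds.2 fun ε hε => ?_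
  · filter_upwards [eventually_all.2 fun w => h1 w ε hε] with x hx
    rw [dist_eq_norm, ← map_sub]
    change ‖mixedEmbedding k (f x - a)‖ < ε
    rw [mixedEmbedding.norm_eq_sup'_normAtPlace, Finset.sup'_lt_iff]
    intro w _
    rw [mixedEmbedding.normAtPlace_apply]
    exact hx w
  · obtain ⟨m, hm⟩ := Lan.exists_depth v hε
    filter_upwards [h2 v hv m] with x hx
    rw [dist_eq_norm, ← map_sub]
    exact hm _ hx

/-- boxes are cofinal in `nbk` -/
theorem exists_box {a : k} {U : Set k} (hU : U ∈ nbk k S a) : ∃ (m : ℕ) (ε : ℝ), 0 < ε ∧ ∀ x : k,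
    (∀ v ∈ S, v.valuation k (x - a) ≤ exp (-(m : ℤ))) → (∀ w : InfinitePlace k, w (x - a) < ε) →
    x ∈ U := by
  by_contra hn
  push Not at hn
  choose x h1 h2 h3 using fun m : ℕ => hn m (1 / ((m : ℝ) + 1)) (by positivity)
  have : Tendsto x atTop (nbk k S a) := nbk_of_val
    (fun w ε hε => (tendsto_one_div_add_atTop_nhds_zero_nat.eventually (gt_mem_nhds hε)).mono
      fun m hm => (h2 m w).trans hm)
    fun v hv m => (eventually_ge_atTop m).mono fun n hn => (h1 n v hv).trans (exp_neg_anti hn)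
  obtain ⟨m, hm⟩ := (this.eventually hU).exists
  exact h3 m hm

instance : Nontrivial (Inf k) := inferInstanceAs (Nontrivial (mixedEmbedding.mixedSpace k))

theorem nbk_inv {f : α → k} {a : k} (hf : Tendsto f l (nbk k S a)) (ha : a ≠ 0) :
    Tendsto (fun x => (f x)⁻¹) l (nbk k S a⁻¹) := by
  refine nbk_of ?_ fun v hv => ?_
  · have hu : ∀ x : k, algebraMap k (Inf k) x⁻¹ = Ring.inverse (algebraMap k (Inf k) x) := by
      intro x
      rcases eq_or_ne x 0 with rfl | hx
      · simp
      · rw [← Ring.inverse_eq_inv, Opn.map_inverse _ hx.isUnit]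
    simp only [hu]
    exact (Opn.inverse_continuousAt ℝ (ha.isUnit.map (algebraMap k (Inf k)))).tendsto.comp
      (nbk_inf hf)
  · simpa only [map_inv₀] using (nbk_fin hf hv).inv₀ (by simpa using ha)


theorem dense_RS (S : Finset (Pl k)) : DenseRange (algebraMap k (RS k S)) := by
  classical
  rintro ⟨b, a⟩
  obtain ⟨v₀, h₀⟩ := exists_notMem S
  choose x h1 h2 _ using fun m : ℕ => approxC S v₀ h₀
    (fun v => if h : v ∈ S then a ⟨v, h⟩ else 0) m b (ε := 1 / ((m : ℝ) + 1)) (by positivity)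
  refine mem_closure_of_tendsto (f := fun m => algebraMap k (RS k S) (x m)) (b := atTop)
    (Tendsto.prodMk_nhds (Metric.tendsto_nhds.2 fun ε hε => ?_) (tendsto_pi_nhds.2 fun v => ?_))
    (Eventually.of_forall fun m => ⟨_, rfl⟩)
  · filter_upwards [tendsto_one_div_add_atTop_nhds_zero_nat.eventually (gt_mem_nhds hε)] with m hm
    rw [dist_eq_norm]
    change ‖mixedEmbedding k (x m) - (show mixedEmbedding.mixedSpace k from b)‖ < ε
    rw [mixedEmbedding.norm_eq_sup'_normAtPlace, Finset.sup'_lt_iff]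
    exact fun w _ => (h2 m w).trans hm
  · obtain ⟨t, h0, ht, h⟩ := Loc.exists_exp v.1
    refine Metric.tendsto_nhds.2 fun ε hε => ?_
    filter_upwards [(tendsto_pow_atTop_nhds_zero_of_lt_one h0.le ht).eventually (gt_mem_nhds hε)]
      with m hm
    have := h1 m v.1 v.2
    rw [dif_pos v.2] at this
    rw [dist_eq_norm]
    exact ((h _ m).1 this).trans_lt hm

end Scal

section Alg
variable (k : Type u) (K B : Type*) [Field k] [NumberField k] [Field K] [NumberField K]
  [Algebra k K] [StarRing K] [Quad k K] [Ring B] [StarRing B] [Algebra K B] [StarModule K B]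
  [Algebra.IsCentral K B] [IsSimpleRing B] [FiniteDimensional K B] [Algebra k B]
  [IsScalarTower k K B]

instance algInf : Algebra ℝ (BC k K B (Inf k)) :=
  ((algebraMap (Inf k) (BC k K B (Inf k))).comp (algebraMap ℝ (Inf k))).toAlgebra'
    fun c x => Algebra.commutes (algebraMap ℝ (Inf k) c) x

instance : IsScalarTower ℝ (Inf k) (BC k K B (Inf k)) :=
  IsScalarTower.of_algebraMap_eq fun _ => rfl

instance : FiniteDimensional ℝ (BC k K B (Inf k)) := Module.Finite.trans (Inf k) _

instance : ContinuousSMul ℝ (BC k K B (Inf k)) := ⟨by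
  have : (fun p : ℝ × BC k K B (Inf k) => p.1 • p.2) =
      fun p => algebraMap ℝ (Inf k) p.1 • p.2 := by
    funext p; rw [algebraMap_smul]
  rw [this]
  exact ((continuous_algebraMap ℝ (Inf k)).comp continuous_fst).smul continuous_snd⟩

variable {k K B} {S : Finset (Pl k)} {α : Type*} {l : Filter α}

theorem jA_fst (b : B) : (jA k K B S b).1 = BC.inc k K B (Inf k) b := rfl

theorem jA_snd (b : B) (v : S) : (jA k K B S b).2 v = BC.inc k K B (Kv v.1) b := rfl

theorem jA_star (b : B) : jA k K B S (star b) = star (jA k K B S b) := rfl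

theorem tendsto_nb {f : α → B} {a : B} : Tendsto f l (nb k K B S a) ↔
    Tendsto (fun x => jA k K B S (f x)) l (𝓝 (jA k K B S a)) := tendsto_comap_iff

theorem mem_nb {a : B} {W : Set B} :
    W ∈ nb k K B S a ↔ ∃ U ∈ 𝓝 (jA k K B S a), ∀ x, jA k K B S x ∈ U → x ∈ W := mem_comap


theorem nb_const (a : B) : Tendsto (fun _ : α => a) l (nb k K B S a) :=
  tendsto_nb.2 tendsto_const_nhds

theorem nb_add {f g : α → B} {a b : B} (hf : Tendsto f l (nb k K B S a))
    (hg : Tendsto g l (nb k K B S b)) : Tendsto (fun x => f x + g x) l (nb k K B S (a + b)) := by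
  simpa only [tendsto_nb, map_add] using (tendsto_nb.1 hf).add (tendsto_nb.1 hg)

theorem nb_sub {f g : α → B} {a b : B} (hf : Tendsto f l (nb k K B S a))
    (hg : Tendsto g l (nb k K B S b)) : Tendsto (fun x => f x - g x) l (nb k K B S (a - b)) := by
  simpa only [tendsto_nb, map_sub] using (tendsto_nb.1 hf).sub (tendsto_nb.1 hg)


theorem nb_mul {f g : α → B} {a b : B} (hf : Tendsto f l (nb k K B S a))
    (hg : Tendsto g l (nb k K B S b)) : Tendsto (fun x => f x * g x) l (nb k K B S (a * b)) := by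
  simpa only [tendsto_nb, map_mul] using (tendsto_nb.1 hf).mul (tendsto_nb.1 hg)


theorem nb_star {f : α → B} {a : B} (hf : Tendsto f l (nb k K B S a)) :
    Tendsto (fun x => star (f x)) l (nb k K B S (star a)) := by
  simpa only [tendsto_nb, jA_star] using (tendsto_nb.1 hf).star

theorem nb_fin {f : α → B} {a : B} (hf : Tendsto f l (nb k K B S a)) {v : Pl k} (hv : v ∈ S) :
    Tendsto (fun x => BC.inc k K B (Kv v) (f x)) l (𝓝 (BC.inc k K B (Kv v) a)) :=
  (((continuous_apply (⟨v, hv⟩ : S)).comp continuous_snd).tendsto _).comp (tendsto_nb.1 hf)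

theorem nb_inf {f : α → B} {a : B} (hf : Tendsto f l (nb k K B S a)) :
    Tendsto (fun x => BC.inc k K B (Inf k) (f x)) l (𝓝 (BC.inc k K B (Inf k) a)) :=
  (continuous_fst.tendsto _).comp (tendsto_nb.1 hf)

theorem nb_of {f : α → B} {a : B}
    (h1 : Tendsto (fun x => BC.inc k K B (Inf k) (f x)) l (𝓝 (BC.inc k K B (Inf k) a)))
    (h2 : ∀ v ∈ S, Tendsto (fun x => BC.inc k K B (Kv v) (f x)) l (𝓝 (BC.inc k K B (Kv v) a))) :
    Tendsto f l (nb k K B S a) :=
  tendsto_nb.2 (h1.prodMk_nhds (tendsto_pi_nhds.2 fun v => h2 v.1 v.2))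

theorem nb_anti {S' : Finset (Pl k)} (h : S ⊆ S') (a : B) : nb k K B S' a ≤ nb k K B S a :=
  nb_of (nb_inf tendsto_id) fun _ hv => nb_fin tendsto_id (h hv)

theorem inc_ksmul {R : Type*} [CommRing R] [Algebra k R] (c : k) (b : B) :
    BC.inc k K B R (c • b) = algebraMap k R c • BC.inc k K B R b := by
  rw [map_smul, algebraMap_smul]

theorem nb_smul {c : α → k} {f : α → B} {c₀ : k} {a : B} (hc : Tendsto c l (nbk k S c₀))
    (hf : Tendsto f l (nb k K B S a)) : Tendsto (fun x => c x • f x) l (nb k K B S (c₀ • a)) := by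
  refine nb_of ?_ fun v hv => ?_
  · simpa only [inc_ksmul] using (nbk_inf hc).smul (nb_inf hf)
  · simpa only [inc_ksmul] using (nbk_fin hc hv).smul (nb_fin hf hv)

theorem nb_list {ι : Type*} (s : List ι) {f : ι → α → B} {a : ι → B}
    (hf : ∀ j ∈ s, Tendsto (f j) l (nb k K B S (a j))) :
    Tendsto (fun x => (s.map fun j => f j x).prod) l (nb k K B S (s.map a).prod) := by
  induction s with
  | nil => exact nb_const _
  | cons j s ih =>
    simp only [List.map_cons, List.prod_cons]
    exact nb_mul (hf j (by simp)) (ih fun i hi => hf i (by simp [hi]))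

theorem nb_sum {ι : Type*} (s : Finset ι) {f : ι → α → B} {a : ι → B}
    (hf : ∀ j ∈ s, Tendsto (f j) l (nb k K B S (a j))) :
    Tendsto (fun x => ∑ j ∈ s, f j x) l (nb k K B S (∑ j ∈ s, a j)) := by
  simpa only [tendsto_nb, map_sum] using tendsto_finsetSum s fun j hj => tendsto_nb.1 (hf j hj)

theorem lin_bc {R : Type*} [CommRing R] [Algebra k R] [TopologicalSpace R] [IsTopologicalRing R]
    (g : B →ₗ[k] k) : ∃ G : BC k K B R →ₗ[R] R, Continuous G ∧
      ∀ x, G (BC.inc k K B R x) = algebraMap k R (g x) := by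
  refine ⟨(BC.bas k K B R (eb k K B)).constr R fun i => algebraMap k R (g (eb k K B i)),
    IsModuleTopology.continuous_of_linearMap _, fun x => ?_⟩
  rw [Basis.constr_apply_fintype, Lan.lin_eq (eb k K B) g x, map_sum]
  refine Finset.sum_congr rfl fun i _ => ?_
  rw [Basis.equivFun_apply, BC.repr_inc, smul_eq_mul, smul_eq_mul, map_mul]

theorem nb_lin {f : α → B} {a : B} (hf : Tendsto f l (nb k K B S a)) (g : B →ₗ[k] k) :
    Tendsto (fun x => g (f x)) l (nbk k S (g a)) := by
  refine nbk_of ?_ fun v hv => ?_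
  · obtain ⟨G, h1, h2⟩ := lin_bc (K := K) (R := Inf k) g
    simpa only [← h2, Function.comp_def] using (h1.tendsto _).comp (nb_inf hf)
  · obtain ⟨G, h1, h2⟩ := lin_bc (K := K) (R := Kv v) g
    simpa only [← h2, Function.comp_def] using (h1.tendsto _).comp (nb_fin hf hv)

theorem nb_of_repr {ι : Type*} [Fintype ι] (e : Basis ι k B) {f : α → B} {a : B}
    (h : ∀ i, Tendsto (fun x => e.repr (f x) i) l (nbk k S (e.repr a i))) :
    Tendsto f l (nb k K B S a) := by
  simpa only [e.sum_repr] using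
    nb_sum (K := K) Finset.univ fun i _ => nb_smul (h i) (nb_const (e i))


theorem isUnit_of_inc {R : Type*} [CommRing R] [Algebra k R] [Nontrivial R] {x : B}
    (h : IsUnit (BC.inc k K B R x)) : IsUnit x :=
  haveI := finite_kB k K B
  Opn.isUnit_of_map k (BC.inc k K B R).toRingHom (BC.inc_injective k K B R) h

theorem ev_isUnit {f : α → B} {a : B} (hf : Tendsto f l (nb k K B S a)) (ha : IsUnit a) :
    ∀ᶠ x in l, IsUnit (f x) :=
  ((nb_inf hf).eventually (Opn.ev_isUnit ℝ (ha.map _))).mono fun _ => isUnit_of_inc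

theorem inc_inverse {R : Type*} [CommRing R] [Algebra k R] {x : B} (h : IsUnit x) :
    BC.inc k K B R (Ring.inverse x) = Ring.inverse (BC.inc k K B R x) :=
  Opn.map_inverse (BC.inc k K B R).toRingHom h

theorem nb_inverse {f : α → B} {a : B} (hf : Tendsto f l (nb k K B S a)) (ha : IsUnit a) :
    Tendsto (fun x => Ring.inverse (f x)) l (nb k K B S (Ring.inverse a)) := by
  have hu := ev_isUnit hf ha
  refine nb_of ?_ fun v hv => ?_
  · have := (Opn.inverse_continuousAt ℝ (ha.map (BC.inc k K B (Inf k)))).tendsto.comp (nb_inf hf)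
    rw [← inc_inverse ha] at this
    exact this.congr' (hu.mono fun x hx => (inc_inverse hx).symm)
  · have := (Opn.inverse_continuousAt (Kv v) (ha.map (BC.inc k K B (Kv v)))).tendsto.comp
      (nb_fin hf hv)
    rw [← inc_inverse ha] at this
    exact this.congr' (hu.mono fun x hx => (inc_inverse hx).symm)

end Alg

end Crest.Agent.T24.Ev
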