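import Crest.Agent.T24.InDef_71

/-!
# Row 24, inner step (helper71): the germ filter (`N`-adic and archimedean), words and leaves
-/

set_option autoImplicit false
set_option linter.unusedSectionVars false

namespace Crest.Agent.T24.In

open Filter Module Polynomial NumberField
open scoped Topology
open Crest.Agent.T24.Csa Crest.Agent.T24.Hsm Crest.Agent.T24.Asa

universe u v w

section Vec

variable {V W : Type*} [AddCommGroup V] [AddCommGroup W] {α : Type*} {l : Filter α}

/-- archimedean neighbourhoods -/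
def na (a : V) : Filter V := ⨅ φ : V →+ ℝ, comap φ (𝓝 (φ a))

theorem tendsto_na {f : α → V} {a : V} :
    Tendsto f l (na a) ↔ ∀ φ : V →+ ℝ, Tendsto (fun i => φ (f i)) l (𝓝 (φ a)) := by
  simp only [na, tendsto_iInf, tendsto_comap_iff]; rfl

theorem na_map (g : V →+ W) (a : V) : Tendsto g (na a) (na (g a)) :=
  tendsto_na.2 fun φ => tendsto_na.1 tendsto_id (φ.comp g)

theorem na_real {E : Type*} [NormedAddCommGroup E] [NormedSpace ℝ E] [FiniteDimensional ℝ E]
    (g : V →+ E) (a : V) : Tendsto g (na a) (𝓝 (g a)) := by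
  let e := Module.finBasis ℝ E
  have := tendsto_finsetSum Finset.univ fun i (_ : i ∈ Finset.univ) =>
    (tendsto_na.1 (tendsto_id (x := na a)) ((e.coord i).toAddMonoidHom.comp g)).smul_const (e i)
  simpa [e.sum_repr] using this

variable [Module ℚ V] [Module ℚ W] (N : ℕ)

/-- `N`-adic and archimedean neighbourhoods -/
def ng (a : V) : Filter V := nr N a ⊓ na a

variable {N}

theorem tendsto_ng {f : α → V} {a : V} :
    Tendsto f l (ng N a) ↔ Tendsto f l (nr N a) ∧ Tendsto f l (na a) := tendsto_inf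

theorem ng_le_nr (a : V) : ng N a ≤ nr N a := inf_le_left

theorem ng_le_na (a : V) : ng N a ≤ na a := inf_le_right

theorem ng_const (a : V) : Tendsto (fun _ : α => a) l (ng N a) :=
  tendsto_ng.2 ⟨nr_const a, tendsto_na.2 fun _ => tendsto_const_nhds⟩

theorem self_of_ng {a : V} {p : V → Prop} (h : ∀ᶠ x in ng N a, p x) : p a :=
  ((ng_const (l := (⊤ : Filter Unit)) a).eventually h).exists.choose_spec

instance (a : V) : (ng N a).NeBot := (ng_const (l := (⊤ : Filter Unit)) a).neBot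

theorem ng_map (g : V →+ W) (a : V) : Tendsto g (ng N a) (ng N (g a)) :=
  (nr_map g a).inf (na_map g a)

theorem ng_lin {f : α → V} {a : V} (g : V →+ W) (h : Tendsto f l (ng N a)) :
    Tendsto (fun i => g (f i)) l (ng N (g a)) := (ng_map g a).comp h

theorem ng_of_inj (g : V →+ W) (hg : Function.Injective g) {f : α → V} {a : V}
    (h : Tendsto (fun i => g (f i)) l (ng N (g a))) : Tendsto f l (ng N a) := by
  obtain ⟨p, hp⟩ := g.toRatLinearMap.exists_leftInverse_of_injective (LinearMap.ker_eq_bot.2 hg)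
  have hp' : ∀ x, p (g x) = x := fun x => LinearMap.congr_fun hp x
  have := ng_lin p.toAddMonoidHom h
  simpa [hp'] using this

theorem ng_neg {f : α → V} {a : V} (hf : Tendsto f l (ng N a)) :
    Tendsto (fun i => -f i) l (ng N (-a)) := ng_lin (-AddMonoidHom.id V) hf

/-- small rational scalars -/
theorem tendsto_small (x : V) :
    Tendsto (fun k : ℕ => ((N : ℚ) / (N + 1)) ^ k • x) atTop (ng N 0) := by
  refine tendsto_ng.2 ⟨?_, tendsto_na.2 fun φ => ?_⟩
  · rw [nr_zero]
    intro U hU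
    obtain ⟨m, hm⟩ := exists_dp_subset hU
      (Submodule.fg_span_singleton (R := ZN N) x)
    refine mem_map.2 (eventually_atTop.2 ⟨m, fun k hk => hm _ (dp_anti _ hk ?_)⟩)
    have h1 : ((N + 1 : ℕ) : ℚ)⁻¹ ∈ ZN N := inv_mem_ZN (by simp)
    simp only [div_eq_mul_inv, mul_pow, mul_smul]
    push_cast at h1
    exact smul_mem_dp _ (zsmul_mem (pow_mem h1 k) (Submodule.mem_span_singleton_self x))
  · have h1 : Tendsto (fun k : ℕ => ((N : ℝ) / (N + 1)) ^ k) atTop (𝓝 0) :=
      tendsto_pow_atTop_nhds_zero_of_lt_one (by positivity)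
        ((div_lt_one (by positivity)).2 (lt_add_one _))
    simpa [map_rat_smul, Rat.smul_def] using h1.mul_const (φ x)

variable [FiniteDimensional ℚ V]

theorem ng_add {f g : α → V} {a b : V} (hf : Tendsto f l (ng N a)) (hg : Tendsto g l (ng N b)) :
    Tendsto (fun i => f i + g i) l (ng N (a + b)) := by
  rw [tendsto_ng, tendsto_na] at *
  exact ⟨nr_add hf.1 hg.1, fun φ => by simpa using (hf.2 φ).add (hg.2 φ)⟩

theorem ng_sub {f g : α → V} {a b : V} (hf : Tendsto f l (ng N a)) (hg : Tendsto g l (ng N b)) :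
    Tendsto (fun i => f i - g i) l (ng N (a - b)) := by
  simpa only [sub_eq_add_neg] using ng_add hf (ng_neg hg)

theorem ng_sum {ι : Type*} (s : Finset ι) {f : ι → α → V} {a : ι → V}
    (h : ∀ j ∈ s, Tendsto (f j) l (ng N (a j))) :
    Tendsto (fun i => ∑ j ∈ s, f j i) l (ng N (∑ j ∈ s, a j)) := by
  simp only [tendsto_ng, tendsto_na] at *
  exact ⟨nr_sum s fun j hj => (h j hj).1, fun φ => by
    simpa using tendsto_finsetSum s fun j hj => (h j hj).2 φ⟩

theorem ng_pi {ι : Type*} [Finite ι] {f : α → ι → V} {a : ι → V}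
    (h : ∀ j, Tendsto (fun i => f i j) l (ng N (a j))) : Tendsto f l (ng N a) := by
  classical
  have := Fintype.ofFinite ι
  have h1 := ng_sum (V := ι → V) Finset.univ (f := fun j i => Pi.single j (f i j))
    (a := fun j => Pi.single j (a j))
    (fun j _ => ng_lin (AddMonoidHom.single (fun _ => V) j) (h j))
  simpa only [Finset.univ_sum_single] using h1

theorem ng_mat {m n : Type*} [Finite m] [Finite n] {f : α → Matrix m n V} {a : Matrix m n V} :
    Tendsto f l (ng N a) ↔ ∀ i j, Tendsto (fun t => f t i j) l (ng N (a i j)) :=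
  ⟨fun h i j => ng_lin (Matrix.entryAddMonoidHom V i j) h,
    fun h => ng_pi (V := n → V) fun i => ng_pi (h i)⟩

end Vec

section Alg

variable {N : ℕ} {α : Type*} {l : Filter α} {B : Type*} [Ring B] [Algebra ℚ B]
  [FiniteDimensional ℚ B]

variable (B) in
/-- a representation in a real Banach algebra inducing the archimedean neighbourhoods -/
theorem exists_rep : ∃ (n : ℕ) (ρ : B →+* ((Fin n → ℝ) →L[ℝ] (Fin n → ℝ))),
    ∀ a, na a = comap ρ (𝓝 (ρ a)) := by
  let e := Module.finBasis ℚ B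
  let ρ : B →+* ((Fin (finrank ℚ B) → ℝ) →L[ℝ] (Fin (finrank ℚ B) → ℝ)) :=
    ((Module.End.toContinuousLinearMap _).toRingHom.comp
      (Matrix.toLinAlgEquiv' (R := ℝ)).toRingHom).comp
        ((Rat.castHom ℝ).mapMatrix.comp (Algebra.leftMulMatrix e).toRingHom)
  refine ⟨_, ρ, fun a => le_antisymm (na_real ρ.toAddMonoidHom a).le_comap ?_⟩
  have h (φ : B →+ ℝ) (x : B) : φ x = ∑ i, ρ x (fun j => (e.repr 1 j : ℝ)) i * φ (e i) := by
    conv_lhs => rw [← e.sum_repr x, map_sum]
    refine Finset.sum_congr rfl fun i _ => ?_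
    rw [map_rat_smul, Rat.smul_def]
    congr 1
    have := congrFun (Algebra.leftMulMatrix_mulVec_repr e x 1) i
    rw [mul_one] at this
    rw [← this]
    simp [ρ, Matrix.mulVec, dotProduct]
    rfl
  refine tendsto_id'.1 (tendsto_na.2 fun φ => ?_)
  have hc : Continuous fun A : (Fin (finrank ℚ B) → ℝ) →L[ℝ] (Fin (finrank ℚ B) → ℝ) =>
      ∑ i, A (fun j => (e.repr 1 j : ℝ)) i * φ (e i) := by fun_prop
  rw [h φ a]
  exact ((hc.tendsto _).comp tendsto_comap).congr fun x => (h φ x).symm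

theorem ng_mul {f g : α → B} {a b : B} (hf : Tendsto f l (ng N a))
    (hg : Tendsto g l (ng N b)) : Tendsto (fun i => f i * g i) l (ng N (a * b)) := by
  obtain ⟨n, ρ, h⟩ := exists_rep B
  rw [tendsto_ng, h, tendsto_comap_iff] at *
  exact ⟨nr_mul hf.1 hg.1, by simpa [Function.comp_def] using hf.2.mul hg.2⟩

theorem ng_mul_one {f g : α → B} (hf : Tendsto f l (ng N 1))
    (hg : Tendsto g l (ng N 1)) : Tendsto (fun i => f i * g i) l (ng N 1) := by
  simpa using ng_mul hf hg

theorem ng_pow {f : α → B} {a : B} (hf : Tendsto f l (ng N a)) (n : ℕ) :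
    Tendsto (fun i => f i ^ n) l (ng N (a ^ n)) := by
  induction n with
  | zero => simpa using ng_const 1
  | succ n ih => simpa only [pow_succ] using ng_mul ih hf

theorem ng_isUnit (hN : 2 ≤ N) : ∀ᶠ x in ng N (1 : B), IsUnit x :=
  (ev_isUnit hN).filter_mono (ng_le_nr _)

theorem ng_inverse (hN : 2 ≤ N) : Tendsto (Ring.inverse : B → B) (ng N 1) (ng N 1) := by
  obtain ⟨n, ρ, h⟩ := exists_rep B
  refine tendsto_ng.2 ⟨(nr_inverse hN).mono_left (ng_le_nr _), ?_⟩
  have h1 : Tendsto ρ (ng N 1) (𝓝 1) := by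
    have := (tendsto_comap (f := ρ) (x := 𝓝 (ρ 1))).mono_left ((ng_le_na (N := N) 1).trans (h 1).le)
    rwa [map_one] at this
  have h2 := (NormedRing.inverse_continuousAt
    (1 : ((Fin n → ℝ) →L[ℝ] (Fin n → ℝ))ˣ)).tendsto.comp h1
  rw [h, tendsto_comap_iff, map_one]
  rw [Units.val_one, Ring.inverse_one] at h2
  refine h2.congr' ((ng_isUnit hN).mono fun x hx => ?_)
  obtain ⟨u, rfl⟩ := hx
  rw [Function.comp, Function.comp, Ring.inverse_unit]
  exact Ring.inverse_unit (Units.map ρ.toMonoidHom u)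

theorem ng_inv (hN : 2 ≤ N) {f : α → B} (hf : Tendsto f l (ng N 1)) :
    Tendsto (fun i => Ring.inverse (f i)) l (ng N 1) := (ng_inverse hN).comp hf

theorem ng_matmul {m n k : Type*} [Finite m] [Fintype n] [Finite k] {f : α → Matrix m n B}
    {g : α → Matrix n k B} {a : Matrix m n B} {b : Matrix n k B} (hf : Tendsto f l (ng N a))
    (hg : Tendsto g l (ng N b)) : Tendsto (fun i => f i * g i) l (ng N (a * b)) :=
  ng_mat.2 fun i j => ng_sum Finset.univ fun t _ => ng_mul (ng_mat.1 hf i t) (ng_mat.1 hg t j)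

variable {R : Type*} [CommRing R] [Algebra ℚ R] [FiniteDimensional ℚ R]

theorem ng_prod {ι : Type*} (s : Finset ι) {f : ι → α → R} {a : ι → R}
    (h : ∀ j ∈ s, Tendsto (f j) l (ng N (a j))) :
    Tendsto (fun i => ∏ j ∈ s, f j i) l (ng N (∏ j ∈ s, a j)) := by
  classical
  induction s using Finset.induction_on with
  | empty => simpa using ng_const 1
  | insert j s hj ih =>
    simp only [Finset.prod_insert hj]
    exact ng_mul (h j (Finset.mem_insert_self _ _))
      (ih fun k hk => h k (Finset.mem_insert_of_mem hk))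

theorem ng_mv {ι : Type*} {f : α → ι → R} {a : ι → R}
    (h : ∀ j, Tendsto (fun i => f i j) l (ng N (a j))) (P : MvPolynomial ι R) :
    Tendsto (fun i => MvPolynomial.eval (f i) P) l (ng N (MvPolynomial.eval a P)) := by
  induction P using MvPolynomial.induction_on with
  | C c => simpa using ng_const c
  | add p q hp hq => simpa using ng_add hp hq
  | mul_X p j hp => simpa using ng_mul hp (h j)

theorem ng_root (hN : 2 ≤ N) (K : Type*) [Field K] [CharZero K] [FiniteDimensional ℚ K] {r : ℕ}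
    (hr : r ≠ 0) : ∃ W ∈ ng N (1 : K), ∀ {α : Type} (l : Filter α) (f : α → K),
      (∀ᶠ i in l, f i ∈ W) → Tendsto (fun i => f i ^ r) l (ng N 1) → Tendsto f l (ng N 1) := by
  obtain ⟨W, hW, H⟩ := ev_root hN K hr
  obtain ⟨n, ρ, h⟩ := exists_rep K
  have hr' : (r : K) ≠ 0 := by exact_mod_cast hr
  have h1 : Tendsto (fun u : K => 1 - (r : K)⁻¹ * ∑ i ∈ Finset.range r, u ^ i) (ng N 1) (ng N 0) := by
    have := ng_sub (ng_const 1) (ng_mul (ng_const (l := ng N (1 : K)) (r : K)⁻¹)
      (ng_sum (Finset.range r) fun i _ => ng_pow (tendsto_id (x := ng N (1 : K))) i))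
    simpa [hr'] using this
  have h0 : Tendsto (fun x => ‖ρ x‖) (ng N 0) (𝓝 0) := by
    have := (tendsto_comap (f := ρ) (x := 𝓝 (ρ 0))).mono_left ((ng_le_na (N := N) 0).trans (h 0).le)
    rw [map_zero] at this
    exact tendsto_zero_iff_norm_tendsto_zero.1 this
  have h2 := (h0.comp h1).eventually (gt_mem_nhds (show (0 : ℝ) < 1 / 2 by norm_num))
  refine ⟨_, inter_mem (ng_le_nr _ hW) h2, fun l f hf ht => tendsto_ng.2
    ⟨H l f (hf.mono fun _ h => h.1) (tendsto_ng.1 ht).1, ?_⟩⟩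
  have h3 : Tendsto (fun i => (r : K)⁻¹ * (f i ^ r - 1)) l (ng N 0) := by
    simpa using ng_mul (ng_const (r : K)⁻¹) (ng_sub ht (ng_const 1))
  rw [h, tendsto_comap_iff, tendsto_iff_norm_sub_tendsto_zero]
  refine squeeze_zero' (Eventually.of_forall fun _ => norm_nonneg _) (hf.mono fun i hi => ?_)
    (by simpa only [mul_zero] using (h0.comp h3).const_mul 2)
  have h4 : f i - 1 = (r : K)⁻¹ * (f i ^ r - 1) +
      (f i - 1) * (1 - (r : K)⁻¹ * ∑ j ∈ Finset.range r, f i ^ j) := by
    rw [← mul_geom_sum]; ring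
  have h5 : ‖ρ (1 - (r : K)⁻¹ * ∑ j ∈ Finset.range r, f i ^ j)‖ < 1 / 2 := hi.2
  have h6 : ‖ρ (f i - 1)‖ ≤ ‖ρ ((r : K)⁻¹ * (f i ^ r - 1))‖ + ‖ρ (f i - 1)‖ * (1 / 2) := by
    conv_lhs => rw [h4, map_add, map_mul ρ (f i - 1)]
    exact (norm_add_le _ _).trans (add_le_add le_rfl ((norm_mul_le _ _).trans (by gcongr)))
  rw [Function.comp, Function.comp, ← map_sub]
  linarith

variable (K : Type*) [Field K] [NumberField K] {B : Type*} [Ring B] [Algebra K B] [Algebra ℚ B]
  [FiniteDimensional K B]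

theorem ng_smul {c : α → K} {f : α → B} {c₀ : K} {a : B} (hc : Tendsto c l (ng N c₀))
    (hf : Tendsto f l (ng N a)) : Tendsto (fun i => c i • f i) l (ng N (c₀ • a)) := by
  have := fdQ K B
  simp only [Algebra.smul_def]
  exact ng_mul (ng_lin (algebraMap K B).toAddMonoidHom hc) hf

variable [Algebra.IsCentral K B] [IsSimpleRing B]

theorem ng_rch (a : B) (j : ℕ) :
    Tendsto (fun x : B => (rch K x).coeff j) (ng N a) (ng N ((rch K a).coeff j)) := by
  let e := Module.finBasis K B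
  have h (x : B) : (rch K x).coeff j = MvPolynomial.eval (fun i => e.repr x i) (rchP K e j) := by
    rw [eval_rchP, e.sum_repr]
  simp only [h]
  exact ng_mv (fun i => ng_map (e.coord i).toAddMonoidHom a) _

theorem ng_Nrd (a : B) : Tendsto (Nrd K) (ng N a) (ng N (Nrd K a)) :=
  ng_mul (ng_const _) (ng_rch K a 0)

theorem ng_Nrd_one : Tendsto (Nrd K) (ng N (1 : B)) (ng N (1 : K)) := by
  simpa using ng_Nrd (N := N) K (1 : B)

end Alg

/-- `θ` is the germ of a homomorphism -/
def LG (N : ℕ) {B X : Type*} [Ring B] [Algebra ℚ B] [Mul X] (θ : B → X) : Prop :=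
  ∀ᶠ p : B × B in ng N (1 : B) ×ˢ ng N (1 : B), θ (p.1 * p.2) = θ p.1 * θ p.2

/-- approximate roots, uniformly near `1` -/
def RootG : Prop := ∀ N : ℕ, 2 ≤ N → ∀ (B : Type v) [Ring B] [Algebra ℚ B]
  [FiniteDimensional ℚ B] (r : ℕ), r ≠ 0 → ∀ V ∈ ng N (1 : B), ∀ᶠ g in ng N (1 : B),
  ∃ h : ℕ → B, (∀ j, h j ∈ V ∧ ∀ y, Commute g y → Commute (h j) y) ∧
    Tendsto (fun j => h j ^ r) atTop (ng N g)

/-- a polynomial near a separable reduced polynomial is the reduced polynomial of a near element -/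
def NearG : Prop := ∀ N : ℕ, 2 ≤ N → ∀ (K : Type u) [Field K] [NumberField K] (B : Type v)
  [Ring B] [Algebra K B] [Algebra ℚ B] [Algebra.IsCentral K B] [IsSimpleRing B]
  [FiniteDimensional K B], SplN N K B → ∀ y₀ : B, (rch K y₀).Separable → ∀ U ∈ ng N y₀,
  ∃ V ∈ ng N (0 : K), ∀ P : K[X], P.Monic → P.natDegree = deg K B →
    (∀ i, P.coeff i - (rch K y₀).coeff i ∈ V) → ∃ y ∈ U, rch K y = P

/-- the filter `ng N` in valuation words (coordinates in a basis) -/
def ValG : Prop := ∀ N : ℕ, 2 ≤ N → ∀ (K : Type u) [Field K] [NumberField K] (B : Type v)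
  [AddCommGroup B] [Module ℚ B] [Module K B] (ι : Type w) [Finite ι] (e : Basis ι K B) (a : B),
  (ng N a).HasBasis (fun p : ℕ × ℝ => 0 < p.2) fun p => {x |
    (∀ v : Pl K, (N : 𝓞 K) ∈ v.asIdeal →
      ∀ i, v.valuation K (e.repr (x - a) i) ≤ WithZero.exp (-(p.1 : ℤ))) ∧
    ∀ (φ : K →+* ℂ) i, ‖φ (e.repr (x - a) i)‖ < p.2}

/-- the relative theorem of Wang for germs of characters of exponent `n` -/
def GermW : Prop := ∀ N : ℕ, 2 ≤ N → ∀ (K : Type u) [Field K] [NumberField K] (B : Type v)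
  [Ring B] [Algebra K B] [Algebra ℚ B] [Algebra.IsCentral K B] [IsSimpleRing B]
  [FiniteDimensional K B], SplN N K B → ∀ (X : Type w) [CommGroup X] (n : ℕ), n ≠ 0 →
  (∀ a : X, a ^ n = 1) → ∀ θ : B → X, LG N θ → ∀ᶠ x in ng N (1 : B), Nrd K x = 1 → θ x = 1



end Crest.Agent.T24.In
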