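import Crest.Agent.T24.InNear_23
import Crest.Agent.T24.InG_71

-- ▼ part T24/HsmE_23
section

/-! Row 24 (helper23): interpolation with approximation of the element at finitely many finite
places and at all infinite places. -/

set_option autoImplicit false

noncomputable section

open scoped TensorProduct Topology Valued
open Module Polynomial NumberField IsDedekindDomain Filter WithZero
open Crest.Agent.T24.Csa Crest.Agent.T24.Asa

namespace Crest.Agent.T24.Hsm

universe u v w

/-- the local step along an embedding `f` into a complete field -/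
theorem conj_emb {K : Type*} [Field K] [CharZero K] {B : Type*} [Ring B] [Algebra K B]
    [Algebra.IsCentral K B] [IsSimpleRing B] [FiniteDimensional K B] {n : ℕ}
    (hn : finrank K B = n ^ 2) {F : Type*} [NontriviallyNormedField F] [CompleteSpace F]
    (f : K →+* F) {ι : Type*} (e : Basis ι K B) {y : B} (hs : (rch K y).Separable) {δ : ℝ}
    (hδ : 0 < δ) :
    ∃ ε > 0, ∀ P : K[X], P.Monic → P.natDegree = n →
      (∀ i < n, ‖f (P.coeff i - (rch K y).coeff i)‖ < ε) →
      P.Separable ∧ (Spl B n f ∨ ∀ x, ¬ (P.map f).IsRoot x) ∧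
      (letI := f.toAlgebra; ∃ z : F ⊗[K] B, rch F z = P.map f) ∧ ∀ z : B, rch K z = P →
        ∃ t : ι → F, ∃ η > 0, ∀ g : B, (∀ i, ‖f (e.repr g i) - t i‖ < η) → IsUnit g ∧
          ∀ i, ‖f (e.repr (g * z * Ring.inverse g - y) i)‖ < δ := by
  let _ := f.toAlgebra
  have : CharZero F := charZero_of_injective_ringHom f.injective
  have hf : algebraMap K F = f := rfl
  have hn' : finrank F (F ⊗[K] B) = n ^ 2 := by rw [finrank_baseChange, hn]
  have hs' : (rch F ((1 : F) ⊗ₜ[K] y)).Separable := by rw [rch_tmul]; exact hs.map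
  obtain ⟨ε₁, p₁, h₁⟩ := exists_eps F hs'
  obtain ⟨ε₂, p₂, h₂⟩ := conj_coord F (e.baseChange F) hs' hδ
  simp only [deg_eq F hn', rch_tmul, coeff_map, hf] at h₁ h₂
  refine ⟨min ε₁ ε₂, lt_min p₁ p₂, fun P hP hd hc => ?_⟩
  obtain ⟨h3, z, -, hz⟩ := h₁ (P.map f) (hP.map _) (by rw [natDegree_map, hd]) fun i hi => by
    rw [coeff_map, ← map_sub]; exact (hc i hi).trans_le (min_le_left _ _)
  refine ⟨(separable_map _).1 h3, or_iff_not_imp_right.2 fun h => ?_, ⟨z, hz⟩, ?_⟩
  · push Not at h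
    obtain ⟨x, hx⟩ := h
    exact (spl_of_root (f := RingHom.id F) hn' (hz ▸ h3) (a := x) (by rwa [hz, Polynomial.map_id])).of_bc
  rintro z rfl
  obtain ⟨t, η, hη, h⟩ := h₂ (1 ⊗ₜ z) fun i hi => by
    rw [rch_tmul, coeff_map, hf, ← map_sub]; exact (hc i hi).trans_le (min_le_right _ _)
  refine ⟨t, η, hη, fun g hg => ?_⟩
  obtain ⟨h4, h5⟩ := h (1 ⊗ₜ g) fun i => by
    rw [Basis.baseChange_repr_tmul, ← Algebra.algebraMap_eq_smul_one]; exact hg i
  obtain ⟨u, rfl⟩ := isUnit_of_tmul h4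
  refine ⟨u.isUnit, fun i => ?_⟩
  have := h5 i
  rwa [tmul_conj, Basis.baseChange_repr_tmul, Basis.baseChange_repr_tmul,
    ← Algebra.algebraMap_eq_smul_one, ← Algebra.algebraMap_eq_smul_one, ← map_sub,
    ← Finsupp.sub_apply, ← map_sub, ← Ring.inverse_unit] at this

theorem ex_of_toAlgebra {K B F : Type*} [Field K] [Ring B] [Algebra K B] [FiniteDimensional K B]
    [Field F] [inst : Algebra K F] {Q : F[X]}
    (h : letI := (algebraMap K F).toAlgebra; ∃ z : F ⊗[K] B, rch F z = Q) :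
    ∃ z : F ⊗[K] B, rch F z = Q := by
  have key : ∀ i j : Algebra K F, i = j → (letI := i; ∃ z : F ⊗[K] B, rch F z = Q) →
      (letI := j; ∃ z : F ⊗[K] B, rch F z = Q) := by
    rintro _ _ rfl h; exact h
  exact key (algebraMap K F).toAlgebra inst (Algebra.algebra_ext _ _ fun _ => rfl) h

variable {K : Type u} [Field K] [NumberField K]

omit [NumberField K] in
theorem exists_real_place (ρ : K →+* ℝ) :
    ∃ w : {w : InfinitePlace K // w.IsReal}, InfinitePlace.embedding_of_isReal w.2 = ρ := by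
  have hr : ComplexEmbedding.IsReal (Complex.ofRealHom.comp ρ) :=
    ComplexEmbedding.isReal_iff.2 (RingHom.ext fun x => by simp)
  exact ⟨⟨_, InfinitePlace.isReal_mk_iff.2 hr⟩, RingHom.ext fun x => Complex.ofReal_injective (by
    rw [InfinitePlace.embedding_of_isReal_apply, InfinitePlace.embedding_mk_eq_of_isReal hr]; rfl)⟩

/-- weak approximation at `S` and at all infinite places, norm form -/
theorem approx_all (S : Finset (Pl K)) (a : ∀ v : Pl K, v.adicCompletion K)
    (b : {w : InfinitePlace K // w.IsReal} → ℝ) (c : {w : InfinitePlace K // w.IsComplex} → ℂ)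
    {ε : ℝ} (hε : 0 < ε) :
    ∃ x : K, (∀ v ∈ S, ‖algebraMap K (v.adicCompletion K) x - a v‖ < ε) ∧
      (∀ w, ‖InfinitePlace.embedding_of_isReal w.2 x - b w‖ < ε) ∧
      ∀ w, ‖w.1.embedding x - c w‖ < ε := by
  obtain ⟨v₀, h₀⟩ := exists_notMem S
  obtain ⟨m, hm⟩ := exists_exp_norm' S hε
  obtain ⟨x, h1, h2, -⟩ := approxC S v₀ h₀ a m (b, c) hε
  refine ⟨x, fun v hv => hm v hv _ (h1 v hv), fun w => ?_, fun w => ?_⟩
  · simpa [mixedEmbedding.normAtPlace_apply_of_isReal w.2] using h2 w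
  · simpa [mixedEmbedding.normAtPlace_apply_of_isComplex w.2] using h2 w

variable {B : Type v} [Ring B] [Algebra K B] [Algebra.IsCentral K B] [IsSimpleRing B]
  [FiniteDimensional K B] {n : ℕ}

/-- **interpolation with approximation at `S` and at infinity** -/
theorem near_inf (hn : finrank K B = n ^ 2) (S : Finset (Pl K))
    (hS : ∀ v ∉ S, Spl B n (algebraMap K (v.adicCompletion K))) {y : B}
    (hy : (rch K y).Separable) {ι : Type*} (e : Basis ι K B) (m : ℕ) {δ : ℝ} (hδ : 0 < δ) :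
    ∃ m' : ℕ, ∃ ε > (0 : ℝ), ∀ P : K[X], P.Monic → P.natDegree = n →
      (∀ v ∈ S, ∀ i < n, v.valuation K (P.coeff i - (rch K y).coeff i) ≤ exp (-(m' : ℤ))) →
      (∀ w : InfinitePlace K, ∀ i < n, w (P.coeff i - (rch K y).coeff i) < ε) →
      P.Separable ∧ ∃ z : B, rch K z = P ∧
        (∀ v ∈ S, ∀ i, v.valuation K (e.repr (z - y) i) ≤ exp (-(m : ℤ))) ∧
        ∀ w : InfinitePlace K, ∀ i, w (e.repr (z - y) i) < δ := by
  classical
  have := Module.Finite.finite_basis e
  have := Fintype.ofFinite ι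
  choose δ₀ hδ₀ h₀ using fun v : Pl K => exists_norm_exp v m
  choose ε₁ p₁ h₁ using fun v : Pl K =>
    conj_emb hn (algebraMap K (v.adicCompletion K)) e hy (hδ₀ v)
  choose ε₂ p₂ h₂ using fun w : {w : InfinitePlace K // w.IsReal} =>
    conj_emb hn (InfinitePlace.embedding_of_isReal w.2) e hy hδ
  choose ε₃ p₃ h₃ using fun w : {w : InfinitePlace K // w.IsComplex} =>
    conj_emb hn w.1.embedding e hy hδ
  obtain ⟨γ₁, q₁, r₁⟩ := exists_min S ε₁ p₁
  obtain ⟨γ₂, q₂, r₂⟩ := exists_min Finset.univ ε₂ p₂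
  obtain ⟨γ₃, q₃, r₃⟩ := exists_min Finset.univ ε₃ p₃
  obtain ⟨m', hm⟩ := exists_exp_norm' S q₁
  refine ⟨m', min γ₂ γ₃, lt_min q₂ q₃, fun P hP hd hc hc' => ?_⟩
  have k₁ := fun v hv => h₁ v P hP hd fun i hi => (hm v hv _
    ((v.valuedAdicCompletion_eq_valuation' _).trans_le (hc v hv i hi))).trans_le (r₁ v hv)
  have k₂ := fun w => h₂ w P hP hd fun i hi => by
    rw [InfinitePlace.norm_embedding_of_isReal]
    exact (hc' w i hi).trans_le ((min_le_left _ _).trans (r₂ w (Finset.mem_univ _)))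
  have k₃ := fun w => h₃ w P hP hd fun i hi => by
    rw [InfinitePlace.norm_embedding_eq]
    exact (hc' w i hi).trans_le ((min_le_right _ _).trans (r₃ w (Finset.mem_univ _)))
  obtain ⟨w₀⟩ : Nonempty (InfinitePlace K) := inferInstance
  have hs : P.Separable :=
    w₀.isReal_or_isComplex.elim (fun h => (k₂ ⟨w₀, h⟩).1) fun h => (k₃ ⟨w₀, h⟩).1
  obtain ⟨z, -, hz⟩ := interp_loc hn hP hd hs (fun v => by
    by_cases hv : v ∈ S
    · exact .inr (ex_of_toAlgebra (k₁ v hv).2.2.1)
    · exact .inl (hS v hv)) fun ρ => by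
    obtain ⟨w, rfl⟩ := exists_real_place ρ
    exact (k₂ w).2.1
  choose! t₁ η₁ s₁ l₁ using fun v hv => (k₁ v hv).2.2.2 z hz
  choose t₂ η₂ s₂ l₂ using fun w => (k₂ w).2.2.2 z hz
  choose t₃ η₃ s₃ l₃ using fun w => (k₃ w).2.2.2 z hz
  obtain ⟨β₁, u₁, v₁⟩ := exists_min S (fun v => if v ∈ S then η₁ v else 1) fun v => by
    split_ifs with h
    exacts [s₁ v h, one_pos]
  obtain ⟨β₂, u₂, v₂⟩ := exists_min Finset.univ η₂ s₂
  obtain ⟨β₃, u₃, v₃⟩ := exists_min Finset.univ η₃ s₃
  choose a a₁ a₂ a₃ using fun i => approx_all S (fun v => t₁ v i) (fun w => t₂ w i) (fun w => t₃ w i)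
    (lt_min u₁ (lt_min u₂ u₃))
  obtain ⟨g, hg⟩ : ∃ g : B, ∀ i, e.repr g i = a i :=
    ⟨e.equivFun.symm a, fun i => by rw [← e.equivFun_apply, LinearEquiv.apply_symm_apply]⟩
  have j₁ := fun v hv => l₁ v hv g fun i => by
    rw [hg]
    exact (a₁ i v hv).trans_le ((min_le_left _ _).trans ((v₁ v hv).trans_eq (if_pos hv)))
  have j₂ := fun w => l₂ w g fun i => by
    rw [hg]
    exact (a₂ i w).trans_le ((min_le_right _ _).trans ((min_le_left _ _).trans
      (v₂ w (Finset.mem_univ _))))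
  have j₃ := fun w => l₃ w g fun i => by
    rw [hg]
    exact (a₃ i w).trans_le ((min_le_right _ _).trans ((min_le_right _ _).trans
      (v₃ w (Finset.mem_univ _))))
  obtain ⟨u, rfl⟩ : IsUnit g :=
    w₀.isReal_or_isComplex.elim (fun h => (j₂ ⟨w₀, h⟩).1) fun h => (j₃ ⟨w₀, h⟩).1
  rw [Ring.inverse_unit] at j₁ j₂ j₃
  refine ⟨hs, (u : B) * z * (u⁻¹ : Bˣ), (rch_units_conj u z).trans hz, fun v hv i =>
    (v.valuedAdicCompletion_eq_valuation' _).symm.trans_le (h₀ v _ ((j₁ v hv).2 i)), fun w i => ?_⟩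
  rcases w.isReal_or_isComplex with h | h
  · exact (InfinitePlace.norm_embedding_of_isReal h _).symm.trans_lt ((j₂ ⟨w, h⟩).2 i)
  · exact (InfinitePlace.norm_embedding_eq w _).symm.trans_lt ((j₃ ⟨w, h⟩).2 i)

end Crest.Agent.T24.Hsm
end
end

-- ▼ part T24/InNearG_23

/-! Row 24 (helper23): the germ filter in valuation words; interpolation with approximation of
the element at `N` and at infinity. -/

set_option autoImplicit false

noncomputable section

open scoped Topology
open Module Polynomial NumberField Filter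
open Crest.Agent.T24.Csa Crest.Agent.T24.Asa Crest.Agent.T24.Hsm

namespace Crest.Agent.T24.In

universe u v w

theorem basis_na {K : Type u} [Field K] [NumberField K] {B : Type v} [AddCommGroup B]
    [Module K B] {ι : Type w} [Finite ι] (e : Basis ι K B) (a : B) :
    (na a).HasBasis (fun ε : ℝ => 0 < ε) fun ε =>
      {x | ∀ (φ : K →+* ℂ) i, ‖φ (e.repr (x - a) i)‖ < ε} := by
  have := Fintype.ofFinite ι
  let g : B →+ ι → (K →+* ℂ) → ℂ := AddMonoidHom.pi fun i =>
    (canonicalEmbedding K).toAddMonoidHom.comp (e.coord i).toAddMonoidHom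
  have h : na a = comap g (𝓝 (g a)) := by
    refine le_antisymm (na_real g a).le_comap (tendsto_id'.1 (tendsto_na.2 fun ψ => ?_))
    let L (y : ι → (K →+* ℂ) → ℂ) : ℝ := ∑ i, ∑ j,
      ((canonicalEmbedding.latticeBasis K).coord j (y i)).re * ψ (integralBasis K j • e i)
    have hL : Continuous L := continuous_finsetSum _ fun i _ => continuous_finsetSum _ fun j _ =>
      (Complex.continuous_re.comp ((LinearMap.continuous_of_finiteDimensional _).comp
        (continuous_apply i))).mul continuous_const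
    have h1 (x : B) : ψ x = L (g x) := by
      conv_lhs => rw [← e.sum_repr x, map_sum]
      refine Finset.sum_congr rfl fun i _ => ?_
      let χ : K →+ ℝ := ψ.comp (LinearMap.toSpanSingleton K B (e i)).toAddMonoidHom
      change χ (e.repr x i) = _
      conv_lhs => rw [← (integralBasis K).sum_repr (e.repr x i), map_sum]
      refine Finset.sum_congr rfl fun j _ => ?_
      rw [map_rat_smul, Rat.smul_def]
      congr 1
      exact ((congrArg Complex.re (canonicalEmbedding.integralBasis_repr_apply K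
        (e.repr x i) j)).trans (Complex.ratCast_re _)).symm
    rw [h1 a]
    exact ((hL.tendsto _).comp tendsto_comap).congr fun x => (h1 x).symm
  rw [h]
  refine (Metric.nhds_basis_ball.comap g).congr (fun _ => Iff.rfl) fun ε hε => Set.ext fun x => ?_
  simp only [Set.mem_preimage, Metric.mem_ball, dist_eq_norm, ← map_sub, pi_norm_lt_iff hε]
  exact forall_comm

theorem valG : ValG.{u, v, w} := fun _ hN _ _ _ _ _ _ _ _ _ e a =>
  ((N23.basis_val e (by omega) a).inf (basis_na e a)).congr (fun _ => (true_and _).to_iff)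
    fun _ _ => rfl

theorem nearG : NearG.{u, v} := by
  intro N hN K _ _ B _ _ _ _ _ _ hS y₀ hy U hU
  have h0 : N ≠ 0 := by omega
  obtain ⟨⟨m, δ⟩, hδ, hm⟩ := (valG N hN K B _ (Module.finBasis K B) y₀).mem_iff.1 hU
  obtain ⟨m', ε, hε, h⟩ := near_inf (finrank_eq_deg_sq K B) (N23.finite_N h0).toFinset
    (fun v hv => hS v (by simpa using hv)) hy (Module.finBasis K B) m hδ
  refine ⟨_, (valG N hN K K _ (Basis.singleton Unit K) 0).mem_of_mem (i := (m', ε)) hε,
    fun P h1 h2 h3 => ?_⟩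
  obtain ⟨-, z, h5, h6, h7⟩ := h P h1 h2
    (fun v hv i _ => by simpa using (h3 i).1 v (by simpa using hv) ())
    (fun w i _ => by
      rw [← w.norm_embedding_eq]; simpa [-map_sub] using (h3 i).2 w.embedding ())
  exact ⟨z, hm ⟨fun v hv => h6 v (by simpa using hv), fun φ => h7 (InfinitePlace.mk φ)⟩, h5⟩

end Crest.Agent.T24.In
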