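import Crest.Agent.T24.Pow_53
import Crest.Agent.T24.EvA_20
import Crest.Agent.T24.InNearG_23
import Crest.Agent.T24.LocG_59
import Crest.Agent.T24.StabA_43

-- ▼ part T24/PowU_53
section

/-!
# Row 24 (helper53): `ContU`, the version of `Cont` for the unitary group
-/

set_option autoImplicit false
set_option linter.unusedSectionVars false

noncomputable section

namespace Crest.Agent.T24

open Module NumberField IsDedekindDomain WithZero Csa Asa Polynomial
open scoped commutatorElement IntermediateField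

universe u v w

/-- conjugation acts trivially on deep unitary elements modulo `[Um m, Um m]` -/
def ContU (K : Type*) [Field K] [NumberField K] [StarRing K] (B : Type*) [Ring B] [StarRing B]
    [Algebra K B] [StarModule K B] [Algebra.IsCentral K B] [IsSimpleRing B]
    [FiniteDimensional K B] : Prop :=
  ∀ m : ℕ, ∃ m' : ℕ, ∀ u : unitary B, ∀ g ∈ Um K B m', u * g * u⁻¹ * g⁻¹ ∈ ⁅Um K B m, Um K B m⁆


namespace P53

section Val
variable {K : Type*} [Field K] [NumberField K] [StarRing K] {B : Type*} [Ring B] [StarRing B]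
  [Algebra K B] [StarModule K B] [Algebra.IsCentral K B] [IsSimpleRing B] [FiniteDimensional K B]

/-- one element -/
theorem contU_one (hT : (TT K B).Finite) (hC : Cof K B) {w₀ : Pl K} (hw₀ : w₀ ∈ TT K B) (m : ℕ)
    (u : unitary B) : ∃ m', ∀ g ∈ Um K B m', u * g * u⁻¹ * g⁻¹ ∈ ⁅Um K B m, Um K B m⁆ := by
  have hB : ∀ x : B, x ≠ 0 → IsUnit x := fun x hx => isUnit_of_ultra hw₀.2 hx
  by_cases hu : (u : B) + 1 = 0
  · refine ⟨0, fun g _ => ?_⟩
    have : u * g = g * u := Subtype.ext (by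
      rw [Submonoid.coe_mul, Submonoid.coe_mul, eq_neg_of_add_eq_zero_left hu]; simp)
    rw [this]
    simp
  obtain ⟨y₀, ⟨-, hy₀⟩, q, hq, hc⟩ := exists_gen hB (relIndex_SUm hT hC m) u hu
  have hx₀ := hB _ hu
  have hs₀ : IsUnit (star ((u : B) + 1)) := hx₀.star
  obtain ⟨m₁, h₁⟩ := aeval_cont' hT q hx₀ m
  obtain ⟨m₂, h₂⟩ := aeval_cont' hT (q.map (starRingEnd K)) hs₀ m
  refine ⟨max m (max m₁ m₂), fun g hg => ?_⟩
  have hgm : g ∈ Um K B m := Um_anti (le_max_left _ _) hg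
  set y := y₀ * g with hy
  have hym : y ∈ Um K B m := mul_mem hy₀ hgm
  have v1 : ∀ z ∈ Um K B m, ∀ w ∈ TT K B, val w (z : B) = 1 :=
    fun z hz _ hw => Deep.val_eq_one hz hw
  have d1 : ∀ w ∈ TT K B, val w ((y : B) - y₀) < exp (-((max m (max m₁ m₂) : ℕ) : ℤ)) := by
    intro w hw
    have : (y : B) - y₀ = y₀ * ((g : B) - 1) := by rw [hy, mul_sub, mul_one]; rfl
    rw [this, val_mul, v1 _ hy₀ w hw, one_mul]
    exact hg w hw
  have d2 : ∀ w ∈ TT K B,
      val w (star (y : B) - star (y₀ : B)) < exp (-((max m (max m₁ m₂) : ℕ) : ℤ)) := by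
    intro w hw
    have : star (y : B) - star (y₀ : B) = (((g⁻¹ : unitary B) : B) - 1) * (y₀⁻¹ : unitary B) := by
      rw [hy, sub_mul, one_mul, Submonoid.coe_mul, star_mul]; rfl
    rw [this, val_mul, v1 _ (inv_mem hy₀) w hw, mul_one]
    exact inv_mem hg w hw
  set x := aeval (y : B) q with hx
  have e1 : Ring.inverse ((u : B) + 1) * x ∈ Deep K B m := deep_of_near hx₀ fun w hw => by
    rw [← hq] at h₁ ⊢
    exact h₁ w hw _ _ (v1 _ hym w hw).le (v1 _ hy₀ w hw).le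
      ((d1 w hw).trans_le (exp_neg_anti ((le_max_left _ _).trans (le_max_right _ _))))
  have e2 : Ring.inverse (star ((u : B) + 1)) * star x ∈ Deep K B m :=
    deep_of_near hs₀ fun w hw => by
      have := h₂ w hw (star (y : B)) (star (y₀ : B)) (v1 _ (inv_mem hym) w hw).le
        (v1 _ (inv_mem hy₀) w hw).le
        ((d2 w hw).trans_le (exp_neg_anti ((le_max_right _ _).trans (le_max_right _ _))))
      rwa [← star_aeval, ← star_aeval, hq] at this
  have hxu : IsUnit x := by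
    refine hB _ fun h => ?_
    have := Deep.val_eq_one e1 hw₀
    rw [h, mul_zero, val_zero] at this
    exact zero_ne_one this
  have cy : Commute (y : B) (star (y : B)) := y.2.2.trans y.2.1.symm
  have ca : ∀ (z : B) (p : K[X]) (b : B), Commute b z → Commute b (aeval z p) := fun z p b h =>
    Algebra.commute_of_mem_adjoin_singleton_of_commute (aeval_mem_adjoin_singleton K z) h
  have c1 : Commute (y : B) x := ca _ _ _ (Commute.refl _)
  have c2 : Commute (y : B) (star x) := by rw [hx, star_aeval]; exact ca _ _ _ cy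
  have c3 : Commute x (star x) := by
    rw [hx, star_aeval]; exact ca _ _ _ (ca _ _ _ cy.symm).symm
  obtain ⟨v, hv⟩ := hxu
  let u' : unitary B := ⟨_, unitary_of_normal v (by rw [hv]; exact c3.eq)⟩
  have hu' : star x * (u' : B) = x := by
    change star x * (star ((v⁻¹ : Bˣ) : B) * v) = x
    rw [← mul_assoc, ← star_mul, ← hv, v.inv_mul, star_one, one_mul]
  have hsx : IsUnit (star x) := (hv ▸ v.isUnit : IsUnit x).star
  have c4 : Commute u' y := Subtype.ext (hsx.mul_left_cancel (by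
    change star x * ((u' : B) * y) = star x * ((y : B) * u')
    rw [← mul_assoc, hu', ← mul_assoc, ← c2.eq, mul_assoc, hu', c1.eq]))
  have hsu : star ((u : B) + 1) * u = u + 1 := by
    rw [star_add, star_one, add_mul, u.2.1, one_mul, add_comm]
  have hd : u⁻¹ * u' ∈ Um K B m := by
    -- `u⁻¹ u' = (u⁻¹ A⁻¹ u) (x₀⁻¹ x)` with `A = (star x₀)⁻¹ star x`
    have f1 : Ring.inverse (star x) * star ((u : B) + 1) ∈ Deep K B m := Deep.inv e2 (by
      rw [mul_assoc, Ring.mul_inverse_cancel_left _ _ hs₀, Ring.inverse_mul_cancel _ hsx])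
    have f2 := (Deep K B m).mul_mem (Deep.conj f1 (g := star (u : B)) (g' := (u : B)) u.2.1) e1
    have f3 : Ring.inverse (star x) * x = u' := by
      rw [← Ring.inverse_mul_cancel_left (star x) (u' : B) hsx, hu']
    rw [mul_assoc _ _ (u : B), mul_assoc _ _ (u : B), hsu, mul_assoc, mul_assoc,
      Ring.mul_inverse_cancel_left _ _ hx₀, f3] at f2
    exact f2
  have hn : (⁅Um K B m, Um K B m⁆ : Subgroup (unitary B)).Normal := inferInstance
  have k1 := hn.conj_mem _ (Subgroup.commutator_mem_commutator (inv_mem hd) hym) u'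
  have k2 := hn.conj_mem _ k1 y₀⁻¹
  have k3 : u' * ⁅(u⁻¹ * u')⁻¹, y⁆ * u'⁻¹ = u * y * u⁻¹ * (u' * y⁻¹ * u'⁻¹) := by
    rw [commutatorElement_def]; group
  have k4 : u' * y⁻¹ * u'⁻¹ = y⁻¹ := by rw [c4.inv_right.eq, mul_inv_cancel_right]
  rw [k3, k4, hy, ← mul_assoc u, hc.eq] at k2
  convert k2 using 1
  group

theorem contU (hT : (TT K B).Finite) (hC : Cof K B) : ContU K B := by
  intro m
  by_cases hw : ∃ w, w ∈ TT K B
  swap
  · exact ⟨m, fun u g hg => Subgroup.commutator_mem_commutator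
      (show u ∈ Um K B m from fun w h => absurd ⟨w, h⟩ hw) hg⟩
  obtain ⟨w₀, hw₀⟩ := hw
  have hn : (⁅Um K B m, Um K B m⁆ : Subgroup (unitary B)).Normal := inferInstance
  let H : ℕ → Subgroup (unitary B) := fun n =>
    { carrier := {u | ∀ g ∈ Um K B n, u * g * u⁻¹ * g⁻¹ ∈ ⁅Um K B m, Um K B m⁆}
      one_mem' := fun g _ => by simp
      mul_mem' := fun {a b} ha hb g hg => by
        convert mul_mem (hn.conj_mem _ (hb g hg) a) (ha g hg) using 1
        group
      inv_mem' := fun {a} ha g hg => by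
        convert hn.conj_mem _ (inv_mem (ha g hg)) a⁻¹ using 1
        group }
  have hmono : Monotone H := fun i j hij u hu g hg => hu g (Um_anti hij hg)
  have hall : ∀ u, ∃ n, u ∈ H n := contU_one hT hC hw₀ m
  have hUm : Um K B m ≤ H m := fun u hu g hg => Subgroup.commutator_mem_commutator hu hg
  obtain ⟨m₁, h₁⟩ : ∃ m₁, U0 K B ≤ H m₁ := by
    obtain ⟨A, _, f, hf⟩ := fin_cls hT hC m
    have : ∀ a : A, ∃ n, ∀ x ∈ U0 K B, f x = a → x ∈ H n := fun a => by
      by_cases h : ∃ x ∈ U0 K B, f x = a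
      · obtain ⟨x, hx, rfl⟩ := h
        obtain ⟨n, hn⟩ := hall x
        refine ⟨max n m, fun y hy e => ?_⟩
        have := mul_mem (hmono (le_max_left n m) hn)
          (hmono (le_max_right n m) (hUm (hf x hx y hy e.symm)))
        rwa [mul_inv_cancel_left] at this
      · exact ⟨0, fun x hx e => absurd ⟨x, hx, e⟩ h⟩
    choose n hn using this
    obtain ⟨M, hM⟩ := (Set.finite_range n).bddAbove
    exact ⟨M, fun x hx => hmono (hM ⟨_, rfl⟩) (hn _ x hx rfl)⟩
  have := hT.to_subtype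
  let ν : unitary B → TT K B → ℤ := fun u w => log (val w.1 (u : B))
  have ν_mul : ∀ a b, ν (a * b) = ν a + ν b := fun a b => funext fun w => by
    simp only [ν, Submonoid.coe_mul, val_mul, Pi.add_apply]
    exact log_mul (val_unitary _ a) (val_unitary _ b)
  have ν_one : ν 1 = 0 := funext fun w => by simp [ν]
  have ν_inv : ∀ a, ν a⁻¹ = -ν a := fun a =>
    eq_neg_of_add_eq_zero_left (by rw [← ν_mul, inv_mul_cancel, ν_one])
  let Λ : ℕ → AddSubgroup (TT K B → ℤ) := fun n =>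
    { carrier := ν '' H n
      zero_mem' := ⟨1, one_mem _, ν_one⟩
      add_mem' := by
        rintro _ _ ⟨a, ha, rfl⟩ ⟨b, hb, rfl⟩
        exact ⟨a * b, mul_mem ha hb, ν_mul a b⟩
      neg_mem' := by
        rintro _ ⟨a, ha, rfl⟩
        exact ⟨a⁻¹, inv_mem ha, ν_inv a⟩ }
  obtain ⟨n, hn'⟩ := monotone_stabilizes_iff_noetherian.2
    (inferInstance : IsNoetherian ℤ (TT K B → ℤ))
    ⟨fun n => (Λ n).toIntSubmodule, fun i j hij _ ⟨a, ha, e⟩ => ⟨a, hmono hij ha, e⟩⟩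
  refine ⟨max n m₁, fun u => ?_⟩
  obtain ⟨j, hj⟩ := hall u
  have h2 : ν u ∈ (Λ (max n j)).toIntSubmodule := ⟨u, hmono (le_max_right n j) hj, rfl⟩
  have h3 : (Λ n).toIntSubmodule = (Λ (max n j)).toIntSubmodule := hn' _ (le_max_left n j)
  rw [← h3] at h2
  obtain ⟨a, ha, e⟩ := h2
  have h4 : a⁻¹ * u ∈ U0 K B := fun w hw => by
    have h5 := congrFun (ν_mul a⁻¹ u) ⟨w, hw⟩
    rw [ν_inv, e, neg_add_cancel] at h5
    rw [← exp_log (val_unitary w (a⁻¹ * u))]
    exact (congrArg exp h5).trans exp_zero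
  have := mul_mem (hmono (le_max_left n m₁) ha) (hmono (le_max_right n m₁) (h₁ h4))
  rwa [mul_inv_cancel_left] at this

end Val

end P53


end Crest.Agent.T24
end
end

-- ▼ part T24/HolZ_56

/-! Row 24, HOL step H8: from the germ statement to the central step in odd degree (helper56). -/

set_option autoImplicit false
set_option linter.unusedSectionVars false

noncomputable section

namespace Crest.Agent.T24.HolZ

open Module NumberField IsDedekindDomain WithZero Csa Asa Filter In Ev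
open scoped NumberField commutatorElement

universe u v w

theorem exists_chr {G : Type*} [Group G] [Countable G] (N : Subgroup G)
    (hc : ∀ x y, x * y * x⁻¹ * y⁻¹ ∈ N) (M : ℕ) : ∃ (A : Type) (_ : CommGroup A) (χ : G →* A),
      (∀ a : A, a ^ M = 1) ∧ ∀ x, χ x = 1 ↔ ∃ y, (y ^ M)⁻¹ * x ∈ N := by
  have : N.Normal := ⟨fun n hn g => by simpa using N.mul_mem (hc g n) hn⟩
  let _ : CommGroup (G ⧸ N) :=
    { QuotientGroup.Quotient.group N with
      mul_comm := fun a b => by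
        obtain ⟨a, rfl⟩ := QuotientGroup.mk_surjective a
        obtain ⟨b, rfl⟩ := QuotientGroup.mk_surjective b
        exact QuotientGroup.eq.2 (by simpa [mul_assoc] using hc b⁻¹ a⁻¹) }
  let P := (powMonoidHom M : G ⧸ N →* G ⧸ N).range
  have : Countable ((G ⧸ N) ⧸ P) := ((QuotientGroup.mk'_surjective P).comp
    (QuotientGroup.mk'_surjective N)).countable
  let e : Shrink.{0} ((G ⧸ N) ⧸ P) ≃* (G ⧸ N) ⧸ P := Shrink.mulEquiv
  refine ⟨_, inferInstance, e.symm.toMonoidHom.comp ((QuotientGroup.mk' P).comp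
    (QuotientGroup.mk' N)), fun a => e.injective ?_, fun x => ?_⟩
  · obtain ⟨b, hb⟩ := QuotientGroup.mk'_surjective P (e a)
    rw [map_pow, map_one, ← hb, ← map_pow]
    exact (QuotientGroup.eq_one_iff _).2 ⟨b, rfl⟩
  refine (map_eq_one_iff e.symm e.symm.injective).trans ((QuotientGroup.eq_one_iff _).trans
    ⟨fun ⟨y, hy⟩ => ?_, fun ⟨y, hy⟩ => ⟨y, QuotientGroup.eq.2 hy⟩⟩)
  obtain ⟨y, rfl⟩ := QuotientGroup.mk_surjective y
  exact ⟨y, QuotientGroup.eq.1 hy⟩

theorem exists_tors (K : Type*) [Field K] [NumberField K] :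
    ∃ r : ℕ, r ≠ 0 ∧ ∀ (c : K) (n : ℕ), n ≠ 0 → c ^ n = 1 → c ^ r = 1 := by
  have h : {c : K | IsOfFinOrder c}.Finite := (Embeddings.finite_of_norm_le K ℂ 1).subset
    fun c hc => by
      obtain ⟨n, h0, hn⟩ := isOfFinOrder_iff_pow_eq_one.1 hc
      refine ⟨IsIntegral.of_pow h0 (hn ▸ isIntegral_one), fun φ => ?_⟩
      exact (pow_le_one_iff_of_nonneg (norm_nonneg _) h0.ne').1 (by rw [← norm_pow, ← map_pow, hn]; simp)
  refine ⟨∏ c ∈ h.toFinset, orderOf c, Finset.prod_ne_zero_iff.2 fun c hc =>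
    (h.mem_toFinset.1 hc).orderOf_pos.ne', fun c n h0 hn => orderOf_dvd_iff_pow_eq_one.1 ?_⟩
  exact Finset.dvd_prod_of_mem _ (h.mem_toFinset.2
    (isOfFinOrder_iff_pow_eq_one.2 ⟨n, Nat.pos_of_ne_zero h0, hn⟩))

theorem exists_N {K : Type*} [Field K] [NumberField K] {T : Set (Pl K)} (h : T.Finite) :
    ∃ N : ℕ, 2 ≤ N ∧ ∀ v ∈ T, (N : 𝓞 K) ∈ v.asIdeal := by
  refine ⟨2 * ∏ v ∈ h.toFinset, Ideal.absNorm v.asIdeal, ?_, fun v hv => ?_⟩
  · have : 0 < ∏ v ∈ h.toFinset, Ideal.absNorm v.asIdeal := Finset.prod_pos fun v _ =>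
      Nat.pos_of_ne_zero (Ideal.absNorm_eq_zero_iff.not.2 v.ne_bot)
    omega
  · obtain ⟨c, hc⟩ := Finset.dvd_prod_of_mem (fun v : Pl K => Ideal.absNorm v.asIdeal)
      (h.mem_toFinset.2 hv)
    rw [hc, Nat.cast_mul, Nat.cast_mul]
    exact Ideal.mul_mem_left _ _ (Ideal.mul_mem_right _ _ (Ideal.absNorm_mem _))

section Words
variable (K : Type*) [Field K] [NumberField K] [StarRing K] (B : Type*) [Ring B] [StarRing B]
  [Algebra K B] [StarModule K B] [Algebra.IsCentral K B] [IsSimpleRing B] [FiniteDimensional K B]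

/-- the output of the holonomy step -/
def Hol : Prop := ∀ [Algebra ℚ B] (A : Type) [CommGroup A] (n : ℕ), n ≠ 0 → (∀ a : A, a ^ n = 1) →
  ∀ (m : ℕ) (f : B → A), Stab.Ch (fun x => x ∈ unitary B ∧ x ∈ Deep K B m) f →
    ∃ N : ℕ, 2 ≤ N ∧ ∀ᶠ x in ng N (1 : B), x ∈ unitary B → Nrd K x = 1 → f x = 1

/-- the Heisenberg step -/
def Heis : Prop := ∀ (m : ℕ) (N : Subgroup (unitary B)), N ≤ SU K B → N.relIndex (SU K B) ≠ 0 →
  (∀ u : unitary B, ∀ g ∈ SUm K B m, u * g * u⁻¹ * g⁻¹ ∈ N) →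
  ∃ m₁, ∀ x ∈ Um K B m₁, ∀ y ∈ Um K B m₁, x * y * x⁻¹ * y⁻¹ ∈ N

variable {K B}

/-- near `1` means deep -/
theorem deep_nr [Algebra ℚ B] (hC : Cof K B) {N : ℕ} (hN : N ≠ 0)
    (hT : ∀ w ∈ TT K B, (N : 𝓞 K) ∈ w.asIdeal) (m : ℕ) : ∀ᶠ x in nr N (1 : B), x ∈ Deep K B m := by
  have h := (N23.finite_N hN).subset hT
  refine ((eventually_all_finite h).2 fun w hw => ?_).mono fun x hx => hx
  obtain ⟨m', hm⟩ := (hC w hw.2 (finBasis K B) m).1
  filter_upwards [(N23.basis_val (finBasis K B) hN (1 : B)).mem_of_mem (i := m') trivial] with x hx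
  exact hm _ (hx w (hT w hw))

theorem normal_of (N : Subgroup (unitary B)) (h : GUInv K N) : N.Normal :=
  ⟨fun n hn g => h (Unitary.toUnits g) 1 (by simp) n hn _ (by simp)⟩

theorem nc_of (hP : Pow K B) {N : Subgroup (unitary B)} [hn : N.Normal] (h1 : N ≤ SU K B)
    (h2 : N.relIndex (SU K B) ≠ 0) : NC K N := by
  obtain ⟨-, x, hx, g, hg, h⟩ := hP 0 _ h2
  exact ⟨h1, fun g _ x hx => hn.conj_mem x hx g, _, N.pow_relIndex_mem hx.1, g, hg, h⟩

/-- the invariant character -/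
theorem exists_ch {N : Subgroup (unitary B)} [N.Normal] (h1 : N ≤ SU K B)
    (h2 : N.relIndex (SU K B) ≠ 0) {m : ℕ} (h : ∀ u, ∀ g ∈ Um K B m, u * g * u⁻¹ * g⁻¹ ∈ N) :
    ∃ (A : Type) (_ : CommGroup A) (n : ℕ) (f : B → A), n ≠ 0 ∧ (∀ a : A, a ^ n = 1) ∧
      Stab.Ch (fun x => x ∈ unitary B ∧ x ∈ Deep K B m) f ∧
      ∀ g ∈ SUm K B m, f (g : B) = 1 → g ∈ N := by
  classical
  have : Countable K := Finsupp.Countable.of_moduleFinite (R := ℚ)
  have : Countable B := Finsupp.Countable.of_moduleFinite (R := K)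
  obtain ⟨r, h0, hr⟩ := exists_tors K
  have hM := mul_ne_zero h0 h2
  obtain ⟨A, _, χ, h3, h4⟩ := exists_chr (N.subgroupOf (Um K B m)) (fun x y => h x y y.2)
    (r * N.relIndex (SU K B))
  let f : B → A := fun x => if h : x ∈ unitary B ∧ x ∈ Deep K B m then χ ⟨⟨x, h.1⟩, h.2⟩ else 1
  have hf : ∀ g : Um K B m, f ((g : unitary B) : B) = χ g := fun g => dif_pos ⟨g.1.2, g.2⟩
  refine ⟨A, _, _, f, hM, h3, ⟨fun _ h => h.1, fun x y hx hy => ⟨mul_mem hx.1 hy.1, mul_mem hx.2 hy.2⟩,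
    fun x hx => ⟨Unitary.star_mem hx.1, Deep.inv hx.2 hx.1.1⟩, fun u x hu hx => ⟨mul_mem
      (mul_mem hu hx.1) (Unitary.star_mem hu), Deep.conj hx.2 hu.2⟩, fun x y hx hy => ?_,
    fun u x hu hx => ?_⟩, fun g hg h5 => ?_⟩
  · exact (hf (⟨⟨x, hx.1⟩, hx.2⟩ * ⟨⟨y, hy.1⟩, hy.2⟩)).trans (by
      rw [map_mul, ← hf, ← hf])
  · let U : unitary B := ⟨u, hu⟩
    let X : Um K B m := ⟨⟨x, hx.1⟩, hx.2⟩
    let Y : Um K B m := ⟨U * X * U⁻¹, (inferInstance : (Um K B m).Normal).conj_mem _ X.2 U⟩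
    refine (hf Y).trans (Eq.trans ?_ (hf X).symm)
    rw [← mul_inv_eq_one, ← map_inv, ← map_mul, h4]
    exact ⟨1, by simpa [Subgroup.mem_subgroupOf] using h U X X.2⟩
  · obtain ⟨y, hy⟩ := (h4 ⟨g, hg.2⟩).1 ((hf _).symm.trans h5)
    replace hy : ((y : unitary B) ^ (r * N.relIndex (SU K B)))⁻¹ * g ∈ N := hy
    have h6 := (SU K B).inv_mem ((SU K B).mul_mem (h1 hy) ((SU K B).inv_mem hg.1))
    rw [mul_inv_cancel_right, inv_inv, mem_SU, SubmonoidClass.coe_pow, map_pow] at h6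
    have h7 : (y : unitary B) ^ r ∈ SU K B := by
      rw [mem_SU, SubmonoidClass.coe_pow, map_pow]; exact hr _ _ hM h6
    simpa [← pow_mul] using N.mul_mem (N.pow_relIndex_mem h7) hy

end Words

section Glob
variable (k K B : Type*) [Field k] [NumberField k] [Field K] [NumberField K] [Algebra k K]
  [StarRing K] [Quad k K] [Ring B] [StarRing B] [Algebra K B] [StarModule K B]
  [Algebra.IsCentral K B] [IsSimpleRing B] [FiniteDimensional K B] [Algebra k B]
  [IsScalarTower k K B]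

theorem ng_basis [Algebra ℚ B] {N : ℕ} (hN : N ≠ 0) (a : B) :
    (ng N a).HasBasis (fun p : ℕ × ℝ => True ∧ 0 < p.2) fun p => {x | ∀ v : Pl k,
      (N : 𝓞 k) ∈ v.asIdeal → ∀ i, v.valuation k ((eb k K B).repr (x - a) i) ≤ exp (-(p.1 : ℤ))} ∩
      {x | ∀ (φ : k →+* ℂ) i, ‖φ ((eb k K B).repr (x - a) i)‖ < p.2} :=
  (N23.basis_val (eb k K B) hN a).inf (basis_na (eb k K B) a)

/-- the bridge between the two filters -/
theorem nb_le_ng [Algebra ℚ B] {N : ℕ} (hN : N ≠ 0) {S : Finset (Pl k)}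
    (hS : ∀ v : Pl k, (N : 𝓞 k) ∈ v.asIdeal → v ∈ S) (a : B) : nb k K B S a ≤ ng N a := by
  refine (ng_basis k K B hN a).ge_iff.2 fun p hp => inter_mem ?_ ?_
  · refine ((eventually_all_finite (N23.finite_N hN)).2 fun v hv => eventually_all.2 fun i =>
      ?_).mono fun x hx => hx
    simpa using ev_val (nb_lin (tendsto_id (x := nb k K B S a)) ((eb k K B).coord i)) (hS v hv) p.1
  · refine eventually_all.2 fun φ => eventually_all.2 fun i => ?_
    simpa [InfinitePlace.apply, -map_sub, ← Finsupp.sub_apply, ← map_sub] using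
      ev_inf (nb_lin (tendsto_id (x := nb k K B S a)) ((eb k K B).coord i)) (InfinitePlace.mk φ) hp.2


variable {k K B}

/-- a non-central normal subgroup containing the elements of `SU` near `1` is congruence -/
theorem le_of_near (hW : WaN k K B) {N : Subgroup (unitary B)} (hN : NC K N) {S : Finset (Pl k)}
    (h : ∀ᶠ x in nb k K B S 1, ∀ g ∈ SU K B, (g : B) = x → g ∈ N) : ∃ m, SUm K B m ≤ N := by
  obtain ⟨m, hm⟩ := hW N hN
  refine ⟨m, fun g hg => ?_⟩
  have h1 := nb_mul (nb_const (star (g : B))) (tendsto_id (x := nb k K B S (g : B)))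
  rw [g.2.1] at h1
  obtain ⟨U, hU, h2⟩ := mem_nb.1 (h1 h)
  obtain ⟨n, hn, h3⟩ := hm S g (fun _ => g) hg.1 (fun _ => hg.1) (fun _ _ _ => hg) U hU
  have h4 := h2 _ h3 (g⁻¹ * n) (mul_mem (inv_mem hg.1) (hN.le hn)) rfl
  simpa using mul_mem hn (inv_mem h4)

theorem cenU_of (hd : 2 ≤ deg K B) (hV : Val K B) (hC : Cof K B) (hH : Heis K B) (hW : WaN k K B)
    (hZ : Hol K B) : CenU K B := by
  classical
  intro m N h1 h2 h3 h4
  let _ : Algebra ℚ B := ((algebraMap K B).comp (algebraMap ℚ K)).toAlgebra'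
    fun c x => Algebra.commutes _ x
  have := normal_of N h3
  obtain ⟨m₁, h5⟩ := hH m N h1 h2 h4
  obtain ⟨m₂, h6⟩ := P53.contU hV.1 hC m₁
  obtain ⟨A, _, n, f, h7, h8, h9, h10⟩ := exists_ch h1 h2 (m := m₂) fun u g hg =>
    Subgroup.commutator_le.2 h5 (h6 u g hg)
  obtain ⟨N₁, hN₁, h11⟩ := hZ A n h7 h8 m₂ f h9
  obtain ⟨N₀, hN₀, h12⟩ := exists_N hV.1
  have e₀ : N₀ ≠ 0 := by omega
  have e₁ : N₁ ≠ 0 := by omega
  let S := (N23.finite_N (K := k) e₀).toFinset ∪ (N23.finite_N (K := k) e₁).toFinset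
  refine le_of_near hW (nc_of (P53.pow (Quad.ne (k := k)) hd hV.1 hC) h1 h2) (S := S) ?_
  filter_upwards [nb_le_ng k K B e₁ (S := S) (fun v hv => by simp [S, hv]) 1 h11,
    nb_le_ng k K B e₀ (S := S) (fun v hv => by simp [S, hv]) 1
      (ng_le_nr 1 (deep_nr hC e₀ h12 m₂))] with x h13 h14
  rintro g hg rfl
  exact h10 g ⟨hg, h14⟩ (h13 g.2 hg)

end Glob

def HolStmt : Prop := ∀ D : Dat.{u, v, w}, 3 ≤ deg D.K D.B → Odd (deg D.K D.B) → Hol D.K D.B


end Crest.Agent.T24.HolZ
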