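import Crest.Agent.T24.EvBrDef_21
import Crest.Agent.T24.EvTor_62
import Crest.Agent.T24.HolZ_56

-- ▼ part T24/EvBrA_21
section

/-!
# Row 24, even step (helper21): the algebra `k[ω]⟨i, κ⟩` and the root trick
-/

set_option autoImplicit false
set_option linter.unusedSectionVars false

noncomputable section

namespace Crest.Agent.T24.Ev.B21

open Module NumberField WithZero Csa Asa Topology Filter Polynomial
open scoped Valued

universe u

section Alg
variable {k B : Type*} [Field k] [Ring B] [Algebra k B]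

theorem comm_aeval {a b : B} (h : Commute a b) (P : k[X]) : Commute (aeval a P) b := by
  rw [aeval_eq_sum_range]
  exact Commute.sum_left _ _ _ fun j _ => (h.pow_left j).smul_left _

theorem inverse_mem [FiniteDimensional k B] (C : Subalgebra k B) {x : B} (hx : x ∈ C)
    (hu : IsUnit x) : Ring.inverse x ∈ C := by
  have hinj : Function.Injective (LinearMap.mulLeft k (⟨x, hx⟩ : C)) := fun a b h =>
    Subtype.ext (hu.mul_left_cancel (congrArg Subtype.val h))
  obtain ⟨y, hy⟩ := LinearMap.surjective_of_injective hinj 1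
  have h1 : x * y = 1 := congrArg Subtype.val hy
  rw [← mul_one (Ring.inverse x), ← h1, Ring.inverse_mul_cancel_left _ _ hu]
  exact y.2

/-- the element with given coordinates -/
def el (i κ ω : B) (a b c d : k[X]) : B :=
  aeval ω a + aeval ω b * i + aeval ω c * κ + aeval ω d * (i * κ)

variable {ε : kˣ} {i κ ω : B} {β : k[X]}

theorem el_add (a b c d a' b' c' d' : k[X]) : el i κ ω a b c d + el i κ ω a' b' c' d' =
    el i κ ω (a + a') (b + b') (c + c') (d + d') := by
  simp only [el, map_add, add_mul]; abel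

theorem aeval_mul_el (g a b c d : k[X]) : aeval ω g * el i κ ω a b c d =
    el i κ ω (g * a) (g * b) (g * c) (g * d) := by
  simp only [el, map_mul, mul_add, mul_assoc]

variable [StarRing B]

variable (ε i κ ω β) in
/-- the data of `InQ` -/
structure QD : Prop where
  sω : star ω = ω
  si : star i = -i
  sκ : star κ = -κ
  ii : i * i = algebraMap k B ε
  κκ : κ * κ = aeval ω β
  uκ : IsUnit κ
  κi : κ * i = -(i * κ)
  ωi : Commute ω i
  ωκ : Commute ω κ

theorem QD.i_mul (h : QD ε i κ ω β) (a b c d : k[X]) : i * el i κ ω a b c d =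
    el i κ ω (C (ε : k) * b) a (C (ε : k) * d) c := by
  have h1 : ∀ (g : k[X]) (y : B), i * (aeval ω g * y) = aeval ω g * (i * y) := fun g y =>
    (comm_aeval h.ωi g).symm.left_comm y
  have h2 : i * i = (ε : k) • (1 : B) := by rw [h.ii, Algebra.algebraMap_eq_smul_one]
  have h3 : i * (i * κ) = (ε : k) • κ := by rw [← mul_assoc, h2, smul_mul_assoc, one_mul]
  simp only [el, mul_add, h1, ← (comm_aeval h.ωi a).eq, h2, h3, map_mul, aeval_C,
    ← Algebra.smul_def, mul_smul_comm, smul_mul_assoc, mul_one]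
  abel

theorem QD.κ_mul (h : QD ε i κ ω β) (a b c d : k[X]) : κ * el i κ ω a b c d =
    el i κ ω (c * β) (-(d * β)) a (-b) := by
  have h1 : ∀ (g : k[X]) (y : B), κ * (aeval ω g * y) = aeval ω g * (κ * y) := fun g y =>
    (comm_aeval h.ωκ g).symm.left_comm y
  have h2 : κ * (i * κ) = -(aeval ω β * i) := by
    rw [← mul_assoc, h.κi, neg_mul, mul_assoc, h.κκ, (comm_aeval h.ωi β).eq]
  simp only [el, mul_add, h1, h2, ← (comm_aeval h.ωκ a).eq, h.κκ, h.κi, map_mul, map_neg,
    mul_neg, neg_mul, mul_assoc]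
  abel

theorem QD.el_mul (h : QD ε i κ ω β) (a b c d a' b' c' d' : k[X]) :
    el i κ ω a b c d * el i κ ω a' b' c' d' =
      el i κ ω (a * a' + C (ε : k) * b * b' + β * c * c' - C (ε : k) * β * d * d')
        (a * b' + b * a' - β * c * d' + β * d * c')
        (a * c' + c * a' + C (ε : k) * b * d' - C (ε : k) * d * b')
        (a * d' + d * a' + b * c' - c * b') := by
  conv_lhs => rw [el.eq_def i κ ω a b c d]
  simp only [add_mul, mul_assoc, h.κ_mul, h.i_mul, aeval_mul_el, el_add]
  congr 1 <;> ring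

/-- the algebra -/
def QD.alg (h : QD ε i κ ω β) : Subalgebra k B where
  carrier := {x | ∃ a b c d : k[X], x = el i κ ω a b c d}
  mul_mem' := by
    rintro _ _ ⟨a, b, c, d, rfl⟩ ⟨a', b', c', d', rfl⟩
    exact ⟨_, _, _, _, h.el_mul ..⟩
  add_mem' := by
    rintro _ _ ⟨a, b, c, d, rfl⟩ ⟨a', b', c', d', rfl⟩
    exact ⟨_, _, _, _, el_add ..⟩
  algebraMap_mem' r := ⟨C r, 0, 0, 0, by simp [el]⟩

theorem QD.comm (h : QD ε i κ ω β) (g : k[X]) {x : B} (hx : x ∈ h.alg) : Commute (aeval ω g) x := by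
  obtain ⟨a, b, c, d, rfl⟩ := hx
  have h1 : ∀ f : k[X], Commute ω (aeval ω f) := fun f => (comm_aeval (Commute.refl ω) f).symm
  exact comm_aeval ((((h1 a).add_right ((h1 b).mul_right h.ωi)).add_right
    ((h1 c).mul_right h.ωκ)).add_right ((h1 d).mul_right (h.ωi.mul_right h.ωκ))) g

theorem QD.ui (h : QD ε i κ ω β) : IsUnit i :=
  (isUnit_pow_iff two_ne_zero).1 (by rw [pow_two, h.ii]; exact ε.isUnit.map _)

end Alg

section Words
variable {k : Type u} (K : Type*) {B : Type*} [Field k] [NumberField k] [Field K] [NumberField K]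
  [Algebra k K] [StarRing K] [Quad k K] [Ring B] [StarRing B] [Algebra K B] [StarModule K B]
  [Algebra.IsCentral K B] [IsSimpleRing B] [FiniteDimensional K B] [Algebra k B]
  [IsScalarTower k K B] {ε : kˣ} {i κ ω : B} {β : k[X]}

include K in
theorem star_aeval (x : B) (P : k[X]) : star (aeval x P) = aeval (star x) P := by
  simp only [aeval_eq_sum_range, star_sum, star_ksmul k K B, star_pow]

include K in
theorem QD.star_el (h : QD ε i κ ω β) (a b c d : k[X]) :
    star (el i κ ω a b c d) = el i κ ω a (-b) (-c) (-d) := by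
  simp only [el, star_add, star_mul, star_aeval K, h.sω, h.si, h.sκ, neg_mul, mul_neg, neg_neg,
    h.κi, map_neg, (comm_aeval h.ωi b).eq, (comm_aeval h.ωκ c).eq,
    (comm_aeval (h.ωi.mul_right h.ωκ) d).eq]

include K in
theorem QD.star_mem (h : QD ε i κ ω β) {x : B} (hx : x ∈ h.alg) : star x ∈ h.alg := by
  obtain ⟨a, b, c, d, rfl⟩ := hx
  exact ⟨_, _, _, _, h.star_el K ..⟩

theorem nrd_line (a : B) {u : B} (hu : IsUnit u) :
    ∃ P : K[X], P ≠ 0 ∧ ∀ t : k, Nrd K (a + t • u) = P.eval (algebraMap k K t) := by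
  obtain ⟨u, rfl⟩ := hu
  refine ⟨rch K (-(a * (u⁻¹ : Bˣ))) * C (Nrd K (u : B)), mul_ne_zero (rch_monic K _).ne_zero
    (C_ne_zero.2 ((isUnit_iff_Nrd _).1 u.isUnit)), fun t => ?_⟩
  rw [eval_mul, eval_C, eval_rch, ← map_mul, sub_neg_eq_add, add_mul, Units.inv_mul_cancel_right,
    ← IsScalarTower.algebraMap_apply, ← Algebra.smul_def, add_comm]

theorem QD.nrd_star (h : QD ε i κ ω β) {x : B} (hx : x ∈ h.alg) : Nrd K (star x) = Nrd K x := by
  obtain ⟨a, b, c, d, rfl⟩ := hx
  obtain ⟨P₁, -, h1⟩ := nrd_line (k := k) K (el i κ ω a b c d) h.uκ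
  obtain ⟨P₂, -, h2⟩ := nrd_line (k := k) K (star (el i κ ω a b c d)) h.uκ.neg
  obtain ⟨P₃, h0, h3⟩ := nrd_line (k := k) K (el i κ ω 0 0 (C (ε : k) * d) c) (h.ui.mul h.uκ)
  have key : ∀ t : k, ((P₁ - P₂) * P₃).IsRoot (algebraMap k K t) := fun t => by
    have e1 : el i κ ω a b c d + t • κ = el i κ ω a b (c + C t) d := by
      simp only [el, map_add, aeval_C, add_mul, ← Algebra.smul_def]; abel
    have e2 : star (el i κ ω a b c d) + t • -κ = el i κ ω a (-b) (-(c + C t)) (-d) := by
      rw [← h.star_el K, ← e1, star_add, star_ksmul k K B, h.sκ]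
    have e3 : el i κ ω 0 0 (C (ε : k) * d) c + t • (i * κ) =
        el i κ ω 0 0 (C (ε : k) * d) (c + C t) := by
      simp only [el, map_add, aeval_C, add_mul, ← Algebra.smul_def]; abel
    have e4 : el i κ ω 0 0 (C (ε : k) * d) (c + C t) * el i κ ω a b (c + C t) d =
        el i κ ω a (-b) (-(c + C t)) (-d) * el i κ ω 0 0 (C (ε : k) * d) (c + C t) := by
      rw [h.el_mul, h.el_mul]; congr 1 <;> ring
    have e5 := congrArg (Nrd K) e4
    rw [map_mul, map_mul, ← e1, ← e2, ← e3, h1, h2, h3] at e5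
    rw [IsRoot.def, eval_mul, eval_sub]
    linear_combination e5
  have h4 : (P₁ - P₂) * P₃ = 0 := eq_zero_of_infinite_isRoot _
    ((Set.infinite_range_of_injective (algebraMap k K).injective).mono (by
      rintro _ ⟨t, rfl⟩; exact key t))
  have h5 := sub_eq_zero.1 ((mul_eq_zero.1 h4).resolve_right h0)
  have a1 := h1 0
  have a2 := h2 0
  rw [zero_smul, add_zero] at a1 a2
  rw [a1, a2, h5]

/-- roots, approximated by polynomials -/
theorem root_nb {n : ℕ} (hn : n ≠ 0) (S : Finset (Pl k)) : ∀ᶠ x in nb k K B S 1,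
    ∀ V ∈ nb k K B S x, ∃ P : k[X], aeval x P ^ n ∈ V := by
  have h1 := T62.lift_prod (a := (1 : AS k K B S)) (b := (1 : AS k K B S))
    (p₁ := fun x y => y ∈ Algebra.adjoin ℝ {x} ∧ y ^ n = x)
    (p₂ := fun x y => ∀ v : S, y v ∈ Algebra.adjoin (Kv v.1) {x v} ∧ y v ^ n = x v)
    (fun V hV => (Opn.root_one ℝ (Nat.cast_ne_zero.2 hn) hV).mono
      fun x ⟨y, a, b, c⟩ => ⟨y, b, a, c⟩)
    (T62.lift_pi (p := fun v : S => fun x y => y ∈ Algebra.adjoin (Kv v.1) {x} ∧ y ^ n = x)
      fun v V hV =>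
        haveI : CharZero (Kv v.1) := algebraRat.charZero _
        (Opn.root_one (Kv v.1) (Nat.cast_ne_zero.2 hn) hV).mono
          fun x ⟨y, a, b, c⟩ => ⟨y, b, a, c⟩) Set.univ univ_mem
  rw [← map_one (jA k K B S)] at h1
  filter_upwards [(tendsto_nb.1 tendsto_id).eventually h1] with x ⟨y, _, p1, p2⟩ V hV
  obtain ⟨U, hU, hV⟩ := mem_nb.1 hV
  have h2 : y ^ n = jA k K B S x := Prod.ext p1.2 (funext fun v => (p2 v).2)
  rw [← h2] at hU
  obtain ⟨_, h3, P, rfl⟩ := mem_closure_iff_nhds.1 (T62.mem_cl p1.1 fun v => (p2 v).1) _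
    ((continuous_pow n).continuousAt.preimage_mem_nhds hU)
  exact ⟨P, hV _ (by rwa [map_pow, ← aeval_algHom_apply])⟩

/-- the root trick -/
theorem uniform {N : Subgroup (unitary B)} [N.Normal] (hN : N.relIndex (SU K B) ≠ 0)
    (S : Finset (Pl k)) : ∀ᶠ x in nb k K B S 1, ∀ u : unitary B, (u : B) = x →
      ∀ (ε : kˣ) (i κ ω : B) (β : k[X]) (h : QD ε i κ ω β), x ∈ h.alg →
      (∀ᶠ y in nb k K B S 1, y ∈ h.alg → ∀ u' : unitary B, (u' : B) = y → u' ∈ N) → u ∈ N := by
  have := finite_kB k K B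
  have h0 : Tendsto (fun x : B => (2⁻¹ : k) • (1 + x)) (nb k K B S 1) (nb k K B S 1) := by
    have := nb_smul (nbk_const (2⁻¹ : k)) (nb_add (nb_const (1 : B)) (tendsto_id (x := nb k K B S 1)))
    rwa [← two_smul k, smul_smul, inv_mul_cancel₀ two_ne_zero, one_smul] at this
  filter_upwards [h0.eventually (root_nb K hN S), ev_isUnit h0 isUnit_one]
    with x hx hu u e ε i κ ω β h hq hV
  subst e
  set x₀ : B := (2⁻¹ : k) • (1 + (u : B)) with hx₀
  have c1 : Commute (u : B) (star (u : B)) := u.2.2.trans u.2.1.symm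
  have s0 : star x₀ = (2⁻¹ : k) • (1 + star (u : B)) := by
    rw [hx₀, star_ksmul k K B, star_add, star_one]
  have c2 : Commute x₀ (star x₀) := by
    rw [s0]
    exact (((Commute.one_left _).add_left ((Commute.one_right _).add_right c1)).smul_left
      _).smul_right _
  have c3 : Commute (u : B) x₀ := ((Commute.one_right _).add_right (Commute.refl _)).smul_right _
  have h1 := nb_mul (nb_mul (nb_const (u : B)) (nb_inverse (tendsto_id (x := nb k K B S x₀)) hu))
    (nb_star tendsto_id)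
  have e1 : (u : B) * Ring.inverse x₀ * star x₀ = 1 := by
    rw [(Opn.commute_inverse c3).eq, mul_assoc, s0, mul_smul_comm, mul_add, mul_one, u.2.2,
      add_comm, ← hx₀, Ring.inverse_mul_cancel _ hu]
  rw [e1] at h1
  obtain ⟨P, p1, p2⟩ := hx _ ((h1.eventually hV).and (ev_isUnit tendsto_id hu))
  have q0 : x₀ ∈ h.alg := Subalgebra.smul_mem _ (add_mem (one_mem _) hq) _
  have q1 : aeval x₀ P ∈ h.alg := by
    rw [aeval_eq_sum_range]
    exact sum_mem fun j _ => Subalgebra.smul_mem _ (pow_mem q0 j) _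
  have c4 : Commute (aeval x₀ P) (star (aeval x₀ P)) := by
    rw [star_aeval K]; exact comm_aeval (comm_aeval c2.symm P).symm P
  generalize aeval x₀ P = y at p1 p2 q1 c4
  have hy : IsUnit y := (isUnit_pow_iff hN).1 p2
  have c5 := (Opn.commute_inverse c4.symm).symm
  have e2 : star (Ring.inverse y * star y) * (Ring.inverse y * star y) = 1 := by
    rw [star_mul, star_star, ← Ring.inverse_star, c5.eq, mul_assoc,
      Ring.inverse_mul_cancel_left _ _ hy.star, Ring.mul_inverse_cancel _ hy]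
  let z : unitary B := ⟨_, e2, Lan.mul_eq_one_symm (eb k K B) e2⟩
  have hz : z ∈ SU K B := by
    change Nrd K (Ring.inverse y * star y) = 1
    rw [map_mul, h.nrd_star K q1, ← map_mul, Ring.inverse_mul_cancel _ hy, map_one]
  have e3 : ((u * z ^ N.relIndex (SU K B) : unitary B) : B) = (u : B) *
      Ring.inverse (y ^ N.relIndex (SU K B)) * star (y ^ N.relIndex (SU K B)) := by
    change (u : B) * (Ring.inverse y * star y) ^ N.relIndex (SU K B) = _
    rw [c5.mul_pow, Ring.inverse_pow, star_pow, mul_assoc]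
  have := p1 (mul_mem (mul_mem hq (inverse_mem _ (pow_mem q1 _) p2))
    (h.star_mem K (pow_mem q1 _))) _ e3
  exact (mul_mem_cancel_right (N.pow_relIndex_mem hz)).1 this

end Words

end Crest.Agent.T24.Ev.B21
end
end

-- ▼ part T24/EvCor_20
section

/-!
# Row 24, even step (helper20): the corner algebra
-/

set_option autoImplicit false
set_option linter.unusedSectionVars false

noncomputable section

namespace Crest.Agent.T24.Ev

open Module Csa
open scoped TensorProduct

universe u v w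

namespace C20

theorem exists_fac {Ω n : Type*} [Field Ω] [Fintype n] [DecidableEq n] {E : Matrix n n Ω}
    (h : E * E = E) : ∃ (r : ℕ) (P : Matrix n (Fin r) Ω) (R : Matrix (Fin r) n Ω),
      P * R = E ∧ R * P = 1 := by
  let f := Matrix.toLin' E
  let b := finBasis Ω (LinearMap.range f)
  refine ⟨_, LinearMap.toMatrix b (Pi.basisFun Ω n) (LinearMap.range f).subtype,
    LinearMap.toMatrix (Pi.basisFun Ω n) b f.rangeRestrict, ?_, ?_⟩
  · rw [← LinearMap.toMatrix_comp, show (LinearMap.range f).subtype ∘ₗ f.rangeRestrict = f from rfl,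
      LinearMap.toMatrix_eq_toMatrix', LinearMap.toMatrix'_toLin']
  · rw [← LinearMap.toMatrix_comp, ← LinearMap.toMatrix_id (v₁ := b)]
    congr 1
    ext1 ⟨_, x, rfl⟩
    apply Subtype.ext
    change f (f x) = f x
    rw [← LinearMap.comp_apply, ← Matrix.toLin'_mul, h]

variable {K B : Type*} [Field K] [Ring B] [Algebra K B] {e : B} (he : IsIdempotentElem e)

theorem left (x : he.Corner) : e * x.1 = x.1 := ((Subsemigroup.mem_corner_iff he).1 x.2).1

theorem right (x : he.Corner) : x.1 * e = x.1 := ((Subsemigroup.mem_corner_iff he).1 x.2).2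

/-- an element of the corner -/
def mk (b : B) : he.Corner := ⟨e * b * e, b, rfl⟩

theorem val_mul (x y : he.Corner) : (x * y).1 = x.1 * y.1 := rfl

theorem val_add (x y : he.Corner) : (x + y).1 = x.1 + y.1 := rfl

theorem val_one : (1 : he.Corner).1 = e := rfl


theorem val_sum {ι : Type*} (s : Finset ι) (f : ι → he.Corner) :
    (∑ j ∈ s, f j).1 = ∑ j ∈ s, (f j).1 := by
  classical
  induction s using Finset.induction_on with
  | empty => rfl
  | insert a s h ih => rw [Finset.sum_insert h, Finset.sum_insert h, val_add, ih]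

instance : Module K he.Corner where
  smul c x := ⟨c • x.1, (Subsemigroup.mem_corner_iff he).2
    ⟨by rw [mul_smul_comm, left], by rw [smul_mul_assoc, right]⟩⟩
  one_smul x := Subtype.ext (one_smul K x.1)
  mul_smul a b x := Subtype.ext (mul_smul a b x.1)
  smul_zero a := Subtype.ext (smul_zero a)
  smul_add a x y := Subtype.ext (smul_add a x.1 y.1)
  add_smul a b x := Subtype.ext (add_smul a b x.1)
  zero_smul x := Subtype.ext (zero_smul K x.1)

instance : Algebra K he.Corner := Algebra.ofModule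
  (fun c x y => Subtype.ext (smul_mul_assoc c x.1 y.1))
  fun c x y => Subtype.ext (mul_smul_comm c x.1 y.1)

variable (K) in
/-- the inclusion -/
def inc : he.Corner →ₗ[K] B where
  toFun x := x.1
  map_add' _ _ := rfl
  map_smul' _ _ := rfl

variable [Algebra.IsCentral K B] [IsSimpleRing B]

theorem sand (x : he.Corner) (a b : B) : (mk he a * x * mk he b).1 = e * (a * x.1 * b) * e := by
  change e * a * e * x.1 * (e * b * e) = _
  rw [mul_assoc (e * a), left, mul_assoc e b, ← mul_assoc _ e, mul_assoc _ _ e, right]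
  simp only [mul_assoc]

include K in
theorem simple (h0 : e ≠ 0) : IsSimpleRing he.Corner := by
  have : Nontrivial he.Corner := ⟨1, 0, fun h => h0 (congrArg Subtype.val h)⟩
  refine IsSimpleRing.of_eq_bot_or_eq_top fun I => ?_
  rw [or_iff_not_imp_left, ← I.one_mem_iff]
  intro h
  obtain ⟨x, hx, hx0⟩ := SetLike.exists_of_lt (bot_lt_iff_ne_bot.2 h)
  have h1 : LinearIndependent K fun _ : Unit => x.1 :=
    linearIndependent_unique_iff.2 fun h => hx0 (Subtype.ext h)
  obtain ⟨S, hS⟩ := dens_coord h1 Finset.univ () 1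
  have h2 : ∑ p ∈ S, mk he p.1 * x * mk he p.2 = 1 := Subtype.ext (by
    rw [val_sum]
    simp only [sand]
    rw [← Finset.sum_mul, ← Finset.mul_sum, hS () (Finset.mem_univ _), if_pos rfl, mul_one, he.eq,
      val_one])
  rw [← h2]
  exact sum_mem fun p _ => I.mul_mem_right _ _ (I.mul_mem_left _ _ hx)

theorem central (h0 : e ≠ 0) : Algebra.IsCentral K he.Corner := ⟨fun z hz => by
  rw [Subalgebra.mem_center_iff] at hz
  by_contra hn
  have h1 : LinearIndependent K ![e, z.1] := (LinearIndependent.pair_iff' h0).2 fun a ha =>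
    hn ⟨a, (Algebra.algebraMap_eq_smul_one (A := he.Corner) a).trans (Subtype.ext ha)⟩
  obtain ⟨S, hS⟩ := dens_coord h1 Finset.univ 1 e
  have h2 := hS 0 (Finset.mem_univ _)
  have h3 := hS 1 (Finset.mem_univ _)
  simp only [Matrix.cons_val_zero, Matrix.cons_val_one, zero_ne_one, if_false, if_true] at h2 h3
  have h4 : ∀ p : B × B, e * (p.1 * z.1 * p.2) * e = z.1 * (e * (p.1 * e * p.2) * e) := fun p => by
    rw [← sand, hz, mul_assoc, ← mul_one (mk he p.1), val_mul, sand, val_one]
  apply h0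
  calc e = e * (∑ p ∈ S, p.1 * z.1 * p.2) * e := by rw [h3, he.eq, he.eq]
    _ = z.1 * (e * (∑ p ∈ S, p.1 * e * p.2) * e) := by
      simp only [Finset.mul_sum, Finset.sum_mul, h4]
    _ = 0 := by rw [h2]; simp⟩

variable [FiniteDimensional K B]

theorem finite : FiniteDimensional K he.Corner :=
  Module.Finite.of_injective (inc K he) Subtype.val_injective

theorem nrd [CharZero K] (h0 : e ≠ 0) (x : he.Corner) :
    haveI := simple (K := K) he h0
    haveI := central (K := K) he h0
    haveI := finite (K := K) he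
    Nrd K (1 - e + x.1) = Nrd K x := by
  have := simple (K := K) he h0
  have := central (K := K) he h0
  have := finite (K := K) he
  let Ω := AlgebraicClosure K
  let ψ := sp K B
  obtain ⟨r, P, R, h1, h2⟩ := exists_fac (E := ψ e) (by rw [← map_mul, he.eq])
  have hR : R * ψ e = R := by rw [← h1, ← Matrix.mul_assoc, h2, Matrix.one_mul]
  have hP : ψ e * P = P := by rw [← h1, Matrix.mul_assoc, h2, Matrix.mul_one]
  let ρ : he.Corner →ₐ[K] Matrix (Fin r) (Fin r) Ω := AlgHom.ofLinearMap
    { toFun := fun x => R * ψ x.1 * P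
      map_add' := fun x y => by rw [val_add, map_add, Matrix.mul_add, Matrix.add_mul]
      map_smul' := fun c x => by
        change R * ψ (c • x.1) * P = _
        rw [map_smul, Matrix.mul_smul, Matrix.smul_mul, RingHom.id_apply] }
    (by change R * ψ e * P = 1; rw [hR, h2])
    fun x y => by
      change R * ψ (x.1 * y.1) * P = R * ψ x.1 * P * (R * ψ y.1 * P)
      conv_lhs => rw [← left he y, map_mul, map_mul, ← h1]
      simp only [Matrix.mul_assoc]
  have hρ : ∀ x, ρ x = R * ψ x.1 * P := fun _ => rfl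
  have : Nonempty (Fin (deg K B)) := ⟨⟨0, deg_pos K B⟩⟩
  have hb := bcHom_bij (L := Ω) ψ (finrank_mat.trans sp_card.symm)
  have hs : Function.Surjective (bcHom Ω ρ) := fun Y => by
    obtain ⟨t, ht⟩ := hb.2 (P * Y * R)
    have h3 : ∀ t : Ω ⊗[K] B, ∃ t', bcHom Ω ρ t' = R * bcHom Ω ψ t * P := fun t => by
      induction t with
      | zero => exact ⟨0, by simp⟩
      | tmul c b =>
        refine ⟨c ⊗ₜ mk he b, ?_⟩
        rw [bcHom_tmul, bcHom_tmul, hρ, Matrix.mul_smul, Matrix.smul_mul]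
        change c • (R * ψ (e * b * e) * P) = _
        rw [map_mul, map_mul, ← Matrix.mul_assoc, ← Matrix.mul_assoc, hR, Matrix.mul_assoc, hP]
      | add a b ha hb =>
        obtain ⟨a', ha⟩ := ha
        obtain ⟨b', hb⟩ := hb
        exact ⟨a' + b', by rw [map_add, map_add, ha, hb, Matrix.mul_add, Matrix.add_mul]⟩
    obtain ⟨t', ht'⟩ := h3 t
    refine ⟨t', ?_⟩
    rw [ht', ht, ← Matrix.mul_assoc, ← Matrix.mul_assoc, h2, Matrix.one_mul, Matrix.mul_assoc, h2,
      Matrix.mul_one]
  have hr : Nonempty (Fin r) := by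
    by_contra hn
    rw [not_nonempty_iff] at hn
    refine h0 (RingHom.injective ψ.toRingHom ?_)
    change ψ e = ψ 0
    rw [← h1, map_zero]
    ext i j
    simp [Matrix.mul_apply]
  have hsim := isSimpleRing_tensor (K := K) (A := Ω) (B := he.Corner)
  have hi : Function.Injective (bcHom Ω ρ) := RingHom.injective (bcHom Ω ρ).toRingHom
  have hf : finrank K he.Corner = Fintype.card (Fin r) ^ 2 := by
    rw [← finrank_mat (L := Ω), ← (LinearEquiv.ofBijective (bcHom Ω ρ).toLinearMap ⟨hi, hs⟩).finrank_eq,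
      Module.finrank_baseChange]
  apply (algebraMap K Ω).injective
  rw [← det_eq ψ sp_card, ← det_eq ρ hf]
  have h4 : ψ (1 - e + x.1) = 1 + P * ((ρ x - 1) * R) := by
    rw [map_add, map_sub, map_one, hρ, Matrix.sub_mul, Matrix.mul_sub, Matrix.one_mul, h1]
    conv_lhs => rw [← left he x, ← right he x, map_mul, map_mul]
    rw [← h1]
    simp only [Matrix.mul_assoc]
    abel
  rw [h4, Matrix.det_one_add_mul_comm, Matrix.mul_assoc, h2, Matrix.mul_one, add_sub_cancel]

end C20

theorem corStmt : CorStmt.{u, v, w} := by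
  intro D e he' hs h0
  have he : IsIdempotentElem e := he'
  let _ : StarRing (IsIdempotentElem.Corner he) :=
    { star := fun x => ⟨star x.1, (Subsemigroup.mem_corner_iff he).2
        ⟨by simpa only [star_mul, hs] using congrArg star (C20.right he x),
          by simpa only [star_mul, hs] using congrArg star (C20.left he x)⟩⟩
      star_involutive := fun x => Subtype.ext (star_star x.1)
      star_mul := fun x y => Subtype.ext (star_mul x.1 y.1)
      star_add := fun x y => Subtype.ext (star_add x.1 y.1) }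
  exact ⟨IsIdempotentElem.Corner he, inferInstance, inferInstance, inferInstance,
    ⟨fun c x => Subtype.ext (star_smul c x.1)⟩, C20.central he h0, C20.simple (K := D.K) he h0,
    C20.finite he, C20.inc D.K he, Subtype.val_injective, rfl, fun _ _ => rfl, fun _ => rfl,
    fun b => ⟨C20.mk he b, rfl⟩, C20.nrd he h0⟩

end Crest.Agent.T24.Ev
end
end

-- ▼ part T24/EvTt_30
section

/-!
# Row 24 (helper30): a quaternion subalgebra split off `M` kills the anisotropic places off `M`
-/

set_option autoImplicit false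

noncomputable section

namespace Crest.Agent.T24.Ev

open NumberField IsDedekindDomain WithZero Csa Asa

universe u v w t

namespace T30

/-- the place under a non-trivial valuation -/
theorem exists_place {F : Type*} [Field F] [NumberField F] (u : Valuation F ℤᵐ⁰) {p : 𝓞 F}
    (hp : p ≠ 0) (h1 : u p < 1) : ∃ v : Pl F, (∀ a : 𝓞 F, a ∈ v.asIdeal → u a < 1) ∧
      ∀ x, v.valuation F x < 1 → u x < 1 := by
  have h2 : ∀ a : 𝓞 F, u a ≤ 1 := fun a =>
    (Valuation.integer.integers u).mem_of_integral (a.isIntegral_coe.tower_top)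
  let P : Ideal (𝓞 F) :=
    { carrier := {a | u a < 1}
      add_mem' := fun {a b} ha hb => by simpa using u.map_add_lt ha hb
      zero_mem' := by simp
      smul_mem' := fun c a ha => by simpa [mul_comm] using mul_lt_one_of_lt_of_le ha (h2 c) }
  have hP : P.IsPrime := ⟨(Ideal.ne_top_iff_one _).2 (by simp [P]), fun {a b} h => by
    by_contra h3
    have h4 : u a = 1 := (h2 a).antisymm (not_lt.1 fun h => h3 (Or.inl h))
    have h5 : u b = 1 := (h2 b).antisymm (not_lt.1 fun h => h3 (Or.inr h))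
    simp [P, h4, h5] at h⟩
  let v : Pl F := ⟨P, hP, fun h0 => hp (by
    have h4 : p ∈ P := h1
    rwa [h0, Ideal.mem_bot] at h4)⟩
  refine ⟨v, fun a ha => ha, fun x hx => ?_⟩
  obtain ⟨n, d, h⟩ := v.exists_primeCompl_mul_eq_of_integer x hx.le
  have h4 : u (algebraMap (𝓞 F) F d) = 1 := (h2 d).antisymm (not_lt.1 d.2)
  have h5 := congrArg u h
  rw [map_mul, h4, mul_one] at h5
  refine h5 ▸ (v.valuation_lt_one_iff_mem (K := F) n).1 ?_
  change v.valuation F (algebraMap (𝓞 F) F n) < 1
  rw [← h, map_mul]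
  exact mul_lt_one_of_lt_of_le hx (v.valuation_le_one _)

variable {K B : Type*} [Field K] [NumberField K] [StarRing K] [Ring B] [StarRing B] [Algebra K B]
  [StarModule K B] [Algebra.IsCentral K B] [IsSimpleRing B] [FiniteDimensional K B]

omit [StarRing K] [StarRing B] [StarModule K B] in
theorem val_nat (w : Pl K) (n : ℕ) : val w (n : B) = w.valuation K (n : K) ^ deg K B := by
  rw [val, ← map_natCast (algebraMap K B), Nrd_algebraMap, map_pow]

/-- an element conjugate to its negative is not congruent to a square root of one -/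
theorem two_lt {w : Pl K} (hw : Ultra B w) {j r : B} (hj : IsUnit j) (h : j * r = -(r * j))
    (h1 : val w (r * r - 1) < 1) : val w (2 : B) < 1 := by
  have hj0 : val w j ≠ 0 := by simpa [val] using (isUnit_iff_Nrd (K := K) j).1 hj
  have e1 : val w (r + 1) = val w (r - 1) := by
    have : j * (r - 1) = -((r + 1) * j) := by rw [mul_sub, h]; noncomm_ring
    have h2 := congrArg (val w) this
    rw [val_neg, val_mul, val_mul, mul_comm] at h2
    exact (mul_right_cancel₀ hj0 h2).symm
  rw [show r * r - 1 = (r + 1) * (r - 1) by noncomm_ring, val_mul, e1] at h1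
  have h2 : val w (r - 1) < 1 := by
    by_contra h3
    exact absurd h1 (not_lt.2 (one_le_mul (not_lt.1 h3) (not_lt.1 h3)))
  have h3 := hw (r + 1) (-(r - 1))
  rw [val_neg, e1, max_self, show r + 1 + -(r - 1) = 2 by rw [← one_add_one_eq_two]; abel] at h3
  exact h3.trans_lt h2

end T30

theorem ttStmt : TtStmt.{u, v, w, t} := fun D F _ _ q M hM hs w hw => by
  by_contra hMw
  have hv : ∀ n : ℕ, (n : 𝓞 D.K) ∉ w.asIdeal → val w (n : D.B) = 1 := fun n hn => by
    have : w.valuation D.K (n : D.K) = 1 := by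
      simpa using (w.valuation_eq_one_iff_notMem (K := D.K) (r := (n : 𝓞 D.K))).2 hn
    rw [T30.val_nat, this, one_pow]
  let u : Valuation F ℤᵐ⁰ :=
    { toFun := fun x => val w (q.i x)
      map_zero' := by simp
      map_one' := by simp
      map_mul' := fun x y => by simp [val_mul]
      map_add_le_max' := fun x y => by simpa using hw.2 _ _ }
  have hu : ∀ x, u x = val w (q.i x) := fun _ => rfl
  obtain ⟨v, h1, h2⟩ := T30.exists_place u (p := (Ideal.absNorm w.asIdeal : ℕ))
    (by simpa [Ideal.absNorm_eq_zero_iff] using w.ne_bot) (by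
      have : w.valuation D.K ((Ideal.absNorm w.asIdeal : ℕ) : D.K) < 1 := by
        simpa using (w.valuation_lt_one_iff_mem (K := D.K) _).2 (Ideal.absNorm_mem w.asIdeal)
      rw [hu, show (((Ideal.absNorm w.asIdeal : ℕ) : 𝓞 F) : F) = (Ideal.absNorm w.asIdeal : ℕ) by
        simp, map_natCast, T30.val_nat]
      exact pow_lt_one₀ zero_le this (deg_pos D.K D.B).ne')
  have h3 : (M : 𝓞 F) ∉ v.asIdeal := fun h => by
    have := h1 _ h
    rw [hu, show ((M : 𝓞 F) : F) = M by simp, map_natCast, hv M hMw] at this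
    exact lt_irrefl _ this
  obtain ⟨n, ⟨x, y, hn⟩, s, ⟨z, hz⟩, e⟩ := Subgroup.mem_sup.1 (hs v h3)
  have h4 := h2 _ (hz.trans_le (by
    simpa [map_ofNat] using v.valuation_le_one (K := F) (4 : 𝓞 F)))
  have hj : IsUnit q.j := isUnit_mul_self_iff.1 (q.jj ▸ q.a.isUnit.map _)
  have c1 : ∀ f, q.j * q.i f = q.i f * q.j := fun f => (q.ij f).symm
  have c2 : ∀ f, q.r * q.i f = q.i f * q.r := fun f => (q.ir f).symm
  have c3 : (q.i x + q.i y * q.j) * q.r = q.r * (q.i x - q.i y * q.j) := by
    rw [add_mul, mul_sub, c2, ← mul_assoc, c2, mul_assoc, mul_assoc, q.jr, mul_neg, sub_eq_add_neg]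
  have c4 : (q.i x - q.i y * q.j) * (q.i x + q.i y * q.j) = q.i n := by
    have : q.i y * q.j * (q.i y * q.j) = q.i (q.a * y ^ 2) := by
      rw [mul_assoc, ← mul_assoc q.j, c1, mul_assoc, q.jj, ← map_mul, ← map_mul]; congr 1; ring
    rw [sub_mul, mul_add, mul_add, this, mul_assoc (q.i y) q.j, c1, ← mul_assoc, ← mul_assoc,
      ← map_mul, ← map_mul, ← map_mul, mul_comm y x, hn, map_sub, sq x]
    abel
  have h5 := T30.two_lt hw.2 hj (r := q.i (z / n) * (q.r * (q.i x + q.i y * q.j))) (by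
    have : q.j * (q.i x + q.i y * q.j) = (q.i x + q.i y * q.j) * q.j := by
      rw [mul_add, add_mul, c1, ← mul_assoc, c1]
    rw [← mul_assoc, c1, mul_assoc, ← mul_assoc q.j, q.jr, neg_mul, mul_neg, mul_assoc q.r, this]
    simp only [mul_assoc]) (by
    have c5 : ∀ f, (q.i x + q.i y * q.j) * q.i f = q.i f * (q.i x + q.i y * q.j) := fun f => by
      rw [add_mul, mul_add, mul_assoc, c1, ← mul_assoc, ← mul_assoc, ← map_mul, ← map_mul,
        ← map_mul, ← map_mul, mul_comm x, mul_comm y]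
    have : q.i (z / n) * (q.r * (q.i x + q.i y * q.j)) * (q.i (z / n) *
        (q.r * (q.i x + q.i y * q.j))) - 1 = q.i (s * z ^ 2 - 1) := by
      rw [mul_assoc, mul_assoc q.r, ← mul_assoc (q.i x + _), c5, mul_assoc, ← mul_assoc q.r, c2,
        ← mul_assoc (q.i x + _), c3, mul_assoc q.r, c4, mul_assoc, ← mul_assoc q.r, q.rr,
        ← map_mul, ← map_mul, ← map_mul, map_sub, map_one, ← e]
      congr 2
      have := n.ne_zero
      push_cast
      field_simp
    rw [this]; exact h4)
  have h6 := hv 2 fun h => hMw (by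
    obtain ⟨m, rfl⟩ := hM
    push_cast at h ⊢
    exact w.asIdeal.mul_mem_right _ h)
  rw [Nat.cast_ofNat] at h6
  exact h5.ne h6

end Crest.Agent.T24.Ev
end
end

-- ▼ part T24/EvBr_21

/-!
# Row 24, even step (helper21): the bridge from the quaternion step over a field to `CtC`
-/

set_option autoImplicit false
set_option linter.unusedSectionVars false

noncomputable section

namespace Crest.Agent.T24.Ev

open Module NumberField WithZero Csa Asa Topology Filter Polynomial

universe u v w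

namespace B21

section Cut
variable {B : Type*} [Ring B] [StarRing B]

theorem cut_mul {e x y : B} (he : e * e = e) (hx : Commute e x) :
    (1 - e + e * x) * (1 - e + e * y) = 1 - e + e * (x * y) := by
  have h1 : ∀ z, e * (e * z) = e * z := fun z => by rw [← mul_assoc, he]
  have h2 : ∀ z, x * (e * z) = e * (x * z) := fun z => hx.symm.left_comm z
  simp only [add_mul, mul_add, sub_mul, mul_sub, mul_assoc, one_mul, mul_one, he, h1, h2, ← hx.eq]
  abel

theorem cut_unitary {e x : B} (he : e * e = e) (hs : star e = e) (hx : Commute e x)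
    (hu : x ∈ unitary B) : 1 - e + e * x ∈ unitary B := by
  have h1 : Commute e (star x) := by
    have := congrArg star hx.eq
    rw [star_mul, star_mul, hs] at this
    exact this.symm
  rw [Unitary.mem_iff, star_add, star_sub, star_one, star_mul, hs, ← h1.eq, cut_mul he h1,
    cut_mul he hx, hu.1, hu.2]
  simp

theorem cut_add {e f x : B} (hef : e * f = 0) (hx : Commute f x) :
    (1 - e + e * x) * (1 - f + f * x) = 1 - (e + f) + (e + f) * x := by
  have h1 : ∀ z, e * (f * z) = 0 := fun z => by rw [← mul_assoc, hef, zero_mul]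
  have h2 : ∀ z, x * (f * z) = f * (x * z) := fun z => hx.symm.left_comm z
  simp only [add_mul, mul_add, sub_mul, mul_sub, mul_assoc, one_mul, mul_one, hef, h1, h2, ← hx.eq]
  abel

end Cut

section Fld
variable {k : Type u} {K : Type v} {B C : Type w} [Field k] [NumberField k] [Field K]
  [NumberField K] [Algebra k K] [StarRing K] [Quad k K] [Ring B] [StarRing B] [Algebra K B]
  [StarModule K B] [Algebra.IsCentral K B] [IsSimpleRing B] [FiniteDimensional K B] [Algebra k B]
  [IsScalarTower k K B] [Ring C] [StarRing C] [Algebra K C] [StarModule K C]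
  [Algebra.IsCentral K C] [IsSimpleRing C] [FiniteDimensional K C] [Algebra k C]
  [IsScalarTower k K C]

/-- the corner -/
structure Emb (e : B) (ι : C →ₗ[K] B) : Prop where
  inj : Function.Injective ι
  one : ι 1 = e
  mul : ∀ x y, ι (x * y) = ι x * ι y
  star : ∀ x, ι (star x) = star (ι x)
  surj : ∀ b, ∃ x, ι x = e * b * e
  nrd : ∀ x, Nrd K (1 - e + ι x) = Nrd K x

variable {e : B} {ι : C →ₗ[K] B}

theorem Emb.left (h : Emb e ι) (x : C) : e * ι x = ι x := by rw [← h.one, ← h.mul, one_mul]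
theorem Emb.right (h : Emb e ι) (x : C) : ι x * e = ι x := by rw [← h.one, ← h.mul, mul_one]
theorem Emb.idem (h : Emb e ι) : e * e = e := by have := h.left 1; rwa [h.one] at this
theorem Emb.herm (h : Emb e ι) : Star.star e = e := by rw [← h.one, ← h.star, star_one]

theorem Emb.cut (h : Emb e ι) (x y : C) : (1 - e + ι x) * (1 - e + ι y) = 1 - e + ι (x * y) := by
  simp only [add_mul, mul_add, sub_mul, mul_sub, one_mul, mul_one, h.idem, h.left, h.right, h.mul]
  abel

theorem Emb.star_cut (h : Emb e ι) (x : C) :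
    Star.star (1 - e + ι x) = 1 - e + ι (Star.star x) := by
  rw [star_add, star_sub, star_one, h.herm, h.star]

theorem Emb.unitary_iff (h : Emb e ι) (x : C) : 1 - e + ι x ∈ unitary B ↔ x ∈ unitary C := by
  have h1 : ∀ y, 1 - e + ι y = 1 ↔ y = 1 := fun y => by
    rw [← h.inj.eq_iff, h.one, sub_add, sub_eq_self, sub_eq_zero, eq_comm]
  rw [Unitary.mem_iff, Unitary.mem_iff, h.star_cut, h.cut, h.cut, h1, h1]

/-- the map of unitary groups -/
def Emb.φ (h : Emb e ι) : unitary C →* unitary B where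
  toFun u := ⟨1 - e + ι u, (h.unitary_iff _).2 u.2⟩
  map_one' := Subtype.ext (by simp [h.one])
  map_mul' a b := Subtype.ext (h.cut a b).symm

theorem Emb.mem_SU (h : Emb e ι) {u : unitary C} : h.φ u ∈ SU K B ↔ u ∈ SU K C := by
  rw [T24.mem_SU, T24.mem_SU, ← h.nrd]; rfl

theorem Emb.mem_SUm (h : Emb e ι) {m : ℕ} {u : unitary C} (hu : u ∈ SUm K C m) :
    h.φ u ∈ SUm K B m := by
  refine ⟨h.mem_SU.2 hu.1, fun w hw => ?_⟩
  have h0 : val w (1 - e) = 0 := by
    have := h.nrd 0
    rw [map_zero, add_zero, map_zero] at this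
    rw [val, this, map_zero]
  have h1 := hw.2 e (1 - e)
  rw [add_sub_cancel, val_one, h0, max_eq_left zero_le] at h1
  have h2 : IsUnit e := (isUnit_iff_Nrd (K := K) e).2 fun h3 => by
    rw [val, h3, map_zero] at h1
    exact absurd h1 (by simp)
  have h3 : e = 1 := h2.mul_left_cancel (by rw [h.idem, mul_one])
  have h4 : ∀ x, val w (ι x) = val w x := fun x => by
    rw [val, val, ← h.nrd, h3, sub_self, zero_add]
  have h5 := hu.2 w ⟨hw.1, fun x y => by rw [← h4, ← h4, ← h4, map_add]; exact hw.2 _ _⟩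
  rw [← h4, map_sub, h.one] at h5
  change val w (1 - e + ι u - 1) < _
  rwa [show 1 - e + ι u - 1 = ι u - e by abel]

theorem Emb.aniso (h : Emb e ι) (ha : Aniso B) : Aniso C := fun x hx =>
  h.inj ((ha _ (by rw [← h.star, ← h.mul, hx, map_zero])).trans (map_zero ι).symm)

/-- the projection -/
def Emb.π (h : Emb e ι) : B →+ C := AddMonoidHom.mk' (fun b => (h.surj b).choose) fun a b =>
  h.inj (by rw [map_add, (h.surj _).choose_spec, (h.surj _).choose_spec, (h.surj _).choose_spec,
    mul_add, add_mul])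

theorem Emb.ιπ (h : Emb e ι) {b : B} (hb : Commute e b) : ι (h.π b) = e * b :=
  (h.surj b).choose_spec.trans (by rw [mul_assoc, ← hb.eq, ← mul_assoc, h.idem])

theorem Emb.π_one (h : Emb e ι) : h.π 1 = 1 :=
  h.inj (by rw [h.ιπ (Commute.one_right e), mul_one, h.one])

theorem Emb.π_mul (h : Emb e ι) {a b : B} (ha : Commute e a) (hb : Commute e b) :
    h.π (a * b) = h.π a * h.π b := h.inj (by
  rw [h.mul, h.ιπ ha, h.ιπ hb, h.ιπ (ha.mul_right hb), mul_assoc, ha.symm.left_comm, ← mul_assoc e e,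
    h.idem])

theorem Emb.π_star (h : Emb e ι) {a : B} (ha : Commute e a) (ha' : Commute e (Star.star a)) :
    h.π (Star.star a) = Star.star (h.π a) := h.inj (by
  rw [h.star, h.ιπ ha, h.ιπ ha', star_mul, h.herm, ha'.eq])

theorem Emb.π_aeval (h : Emb e ι) {a : B} (ha : Commute e a) (g : k[X]) :
    h.π (aeval a g) = aeval (h.π a) g := by
  have h1 : ∀ j : ℕ, h.π (a ^ j) = h.π a ^ j := fun j => by
    induction j with
    | zero => rw [pow_zero, pow_zero, h.π_one]
    | succ j ih => rw [pow_succ, pow_succ, h.π_mul (ha.pow_right j) ha, ih]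
  simp only [aeval_eq_sum_range, map_sum, ← h1]
  refine Finset.sum_congr rfl fun j _ => h.inj ?_
  rw [h.ιπ ((ha.pow_right j).smul_right _), LinearMap.map_smul_of_tower, h.ιπ (ha.pow_right j),
    mul_smul_comm]

variable {ε : kˣ} {i κ ω : B} {β : k[X]}

theorem fld [Algebra ℚ B] [Algebra ℚ C] (hct : Ct2.Ct.{u} k K C)
    (htt : TtStmt.{u, v, w, u}) (hE : Emb e ι) {M : ℕ} {θ : K} {δ : k} (hM : 2 ∣ M)
    (hM0 : M ≠ 0) (hθ : star θ = -θ) (hθ0 : θ ≠ 0) (hδ : θ ^ 2 = algebraMap k K δ)
    (hδ' : ∀ v : Pl k, (M : 𝓞 k) ∉ v.asIdeal → v.valuation k δ = 1) {S : Finset (Pl k)}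
    (hS : ∀ v : Pl k, (M : 𝓞 k) ∈ v.asIdeal ↔ v ∈ S) {m : ℕ} {N : Subgroup (unitary B)}
    (h2 : N.relIndex (SU K B) ≠ 0) (h3 : ∀ u : unitary B, ∀ g ∈ SUm K B m, u * g * u⁻¹ * g⁻¹ ∈ N)
    (h : QD ε i κ ω β) (hq : QSpl S (ε : k) ω β) {E p : k[X]} (he : e = aeval ω E)
    (hp : Irreducible p) (hpe : e * aeval ω p = 0) :
    ∀ᶠ x in nb k K B S 1, x ∈ h.alg → ∀ u : unitary B, (u : B) = 1 - e + e * x → u ∈ N := by
  haveI : Fact (Irreducible p) := ⟨hp⟩
  haveI : Module.Finite k (AdjoinRoot p) := (AdjoinRoot.powerBasis hp.ne_zero).finite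
  haveI : NumberField (AdjoinRoot p) := NumberField.of_module_finite k _
  have cω : Commute e ω := he ▸ comm_aeval (Commute.refl ω) E
  have ci : Commute e i := he ▸ comm_aeval h.ωi E
  have cκ : Commute e κ := he ▸ comm_aeval h.ωκ E
  have ca : ∀ g : k[X], Commute e (aeval ω g) := fun g => (comm_aeval cω.symm g).symm
  let i₀ : AdjoinRoot p →+* C := Ideal.Quotient.lift _ (aeval (hE.π ω) : k[X] →ₐ[k] C).toRingHom
    fun a ha => by
      obtain ⟨c, rfl⟩ := Ideal.mem_span_singleton'.1 ha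
      change aeval (hE.π ω) (c * p) = 0
      rw [map_mul, ← hE.π_aeval cω p, hE.inj ((hE.ιπ (ca p)).trans (hpe.trans (map_zero ι).symm)),
        mul_zero]
  have hi : ∀ g : k[X], i₀ (AdjoinRoot.mk p g) = hE.π (aeval ω g) := fun g =>
    (hE.π_aeval cω g).symm
  have hrr : hE.π κ * hE.π κ = i₀ (AdjoinRoot.mk p β) := by rw [hi, ← hE.π_mul cκ cκ, h.κκ]
  have hβ : AdjoinRoot.mk p β ≠ 0 := fun h0 => by
    obtain ⟨κ', hκ'⟩ := (h.uκ.mul h.uκ).exists_right_inv
    have h4 := congrArg ι hrr
    rw [h0, map_zero, map_zero, ← hE.π_mul cκ cκ, hE.ιπ (cκ.mul_right cκ)] at h4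
    have h5 : ι 1 = ι 0 := by rw [hE.one, map_zero, ← mul_one e, ← hκ', ← mul_assoc, h4, zero_mul]
    exact one_ne_zero (hE.inj h5)
  have hk : ∀ y : k, i₀ (algebraMap k _ y) = algebraMap k C y := fun y => aeval_C _ y
  let q : Ct2.Quat (AdjoinRoot p) C :=
    { i := i₀, j := hE.π i, r := hE.π κ
      a := Units.map (algebraMap k (AdjoinRoot p) : k →* AdjoinRoot p) ε
      c := Units.mk0 _ hβ
      star_i := fun f => by
        obtain ⟨g, rfl⟩ := AdjoinRoot.mk_surjective f
        have : star (aeval ω g) = aeval ω g := by rw [star_aeval K, h.sω]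
        rw [hi, ← hE.π_star (ca g) (this.symm ▸ ca g), this]
      star_j := by rw [← hE.π_star ci (h.si.symm ▸ ci.neg_right), h.si, map_neg]
      star_r := by rw [← hE.π_star cκ (h.sκ.symm ▸ cκ.neg_right), h.sκ, map_neg]
      jj := by rw [← hE.π_mul ci ci, h.ii, ← aeval_C ω, ← hi]; rfl
      rr := hrr
      jr := by rw [← hE.π_mul ci cκ, ← hE.π_mul cκ ci, h.κi, map_neg, neg_neg]
      ij := fun f => by
        obtain ⟨g, rfl⟩ := AdjoinRoot.mk_surjective f
        rw [hi, ← hE.π_mul (ca g) ci, ← hE.π_mul ci (ca g), (comm_aeval h.ωi g).eq]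
      ir := fun f => by
        obtain ⟨g, rfl⟩ := AdjoinRoot.mk_surjective f
        rw [hi, ← hE.π_mul (ca g) cκ, ← hE.π_mul cκ (ca g), (comm_aeval h.ωκ g).eq] }
  have hsp : ∀ v : Hn.Pl (AdjoinRoot p), (M : 𝓞 (AdjoinRoot p)) ∉ v.asIdeal →
      q.c ∈ Hn.LN (q.a : AdjoinRoot p) v := fun v hv =>
    hq _ (AdjoinRoot.root p) (i₀.injective (by
      rw [AdjoinRoot.aeval_eq, hi, minpoly.aeval, map_zero, map_zero])) v
      (fun h0 => hv (by simpa using Ideal.mem_comap.1 ((hS _).2 h0))) _
      (AdjoinRoot.aeval_eq β).symm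
  have h4 := hct M θ δ hM hM0 (htt ⟨k, K, C⟩ _ q M hM hsp) hθ hθ0 hδ hδ' m (N.comap hE.φ)
    (fun h0 => h2 (Subgroup.relIndex_eq_zero_of_le_right (K := (SU K C).map hE.φ)
      (by rintro _ ⟨u, hu, rfl⟩; exact hE.mem_SU.2 hu) (by rwa [← Subgroup.relIndex_comap])))
    fun u g hg => by simpa using h3 _ _ (hE.mem_SUm hg)
  have h5 : Tendsto hE.π (nb k K B S 1) (In.nr M 1) := by
    rw [← hE.π_one]
    exact (In.nr_map hE.π 1).mono_left
      ((HolZ.nb_le_ng k K B hM0 (fun v hv => (hS v).1 hv) 1).trans inf_le_left)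
  filter_upwards [h5.eventually h4] with x hx hxq u hu
  rw [← hE.ιπ (he ▸ h.comm E hxq)] at hu
  obtain ⟨a, b, c, d, rfl⟩ := hxq
  have h6 := hx _ q hk hsp ⟨AdjoinRoot.mk p a, AdjoinRoot.mk p b, AdjoinRoot.mk p c,
    AdjoinRoot.mk p d, by
      simp only [el, Ct2.Quat.el, q, hi, map_add, hE.π_mul (ca b) ci, hE.π_mul (ca c) cκ,
        hE.π_mul (ca d) (ci.mul_right cκ), hE.π_mul ci cκ]⟩ ((hE.unitary_iff _).1 (hu ▸ u.2))
  rw [Subgroup.mem_comap] at h6
  convert h6 using 1
  exact Subtype.ext hu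

end Fld

end B21

section Main
variable {k : Type u} {K : Type v} {B : Type w} [Field k] [NumberField k] [Field K]
  [NumberField K] [Algebra k K] [StarRing K] [Quad k K] [Ring B] [StarRing B] [Algebra K B]
  [StarModule K B] [Algebra.IsCentral K B] [IsSimpleRing B] [FiniteDimensional K B] [Algebra k B]
  [IsScalarTower k K B]

open B21 in
theorem ctC_of (hct : Ct2.Ct2Stmt.{u, v, w, u}) (hco : CorStmt.{u, v, w})
    (htt : TtStmt.{u, v, w, u}) (ha : Aniso B) {N : Subgroup (unitary B)} [N.Normal]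
    (h2 : N.relIndex (SU K B) ≠ 0) {m : ℕ}
    (h3 : ∀ u : unitary B, ∀ g ∈ SUm K B m, u * g * u⁻¹ * g⁻¹ ∈ N) : CtC k K N := by
  intro S₁
  have := finite_kB k K B
  letI : Algebra ℚ B := ((algebraMap K B).comp (algebraMap ℚ K)).toAlgebra'
    fun c x => Algebra.commutes _ x
  obtain ⟨θ, hθ0, hθ⟩ := exists_skew (Quad.ne (k := k) (K := K))
  obtain ⟨δ, hδ⟩ : ∃ δ : k, algebraMap k K δ = θ ^ 2 :=
    fixed Quad.fr (sig_ne k K) (by rw [sig_apply, star_pow, hθ, neg_sq])
  have hδ0 : δ ≠ 0 := fun h => pow_ne_zero 2 hθ0 (by rw [← hδ, h, map_zero])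
  obtain ⟨M, hM, hM'⟩ := HolZ.exists_N (S₁.finite_toSet.union (finite_ne_one hδ0))
  have hM0 : 2 * M ≠ 0 := by omega
  have hM2 : ∀ v : Pl k, (M : 𝓞 k) ∈ v.asIdeal → ((2 * M : ℕ) : 𝓞 k) ∈ v.asIdeal := fun v hv => by
    rw [Nat.cast_mul]; exact Ideal.mul_mem_left _ _ hv
  set S := (In.N23.finite_N (K := k) hM0).toFinset
  have hS : ∀ v : Pl k, ((2 * M : ℕ) : 𝓞 k) ∈ v.asIdeal ↔ v ∈ S := fun v =>
    (In.N23.finite_N (K := k) hM0).mem_toFinset.symm
  refine ⟨S, fun v hv => (hS v).1 (hM2 v (hM' v (Or.inl hv))), ?_⟩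
  filter_upwards [uniform K h2 S] with x hx u hu ⟨ε, i, κ, ω, β, a, b, c, d, p1, p2, p3, p4, p5, p6,
    p7, p8, p9, p10, hq⟩
  have h : QD ε i κ ω β := ⟨p1, p2, p3, p4, p5, p6, p7, p8, p9⟩
  refine hx u hu ε i κ ω β h ⟨a, b, c, d, p10⟩ ?_
  have hs : ∀ g : k[X], star (aeval ω g) = aeval ω g := fun g => by rw [star_aeval K, p1]
  have key : ∀ f : k[X], f ≠ 0 → ∀ E : k[X], aeval ω (E * E) = aeval ω E → aeval ω (E * f) = 0 →
      ∀ᶠ y in nb k K B S 1, y ∈ h.alg → y ∈ unitary B →
        ∀ u : unitary B, (u : B) = 1 - aeval ω E + aeval ω E * y → u ∈ N := fun f => by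
    have z0 : ∀ E : k[X], aeval ω E = 0 → ∀ᶠ y in nb k K B S 1, y ∈ h.alg → y ∈ unitary B →
        ∀ u : unitary B, (u : B) = 1 - aeval ω E + aeval ω E * y → u ∈ N := fun E hE =>
      Eventually.of_forall fun y _ _ u hu => by
        rw [show u = 1 from Subtype.ext (by simpa [hE] using hu)]; exact one_mem _
    induction f using WfDvdMonoid.induction_on_irreducible with
    | zero => exact fun h0 => absurd rfl h0
    | unit f hf =>
      exact fun _ E _ e2 => z0 E (by rwa [map_mul, (hf.map _).mul_left_eq_zero] at e2)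
    | mul g p hg hp ih =>
      intro _ E e1 e2
      by_cases hd : p ∣ g
      · obtain ⟨g', rfl⟩ := hd
        refine ih hg E e1 (ha _ ?_)
        rw [hs, ← map_mul, show E * (p * g') * (E * (p * g')) = E * (p * (p * g')) * (E * g') by ring,
          map_mul, e2, zero_mul]
      obtain ⟨s, t, hst⟩ := (hp.coprime_iff_not_dvd.2 hd : IsCoprime p g)
      have z : ∀ r : k[X], aeval ω (E * (p * g) * r) = 0 := fun r => by rw [map_mul, e2, zero_mul]
      have z1 : ∀ r : k[X], aeval ω (E * E * r) = aeval ω (E * r) := fun r => by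
        rw [map_mul, e1, map_mul]
      have a1 : aeval ω (E * (s * p) * (E * (s * p))) = aeval ω (E * (s * p)) := by
        rw [← z1, ← sub_eq_zero, ← map_sub, ← z (-(E * s * t))]; congr 1
        linear_combination (E * E * s * p) * hst
      have a2 : aeval ω (E * (t * g) * (E * (t * g))) = aeval ω (E * (t * g)) := by
        rw [← z1, ← sub_eq_zero, ← map_sub, ← z (-(E * s * t))]; congr 1
        linear_combination (E * E * t * g) * hst
      have a3 : aeval ω (E * (s * p)) * aeval ω (E * (t * g)) = 0 := by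
        rw [← map_mul, ← z (E * s * t)]; congr 1; ring
      have a4 : aeval ω (E * (s * p)) + aeval ω (E * (t * g)) = aeval ω E := by
        rw [← map_add, ← mul_add, hst, mul_one]
      have b1 := ih hg _ a1 (by rw [← z s]; congr 1; ring)
      have b2 : ∀ᶠ y in nb k K B S 1, y ∈ h.alg → y ∈ unitary B → ∀ u : unitary B,
          (u : B) = 1 - aeval ω (E * (t * g)) + aeval ω (E * (t * g)) * y → u ∈ N := by
        by_cases e0 : aeval ω (E * (t * g)) = 0
        · exact z0 _ e0
        obtain ⟨C, _, _, _, _, _, _, _, ι, q1, q2, q3, q4, q5, q6⟩ :=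
          hco ⟨k, K, B⟩ _ (by rwa [map_mul] at a2) (hs _) e0
        letI : Algebra k C := ((algebraMap K C).comp (algebraMap k K)).toAlgebra'
          fun c x => Algebra.commutes _ x
        haveI : IsScalarTower k K C := IsScalarTower.of_algebraMap_eq' rfl
        letI : Algebra ℚ C := ((algebraMap K C).comp (algebraMap ℚ K)).toAlgebra'
          fun c x => Algebra.commutes _ x
        have hE : Emb (aeval ω (E * (t * g))) ι := ⟨q1, q2, q3, q4, q5, q6⟩
        exact (fld (hct ⟨k, K, C⟩ (hE.aniso ha)) htt hE (dvd_mul_right 2 M) hM0 hθ hθ0 hδ.symm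
          (fun v hv => not_not.1 fun h0 => hv (hM2 v (hM' v (Or.inr h0)))) hS h2 h3 h hq rfl hp
          (by rw [← map_mul, ← z t]; congr 1; ring)).mono fun y hy h1 _ => hy h1
      rw [map_mul] at a1 a2
      filter_upwards [b1, b2] with y y1 y2 hy hy' u hu
      have := mul_mem (y1 hy hy' ⟨_, cut_unitary a1 (hs _) (h.comm _ hy) hy'⟩ rfl)
        (y2 hy hy' ⟨_, cut_unitary a2 (hs _) (h.comm _ hy) hy'⟩ rfl)
      convert this using 1
      refine Subtype.ext (hu.trans ?_)
      rw [← a4]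
      exact (cut_add a3 (h.comm _ hy)).symm
  filter_upwards [key _ (minpoly.ne_zero (Algebra.IsIntegral.isIntegral (R := k) ω)) 1 (by simp)
    (by simp)] with y hy h1 u' hu'
  exact hy h1 (hu' ▸ u'.2) u' (by simpa using hu')


end Main

theorem ct2CStmt (hct : Ct2.Ct2Stmt.{u, v, w, u}) (hco : CorStmt.{u, v, w})
    (htt : TtStmt.{u, v, w, u}) : Ct2CStmt.{u, v, w} := fun _ ha _ N _ h2 hG h3 =>
  haveI := HolZ.normal_of N hG
  ctC_of hct hco htt ha h2 h3

theorem ct2CStmt' (hct : Ct2.Ct2Stmt.{u, v, w, u}) : Ct2CStmt.{u, v, w} :=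
  ct2CStmt hct corStmt ttStmt

end Crest.Agent.T24.Ev
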