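import Crest.Agent.T24.Csa2_50

/-! Reduced norms on commutative subalgebras, integrality, adjugates, opposite algebra, matrices. -/

set_option autoImplicit false

noncomputable section

namespace Crest.Agent.T24.Csa

open scoped TensorProduct
open Module Polynomial

section Spec

variable {F n : Type*} [Field F] [IsAlgClosed F] [Fintype n] [DecidableEq n]




omit [IsAlgClosed F] in
/-- eigenvalues are roots of any annihilating polynomial -/
theorem eval_eq_zero_of_root {M : Matrix n n F} {g : F[X]} (hg : aeval M g = 0) {μ : F}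
    (hμ : M.charpoly.eval μ = 0) : g.eval μ = 0 := by
  obtain ⟨q, hq⟩ := X_sub_C_dvd_sub_C_eval (p := g) (a := μ)
  have h1 := congrArg (fun p => (aeval M p).det) hq
  simp only [map_sub, map_mul, hg, aeval_C, aeval_X, Matrix.det_mul, zero_sub] at h1
  have h2 : (M - algebraMap F (Matrix n n F) μ).det = 0 := by
    rw [← neg_sub, Matrix.det_neg]
    rw [Matrix.eval_charpoly] at hμ
    exact mul_eq_zero_of_right _ hμ
  rw [h2, zero_mul, Algebra.algebraMap_eq_smul_one, ← neg_smul, Matrix.det_smul, Matrix.det_one,
    mul_one] at h1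
  exact neg_eq_zero.1 (pow_eq_zero_iff'.1 h1).1

theorem charpoly_dvd_pow {M : Matrix n n F} {g : F[X]} (hg : aeval M g = 0) :
    M.charpoly ∣ g ^ Fintype.card n := by
  have hs := IsAlgClosed.splits M.charpoly
  have hc : M.charpoly.roots.card = Fintype.card n := by
    rw [← hs.natDegree_eq_card_roots, M.charpoly_natDegree_eq_dim]
  rw [hs.eq_prod_roots_of_monic M.charpoly_monic, ← hc]
  have : ∀ μ ∈ M.charpoly.roots, X - C μ ∣ g := fun μ hμ =>
    dvd_iff_isRoot.2 (eval_eq_zero_of_root hg (isRoot_of_mem_roots hμ))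
  revert this
  generalize M.charpoly.roots = s
  induction s using Multiset.induction_on with
  | empty => simp
  | cons a s ih =>
    intro h
    rw [Multiset.map_cons, Multiset.prod_cons, Multiset.card_cons, pow_succ']
    exact mul_dvd_mul (h a (Multiset.mem_cons_self _ _))
      (ih fun μ hμ => h μ (Multiset.mem_cons_of_mem hμ))

omit [IsAlgClosed F] in
theorem charpoly_comp {r : Type*} [Fintype r] [DecidableEq r] [LinearOrder r] [Nonempty n]
    {A : Matrix r r (Matrix n n F)} (hA : A.BlockTriangular id) :
    (Matrix.comp r r n n F A).charpoly = ∏ i, (A i i).charpoly := by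
  obtain rfl : ‹DecidableEq r› = LinearOrder.toDecidableEq := Subsingleton.elim _ _
  have h1 : (Matrix.comp r r n n F A).BlockTriangular Prod.fst := fun i j hij => by
    change A i.1 j.1 i.2 j.2 = 0
    rw [hA hij]; rfl
  rw [h1.charpoly]
  refine Finset.prod_congr (Finset.eq_univ_of_forall fun i => ?_) fun i _ => ?_
  · simp only [Finset.mem_image]
    exact ⟨(i, Classical.arbitrary n), by simp, rfl⟩
  let e : n ≃ {a : r × n // a.1 = i} :=
    { toFun := fun a => ⟨(i, a), rfl⟩
      invFun := fun a => a.1.2
      left_inv := fun _ => rfl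
      right_inv := by rintro ⟨⟨a, b⟩, rfl⟩; rfl }
  have : (Matrix.comp r r n n F A).toSquareBlock Prod.fst i = Matrix.reindex e e (A i i) := by
    ext ⟨⟨a, b⟩, h'⟩ ⟨⟨c, d⟩, h⟩
    obtain rfl : a = i := h'
    obtain rfl : c = a := h
    rfl
  rw [this, Matrix.charpoly_reindex]

end Spec

section Main

variable {K : Type*} [Field K] [CharZero K] {B : Type*} [Ring B] [Algebra K B]
  [Algebra.IsCentral K B] [IsSimpleRing B] [FiniteDimensional K B]

omit [CharZero K] in
theorem sp_aeval (b : B) (g : K[X]) :
    sp K B (aeval b g) = aeval (sp K B b) (g.map (algebraMap K (AlgebraicClosure K))) := by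
  rw [aeval_map_algebraMap, aeval_algHom_apply]


theorem rch_dvd_pow {b : B} {g : K[X]} (hg : aeval b g = 0) : rch K b ∣ g ^ deg K B := by
  rw [← Polynomial.map_dvd_map' (algebraMap K (AlgebraicClosure K)), ← sp_charpoly,
    Polynomial.map_pow]
  have := charpoly_dvd_pow (M := sp K B b) (g := g.map (algebraMap K _))
    (by rw [← sp_aeval, hg, map_zero])
  rwa [Fintype.card_fin] at this

theorem rch_dvd_minpoly_pow (b : B) : rch K b ∣ minpoly K b ^ deg K B :=
  rch_dvd_pow (minpoly.aeval K b)

/-- `g b` is a unit iff `g` is prime to `rch b`. -/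
theorem isUnit_aeval_iff (b : B) (g : K[X]) : IsUnit (aeval b g) ↔ IsCoprime (rch K b) g := by
  constructor
  · intro h
    refine (EuclideanDomain.isCoprime_of_dvd ?_ ?_)
    · exact fun h => (rch_monic K b).ne_zero h.1
    · intro z hz _ h1 h2
      have hz' : (z.map (algebraMap K (AlgebraicClosure K))).degree ≠ 0 := by
        rw [degree_map]; exact fun h0 => hz (isUnit_iff_degree_eq_zero.2 h0)
      obtain ⟨μ, hμ⟩ := IsAlgClosed.exists_root _ hz'
      have h3 : (sp K B b).charpoly.eval μ = 0 := by
        rw [sp_charpoly]; exact (hμ.dvd (Polynomial.map_dvd _ h1))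
      have h4 : (g.map (algebraMap K (AlgebraicClosure K))).IsRoot μ :=
        hμ.dvd (Polynomial.map_dvd _ h2)
      obtain ⟨q, hq⟩ := dvd_iff_isRoot.2 h4
      have h5 := (h.map (sp K B)).map Matrix.detMonoidHom
      rw [sp_aeval, hq, map_mul, map_mul] at h5
      have h6 := (isUnit_of_mul_isUnit_left h5).ne_zero
      rw [Matrix.eval_charpoly] at h3
      apply h6
      rw [map_sub, aeval_X, aeval_C, ← neg_sub, Matrix.coe_detMonoidHom, Matrix.det_neg]
      exact mul_eq_zero_of_right _ h3
  · rintro ⟨u, v, h⟩
    have h1 := congrArg (aeval b) h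
    rw [map_add, map_mul, aeval_rch, mul_zero, zero_add, map_one] at h1
    exact ⟨⟨aeval b g, aeval b v, by rw [← map_mul, mul_comm]; exact h1,
      by rw [← map_mul]; exact h1⟩, rfl⟩

theorem separable_iff_Nrd (b : B) :
    (rch K b).Separable ↔ Nrd K (aeval b (derivative (rch K b))) ≠ 0 := by
  rw [← isUnit_iff_Nrd, isUnit_aeval_iff, separable_def]

/-- a separable `rch` is the minimal polynomial -/
theorem minpoly_eq_rch_of_separable {b : B} (h : (rch K b).Separable) : minpoly K b = rch K b :=
  eq_of_monic_of_associated (minpoly.monic (Algebra.IsIntegral.isIntegral b)) (rch_monic K b)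
    (associated_of_dvd_dvd (minpoly_dvd_rch b)
      (h.squarefree.isRadical _ _ (rch_dvd_minpoly_pow b)))

section Sub

variable {E : Type*} [CommRing E] [Algebra K E] [FiniteDimensional K E]


omit [CharZero K] in
theorem norm_eq_lch (x : E) : Algebra.norm K x = (-1) ^ finrank K E * (lch K x).coeff 0 := by
  rw [Algebra.norm_apply, LinearMap.det_eq_sign_charpoly_coeff]; rfl




end Sub

section Field

variable {E : Type*} [Field E] [Algebra K E] [FiniteDimensional K E]

omit [CharZero K] [Algebra.IsCentral K B] [IsSimpleRing B] in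
/-- left multiplication by a subfield -/
theorem lch_field (i : E →ₐ[K] B) :
    ∃ m : ℕ, finrank K E * m = finrank K B ∧ ∀ x, lch K (i x) = lch K x ^ m := by
  classical
  let _ : Module E B := Module.compHom B (i : E →+* B)
  have hs : ∀ (x : E) (b : B), x • b = i x * b := fun _ _ => rfl
  have : IsScalarTower K E B := ⟨fun c x b => by rw [hs, hs, map_smul, smul_mul_assoc]⟩
  have : Module.Finite E B := Module.Finite.of_restrictScalars_finite K E B
  refine ⟨finrank E B, Module.finrank_mul_finrank K E B, fun x => ?_⟩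
  let e := Module.finBasis K E
  let f := Module.finBasis E B
  rw [lch_eq K (e.smulTower f), lch_eq K e]
  have : Algebra.leftMulMatrix (e.smulTower f) (i x) =
      Matrix.blockDiagonal fun _ : Fin (finrank E B) => Algebra.leftMulMatrix e x := by
    ext ⟨a, j⟩ ⟨c, l⟩
    rw [Algebra.leftMulMatrix_eq_repr_mul, Basis.smulTower_repr, Basis.smulTower_apply, ← hs,
      smul_smul, map_smul, Basis.repr_self, Matrix.blockDiagonal_apply,
      Algebra.leftMulMatrix_eq_repr_mul]
    by_cases h : j = l
    · subst h; simp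
    · simp [h, Finsupp.single_eq_of_ne h]
  rw [this, Matrix.charpoly, Matrix.charpoly]
  have : Matrix.charmatrix (Matrix.blockDiagonal fun _ : Fin (finrank E B) =>
      Algebra.leftMulMatrix e x) =
      Matrix.blockDiagonal fun _ => (Algebra.leftMulMatrix e x).charmatrix := by
    ext1 ⟨i, j⟩ ⟨k, l⟩
    simp only [Matrix.charmatrix_apply, Matrix.blockDiagonal_apply, Matrix.diagonal_apply,
      Prod.mk.injEq]
    by_cases h : j = l <;> simp [h]
  rw [this, Matrix.det_blockDiagonal]; simp

/-- the degree of a subfield divides the degree of the algebra -/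
theorem finrank_dvd_deg (i : E →ₐ[K] B) : finrank K E ∣ deg K B := by
  let pb := Field.powerBasisOfFiniteOfSeparable K E
  have hirr : Irreducible (minpoly K (i pb.gen)) := by
    rw [minpoly.algHom_eq i i.injective]
    exact minpoly.irreducible (Algebra.IsIntegral.isIntegral _)
  obtain ⟨e, -, he⟩ := (dvd_prime_pow hirr.prime _).1 (rch_dvd_minpoly_pow (K := K) (i pb.gen))
  have := natDegree_eq_of_degree_eq (degree_eq_degree_of_associated he)
  rw [rch_natDegree, natDegree_pow, minpoly.algHom_eq i i.injective, pb.natDegree_minpoly,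
    ← pb.finrank] at this
  exact Dvd.intro_left e this.symm

theorem rch_field (i : E →ₐ[K] B) (x : E) :
    rch K (i x) = lch K x ^ (deg K B / finrank K E) := by
  obtain ⟨m, hm, h⟩ := lch_field i
  obtain ⟨e, he⟩ := finrank_dvd_deg i
  have hE : 0 < finrank K E := Module.finrank_pos
  refine root_unique (rch_monic K _) ((lch_monic K x).pow _) (deg_pos K B).ne' ?_
  rw [rch_pow, h, ← pow_mul]
  congr 1
  rw [finrank_eq_deg_sq K B] at hm
  apply Nat.eq_of_mul_eq_mul_left hE
  rw [hm, ← mul_assoc, Nat.mul_div_cancel' ⟨e, he⟩, sq]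

theorem Nrd_field (i : E →ₐ[K] B) (x : E) :
    Nrd K (i x) = Algebra.norm K x ^ (deg K B / finrank K E) := by
  rw [Nrd_def, rch_field, norm_eq_lch, mul_pow, ← pow_mul,
    Nat.mul_div_cancel' (finrank_dvd_deg i), coeff_zero_eq_eval_zero, coeff_zero_eq_eval_zero,
    eval_pow]


theorem Nrd_maxField (i : E →ₐ[K] B) (h : finrank K E = deg K B) (x : E) :
    Nrd K (i x) = Algebra.norm K x := by
  rw [Nrd_field, h, Nat.div_self (deg_pos K B), pow_one]


end Field


section Int

variable {R : Type*} [CommRing R] [Algebra R K] [Algebra R B] [IsScalarTower R K B]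

theorem isIntegral_coeff_rch {b : B} (hb : IsIntegral R b) (j : ℕ) :
    IsIntegral R ((rch K b).coeff j) := by
  obtain ⟨g, hg, hgb⟩ := hb
  have h1 : rch K b ∣ (g ^ deg K B).map (algebraMap R K) := by
    rw [Polynomial.map_pow]
    exact rch_dvd_pow (by rw [aeval_map_algebraMap]; exact hgb)
  obtain ⟨p, hp⟩ := integralClosure.mem_lifts_of_monic_of_dvd_map K (hg.pow _) (rch_monic K b) h1
  rw [← hp, coe_mapRingHom, coeff_map]
  exact (p.coeff j).2

theorem isIntegral_Nrd {b : B} (hb : IsIntegral R b) : IsIntegral R (Nrd K b) :=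
  (isIntegral_one.neg.pow _).mul (isIntegral_coeff_rch hb 0)



end Int

variable (K) in
/-- the adjugate: a polynomial in `b` -/
def adj (b : B) : B := aeval b (C ((-1) ^ (deg K B + 1)) * (rch K b).divX)




section Op

instance : FiniteDimensional K Bᵐᵒᵖ := (MulOpposite.opLinearEquiv K : B ≃ₗ[K] Bᵐᵒᵖ).finiteDimensional






end Op

section Mat

variable {r : Type*} [Fintype r] [DecidableEq r]

omit [CharZero K] [DecidableEq r] in
theorem finrank_matrix_sq :
    finrank K (Matrix r r B) = (Fintype.card r * deg K B) ^ 2 := by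
  rw [Module.finrank_matrix, finrank_eq_deg_sq K B]; ring

omit [CharZero K] in
theorem deg_matrix : deg K (Matrix r r B) = Fintype.card r * deg K B :=
  deg_eq K finrank_matrix_sq

/-- the splitting of a matrix ring -/
def spM (K B r : Type*) [Field K] [Ring B] [Algebra K B] [Algebra.IsCentral K B] [IsSimpleRing B]
    [FiniteDimensional K B] [Fintype r] [DecidableEq r] :
    Matrix r r B →ₐ[K] Matrix (r × Fin (deg K B)) (r × Fin (deg K B)) (AlgebraicClosure K) :=
  (Matrix.compAlgEquiv r _ (AlgebraicClosure K) K).toAlgHom.comp (sp K B).mapMatrix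


variable [Nonempty r]

theorem spM_charpoly (A : Matrix r r B) :
    (spM K B r A).charpoly = (rch K A).map (algebraMap K (AlgebraicClosure K)) :=
  charpoly_eq _ (by rw [finrank_matrix_sq]; simp) A

/-- block triangular matrices -/
theorem rch_blockTriangular [LinearOrder r] {A : Matrix r r B} (hA : A.BlockTriangular id) :
    rch K A = ∏ i, rch K (A i i) := by
  have : Nonempty (Fin (deg K B)) := ⟨⟨0, deg_pos K B⟩⟩
  apply sp_inj
  rw [← spM_charpoly, Polynomial.map_prod]
  simp only [← sp_charpoly]
  exact charpoly_comp (A := A.map (sp K B)) fun i j hij => by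
    rw [Matrix.map_apply, hA hij, map_zero]


theorem rch_diagonal (a : r → B) : rch K (Matrix.diagonal a) = ∏ i, rch K (a i) := by
  let _ : LinearOrder r := LinearOrder.lift' (Fintype.equivFin r) (Fintype.equivFin r).injective
  have := rch_blockTriangular (K := K) (A := Matrix.diagonal a) (Matrix.blockTriangular_diagonal a)
  simpa using this

theorem Nrd_diagonal (a : r → B) : Nrd K (Matrix.diagonal a) = ∏ i, Nrd K (a i) := by
  rw [Nrd_def, rch_diagonal, deg_matrix, coeff_zero_prod]
  simp only [Nrd_def, Finset.prod_mul_distrib, Finset.prod_const, Finset.card_univ, ← pow_mul,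
    mul_comm]

theorem Trd_matrix (A : Matrix r r B) : Trd K A = ∑ i, Trd K (A i i) := by
  apply (algebraMap K (AlgebraicClosure K)).injective
  rw [← trace_eq (spM K B r) (by rw [finrank_matrix_sq]; simp), map_sum]
  simp only [← trace_eq (sp K B) sp_card, Matrix.trace, Fintype.sum_prod_type]
  rfl

end Mat

/-- unipotent elements -/
theorem rch_of_nilpotent {x : B} (h : IsNilpotent x) : rch K x = X ^ deg K B := by
  obtain ⟨n, hn⟩ := h
  have h1 : rch K x ∣ X ^ (n * deg K B) := by
    rw [pow_mul]; exact rch_dvd_pow (by simpa using hn)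
  obtain ⟨e, -, he⟩ := (dvd_prime_pow prime_X _).1 h1
  have := eq_of_monic_of_associated (rch_monic K x) (monic_X_pow e) he
  rw [← rch_natDegree x, this, natDegree_X_pow]

theorem Nrd_one_add_of_nilpotent {x : B} (h : IsNilpotent x) : Nrd K (1 + x) = 1 := by
  have := eval_rch (K := K) (-x) 1
  rw [rch_of_nilpotent h.neg, map_one, sub_neg_eq_add] at this
  simpa using this.symm

end Main

end Crest.Agent.T24.Csa
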