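import Mathlib
import Crest.Agent.T24.CsaN_50
import Crest.Agent.T24.HsmA_23

-- ▼ part T24/WgDie_25
section

/-!
# Row 24 (helper25): the Dieudonné determinant

Families of rows `M : ι → V`, the row operations `T`, `Sc`; functions that behave like determinants.
-/

set_option autoImplicit false

namespace Crest.Agent.T24.Wg

open Finset Module

section ops
variable {D V ι : Type*} [DivisionRing D] [AddCommGroup V] [Module D V] [DecidableEq ι]

/-- add `c` times row `j` to row `i` -/
def T (i j : ι) (c : D) (M : ι → V) : ι → V := fun k => if k = i then M i + c • M j else M k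

/-- multiply row `i` by `c` -/
def Sc (i : ι) (c : D) (M : ι → V) : ι → V := fun k => if k = i then c • M i else M k

@[simp] theorem T_self (i j : ι) (c : D) (M : ι → V) : T i j c M i = M i + c • M j := if_pos rfl
theorem T_ne {i k : ι} (h : k ≠ i) (j : ι) (c : D) (M : ι → V) : T i j c M k = M k := if_neg h
@[simp] theorem Sc_self (i : ι) (c : D) (M : ι → V) : Sc i c M i = c • M i := if_pos rfl
theorem Sc_ne {i k : ι} (h : k ≠ i) (c : D) (M : ι → V) : Sc i c M k = M k := if_neg h

/-- closed under transvections -/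
def ClT (D : Type*) [DivisionRing D] [Module D V] (P : (ι → V) → Prop) : Prop :=
  ∀ M i j (c : D), i ≠ j → P M → P (T i j c M)

/-- closed under scalings -/
def ClS (D : Type*) [DivisionRing D] [Module D V] (P : (ι → V) → Prop) : Prop :=
  ∀ M i (c : D), c ≠ 0 → P M → P (Sc i c M)

theorem ClT.col {P : (ι → V) → Prop} (h : ClT D P) {M : ι → V} (hM : P M) (k : ι) (t : ι → D)
    (s : Finset ι) (hk : k ∉ s) : P fun i => if i ∈ s then M i + t i • M k else M i := by
  induction s using Finset.induction_on with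
  | empty => simpa using hM
  | insert a s ha ih =>
    rw [mem_insert, not_or] at hk
    have := h _ a k (t a) (Ne.symm hk.1) (ih hk.2)
    convert this using 1
    funext i
    by_cases hi : i = a
    · subst hi; simp [ha, hk.2]
    · simp [T_ne hi, hi]

theorem ClT.row {P : (ι → V) → Prop} (h : ClT D P) {M : ι → V} (hM : P M) (k : ι) (t : ι → D)
    (s : Finset ι) (hk : k ∉ s) : P fun i => if i = k then M k + ∑ j ∈ s, t j • M j else M i := by
  induction s using Finset.induction_on with
  | empty =>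
    convert hM using 1
    funext i
    by_cases hi : i = k <;> simp [hi]
  | insert a s ha ih =>
    rw [mem_insert, not_or] at hk
    have := h _ k a (t a) hk.1 (ih hk.2)
    convert this using 1
    funext i
    by_cases hi : i = k
    · subst hi; simp [sum_insert ha, Ne.symm hk.1]; abel
    · simp [T_ne hi, hi]

theorem clT_span : ClT D fun M : ι → V => Submodule.span D (Set.range M) = ⊤ := by
  intro M i j c hij hM
  rw [eq_top_iff, ← hM, Submodule.span_le]
  rintro _ ⟨k, rfl⟩
  have h1 : ∀ k, T i j c M k ∈ Submodule.span D (Set.range (T i j c M)) := fun k =>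
    Submodule.subset_span ⟨k, rfl⟩
  by_cases hk : k = i
  · subst hk
    have := sub_mem (h1 k) (Submodule.smul_mem _ c (h1 j))
    rw [T_self, T_ne hij.symm, add_sub_cancel_right] at this
    exact this
  · have := h1 k
    rw [T_ne hk] at this
    exact this

theorem clS_span : ClS D fun M : ι → V => Submodule.span D (Set.range M) = ⊤ := by
  intro M i c hc hM
  rw [eq_top_iff, ← hM, Submodule.span_le]
  rintro _ ⟨k, rfl⟩
  have h1 : ∀ k, Sc i c M k ∈ Submodule.span D (Set.range (Sc i c M)) := fun k =>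
    Submodule.subset_span ⟨k, rfl⟩
  by_cases hk : k = i
  · subst hk
    have := Submodule.smul_mem _ c⁻¹ (h1 k)
    rw [Sc_self, inv_smul_smul₀ hc] at this
    exact this
  · have := h1 k
    rw [Sc_ne hk] at this
    exact this

/-- Gauss elimination: row operations connect any two bases. -/
theorem connect [Fintype ι] {P : (ι → V) → Prop} (hT : ClT D P) (hS : ClS D P) {M b : ι → V}
    (hM : P M) (hs : Submodule.span D (Set.range M) = ⊤) (hb : LinearIndependent D b) : P b := by
  classical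
  let Q : (ι → V) → Prop := fun M => P M ∧ Submodule.span D (Set.range M) = ⊤
  have qT : ClT D Q := fun M i j c h hq => ⟨hT M i j c h hq.1, clT_span M i j c h hq.2⟩
  have qS : ClS D Q := fun M i c h hq => ⟨hS M i c h hq.1, clS_span M i c h hq.2⟩
  suffices H : ∀ (s : Finset ι) (M : ι → V), Q M → (∀ i, i ∉ s → M i = b i) → P b from
    H univ M ⟨hM, hs⟩ (by simp)
  intro s
  induction s using Finset.induction_on with
  | empty =>
    intro M hq h
    have : M = b := funext fun i => h i (by simp)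
    exact this ▸ hq.1
  | insert i s hi ih =>
    have A : ∀ (M : ι → V) (c : ι → D), Q M → (∀ k, k ∉ insert i s → M k = b k) →
        ∑ j, c j • M j = b i → c i ≠ 0 → P b := by
      intro M c hq h hc hci
      refine ih _ (qT.row (qS M i (c i) hci hq) i c (univ.erase i) (by simp)) fun k hk => ?_
      by_cases hki : k = i
      · subst hki
        rw [if_pos rfl, Sc_self, ← hc, ← add_sum_erase univ _ (mem_univ k)]
        congr 1
        exact sum_congr rfl fun j hj => by rw [Sc_ne (ne_of_mem_erase hj)]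
      · rw [if_neg hki, Sc_ne hki]
        exact h k (by simp [hki, hk])
    intro M hq h
    have hmem : b i ∈ Submodule.span D (Set.range M) := by rw [hq.2]; trivial
    obtain ⟨c, hc⟩ := (Submodule.mem_span_range_iff_exists_fun D).1 hmem
    by_cases hci : c i = 0
    · have : ∃ j ∈ s, c j ≠ 0 := by
        by_contra hn
        push Not at hn
        have h1 : ∑ j, (c j - if j = i then 1 else 0) • b j = 0 := by
          simp only [sub_smul, sum_sub_distrib, ite_smul, one_smul, zero_smul, sum_ite_eq',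
            mem_univ, if_true]
          rw [← hc, sub_eq_zero]
          refine sum_congr rfl fun j _ => ?_
          by_cases hj : j ∈ insert i s
          · rcases mem_insert.1 hj with rfl | hj
            · simp [hci]
            · simp [hn j hj]
          · rw [h j hj]
        have := Fintype.linearIndependent_iff.1 hb _ h1 i
        simp [hci] at this
      obtain ⟨j, hj, hcj⟩ := this
      have hji : j ≠ i := fun e => hi (e ▸ hj)
      refine A (T j i (-1 : D) M) (fun k => if k = i then c j else c k) (qT M j i _ hji hq)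
        (fun k hk => ?_) ?_ (by simpa using hcj)
      · rw [T_ne (fun e => hk (by simp [e, hj]))]
        exact h k hk
      · rw [← hc, ← sub_eq_zero, ← sum_sub_distrib]
        rw [← add_sum_erase univ _ (mem_univ i), ← add_sum_erase _ _ (a := j) (by simp [hji])]
        rw [sum_eq_zero]
        · simp [T_ne hji.symm, hji, hci]
        · intro k hk
          simp only [mem_erase] at hk
          simp [T_ne hk.1, hk.2.1]
    · exact A M c hq h hc hci

end ops

section det
variable {D V ι A : Type*} [DivisionRing D] [AddCommGroup V] [Module D V] [DecidableEq ι]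
  [CommGroupWithZero A]

/-- a determinant function -/
structure IsDet (χ : D →*₀ A) (Δ : (ι → V) → A) : Prop where
  add : ∀ M i j (c : D), i ≠ j → Δ (T i j c M) = Δ M
  smul : ∀ M i (c : D), c ≠ 0 → Δ (Sc i c M) = χ c * Δ M

theorem IsDet.clT {χ : D →*₀ A} {Δ : (ι → V) → A} (h : IsDet χ Δ) (a : A) :
    ClT D fun M => Δ M = a := fun M i j c hij hM => (h.add M i j c hij).trans hM


variable {n : ℕ}

/-- the Schur complement -/
def sch (M : Fin (n + 1) → Fin (n + 1) → D) : Fin n → Fin n → D :=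
  fun i j => M i.succ j.succ - M i.succ 0 * (M 0 0)⁻¹ * M 0 j.succ

/-- the determinant on the big cell -/
def Sd (χ : D →*₀ A) (Δ : (Fin n → Fin n → D) → A) (M : Fin (n + 1) → Fin (n + 1) → D) : A :=
  χ (M 0 0) * Δ (sch M)

variable {χ : D →*₀ A} {Δ : (Fin n → Fin n → D) → A}

theorem Sd_low (h : IsDet χ Δ) (M : Fin (n + 1) → Fin (n + 1) → D) (hM : M 0 0 ≠ 0)
    {i j : Fin (n + 1)} (hi : i ≠ 0) (hij : i ≠ j) (c : D) : Sd χ Δ (T i j c M) = Sd χ Δ M := by
  obtain ⟨i, rfl⟩ := Fin.exists_succ_eq.2 hi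
  unfold Sd
  rw [T_ne hi.symm]
  congr 1
  by_cases hj : j = 0
  · subst hj
    congr 1
    funext k l
    by_cases hk : k = i
    · subst hk
      simp only [sch, T_self, T_ne hi.symm, Pi.add_apply, Pi.smul_apply, smul_eq_mul, add_mul,
        mul_inv_cancel_right₀ hM]
      abel
    · simp only [sch, T_ne hi.symm, T_ne (fun e => hk (Fin.succ_injective _ e))]
  · obtain ⟨j, rfl⟩ := Fin.exists_succ_eq.2 hj
    rw [← h.add (sch M) i j c fun e => hij (congrArg _ e)]
    congr 1
    funext k l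
    by_cases hk : k = i
    · subst hk
      simp only [sch, T_self, T_ne hi.symm, Pi.add_apply, Pi.smul_apply, smul_eq_mul]
      noncomm_ring
    · simp only [sch, T_ne hi.symm, T_ne (fun e => hk (Fin.succ_injective _ e)), T_ne hk]

theorem Sd_smul (h : IsDet χ Δ) (M : Fin (n + 1) → Fin (n + 1) → D) (i : Fin (n + 1)) {c : D}
    (hc : c ≠ 0) : Sd χ Δ (Sc i c M) = χ c * Sd χ Δ M := by
  unfold Sd
  by_cases hi : i = 0
  · subst hi
    rw [Sc_self, Pi.smul_apply, smul_eq_mul, map_mul, mul_assoc]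
    congr 3
    funext k l
    simp only [sch, Sc_self, Sc_ne (Fin.succ_ne_zero k), Pi.smul_apply, smul_eq_mul, mul_inv_rev,
      mul_assoc, inv_mul_cancel_left₀ hc]
  · obtain ⟨i, rfl⟩ := Fin.exists_succ_eq.2 hi
    rw [Sc_ne (Ne.symm hi), mul_left_comm, ← h.smul (sch M) i c hc]
    congr 2
    funext k l
    by_cases hk : k = i
    · subst hk
      simp only [sch, Sc_self, Sc_ne (Ne.symm hi), Pi.smul_apply, smul_eq_mul]
      noncomm_ring
    · simp only [sch, Sc_ne (Ne.symm hi), Sc_ne (fun e => hk (Fin.succ_injective _ e)), Sc_ne hk]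

theorem Sd_up (h : IsDet χ Δ) (M : Fin (n + 1) → Fin (n + 1) → D) (hM : M 0 0 ≠ 0)
    {j : Fin (n + 1)} (hj : j ≠ 0) (c : D) (hM' : M 0 0 + c * M j 0 ≠ 0) :
    Sd χ Δ (T 0 j c M) = Sd χ Δ M := by
  by_cases hc : c = 0
  · congr 1
    funext k
    by_cases hk : k = 0 <;> simp [T, hk, hc]
  obtain ⟨j, rfl⟩ := Fin.exists_succ_eq.2 hj
  set l := M 0 0 with hl
  set l' := l + c * M j.succ 0 with hl'
  have e1 : 1 - M j.succ 0 * l'⁻¹ * c = c⁻¹ * (l * l'⁻¹) * c := by
    have : l = l' - c * M j.succ 0 := by rw [hl']; abel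
    rw [this, sub_mul, mul_inv_cancel₀ hM', mul_sub, sub_mul, mul_one, inv_mul_cancel₀ hc,
      mul_assoc c, inv_mul_cancel_left₀ hc]
  have e0 : 1 - M j.succ 0 * l'⁻¹ * c ≠ 0 := by
    rw [e1]
    exact mul_ne_zero (mul_ne_zero (inv_ne_zero hc) (mul_ne_zero hM (inv_ne_zero hM'))) hc
  have key : ∀ k m, sch (T 0 j.succ c M) k m =
      sch M k m - M k.succ 0 * l'⁻¹ * c * sch M j m := by
    intro k m
    have e2 : l⁻¹ = l'⁻¹ + l'⁻¹ * (c * M j.succ 0) * l⁻¹ := by
      have : c * M j.succ 0 = l' - l := by rw [hl']; abel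
      rw [this, mul_sub, inv_mul_cancel₀ hM', sub_mul, one_mul, mul_assoc, mul_inv_cancel₀ hM,
        mul_one]
      abel
    simp only [sch, T_self, T_ne (Fin.succ_ne_zero _), Pi.add_apply, Pi.smul_apply, smul_eq_mul,
      ← hl, ← hl']
    conv_rhs => rw [e2]
    have e3 : (l'⁻¹ + l'⁻¹ * (c * M j.succ 0) * l⁻¹) = l⁻¹ := e2.symm
    conv_rhs => enter [2, 2, 2]; rw [e3]
    noncomm_ring
  have h1 := (h.clT (Δ (sch M))).col rfl j (fun k => -(M k.succ 0 * l'⁻¹ * c)) (univ.erase j)
    (by simp)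
  have h2 := h.smul (fun i => if i ∈ univ.erase j then
    sch M i + (-(M i.succ 0 * l'⁻¹ * c)) • sch M j else sch M i) j _ e0
  unfold Sd
  have h3 : sch (T 0 j.succ c M) = Sc j (1 - M j.succ 0 * l'⁻¹ * c) fun i => if i ∈ univ.erase j then
      sch M i + (-(M i.succ 0 * l'⁻¹ * c)) • sch M j else sch M i := by
    funext k m
    rw [key]
    by_cases hk : k = j
    · subst hk; simp [sub_mul]
    · simp [Sc_ne hk, hk, sub_eq_add_neg]
  rw [h3, h2, h1, T_self, Pi.add_apply, Pi.smul_apply, smul_eq_mul, ← hl, ← hl', e1, ← mul_assoc]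
  congr 1
  have hc' : χ c ≠ 0 := by simpa using hc
  have hl0 : χ l' ≠ 0 := by simpa using hM'
  simp only [map_mul, map_inv₀]
  field_simp

open Classical in
/-- the determinant of the next size -/
noncomputable def Dd (χ : D →*₀ A) (Δ : (Fin n → Fin n → D) → A)
    (M : Fin (n + 1) → Fin (n + 1) → D) : A :=
  if M 0 0 ≠ 0 then Sd χ Δ M else if h : ∃ j, M j 0 ≠ 0 then Sd χ Δ (T 0 h.choose (1 : D) M) else 0

theorem Dd_pos {M : Fin (n + 1) → Fin (n + 1) → D} (hM : M 0 0 ≠ 0) : Dd χ Δ M = Sd χ Δ M :=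
  if_pos hM

theorem Dd_zero {M : Fin (n + 1) → Fin (n + 1) → D} (hM : ∀ j, M j 0 = 0) : Dd χ Δ M = 0 := by
  simp [Dd, hM]

theorem T_T {i j k : ι} (hk : k ≠ i) (c e : D) (M : ι → V) (hj : j ≠ i) :
    T i j c (T i k e M) = T i k e (T i j c M) := by
  funext l
  by_cases hl : l = i
  · subst hl; simp only [T_self, T_ne hk, T_ne hj]; abel
  · simp only [T_ne hl]

theorem T_add {i j : ι} (c e : D) (M : ι → V) (hj : j ≠ i) :
    T i j c (T i j e M) = T i j (e + c) M := by
  funext l
  by_cases hl : l = i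
  · subst hl; simp only [T_self, T_ne hj, add_smul]; abel
  · simp only [T_ne hl]

theorem T_zero (i j : ι) (M : ι → V) : T i j (0 : D) M = M := by
  funext l
  by_cases hl : l = i <;> simp [T, hl]

theorem Dd_neg (h2 : (2 : D) ≠ 0) (h : IsDet χ Δ) {M : Fin (n + 1) → Fin (n + 1) → D}
    (hM : M 0 0 = 0) {j : Fin (n + 1)} {c : D} (hc : c * M j 0 ≠ 0) :
    Dd χ Δ M = Sd χ Δ (T 0 j c M) := by
  have hj0 : M j 0 ≠ 0 := right_ne_zero_of_mul hc
  have hex : ∃ j, M j 0 ≠ 0 := ⟨j, hj0⟩
  have hk := hex.choose_spec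
  rw [Dd, if_neg (by simpa using hM), dif_pos hex]
  generalize hex.choose = k at hk
  have hj : j ≠ 0 := fun e => hj0 (e ▸ hM)
  have hk0 : k ≠ 0 := fun e => hk (e ▸ hM)
  set t := M k 0 * (M j 0)⁻¹ with ht
  have e : t * M j 0 = M k 0 := inv_mul_cancel_right₀ hj0 _
  have h22 : M k 0 + M k 0 ≠ 0 := by rw [← two_mul]; exact mul_ne_zero h2 hk
  have s1 := Sd_up h (T 0 k (1 : D) M) (by simpa [hM] using hk) hj t
    (by simpa [hM, T_ne hj, e] using h22)
  have s2 := Sd_up h (T 0 j t M) (by simpa [hM, e] using hk) hk0 1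
    (by simpa [hM, T_ne hk0, e] using h22)
  have s3 := Sd_up h (T 0 j t M) (by simpa [hM, e] using hk) hj (c - t)
    (by simpa [hM, T_ne hj, sub_mul] using hc)
  rw [T_add _ _ _ hj, add_sub_cancel] at s3
  rw [← s1, T_T hk0 _ _ _ hj, s2, s3]

theorem Dd_up (h2 : (2 : D) ≠ 0) (h : IsDet χ Δ) (M : Fin (n + 1) → Fin (n + 1) → D)
    {j : Fin (n + 1)} (hj : j ≠ 0) (c : D) : Dd χ Δ (T 0 j c M) = Dd χ Δ M := by
  by_cases h0 : M 0 0 = 0
  · by_cases h1 : c * M j 0 = 0
    · by_cases hz : ∀ k, M k 0 = 0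
      · rw [Dd_zero hz, Dd_zero]
        intro k
        by_cases hk : k = 0
        · subst hk; simp [hz]
        · rw [T_ne hk, hz]
      · push Not at hz
        obtain ⟨k, hk⟩ := hz
        have hk0 : k ≠ 0 := fun e => hk (e ▸ h0)
        rw [Dd_neg h2 h h0 (j := k) (c := 1) (by simpa using hk),
          Dd_neg h2 h (M := T 0 j c M) (by simp [h0, h1]) (j := k) (c := 1)
            (by simpa [T_ne hk0] using hk), T_T hj _ _ _ hk0]
        exact Sd_up h _ (by simpa [h0] using hk) hj c (by simpa [h0, T_ne hj, h1] using hk)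
    · rw [Dd_neg h2 h h0 h1, Dd_pos (by simpa [h0] using h1)]
  · by_cases h1 : M 0 0 + c * M j 0 = 0
    · have : (-c) * T 0 j c M j 0 ≠ 0 := by
        rw [T_ne hj, neg_mul, ← eq_neg_of_add_eq_zero_left h1]; exact h0
      rw [Dd_neg h2 h (by simpa using h1) this, T_add _ _ _ hj, add_neg_cancel, T_zero, Dd_pos h0]
    · rw [Dd_pos h0, Dd_pos (by simpa using h1), Sd_up h M h0 hj c h1]

theorem Dd_smul (h2 : (2 : D) ≠ 0) (h : IsDet χ Δ) (M : Fin (n + 1) → Fin (n + 1) → D)
    (i : Fin (n + 1)) (c : D) (hc : c ≠ 0) : Dd χ Δ (Sc i c M) = χ c * Dd χ Δ M := by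
  have hS : ∀ (M : Fin (n + 1) → Fin (n + 1) → D) k, Sc i c M k 0 = 0 ↔ M k 0 = 0 := by
    intro M k
    by_cases hk : k = i
    · subst hk; simp [hc]
    · rw [Sc_ne hk]
  have pos : ∀ M : Fin (n + 1) → Fin (n + 1) → D, M 0 0 ≠ 0 →
      Dd χ Δ (Sc i c M) = χ c * Dd χ Δ M := fun M h0 => by
    rw [Dd_pos h0, Dd_pos (mt (hS M 0).1 h0), Sd_smul h M i hc]
  by_cases h0 : M 0 0 = 0
  · by_cases hz : ∀ k, M k 0 = 0
    · rw [Dd_zero hz, Dd_zero fun k => (hS M k).2 (hz k), mul_zero]
    · push Not at hz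
      obtain ⟨k, hk⟩ := hz
      have hk0 : k ≠ 0 := fun e => hk (e ▸ h0)
      have : ∃ e : D, Sc i c (T 0 k (1 : D) M) = T 0 k e (Sc i c M) := by
        by_cases hi : i = 0
        · subst hi
          refine ⟨c, funext fun l => ?_⟩
          by_cases hl : l = 0
          · subst hl; simp [Sc_ne hk0]
          · simp [Sc_ne hl, T_ne hl]
        · refine ⟨if k = i then c⁻¹ else 1, funext fun l => ?_⟩
          by_cases hl : l = 0
          · subst hl
            by_cases hki : k = i
            · subst hki; simp [Sc_ne (Ne.symm hi), hc]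
            · simp [Sc_ne (Ne.symm hi), Sc_ne hki, hki]
          · by_cases hli : l = i
            · subst hli; simp [T_ne hl]
            · simp [T_ne hl, Sc_ne hli]
      obtain ⟨e, he⟩ := this
      rw [← Dd_up h2 h M hk0 1, ← pos _ (by simpa [h0] using hk), he, Dd_up h2 h _ hk0]
  · exact pos M h0

theorem Dd_col (h2 : (2 : D) ≠ 0) (h : IsDet χ Δ) (M : Fin (n + 1) → Fin (n + 1) → D)
    {i : Fin (n + 1)} (hi : i ≠ 0) : Dd χ Δ (T i 0 (1 : D) M) = Dd χ Δ M := by
  have pos : ∀ (M : Fin (n + 1) → Fin (n + 1) → D) (j : Fin (n + 1)) (c : D), M 0 0 ≠ 0 → i ≠ j →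
      Dd χ Δ (T i j c M) = Dd χ Δ M := fun M j c h0 hij => by
    rw [Dd_pos h0, Dd_pos (by rwa [T_ne hi.symm]), Sd_low h M h0 hi hij]
  by_cases h0 : M 0 0 = 0
  · by_cases hi0 : M i 0 = 0
    · by_cases hz : ∀ k, M k 0 = 0
      · rw [Dd_zero hz, Dd_zero]
        intro k
        by_cases hk : k = i
        · subst hk; simp [hz]
        · rw [T_ne hk, hz]
      · push Not at hz
        obtain ⟨k, hk⟩ := hz
        have hk0 : k ≠ 0 := fun e => hk (e ▸ h0)
        have hki : k ≠ i := fun e => hk (e ▸ hi0)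
        have : T 0 k (1 : D) (T i 0 (1 : D) M) =
            T i k (-1 : D) (T i 0 (1 : D) (T 0 k (1 : D) M)) := by
          funext l
          by_cases hl : l = 0
          · subst hl; simp [T_ne hi.symm, T_ne hki]
          · by_cases hli : l = i
            · subst hli; simp [T_ne hl, T_ne hki, T_ne hk0, add_assoc]
            · simp [T_ne hl, T_ne hli]
        have p : T 0 k (1 : D) M 0 0 ≠ 0 := by simpa [h0] using hk
        rw [← Dd_up h2 h _ hk0 1, this, pos _ _ _ (by rwa [T_ne hi.symm]) hki.symm,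
          pos _ _ _ p hi, Dd_up h2 h _ hk0]
    · have : Sc 0 (2 : D) (T i 0 (1 : D) M) =
          T 0 i (1 : D) (Sc i (2 : D) (T i 0 (2 : D)⁻¹ (T 0 i (-1 : D) M))) := by
        funext l
        by_cases hl : l = 0
        · subst hl
          simp only [Sc_self, T_self, T_ne hi.symm, Sc_ne hi.symm, T_ne hi, smul_add,
            smul_inv_smul₀ h2, one_smul, neg_smul, smul_neg, two_smul]
          abel
        · by_cases hli : l = i
          · subst hli
            simp only [Sc_self, T_self, Sc_ne hi, T_ne hi, smul_add,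
              smul_inv_smul₀ h2, one_smul, neg_smul]
            rw [two_smul]
            abel
          · simp [T_ne hl, T_ne hli, Sc_ne hl, Sc_ne hli]
      have e := congrArg (Dd χ Δ) this
      rw [Dd_smul h2 h _ _ _ h2, Dd_up h2 h _ hi, Dd_smul h2 h _ _ _ h2,
        pos (T 0 i (-1 : D) M) _ _ (by simpa [h0] using hi0) hi, Dd_up h2 h _ hi] at e
      exact mul_left_cancel₀ (by simpa using h2) e
  · exact pos M 0 1 h0 hi

theorem isDet_Dd (h2 : (2 : D) ≠ 0) (h : IsDet χ Δ) : IsDet χ (Dd χ Δ) := by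
  have col : ∀ (M : Fin (n + 1) → Fin (n + 1) → D) (i : Fin (n + 1)) (c : D), i ≠ 0 →
      Dd χ Δ (T i 0 c M) = Dd χ Δ M := by
    intro M i c hi
    by_cases hc : c = 0
    · rw [hc, T_zero]
    · have : T i 0 c M = Sc 0 c⁻¹ (T i 0 (1 : D) (Sc 0 c M)) := by
        funext k
        by_cases hk : k = i
        · subst hk; simp [Sc_ne hi]
        · by_cases hkj : k = 0
          · subst hkj; simp [T_ne hk, hc]
          · simp [T_ne hk, Sc_ne hkj]
      rw [this, Dd_smul h2 h _ _ _ (inv_ne_zero hc), Dd_col h2 h _ hi, Dd_smul h2 h _ _ _ hc,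
        ← mul_assoc, ← map_mul, inv_mul_cancel₀ hc, map_one, one_mul]
  refine ⟨fun M i j c hij => ?_, Dd_smul h2 h⟩
  by_cases hi : i = 0
  · subst hi; exact Dd_up h2 h M hij.symm c
  by_cases hj : j = 0
  · subst hj; exact col M i c hi
  have : T i j c M = T 0 j (-1 : D) (T i 0 c (T 0 j (1 : D) (T i 0 (-c) M))) := by
    funext l
    by_cases hl : l = 0
    · subst hl; simp [T_ne (Ne.symm hi), T_ne hj, T_ne hij.symm]
    · by_cases hli : l = i
      · subst hli; simp [T_ne hl, T_ne (Ne.symm hi), T_ne hij.symm]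
      · simp [T_ne hl, T_ne hli]
  rw [this, Dd_up h2 h _ hj, col _ _ _ hi, Dd_up h2 h _ hj, col _ _ _ hi]

theorem exists_isDet (h2 : (2 : D) ≠ 0) (χ : D →*₀ A) (n : ℕ) :
    ∃ Δ : (Fin n → Fin n → D) → A, IsDet χ Δ ∧ Δ (fun i => Pi.single i 1) = 1 := by
  induction n with
  | zero => exact ⟨fun _ => 1, ⟨fun _ i => i.elim0, fun _ i => i.elim0⟩, rfl⟩
  | succ n ih =>
    obtain ⟨Δ, h, h1⟩ := ih
    refine ⟨Dd χ Δ, isDet_Dd h2 h, ?_⟩
    rw [Dd_pos (by simp), Sd]
    have : sch (fun i : Fin (n + 1) => (Pi.single i 1 : Fin (n + 1) → D)) =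
        fun i => Pi.single i 1 := by
      funext k l
      simp [sch, Pi.single_apply, (Fin.succ_ne_zero _).symm]
    simp [this, h1]

/-- The Dieudonné determinant. -/
theorem exists_ddet (h2 : (2 : D) ≠ 0) (χ : D →*₀ A) (b : Basis (Fin n) D V) :
    ∃ δ : (V ≃ₗ[D] V) →* A, ∀ (g : V ≃ₗ[D] V) (d : Fin n → D), (∀ i, g (b i) = d i • b i) →
      δ g = ∏ i, χ (d i) := by
  obtain ⟨Δ₀, h₀, h1⟩ := exists_isDet h2 χ n
  let Δ : (V ≃ₗ[D] V) → (Fin n → V) → A := fun g M => Δ₀ fun i => b.equivFun (g (M i))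
  have h : ∀ g, IsDet χ (Δ g) := fun g => by
    refine ⟨fun M i j c hij => ?_, fun M i c hc => ?_⟩
    · rw [← show _ = Δ g M from h₀.add _ i j c hij]
      refine congrArg Δ₀ (funext fun k => ?_)
      by_cases hk : k = i
      · subst hk; simp only [T_self, map_add, map_smul]
      · simp only [T_ne hk]
    · rw [← show _ = χ c * Δ g M from h₀.smul _ i c hc]
      refine congrArg Δ₀ (funext fun k => ?_)
      by_cases hk : k = i
      · subst hk; simp only [Sc_self, map_smul]
      · simp only [Sc_ne hk]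
  have one : Δ 1 b = 1 := by
    rw [← h1]
    refine congrArg Δ₀ (funext fun i => funext fun j => ?_)
    simp [Pi.single_apply, eq_comm]
  have key : ∀ (g : V ≃ₗ[D] V) (M : Fin n → V), LinearIndependent D M →
      Δ g M = Δ g b * Δ 1 M := fun g M hM =>
    connect (D := D) (P := fun M => Δ g M = Δ g b * Δ 1 M)
      (fun M i j c hij hP => by
        beta_reduce at hP ⊢
        rw [(h g).add _ _ _ _ hij, (h 1).add _ _ _ _ hij, hP])
      (fun M i c hc hP => by
        beta_reduce at hP ⊢
        rw [(h g).smul _ _ _ hc, (h 1).smul _ _ _ hc, hP, mul_left_comm])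
      (M := b) (by rw [one, mul_one]) b.span_eq hM
  refine ⟨⟨⟨fun g => Δ g b, one⟩, fun g g' => key g (fun i => g' (b i))
    (b.linearIndependent.map' g'.toLinearMap g'.ker)⟩, fun g d hd => ?_⟩
  have hd0 : ∀ i, d i ≠ 0 := fun i e => b.ne_zero i (g.injective (by rw [hd, e]; simp))
  have : ∀ s : Finset (Fin n), Δ 1 (fun i => if i ∈ s then d i • b i else b i) = ∏ i ∈ s, χ (d i) := by
    intro s
    induction s using Finset.induction_on with
    | empty => simpa using one
    | insert a s ha ih =>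
      rw [prod_insert ha, ← ih, ← (h 1).smul _ a _ (hd0 a)]
      congr 1
      funext k
      by_cases hk : k = a
      · subst hk; simp [ha]
      · simp [Sc_ne hk, hk]
  rw [← this univ]
  simp only [mem_univ, if_true, ← hd]
  rfl

end det

section out
variable {D V A : Type*} [DivisionRing D] [AddCommGroup V] [Module D V] [CommGroup A] {n : ℕ}

open Classical in
/-- extension by zero -/
noncomputable def ext0 (χ : Dˣ →* A) : D →*₀ WithZero A where
  toFun d := if h : d = 0 then 0 else (χ (Units.mk0 d h) : A)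
  map_zero' := by simp
  map_one' := by
    rw [dif_neg one_ne_zero, show Units.mk0 (1 : D) one_ne_zero = 1 from Units.ext rfl, map_one]
    rfl
  map_mul' x y := by
    by_cases hx : x = 0
    · simp [hx]
    by_cases hy : y = 0
    · simp [hy]
    rw [dif_neg hx, dif_neg hy, dif_neg (mul_ne_zero hx hy), ← WithZero.coe_mul, ← map_mul,
      Units.mk0_mul]

theorem ext0_coe (χ : Dˣ →* A) (d : Dˣ) : ext0 χ (d : D) = (χ d : A) := by
  simp [ext0]

/-- **Dieudonné determinant** with values in any commutative group. -/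
theorem exists_ddetU (h2 : (2 : D) ≠ 0) (χ : Dˣ →* A) (b : Basis (Fin n) D V) :
    ∃ δ : (V ≃ₗ[D] V) →* A, ∀ (g : V ≃ₗ[D] V) (d : Fin n → Dˣ),
      (∀ i, g (b i) = (d i : D) • b i) → δ g = ∏ i, χ (d i) := by
  obtain ⟨δ, h⟩ := exists_ddet h2 (ext0 χ) b
  refine ⟨(WithZero.unitsWithZeroEquiv (α := A)).toMonoidHom.comp δ.toHomUnits, fun g d hd => ?_⟩
  apply WithZero.coe_injective
  have := h g (fun i => d i) hd
  simp only [ext0_coe] at this
  rw [show ((∏ i, χ (d i) : A) : WithZero A) = ∏ i, (χ (d i) : WithZero A) from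
    map_prod (WithZero.coeMonoidHom (α := A)) _ _, ← this]
  exact WithZero.coe_unitsWithZeroEquiv_eq_units_val _

end out

section mat
variable {D ι : Type*} [DivisionRing D] [Fintype ι] [DecidableEq ι]

/-- one diagonal entry -/
def dg (i : ι) : Dˣ →* (Matrix ι ι D)ˣ :=
  Units.map ((Matrix.diagonalRingHom ι D).toMonoidHom.comp (MonoidHom.mulSingle (fun _ => D) i))

theorem dg_val (i : ι) (d : Dˣ) :
    (dg i d : Matrix ι ι D) = Matrix.diagonal (Pi.mulSingle i (d : D)) := rfl

/-- a transvection -/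
def tv {i j : ι} (h : i ≠ j) (c : D) : (Matrix ι ι D)ˣ where
  val := 1 + Matrix.single i j c
  inv := 1 + Matrix.single i j (-c)
  val_inv := by
    simp only [mul_add, add_mul, one_mul, mul_one, Matrix.single_mul_single_of_ne _ _ _ _ h.symm,
      add_zero, add_assoc, ← Matrix.single_add, add_neg_cancel, Matrix.single_zero]
  inv_val := by
    simp only [mul_add, add_mul, one_mul, mul_one, Matrix.single_mul_single_of_ne _ _ _ _ h.symm,
      add_zero, add_assoc, ← Matrix.single_add, neg_add_cancel, Matrix.single_zero]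

theorem tv_mul {i j : ι} (h : i ≠ j) (c : D) (M : ι → ι → D) :
    (tv h c : Matrix ι ι D) * Matrix.of M = Matrix.of (T i j c M) := by
  ext k l
  change ((1 + Matrix.single i j c) * Matrix.of M) k l = _
  rw [add_mul, one_mul, Matrix.add_apply]
  by_cases hk : k = i
  · subst hk; simp
  · rw [Matrix.single_mul_apply_of_ne _ _ _ _ _ hk]
    simp [T_ne hk]

theorem dg_mul (i : ι) (d : Dˣ) (M : ι → ι → D) :
    (dg i d : Matrix ι ι D) * Matrix.of M = Matrix.of (Sc i (d : D) M) := by
  ext k l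
  rw [dg_val, Matrix.diagonal_mul]
  by_cases hk : k = i
  · subst hk; simp
  · simp [Sc_ne hk, Pi.mulSingle_eq_of_ne hk]

theorem ext_of {u v : (Matrix ι ι D)ˣ}
    (h : ∀ N : ι → ι → D, (u : Matrix ι ι D) * Matrix.of N = (v : Matrix ι ι D) * Matrix.of N) :
    u = v := Units.ext (by simpa using h (Matrix.of.symm 1))

theorem of_tv (h2 : (2 : D) ≠ 0) {i j : ι} (h : i ≠ j) (c : D) :
    Abelianization.of (tv h c) = 1 := by
  have : dg i (Units.mk0 2 h2) * tv h c = tv h c * (tv h c * dg i (Units.mk0 2 h2)) := by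
    refine ext_of fun N => ?_
    simp only [Units.val_mul, Matrix.mul_assoc, tv_mul, dg_mul]
    refine congrArg _ (funext fun k => ?_)
    by_cases hk : k = i
    · subst hk
      simp only [T_self, Sc_self, T_ne h.symm, Sc_ne h.symm, Units.val_mk0, two_smul]
      abel
    · simp only [T_ne hk, Sc_ne hk]
  have := congrArg Abelianization.of this
  simp only [map_mul] at this
  rw [mul_comm (Abelianization.of (tv h c)) (Abelianization.of _), mul_left_comm,
    mul_right_inj] at this
  simpa using this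

theorem of_dg (h2 : (2 : D) ≠ 0) (i j : ι) (d : Dˣ) :
    Abelianization.of (dg i d) = Abelianization.of (dg j d) := by
  by_cases h : i = j
  · rw [h]
  have h' : j ≠ i := Ne.symm h
  have : dg i d * (tv h 1 * (tv h' (-1) * tv h 1)) =
      tv h 1 * (tv h' (-1) * (tv h 1 * dg j d)) := by
    refine ext_of fun N => ?_
    simp only [Units.val_mul, Matrix.mul_assoc, tv_mul, dg_mul]
    refine congrArg _ (funext fun k => ?_)
    by_cases hk : k = i
    · subst hk
      simp [T_ne h', T_ne h, Sc_ne h]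
    · by_cases hj : k = j
      · subst hj
        simp [T_ne h', T_ne h, Sc_ne h, Sc_ne h']
      · simp only [T_ne hk, Sc_ne hk, T_ne hj, Sc_ne hj]
  have := congrArg Abelianization.of this
  simpa only [map_mul, of_tv h2, one_mul, mul_one] using this

/-- every invertible matrix is `diag (d, 1, …, 1)` modulo commutators -/
theorem exists_dg (h2 : (2 : D) ≠ 0) (i₀ : ι) (u : (Matrix ι ι D)ˣ) :
    ∃ d : Dˣ, Abelianization.of u = Abelianization.of (dg i₀ d) := by
  have hli : LinearIndependent D (u : Matrix ι ι D).row := by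
    rw [Fintype.linearIndependent_iff]
    intro g hg
    have h1 : Matrix.vecMul g (u : Matrix ι ι D) = 0 := by
      rw [Matrix.vecMul_eq_sum]; exact hg
    have h3 := congrArg (fun v => Matrix.vecMul v (↑u⁻¹ : Matrix ι ι D)) h1
    simp only [Matrix.vecMul_vecMul, Units.mul_inv, Matrix.vecMul_one, Matrix.zero_vecMul] at h3
    exact congrFun h3
  have := connect (D := D) (P := fun M : ι → ι → D => ∃ v : (Matrix ι ι D)ˣ,
      (v : Matrix ι ι D) = Matrix.of M ∧
      ∃ d : Dˣ, Abelianization.of v = Abelianization.of (dg i₀ d))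
    (by
      rintro M i j c hij ⟨v, hv, d, hd⟩
      exact ⟨tv hij c * v, by rw [Units.val_mul, hv, tv_mul], d, by
        rw [map_mul, of_tv h2, one_mul, hd]⟩)
    (by
      rintro M i c hc ⟨v, hv, d, hd⟩
      exact ⟨dg i (Units.mk0 c hc) * v, by rw [Units.val_mul, hv, dg_mul]; rfl,
        Units.mk0 c hc * d, by rw [map_mul, map_mul, map_mul, hd, of_dg h2 i i₀]⟩)
    (M := Matrix.of.symm (1 : Matrix ι ι D)) ⟨1, rfl, 1, by simp⟩
    (by
      rw [← (Pi.basisFun D ι).span_eq]
      congr 2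
      funext i j
      simp [Matrix.one_apply, Pi.single_apply, eq_comm]) hli
  obtain ⟨v, hv, d, hd⟩ := this
  exact ⟨d, (Units.ext hv : v = u) ▸ hd⟩

end mat

end Crest.Agent.T24.Wg
end

-- ▼ part T24/WgNrd_25

/-!
# Row 24 (helper25): reduced norms, `SK₁`: reduction to division algebras, transfer, real places
-/

set_option autoImplicit false

noncomputable section

namespace Crest.Agent.T24.Wg

open scoped TensorProduct
open Module Polynomial Csa

universe u v

section tower
variable {K K' B C : Type*} [Field K] [CharZero K] [Field K'] [CharZero K'] [Algebra K K']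
  [FiniteDimensional K K'] [Ring B] [Algebra K B] [Algebra.IsCentral K B] [IsSimpleRing B]
  [FiniteDimensional K B] [Ring C] [Algebra K' C] [Algebra.IsCentral K' C] [IsSimpleRing C]
  [FiniteDimensional K' C] [Algebra K C] [IsScalarTower K K' C]

theorem Nrd_tower_pow (ι : C →ₐ[K] B) (h : finrank K B = finrank K K' * finrank K C) (x : C) :
    Nrd K (ι x) ^ deg K B = Algebra.norm K (Nrd K' x) ^ deg K B := by
  have : FiniteDimensional K C := Module.Finite.trans K' C
  have hd : deg K B = finrank K K' * deg K' C := by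
    apply deg_eq
    rw [h, ← finrank_mul_finrank K K' C, finrank_eq_deg_sq K' C]; ring
  let _ : Module C B := Module.compHom B (ι : C →+* B)
  have hs : ∀ (c : C) (b : B), c • b = ι c * b := fun _ _ => rfl
  have : IsScalarTower K C B := ⟨fun c y b => by rw [hs, hs, map_smul, smul_mul_assoc]⟩
  obtain ⟨e⟩ := equiv_of_finrank (K := K) (R := C) (M := B) (N := Fin (finrank K K') → C)
    (by rw [h, finrank_pi_fintype]; simp)
  let e' : B ≃ₗ[K] (Fin (finrank K K') → C) := e.restrictScalars K
  have h1 : LinearMap.pi (fun i : Fin (finrank K K') =>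
      (Algebra.lmul K C x).comp (LinearMap.proj i)) =
      (e' : B →ₗ[K] _) ∘ₗ Algebra.lmul K B (ι x) ∘ₗ (e'.symm : _ →ₗ[K] B) := by
    refine LinearMap.ext fun y => ?_
    obtain ⟨b, rfl⟩ := e'.surjective y
    simp only [LinearMap.comp_apply, LinearEquiv.coe_coe, LinearEquiv.symm_apply_apply]
    change _ = e (x • b)
    rw [map_smul]
    rfl
  have h2 : Algebra.lmul K C x = (Algebra.lmul K' C x).restrictScalars K := rfl
  rw [Nrd_pow, ← LinearMap.det_conj _ e', ← h1, LinearMap.det_pi, h2,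
    LinearMap.det_restrictScalars, ← Nrd_pow, map_pow, hd]
  simp [← pow_mul, mul_comm]

/-- `Nrd_B = N_{K'/K} ∘ Nrd_C` on a centraliser -/
theorem Nrd_tower (ι : C →ₐ[K] B) (h : finrank K B = finrank K K' * finrank K C) (x : C) :
    Nrd K (ι x) = Algebra.norm K (Nrd K' x) := by
  let Om := AlgebraicClosure K
  let P : Om[X] := (rch K (ι (-x))).map (algebraMap K Om)
  let G : Om[X] := ∏ σ : K' →ₐ[K] Om, (rch K' (-x)).map (σ : K' →+* Om)
  have hP : ∀ t : K, P.eval (algebraMap K Om t) =
      algebraMap K Om (Nrd K (ι (algebraMap K C t - -x))) := fun t => by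
    rw [eval_map_algebraMap, aeval_algebraMap_apply_eq_algebraMap_eval, eval_rch, map_sub ι,
      AlgHom.commutes]
  have hG : ∀ t : K, G.eval (algebraMap K Om t) =
      algebraMap K Om (Algebra.norm K (Nrd K' (algebraMap K C t - -x))) := fun t => by
    rw [eval_prod, Algebra.norm_eq_prod_embeddings, IsScalarTower.algebraMap_apply K K' C,
      ← eval_rch]
    refine Finset.prod_congr rfl fun σ _ => ?_
    rw [← σ.commutes t, eval_map]
    exact eval₂_at_apply (σ : K' →+* Om) _
  have hPG : P = G := by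
    refine root_unique ((rch_monic K _).map _) (monic_prod_of_monic _ _ fun σ _ =>
      (rch_monic K' _).map _) (deg_pos K B).ne' (eq_of_infinite_eval_eq _ _ ?_)
    refine (Set.infinite_range_of_injective (algebraMap K Om).injective).mono ?_
    rintro _ ⟨t, rfl⟩
    simp only [Set.mem_ofPred_eq, eval_pow, hP, hG, ← map_pow, Nrd_tower_pow ι h]
  have := hP 0
  rw [hPG, hG] at this
  simpa using ((algebraMap K Om).injective this).symm

end tower

section sk
variable (K B : Type*) [Field K] [CharZero K] [Ring B] [Algebra K B] [Algebra.IsCentral K B]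
  [IsSimpleRing B] [FiniteDimensional K B]

/-- `SK₁ B = 1` -/
def SK : Prop := ∀ x : Bˣ, Nrd K (x : B) = 1 → Abelianization.of x = 1

/-- `B` is definite at the real place `ρ` -/
def Dfn (ρ : K →+* ℝ) : Prop := ∀ y : Bˣ, 0 < ρ (Nrd K (y : B))

variable {K B}

theorem Nrd_of_eq {x y : Bˣ} (h : Abelianization.of x = Abelianization.of y) :
    Nrd K (x : B) = Nrd K (y : B) := by
  have := congrArg (fun z => ((Abelianization.lift (Units.map (Nrd K : B →*₀ K).toMonoidHom) z :
    Kˣ) : K)) h
  simpa using this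

theorem of_map {G H : Type*} [Group G] [Group H] (f : G →* H) {x y : G}
    (h : Abelianization.of x = Abelianization.of y) :
    Abelianization.of (f x) = Abelianization.of (f y) := by
  have := congrArg (Abelianization.map f) h
  simpa using this

theorem Nrd_equiv {C : Type*} [Ring C] [Algebra K C] [Algebra.IsCentral K C] [IsSimpleRing C]
    [FiniteDimensional K C] (e : B ≃ₐ[K] C) (x : B) : Nrd K (e x) = Nrd K x :=
  Nrd_map (RingHom.id K) (e : B →+* C) e.commutes e.toLinearEquiv.finrank_eq.symm x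

variable {D : Type*} [DivisionRing D] [Algebra K D] [Algebra.IsCentral K D] [FiniteDimensional K D]
  {r : ℕ} [NeZero r]

omit [Algebra.IsCentral K D] [FiniteDimensional K D] in
variable (K D) in
include K in
theorem two_ne : (2 : D) ≠ 0 := by
  have : algebraMap K D 2 ≠ 0 := by simp
  rwa [map_ofNat] at this

theorem Nrd_dg (i : Fin r) (d : Dˣ) : Nrd K (dg i d : Matrix (Fin r) (Fin r) D) = Nrd K (d : D) := by
  rw [dg_val, Nrd_diagonal, Finset.prod_eq_single i]
  · simp
  · intro j _ hj; simp [Pi.mulSingle_eq_of_ne hj]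
  · simp

/-- the diagonal embedding of `Dˣ` in `Bˣ` -/
def emb (e : B ≃ₐ[K] Matrix (Fin r) (Fin r) D) : Dˣ →* Bˣ :=
  (Units.map (e.symm : Matrix (Fin r) (Fin r) D →* B)).comp (dg 0)

theorem Nrd_emb (e : B ≃ₐ[K] Matrix (Fin r) (Fin r) D) (d : Dˣ) :
    Nrd K (emb e d : B) = Nrd K (d : D) :=
  (Nrd_equiv e.symm _).trans (Nrd_dg 0 d)

omit [Algebra.IsCentral K B] [IsSimpleRing B] [FiniteDimensional K B] [Algebra.IsCentral K D]
  [FiniteDimensional K D] in
theorem exists_emb (e : B ≃ₐ[K] Matrix (Fin r) (Fin r) D) (x : Bˣ) :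
    ∃ d : Dˣ, Abelianization.of x = Abelianization.of (emb e d) := by
  obtain ⟨d, hd⟩ := exists_dg (two_ne K D) (0 : Fin r)
    (Units.map (e : B →* Matrix (Fin r) (Fin r) D) x)
  refine ⟨d, ?_⟩
  have := of_map (Units.map (e.symm : Matrix (Fin r) (Fin r) D →* B)) hd
  rwa [show Units.map (e.symm : Matrix (Fin r) (Fin r) D →* B) 
    (Units.map (e : B →* Matrix (Fin r) (Fin r) D) x) = x from
    Units.ext (e.symm_apply_apply _)] at this

theorem exists_Nrd_eq (e : B ≃ₐ[K] Matrix (Fin r) (Fin r) D) (x : Bˣ) :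
    ∃ d : Dˣ, Nrd K (x : B) = Nrd K (d : D) := by
  obtain ⟨d, hd⟩ := exists_emb e x
  exact ⟨d, (Nrd_of_eq hd).trans (Nrd_emb e d)⟩

theorem SK.of_matrix (e : B ≃ₐ[K] Matrix (Fin r) (Fin r) D) (h : SK K D) : SK K B := by
  intro x hx
  obtain ⟨d, hd⟩ := exists_emb e x
  have := h d (by rw [← Nrd_emb e, ← Nrd_of_eq hd, hx])
  rw [hd, of_map (emb e) (this.trans (map_one _).symm), map_one, map_one]

theorem Dfn.of_matrix (e : B ≃ₐ[K] Matrix (Fin r) (Fin r) D) {ρ : K →+* ℝ} (h : Dfn K D ρ) :
    Dfn K B ρ := fun y => by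
  obtain ⟨d, hd⟩ := exists_Nrd_eq e y
  exact hd ▸ h d

end sk

section transfer
variable {K D : Type*} (L : Type*) [Field K] [CharZero K] [DivisionRing D] [Algebra K D] [Field L]
  [Algebra K L] [FiniteDimensional K L]

/-- the inclusion of units in the base change -/
def inc (K L : Type*) {B : Type*} [Field K] [Ring B] [Algebra K B] [Field L] [Algebra K L] :
    Bˣ →* (L ⊗[K] B)ˣ :=
  Units.map ((Algebra.TensorProduct.includeRight : B →ₐ[K] L ⊗[K] B) : B →* L ⊗[K] B)

theorem inc_val (K L : Type*) {B : Type*} [Field K] [Ring B] [Algebra K B] [Field L] [Algebra K L]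
    (x : Bˣ) : (inc K L x : L ⊗[K] B) = 1 ⊗ₜ[K] (x : B) := rfl

theorem Nrd_bc {B : Type*} [Ring B] [Algebra K B] [Algebra.IsCentral K B] [IsSimpleRing B]
    [FiniteDimensional K B] (L : Type*) [Field L] [CharZero L] [Algebra K L]
    [IsSimpleRing (L ⊗[K] B)] [Algebra.IsCentral L (L ⊗[K] B)] (x : B) :
    Nrd L ((1 : L) ⊗ₜ[K] x) = algebraMap K L (Nrd K x) :=
  Nrd_map (algebraMap K L) (Algebra.TensorProduct.includeRight : B →ₐ[K] L ⊗[K] B).toRingHom
    (fun c => ((Algebra.TensorProduct.includeRight : B →ₐ[K] L ⊗[K] B).commutes c).trans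
      (IsScalarTower.algebraMap_apply K L _ c)) finrank_baseChange x

/-- the transfer `K₁ (L ⊗ D) → K₁ D` -/
theorem exists_transfer {A : Type*} [CommGroup A] (χ : Dˣ →* A) :
    ∃ N : (L ⊗[K] D)ˣ →* A, ∀ x : Dˣ, N (inc K L x) = χ x ^ finrank K L := by
  obtain ⟨δ, hδ⟩ := exists_ddetU (two_ne K D) χ
    (Algebra.TensorProduct.basis D (finBasis K L))
  let R : (D ⊗[K] L)ˣ → (D ⊗[K] L ≃ₗ[D] D ⊗[K] L) := fun u =>
    { toFun := fun z => z * u
      invFun := fun z => z * ↑u⁻¹
      map_add' := fun a b => add_mul _ _ _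
      map_smul' := fun d a => smul_mul_assoc _ _ _
      left_inv := fun z => u.mul_inv_cancel_right z
      right_inv := fun z => u.inv_mul_cancel_right z }
  let N : (D ⊗[K] L)ˣ →* A := MonoidHom.mk' (fun u => δ (R u)) fun u w => by
    rw [mul_comm, ← map_mul]
    congr 1
    refine LinearEquiv.ext fun z => ?_
    exact (mul_assoc _ _ _).symm
  refine ⟨N.comp (Units.map (Algebra.TensorProduct.comm K L D : L ⊗[K] D →* D ⊗[K] L)),
    fun x => ?_⟩
  have := hδ (R (Units.map (Algebra.TensorProduct.comm K L D : L ⊗[K] D →* D ⊗[K] L)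
    (inc K L x))) (fun _ => x)
    fun i => by
      change _ * ((x : D) ⊗ₜ[K] (1 : L)) = _
      simp [Algebra.TensorProduct.basis_apply, TensorProduct.smul_tmul']
  rw [Finset.prod_const, Finset.card_univ, Fintype.card_fin] at this
  exact this

theorem transfer {x : Dˣ} (h : Abelianization.of (inc K L x) = 1) :
    Abelianization.of x ^ finrank K L = 1 := by
  obtain ⟨N, hN⟩ := exists_transfer (K := K) L (Abelianization.of : Dˣ →* _)
  rw [← hN, ← Abelianization.lift_apply_of N, h, map_one]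

end transfer

section real

theorem Nrd_pos_real {D : Type*} [DivisionRing D] [Algebra ℝ D] [Algebra.IsCentral ℝ D]
    [FiniteDimensional ℝ D] (h : finrank ℝ D ≠ 1) (d : Dˣ) : 0 < Nrd ℝ (d : D) := by
  have key : ∀ z : D, (∀ t : ℝ, algebraMap ℝ D t ≠ z) → 0 < Nrd ℝ (-z) := by
    intro z hz
    have h0 : ∀ t, (rch ℝ z).eval t ≠ 0 := fun t => by
      rw [eval_rch, ← isUnit_iff_Nrd, isUnit_iff_ne_zero, sub_ne_zero]; exact hz t
    have hdeg : 0 < (rch ℝ z).degree := by
      rw [← natDegree_pos_iff_degree_pos, rch_natDegree]; exact deg_pos ℝ D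
    have hlim := tendsto_atTop_of_leadingCoeff_nonneg _ hdeg
      (by rw [(rch_monic ℝ z).leadingCoeff]; exact zero_le_one)
    obtain ⟨s, hs⟩ := (hlim.eventually_gt_atTop 0).exists
    rw [← zero_sub, ← map_zero (algebraMap ℝ D), ← eval_rch]
    by_contra hn
    obtain ⟨c, hc⟩ := mem_range_of_exists_le_of_exists_ge (c := 0) (rch ℝ z).continuous
      ⟨0, not_lt.1 hn⟩ ⟨s, hs.le⟩
    exact h0 c hc
  by_cases hd : ∀ t : ℝ, algebraMap ℝ D t ≠ -(d : D)
  · simpa using key _ hd
  · push Not at hd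
    obtain ⟨t, ht⟩ := hd
    have hd' : (d : D) = algebraMap ℝ D (-t) := by rw [map_neg, ht, neg_neg]
    have : ∃ z : D, ∀ t : ℝ, algebraMap ℝ D t ≠ z := by
      by_contra hn
      push Not at hn
      exact h (Algebra.finrank_eq_one_iff_bijective_algebraMap.2 ⟨(algebraMap ℝ D).injective, hn⟩)
    obtain ⟨z, hz⟩ := this
    have h1 := key z hz
    have h2 := key (-z) fun t e => hz (-t) (by rw [map_neg, e, neg_neg])
    rw [neg_neg] at h2
    rw [Nrd_neg, mul_pos_iff_of_pos_right h2] at h1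
    have he : Even (deg ℝ D) := by
      by_contra hodd
      rw [(Nat.not_even_iff_odd.1 hodd).neg_one_pow] at h1
      norm_num at h1
    rw [hd', Nrd_algebraMap]
    refine he.pow_pos fun h0 => d.ne_zero ?_
    rw [hd', h0, map_zero]

/-- not split at a real place implies definite -/
theorem spl_or_dfn {K B : Type*} [Field K] [CharZero K] [Ring B] [Algebra K B]
    [Algebra.IsCentral K B] [IsSimpleRing B] [FiniteDimensional K B] (ρ : K →+* ℝ) :
    Hsm.Spl B (deg K B) ρ ∨ Dfn K B ρ := by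
  let _ : Algebra K ℝ := ρ.toAlgebra
  have := isSimpleRing_tensor (K := K) (A := ℝ) (B := B)
  have := isCentral_tensor (K := K) (F := ℝ) (A := ℝ) (B := B)
  have hn : finrank ℝ (ℝ ⊗[K] B) = deg K B ^ 2 := by
    rw [finrank_baseChange, finrank_eq_deg_sq K B]
  obtain ⟨r, e, D, _, _, _, _, hr, he, hre, hD, ⟨φ⟩⟩ := Hsm.exists_wedderburn ℝ (ℝ ⊗[K] B) hn
  have : NeZero r := ⟨hr.ne'⟩
  by_cases h1 : finrank ℝ D = 1
  · left
    have he1 : e = 1 := by
      rw [hD] at h1; simpa using h1
    rw [hre, he1, mul_one]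
    let ψ := AlgEquiv.ofBijective (Algebra.ofId ℝ D)
      (Algebra.finrank_eq_one_iff_bijective_algebraMap.1 h1)
    have : Hsm.Spl (ℝ ⊗[K] B) r (RingHom.id ℝ) :=
      Hsm.spl_iff.2 ⟨(φ.trans ψ.symm.mapMatrix).toAlgHom⟩
    exact this.of_bc
  · right
    intro y
    obtain ⟨d, hd⟩ := exists_Nrd_eq φ (inc K ℝ y)
    rw [inc_val, Nrd_bc] at hd
    exact (Nrd_pos_real h1 d).trans_eq hd.symm

end real

/-- Hasse-Schilling-Maass for division algebras (helper23) -/
def HsmStmt : Prop :=
  ∀ (F : Type u) (D : Type v) [Field F] [NumberField F] [DivisionRing D] [Algebra F D]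
    [Algebra.IsCentral F D] [FiniteDimensional F D] (a : F), a ≠ 0 →
    (∀ ρ : F →+* ℝ, Hsm.Spl D (deg F D) ρ ∨ 0 < ρ a) → ∃ x : D, Nrd F x = a

/-- Hasse-Schilling-Maass, intrinsic form, any central simple algebra -/
theorem hsm (hH : HsmStmt.{u, v}) {F : Type u} {B : Type v} [Field F] [NumberField F] [Ring B]
    [Algebra F B] [Algebra.IsCentral F B] [IsSimpleRing B] [FiniteDimensional F B] {a : F}
    (ha : a ≠ 0)
    (h : ∀ ρ : F →+* ℝ, Dfn F B ρ → 0 < ρ a) : ∃ x : Bˣ, Nrd F (x : B) = a := by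
  obtain ⟨r, e, D, _, _, _, _, hr, -, -, -, ⟨φ⟩⟩ :=
    Hsm.exists_wedderburn F B (finrank_eq_deg_sq F B)
  have : NeZero r := ⟨hr.ne'⟩
  obtain ⟨x, hx⟩ := hH F D a ha fun ρ => (spl_or_dfn ρ).imp_right fun hd => h ρ (hd.of_matrix φ)
  have hx0 : x ≠ 0 := fun e => ha (by rw [← hx, e, map_zero])
  exact ⟨emb φ (Units.mk0 x hx0), (Nrd_emb φ _).trans hx⟩

end Crest.Agent.T24.Wg
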