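import Crest.Agent.T24.Csa4_50
import Crest.Agent.T24.WgNrd_25

/-! The centraliser of a subfield as a central simple algebra (with involution). -/

set_option autoImplicit false

noncomputable section

namespace Crest.Agent.T24.Csa

open Module Polynomial

section Cz

variable {K E B : Type*} [Field K] [Field E] [Algebra K E] [Ring B] [Algebra K B]

/-- the centraliser of the subfield `i E` -/
def Cz (i : E →ₐ[K] B) : Subalgebra K B := Subalgebra.centralizer K (Set.range i)

namespace Cz

variable (i : E →ₐ[K] B)

variable {i} in
theorem mem_iff {x : B} : x ∈ Cz i ↔ ∀ c, i c * x = x * i c := by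
  simp [Cz, Subalgebra.mem_centralizer_iff]

theorem i_mem (c : E) : i c ∈ Cz i := mem_iff.2 fun c' => by rw [← map_mul, mul_comm, map_mul]

instance : Algebra E (Cz i) :=
  ((i.codRestrict (Cz i) (i_mem i)) : E →+* Cz i).toAlgebra' fun c x =>
    Subtype.ext (mem_iff.1 x.2 c)

@[simp] theorem coe_algebraMap (c : E) : ((algebraMap E (Cz i) c : Cz i) : B) = i c := rfl

@[simp] theorem coe_smul (c : E) (x : Cz i) : ((c • x : Cz i) : B) = i c * x := rfl

instance : IsScalarTower K E (Cz i) :=
  IsScalarTower.of_algebraMap_eq fun c => Subtype.ext (i.commutes c).symm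

instance [FiniteDimensional K B] : FiniteDimensional E (Cz i) :=
  Module.Finite.of_restrictScalars_finite K E _

variable [Algebra.IsCentral K B] [IsSimpleRing B] [FiniteDimensional K B]

instance : IsSimpleRing (Cz i) := isSimpleRing_centralizer_range i

omit [Algebra.IsCentral K B] in
include i in
theorem finite_field : FiniteDimensional K E := finite_of_algHom i

theorem finrank_mul : finrank K E * finrank K (Cz i) = finrank K B := finrank_centralizer_range i

/-- double centraliser -/
theorem exists_of_commute {x : B} (hx : ∀ y ∈ Cz i, y * x = x * y) : ∃ c, i c = x := by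
  have : IsSimpleRing i.range := IsSimpleRing.of_ringEquiv
    (AlgEquiv.ofInjective i i.injective).toRingEquiv inferInstance
  have h := centralizer_centralizer i.range
  have hx' : x ∈ i.range := h ▸ (Subalgebra.mem_centralizer_iff K).2 hx
  exact hx'

instance : Algebra.IsCentral E (Cz i) := ⟨fun z hz => by
  rw [Subalgebra.mem_center_iff] at hz
  obtain ⟨c, hc⟩ := exists_of_commute i (x := z) fun y hy => congrArg Subtype.val (hz ⟨y, hy⟩)
  exact ⟨c, Subtype.ext hc⟩⟩

theorem finrank_mul_deg : finrank K E * deg E (Cz i) = deg K B := by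
  have := finite_field i
  symm
  apply deg_eq
  rw [← finrank_mul i, ← finrank_mul_finrank K E (Cz i), finrank_eq_deg_sq E (Cz i)]; ring

variable [CharZero K] [CharZero E]

theorem Nrd_coe (x : Cz i) : Nrd K (x : B) = Algebra.norm K (Nrd E x) :=
  have := finite_field i
  Wg.Nrd_tower (Cz i).val (finrank_mul i).symm x

/-- `rch` in the tower, over any algebraically closed field -/
theorem rch_coe [FiniteDimensional K E] (F : Type*) [Field F] [Algebra K F] [IsAlgClosed F]
    (x : Cz i) :
    (rch K (x : B)).map (algebraMap K F) = ∏ σ : E →ₐ[K] F, (rch E x).map (σ : E →+* F) := by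
  refine eq_of_infinite_eval_eq _ _
    ((Set.infinite_range_of_injective (algebraMap K F).injective).mono ?_)
  rintro _ ⟨t, rfl⟩
  rw [Set.mem_ofPred_eq, eval_map_algebraMap, aeval_algebraMap_apply_eq_algebraMap_eval, eval_rch,
    show algebraMap K B t - x = ((algebraMap K (Cz i) t - x : Cz i) : B) from rfl, Nrd_coe,
    eval_prod, Algebra.norm_eq_prod_embeddings, IsScalarTower.algebraMap_apply K E (Cz i),
    ← eval_rch]
  refine Finset.prod_congr rfl fun σ _ => ?_
  rw [← σ.commutes t, eval_map]
  exact (eval₂_at_apply (σ : E →+* F) _).symm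


end Cz

section Star

variable [StarRing E] [StarRing B]

/-- `i` commutes with the involutions -/
class StarHom (i : E →ₐ[K] B) : Prop where
  map_star : ∀ c, i (star c) = star (i c)

namespace Cz

variable (i : E →ₐ[K] B) [StarHom i]

variable {i} in
theorem star_mem {x : B} (hx : x ∈ Cz i) : star x ∈ Cz i := mem_iff.2 fun c => by
  have := congrArg star (mem_iff.1 hx (star c))
  rwa [star_mul, star_mul, ← StarHom.map_star, star_star, eq_comm] at this

instance : StarRing (Cz i) where
  star x := ⟨star x, star_mem x.2⟩
  star_involutive _ := Subtype.ext (star_star _)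
  star_mul _ _ := Subtype.ext (star_mul _ _)
  star_add _ _ := Subtype.ext (star_add _ _)

@[simp] theorem coe_star (x : Cz i) : ((star x : Cz i) : B) = star (x : B) := rfl

instance : StarModule E (Cz i) := ⟨fun c x => Subtype.ext (by
  rw [coe_star, coe_smul, coe_smul, star_mul, coe_star, ← StarHom.map_star]
  exact (mem_iff.1 (star_mem x.2) _).symm)⟩

instance [StarRing K] [StarModule K B] : StarModule K (Cz i) :=
  ⟨fun c x => Subtype.ext (star_smul c (x : B))⟩

/-- unitary elements of the centraliser -/
def uni : unitary (Cz i) →* unitary B where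
  toFun u := ⟨((u : Cz i) : B), congrArg Subtype.val u.2.1, congrArg Subtype.val u.2.2⟩
  map_one' := rfl
  map_mul' _ _ := rfl

@[simp] theorem coe_uni (u : unitary (Cz i)) : (uni i u : B) = ((u : Cz i) : B) := rfl


theorem mem_range_uni {u : unitary B} : u ∈ (uni i).range ↔ (u : B) ∈ Cz i :=
  ⟨by rintro ⟨v, rfl⟩; exact (v : Cz i).2,
    fun h => ⟨⟨⟨u, h⟩, Subtype.ext u.2.1, Subtype.ext u.2.2⟩, rfl⟩⟩

theorem aniso (h : ∀ x : B, star x * x = 0 → x = 0) (x : Cz i) (hx : star x * x = 0) : x = 0 :=
  Subtype.ext (h x (congrArg Subtype.val hx))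

end Cz

end Star

/-- a field involution induced by `star`, on a subfield stable under `star` -/
@[reducible] def starOfStable [StarRing B] [Nontrivial B] (i : E →ₐ[K] B)
    (h : ∀ c, ∃ c', i c' = star (i c)) : StarRing E where
  star c := (h c).choose
  star_involutive c := i.injective (by
    change i (h (h c).choose).choose = i c
    rw [(h _).choose_spec, (h c).choose_spec, star_star])
  star_mul a b := i.injective (by
    change i (h (a * b)).choose = i ((h b).choose * (h a).choose)
    rw [(h _).choose_spec, map_mul, map_mul, (h _).choose_spec, (h _).choose_spec, star_mul])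
  star_add a b := i.injective (by
    change i (h (a + b)).choose = i ((h a).choose + (h b).choose)
    rw [(h _).choose_spec, map_add, map_add, (h _).choose_spec, (h _).choose_spec, star_add])

theorem starHom_of_stable [StarRing B] [Nontrivial B] (i : E →ₐ[K] B)
    (h : ∀ c, ∃ c', i c' = star (i c)) : @StarHom K E B _ _ _ _ _ (starOfStable i h) _ i :=
  @StarHom.mk K E B _ _ _ _ _ (starOfStable i h) _ i fun c => (h c).choose_spec

theorem starModule_of_starHom [StarRing K] [StarRing E] [StarRing B] [StarModule K B] [Nontrivial B]
    (i : E →ₐ[K] B) [StarHom i] : StarModule K E := ⟨fun c x => i.injective (by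
  change i _ = i _
  rw [StarHom.map_star, map_smul, map_smul, star_smul, StarHom.map_star])⟩

end Cz

end Crest.Agent.T24.Csa
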