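import Crest.Agent.T24.DefS_26

/-! Row 24, embedding module (helper13): words and statements. -/

set_option autoImplicit false
set_option linter.unusedSectionVars false

noncomputable section

namespace Crest.Agent.T24.Emb

open Module Polynomial NumberField IsDedekindDomain WithZero Csa Asa Topology
open scoped NumberField

universe u v w

/-- the reals as a `k`-algebra through `φ` -/
@[nolint unusedArguments]
def Rp {k : Type*} [Field k] (_φ : k →+* ℝ) : Type := ℝ

namespace Rp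
variable {k : Type*} [Field k] (φ : k →+* ℝ)
instance : NontriviallyNormedField (Rp φ) := inferInstanceAs (NontriviallyNormedField ℝ)
instance : CompleteSpace (Rp φ) := inferInstanceAs (CompleteSpace ℝ)
instance : CharZero (Rp φ) := inferInstanceAs (CharZero ℝ)
instance : Algebra k (Rp φ) := RingHom.toAlgebra (S := Rp φ) φ
theorem algebraMap_eq (x : k) : algebraMap k (Rp φ) x = φ x := rfl
end Rp

section
variable (k K B : Type*) [Field k] [NumberField k] [Field K] [NumberField K] [Algebra k K]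
  [StarRing K] [Quad k K] [Ring B] [StarRing B] [Algebra K B] [StarModule K B]
  [Algebra.IsCentral K B] [IsSimpleRing B] [FiniteDimensional K B] [Algebra k B]
  [IsScalarTower k K B]

variable {k B} in
/-- a global hermitian element with reduced characteristic polynomial `P` -/
def HG (P : k[X]) (th : B) : Prop := star th = th ∧ rch K th = P.map (algebraMap k K)

variable {k K B} in
/-- a local hermitian element with minimal polynomial `Q` -/
def HR {R : Type*} [Field R] [Algebra k R] (Q : R[X]) (t : BC k K B R) : Prop :=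
  star t = t ∧ minpoly R t = Q

variable {k K B} in
/-- conjugate under the local unitary group -/
def UC {R : Type*} [CommRing R] [Algebra k R] (x y : BC k K B R) : Prop :=
  ∃ u : Uc k K B R, (u : BC k K B R) * x = y * u

/-- change of the local conjugacy classes at finitely many places -/
def EmbMod : Prop := ∀ (P : k[X]) (th : B), Irreducible P → HG K P th →
  ∀ (S : Finset (Pl k)) (t : ∀ v : Pl k, BC k K B (Kv v)) (V : ∀ v : Pl k, Set (BC k K B (Kv v)))
    (tr : ∀ φ : k →+* ℝ, BC k K B (Rp φ)) (W : ∀ φ : k →+* ℝ, Set (BC k K B (Rp φ))),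
    (∀ v ∈ S, HR (P.map (algebraMap k _)) (t v) ∧ V v ∈ 𝓝 (t v)) →
    (∀ φ, HR (P.map (algebraMap k _)) (tr φ) ∧ W φ ∈ 𝓝 (tr φ)) →
    ∃ th' : B, HG K P th' ∧
      (∀ v ∈ S, BC.inc k K B _ th' ∈ V v ∧ UC (BC.inc k K B _ th') (t v)) ∧
      (∀ φ, BC.inc k K B _ th' ∈ W φ ∧ UC (BC.inc k K B _ th') (tr φ)) ∧
      ∀ v ∉ S, UC (BC.inc k K B (Kv v) th') (BC.inc k K B _ th)

/-- the local-global principle -/
def EmbEx : Prop := ∀ P : k[X], P.Monic → Irreducible P → P.natDegree = deg K B →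
  (∀ v : Pl k, ∃ t : BC k K B (Kv v), HR (P.map (algebraMap k _)) t) →
  (∀ φ : k →+* ℝ, ∃ t : BC k K B (Rp φ), HR (P.map (algebraMap k _)) t) → ∃ th : B, HG K P th

/-- no local condition outside `S₀` -/
def LocAll (S₀ : Finset (Pl k)) : Prop := ∀ v ∉ S₀, ∀ Q : (Kv v)[X], Q.Monic →
  Q.natDegree = deg K B → Q.Separable → ∃ t : BC k K B (Kv v), HR Q t

def LocEx : Prop := ∃ S₀, LocAll k K B S₀

/-- the open form -/
def EmbNear : Prop := ∃ S₀ : Finset (Pl k), ∀ (P₀ : k[X]) (al : B), HG K P₀ al → P₀.Separable →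
  ∀ (S : Finset (Pl k)) (V : ∀ v : Pl k, Set (BC k K B (Kv v)))
    (W : ∀ φ : k →+* ℝ, Set (BC k K B (Rp φ))), S₀ ⊆ S →
    (∀ v ∈ S, V v ∈ 𝓝 (BC.inc k K B _ al)) → (∀ φ, W φ ∈ 𝓝 (BC.inc k K B _ al)) →
    ∃ (m : ℕ) (ε : ℝ), 0 < ε ∧ ∀ P : k[X], P.Monic → Irreducible P → P.natDegree = deg K B →
      (∀ v ∈ S, ∀ i, v.valuation k (P.coeff i - P₀.coeff i) ≤ exp (-(m : ℤ))) →
      (∀ (φ : k →+* ℝ) i, |φ (P.coeff i - P₀.coeff i)| < ε) →
      ∃ th : B, HG K P th ∧ (∀ v ∈ S, BC.inc k K B _ th ∈ V v) ∧ ∀ φ, BC.inc k K B _ th ∈ W φ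

/-- weak approximation for the unitary group -/
def WaU : Prop := ∀ (S : Finset (Pl k)) (g : ∀ v : Pl k, Uc k K B (Kv v))
  (V : ∀ v : Pl k, Set (Uc k K B (Kv v))) (gr : ∀ φ : k →+* ℝ, Uc k K B (Rp φ))
  (W : ∀ φ : k →+* ℝ, Set (Uc k K B (Rp φ))), (∀ v ∈ S, V v ∈ 𝓝 (g v)) → (∀ φ, W φ ∈ 𝓝 (gr φ)) →
  ∃ u : unitary B, (∀ v ∈ S, toU k K B _ u ∈ V v) ∧ ∀ φ, toU k K B _ u ∈ W φ

/-- Landherr's theorem -/
def Lan : Prop := ∀ h : B, star h = h → IsUnit h →
  (∀ v : Pl k, ∃ Z : BC k K B (Kv v), BC.inc k K B _ h = star Z * Z) →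
  (∀ φ : k →+* ℝ, ∃ Z : BC k K B (Rp φ), BC.inc k K B _ h = star Z * Z) → ∃ z : B, h = star z * z

/-- a hermitian unit is locally trivial at almost all places -/
def LocAe : Prop := ∀ h : B, star h = h → IsUnit h →
  ∀ᶠ v : Pl k in Filter.cofinite, ∃ Z : BC k K B (Kv v), BC.inc k K B _ h = star Z * Z

end


end Crest.Agent.T24.Emb
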