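import Crest.Agent.T24.HnAmb_7
import Mathlib
import Crest.Agent.R018.Frobenius_389
import Crest.Agent.T24.HnLocB_73
import Crest.Agent.T24.HnLocD_73

-- ▼ part T24/Hn_7
section

/-!
# Row 24, Hasse norm theorem: the second inequality and the final count
-/

set_option autoImplicit false
set_option linter.unusedSectionVars false

noncomputable section

open scoped NumberField nonZeroDivisors
open IsDedekindDomain Module

namespace Crest.Agent.T24.Hn

open Crest.Agent.R018.Selmerx380 Crest.Agent.R018.SLatx824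

section Grp

variable {G : Type*} [CommGroup G] {ι : Type*}

/-- independent elements give a large index -/
theorem two_pow_le_relIndex (U : Subgroup G) (K : ι → Subgroup G) (I : Finset ι)
    (h : ∀ i ∈ I, ∃ g ∈ U, g ∉ K i ∧ ∀ j ∈ I, j ≠ i → g ∈ K j)
    (h0 : (⨅ i ∈ I, K i).relIndex U ≠ 0) : 2 ^ I.card ≤ (⨅ i ∈ I, K i).relIndex U := by
  classical
  induction I using Finset.induction_on with
  | empty => exact Nat.pos_of_ne_zero h0
  | insert j I hj ih =>
    rw [Finset.iInf_insert, ← Subgroup.relIndex_inf_mul_relIndex] at h0 ⊢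
    have h1 := ih (fun i hi => by
      obtain ⟨g, hg, h2, h3⟩ := h i (Finset.mem_insert_of_mem hi)
      exact ⟨g, hg, h2, fun k hk => h3 k (Finset.mem_insert_of_mem hk)⟩) (right_ne_zero_of_mul h0)
    obtain ⟨g, hg, h2, h3⟩ := h j (Finset.mem_insert_self _ _)
    have h4 : (K j).relIndex ((⨅ i ∈ I, K i) ⊓ U) ≠ 1 := by
      intro h5
      refine h2 (Subgroup.relIndex_eq_one.mp h5 ⟨?_, hg⟩)
      refine Subgroup.mem_iInf.mpr fun i => Subgroup.mem_iInf.mpr fun hi => ?_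
      exact h3 i (Finset.mem_insert_of_mem hi) (by rintro rfl; exact hj hi)
    have h5 := left_ne_zero_of_mul h0
    rw [Finset.card_insert_of_notMem hj, pow_succ, mul_comm]
    exact Nat.mul_le_mul (by omega) h1

/-- passing from the groups `Q i` to larger groups `L i` -/
theorem relIndex_iInf_mul_le [Fintype ι] (U : Subgroup G) (Q L : ι → Subgroup G)
    (h : ∀ i, Q i ≤ L i) (h0 : ∀ i, (Q i).index ≠ 0) :
    (⨅ i, Q i).relIndex U * ∏ i, (L i).index ≤ (∏ i, (Q i).index) * (⨅ i, L i).relIndex U := by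
  have h1 : (⨅ i, Q i).relIndex U =
      (⨅ i, Q i).relIndex ((⨅ i, L i) ⊓ U) * (⨅ i, L i).relIndex U := by
    rw [Subgroup.relIndex_inf_mul_relIndex, inf_eq_left.mpr (iInf_mono h)]
  have h2 : (⨅ i, Q i).relIndex ((⨅ i, L i) ⊓ U) ≤ ∏ i, (Q i).relIndex (L i) := by
    refine (Subgroup.relIndex_iInf_le Q).trans (Finset.prod_le_prod' fun i _ => ?_)
    refine Subgroup.relIndex_le_of_le_right (inf_le_left.trans (iInf_le L i)) fun h3 => h0 i ?_
    exact Subgroup.index_eq_zero_of_relIndex_eq_zero h3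
  have h3 : ∏ i, (Q i).index = (∏ i, (Q i).relIndex (L i)) * ∏ i, (L i).index := by
    rw [← Finset.prod_mul_distrib]
    exact Finset.prod_congr rfl fun i _ => (Subgroup.relIndex_mul_index (h i)).symm
  rw [h1, h3]
  calc _ = (⨅ i, Q i).relIndex ((⨅ i, L i) ⊓ U) * ((∏ i, (L i).index) * (⨅ i, L i).relIndex U) := by
        ring
    _ ≤ (∏ i, (Q i).relIndex (L i)) * ((∏ i, (L i).index) * (⨅ i, L i).relIndex U) := by gcongr
    _ = _ := by ring

end Grp

section Basic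

variable {F : Type*} [Field F]

theorem sq_mem_Pos (φ : F →+* ℝ) (y : Fˣ) : y ^ 2 ∈ Pos φ := by
  rw [mem_Pos, Units.val_pow_eq_pow_val, map_pow]
  exact pow_pos_of_ne_zero_even ((map_ne_zero φ).mpr y.ne_zero)
where pow_pos_of_ne_zero_even {x : ℝ} (h : x ≠ 0) : 0 < x ^ 2 := by positivity

theorem index_Pos (φ : F →+* ℝ) : (Pos φ).index = 2 := by
  rw [Subgroup.index_eq_two_iff_exists_notMem_and]
  refine ⟨-1, by simp [mem_Pos], fun b => ?_⟩
  rcases lt_or_gt_of_ne ((map_ne_zero φ).mpr b.ne_zero) with h | h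
  · left; simpa [mem_Pos] using h
  · right; exact h

theorem Nr_le_Pos {d : F} {φ : F →+* ℝ} (h : φ d < 0) : Nr d ≤ Pos φ := by
  rintro a ⟨x, y, ha⟩
  rw [mem_Pos]
  refine lt_of_le_of_ne ?_ ((map_ne_zero φ).mpr a.ne_zero).symm
  rw [ha, map_sub, map_mul, map_pow, map_pow]
  nlinarith [sq_nonneg (φ x), sq_nonneg (φ y)]

theorem Nr_of_sq [CharZero F] {d : Fˣ} (hd : d ∈ Sqs F) : Nr (d : F) = ⊤ := by
  obtain ⟨r, rfl⟩ := hd
  refine (Subgroup.eq_top_iff' _).mpr fun a => ⟨(a + 1) / 2, (a - 1) / (2 * r), ?_⟩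
  have : (r : F) ≠ 0 := r.ne_zero
  simp only [powMonoidHom_apply, Units.val_pow_eq_pow_val]
  field_simp
  ring

/-- local norms at a real place -/
def LR (d : F) (φ : F →+* ℝ) : Subgroup Fˣ := if φ d < 0 then Pos φ else ⊤

variable [NumberField F]

theorem sq_mem_Sq (v : Pl F) (y : Fˣ) : y ^ 2 ∈ Sq v := by
  refine ⟨(y : F)⁻¹, ?_⟩
  have h : v.valuation F 4 ≠ 0 := by simp
  have : ((y ^ 2 : Fˣ) : F) * (y : F)⁻¹ ^ 2 - 1 = 0 := by
    have : (y : F) ≠ 0 := y.ne_zero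
    rw [Units.val_pow_eq_pow_val]; field_simp; ring
  rw [this, map_zero]
  exact zero_lt_iff.mpr h

theorem unit_mono {S S' : Finset (Pl F)} (h : S ⊆ S') :
    (S : Set (Pl F)).unit F ≤ (S' : Set (Pl F)).unit F :=
  fun _ hx v hv => hx v fun h' => hv (h h')

theorem mem_sqr_unit {S : Finset (Pl F)} {u : Fˣ} (hu : u ∈ (S : Set (Pl F)).unit F)
    (h : u ∈ Sqs F) : u ∈ sqr ((S : Set (Pl F)).unit F) := by
  obtain ⟨y, rfl⟩ := h
  refine ⟨y, fun v hv => ?_, rfl⟩
  have := hu v hv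
  rw [powMonoidHom_apply, Units.val_pow_eq_pow_val, map_pow] at this
  exact (pow_eq_one_iff_of_nonneg zero_le two_ne_zero).mp this

theorem exists_supp (x : Fˣ) : ∃ S : Finset (Pl F), x ∈ (S : Set (Pl F)).unit F := by
  have h := Filter.eventually_cofinite.mp (ord_finite (R := 𝓞 F) x)
  refine ⟨h.toFinset, (mem_unit_iff _ _).mpr fun w hw => ?_⟩
  simpa using hw

/-- squares at all places of `S` and all real places, as one family -/
def Qf (S : Finset (Pl F)) : S ⊕ (F →+* ℝ) → Subgroup Fˣ := Sum.elim (fun v => Sq v.1) Pos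

/-- local norms at all places of `S` and all real places, as one family -/
def Lf (d : F) (S : Finset (Pl F)) : S ⊕ (F →+* ℝ) → Subgroup Fˣ :=
  Sum.elim (fun v => LN d v.1) (LR d)

theorem Qf_le (d : F) (S : Finset (Pl F)) (i : S ⊕ (F →+* ℝ)) : Qf S i ≤ Lf d S i := by
  rcases i with v | φ
  · exact le_sup_right
  · change Pos φ ≤ LR d φ
    unfold LR
    split_ifs
    · exact le_rfl
    · exact le_top

theorem Nr_le_Lf (d : F) (S : Finset (Pl F)) (i : S ⊕ (F →+* ℝ)) : Nr d ≤ Lf d S i := by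
  rcases i with v | φ
  · exact le_sup_left
  · change _ ≤ LR d φ
    unfold LR
    split_ifs with h
    · exact Nr_le_Pos h
    · exact le_top

/-- the auxiliary primes: outside `S`, split, with dual units -/
structure Aux (S : Finset (Pl F)) (d : Fˣ) (T : Finset (Pl F)) : Prop where
  out : ∀ v ∈ T, v ∉ S
  split : ∀ v ∈ T, d ∈ Sq v
  sur : ∀ v ∈ T, ∃ u ∈ (S : Set (Pl F)).unit F, u ∉ Sq v ∧ ∀ v' ∈ T, v' ≠ v → u ∈ Sq v'
  idx : (⨅ v ∈ T, Sq v).relIndex ((S : Set (Pl F)).unit F) = 2 ^ T.card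

end Basic

universe u

section Main

variable {F : Type u} [Field F] [NumberField F] {S T : Finset (Pl F)} {d : Fˣ}

theorem mem_biInf {T : Finset (Pl F)} {K : Pl F → Subgroup Fˣ} {x : Fˣ} :
    x ∈ ⨅ v ∈ T, K v ↔ ∀ v ∈ T, x ∈ K v := by
  simp only [Subgroup.mem_iInf]

open Classical in
theorem Aux.step (h3 : L3Stmt.{u}) (h2 : ∀ v, v ∉ S → v.valuation F 2 = 1) (h : Aux S d T)
    {u : Fˣ} (hu : u ∈ (S : Set (Pl F)).unit F) (huT : ∀ v ∈ T, u ∈ Sq v) {v : Pl F} (hvS : v ∉ S)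
    (hd : d ∈ Sq v) (huv : u ∉ Sq v) : v ∉ T ∧ Aux S d (insert v T) := by
  have hvT : v ∉ T := fun h' => huv (huT v h')
  refine ⟨hvT, fun w hw => ?_, fun w hw => ?_, fun w hw => ?_, ?_⟩
  · rcases Finset.mem_insert.mp hw with rfl | hw
    exacts [hvS, h.out w hw]
  · rcases Finset.mem_insert.mp hw with rfl | hw
    exacts [hd, h.split w hw]
  · rcases Finset.mem_insert.mp hw with rfl | hw
    · refine ⟨u, hu, huv, fun w' hw' hne => huT w' ?_⟩
      exact (Finset.mem_insert.mp hw').resolve_left hne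
    · obtain ⟨u', hu', h4, h5⟩ := h.sur w hw
      by_cases h6 : u' ∈ Sq v
      · refine ⟨u', hu', h4, fun w' hw' hne => ?_⟩
        rcases Finset.mem_insert.mp hw' with rfl | hw'
        exacts [h6, h5 w' hw' hne]
      · refine ⟨u' * u, mul_mem hu' hu, fun h7 => h4 ((mul_mem_cancel_right (huT w hw)).mp h7),
          fun w' hw' hne => ?_⟩
        rcases Finset.mem_insert.mp hw' with rfl | hw'
        · exact h3 F w' u' u (h2 _ hvS) (hu' _ hvS) (hu _ hvS) h6 huv
        · exact mul_mem (h5 w' hw' hne) (huT w' hw')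
  · rw [Finset.iInf_insert, ← Subgroup.relIndex_inf_mul_relIndex, h.idx,
      Finset.card_insert_of_notMem hvT, pow_succ, mul_comm]
    congr 1
    rw [Subgroup.relIndex_eq_two_iff_exists_notMem_and]
    refine ⟨u, ⟨mem_biInf.mpr huT, hu⟩, huv, fun b hb => ?_⟩
    by_cases h6 : b ∈ Sq v
    · exact Or.inr h6
    · exact Or.inl (h3 F v b u (h2 _ hvS) (hb.2 _ hvS) (hu _ hvS) h6 huv)

theorem exists_aux (h3 : L3Stmt.{u}) (h4 : L4Stmt.{u}) (h2 : ∀ v, v ∉ S → v.valuation F 2 = 1)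
    (hdS : d ∈ (S : Set (Pl F)).unit F) (hd : d ∉ Sqs F) :
    ∃ T, Aux S d T ∧ T.card + 1 = S.card + Fintype.card (NumberField.InfinitePlace F) := by
  classical
  set U := (S : Set (Pl F)).unit F with hU
  have sU : (sqr U).relIndex U = 2 ^ (S.card + Fintype.card (NumberField.InfinitePlace F)) :=
    suStmt F S
  have hle : ∀ T : Finset (Pl F), sqr U ≤ (⨅ v ∈ T, Sq v) ⊓ U := fun T =>
    le_inf (by rintro _ ⟨y, _, rfl⟩; exact mem_biInf.mpr fun v _ => sq_mem_Sq v y) (sq_le U)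
  have key : ∀ n : ℕ, ∃ T, Aux S d T ∧
      ((∀ u ∈ U, (∀ v ∈ T, u ∈ Sq v) → u * d ∈ sqr U ∨ u ∈ sqr U) ∨ n ≤ T.card) := by
    intro n
    induction n with
    | zero => exact ⟨∅, ⟨by simp, by simp, by simp, by simp⟩, Or.inr (Nat.zero_le _)⟩
    | succ n ih =>
      obtain ⟨T, hT, h | h⟩ := ih
      · exact ⟨T, hT, Or.inl h⟩
      by_cases h5 : ∀ u ∈ U, (∀ v ∈ T, u ∈ Sq v) → u * d ∈ sqr U ∨ u ∈ sqr U
      · exact ⟨T, hT, Or.inl h5⟩
      push Not at h5
      obtain ⟨u, hu, huT, h6, h7⟩ := h5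
      have h8 := h4 F d u (fun h' => h7 (mem_sqr_unit hu h'))
        (fun h' => h6 (mem_sqr_unit (mul_mem hu hdS) (mul_comm d u ▸ h')))
      obtain ⟨v, hv, hvS⟩ := h8.exists_notMem_finset S
      obtain ⟨h9, h10⟩ := hT.step h3 h2 hu huT hvS hv.1 hv.2
      exact ⟨_, h10, Or.inr (by rw [Finset.card_insert_of_notMem h9]; omega)⟩
  obtain ⟨T, hT, h⟩ := key (S.card + Fintype.card (NumberField.InfinitePlace F) + 1)
  have h5 := Subgroup.relIndex_mul_relIndex _ _ _ (hle T) (inf_le_right (b := U))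
  rw [Subgroup.inf_relIndex_right, hT.idx, sU] at h5
  rcases h with h | h
  · refine ⟨T, hT, ?_⟩
    have h6 : (sqr U).relIndex ((⨅ v ∈ T, Sq v) ⊓ U) = 2 := by
      rw [Subgroup.relIndex_eq_two_iff_exists_notMem_and]
      refine ⟨d, ⟨mem_biInf.mpr hT.split, hdS⟩, ?_, fun b hb => h b hb.2 (mem_biInf.mp hb.1)⟩
      rintro ⟨y, _, hy⟩
      exact hd ⟨y, hy⟩
    rw [h6, ← pow_succ'] at h5
    exact Nat.pow_right_injective le_rfl h5
  · exfalso
    have h6 := (Nat.pow_dvd_pow_iff_le_right one_lt_two).mp (Dvd.intro_left _ h5)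
    omega

theorem Aux.adj (h3 : L3Stmt.{u}) (h2 : ∀ v, v ∉ S → v.valuation F 2 = 1) (h : Aux S d T)
    (y : Pl F → Fˣ) (hy : ∀ v ∈ T, v.valuation F (y v : F) = 1) :
    ∃ u ∈ (S : Set (Pl F)).unit F, ∀ v ∈ T, u * y v ∈ Sq v := by
  classical
  choose! g hg hg1 hg2 using h.sur
  refine ⟨∏ v ∈ T.filter fun v => y v ∉ Sq v, g v,
    prod_mem fun v hv => hg v (Finset.mem_filter.mp hv).1, fun v hv => ?_⟩
  by_cases h4 : y v ∈ Sq v
  · refine mul_mem (prod_mem fun w hw => ?_) h4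
    obtain ⟨h5, h6⟩ := Finset.mem_filter.mp hw
    exact hg2 w h5 v hv (by rintro rfl; exact h6 h4)
  · rw [← Finset.prod_erase_mul _ _ (Finset.mem_filter.mpr ⟨hv, h4⟩), mul_assoc]
    refine mul_mem (prod_mem fun w hw => ?_) ?_
    · obtain ⟨h5, h6⟩ := Finset.mem_erase.mp hw
      exact hg2 w (Finset.mem_filter.mp h6).1 v hv h5.symm
    · exact h3 F v _ _ (h2 _ (h.out v hv)) (hg v hv v (h.out v hv)) (hy v hv) (hg1 v hv) h4

open Classical in
theorem Aux.surj (h3 : L3Stmt.{u}) (h2 : ∀ v, v ∉ S → v.valuation F 2 = 1) (hK : Kill S)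
    (h : Aux S d T) {v : Pl F} (hv : v ∈ T) (x : Fˣ) :
    ∃ g ∈ ((S ∪ T : Finset (Pl F)) : Set (Pl F)).unit F, g / x ∈ Sq v ∧
      ∀ v' ∈ T, v' ≠ v → g ∈ Sq v' := by
  obtain ⟨c, hc⟩ := hK.ord (fun w => if w = v then ord (𝓞 F) v x else 0)
    ((Set.finite_singleton v).subset fun w hw => by
      by_contra h4
      exact hw (if_neg h4))
  obtain ⟨u, hu, h4⟩ := h.adj h3 h2 (fun w => if w = v then c / x else c) (fun w hw => by
    rw [valuation_eq_one_iff]
    by_cases h5 : w = v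
    · subst h5
      rw [if_pos rfl, ord_div, hc w (h.out w hw), if_pos rfl, sub_self]
    · rw [if_neg h5, hc w (h.out w hw), if_neg h5])
  refine ⟨u * c, mul_mem (unit_mono Finset.subset_union_left hu) ?_, ?_, fun w hw hne => ?_⟩
  · rw [mem_unit_iff]
    intro w hw
    rw [Finset.mem_coe, Finset.mem_union, not_or] at hw
    rw [hc w hw.1, if_neg]
    rintro rfl
    exact hw.2 hv
  · have := h4 v hv
    rwa [if_pos rfl, ← mul_div_assoc] at this
  · have := h4 w hw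
    rwa [if_neg hne] at this

open Classical in
/-- an `S ∪ T`-unit which is a square at all places of `S` and totally positive is a square -/
theorem Aux.inj (hL2 : L2Stmt.{u}) (h3 : L3Stmt.{u}) (h2 : ∀ v, v ∉ S → v.valuation F 2 = 1)
    (hK : Kill S) (h : Aux S d T) {b : Fˣ}
    (hb : b ∈ ((S ∪ T : Finset (Pl F)) : Set (Pl F)).unit F) (hS : ∀ v ∈ S, b ∈ Sq v)
    (hR : ∀ φ : F →+* ℝ, 0 < φ b) : b ∈ Sqs F := by
  by_contra hb'
  obtain ⟨h4, h5⟩ := ambStmt F (S ∪ T) b hb' (hK.mono Finset.subset_union_left)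
    (fun v hv => h2 v fun h' => hv (Finset.mem_union_left _ h')) hb
  have h6 : (Finset.univ.filter fun φ : F →+* ℝ => φ b < 0) = ∅ :=
    Finset.filter_eq_empty_iff.mpr fun φ _ => not_lt.mpr (hR φ).le
  rw [h6, Finset.card_empty, add_zero] at h5
  set T' := (S ∪ T).filter fun v => b ∉ Sq v with hT'
  have h7 : ∀ v ∈ T', v ∈ T ∧ b ∉ Sq v := by
    intro v hv
    obtain ⟨h8, h9⟩ := Finset.mem_filter.mp hv
    exact ⟨(Finset.mem_union.mp h8).resolve_left fun h' => h9 (hS v h'), h9⟩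
  have h8 : Nr (b : F) ≤ ⨅ v ∈ T', LN (b : F) v := le_iInf₂ fun v _ => le_sup_left
  have h9 := two_pow_le_relIndex (((S ∪ T : Finset (Pl F)) : Set (Pl F)).unit F)
    (LN (b : F)) T' (fun v hv => by
      obtain ⟨x, hx⟩ : ∃ x, x ∉ LN (b : F) v := by
        by_contra h10
        push Not at h10
        exact hL2 F v b (h7 v hv).2 ((Subgroup.eq_top_iff' _).mpr h10)
      obtain ⟨g, hg, h10, h11⟩ := h.surj h3 h2 hK (h7 v hv).1 x
      refine ⟨g, hg, fun h12 => hx ?_, fun w hw hne => Subgroup.mem_sup_right (h11 w (h7 w hw).1 hne)⟩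
      have h13 := div_mem h12 (Subgroup.mem_sup_right (S := Nr (b : F)) h10)
      rwa [div_div_cancel] at h13)
    (fun h0 => h4 (Subgroup.relIndex_eq_zero_of_le_left h8 h0))
  have h10 := Subgroup.relIndex_le_of_le_left h8 h4
  have h11 : 0 < 2 ^ T'.card := by positivity
  omega

open Classical in
/-- number of non-split places among `S` and the real places -/
def ns (d : Fˣ) (S : Finset (Pl F)) : ℕ :=
  (S.filter fun v => d ∉ Sq v).card + (Finset.univ.filter fun φ : F →+* ℝ => φ d < 0).card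

theorem index_LN_ne_zero (h1 : L1Stmt.{u}) (d : F) (v : Pl F) : (LN d v).index ≠ 0 := fun h0 =>
  (h1 F ∅).1 v (Nat.eq_zero_of_zero_dvd (h0 ▸ Subgroup.index_dvd_of_le le_sup_right))

open Classical in
theorem prod_index_LR (d : F) : ∏ φ : F →+* ℝ, (LR d φ).index =
    2 ^ (Finset.univ.filter fun φ : F →+* ℝ => φ d < 0).card := by
  rw [← Finset.prod_const, Finset.prod_filter]
  refine Finset.prod_congr rfl fun φ _ => ?_
  unfold LR
  split_ifs
  · exact index_Pos φ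
  · exact Subgroup.index_top

open Classical in
theorem le_prod_index_LN (h1 : L1Stmt.{u}) (hL2 : L2Stmt.{u}) (d : Fˣ) (S : Finset (Pl F)) :
    2 ^ (S.filter fun v => d ∉ Sq v).card ≤ ∏ v ∈ S, (LN (d : F) v).index := by
  rw [← Finset.prod_const, Finset.prod_filter]
  refine Finset.prod_le_prod' fun v _ => ?_
  have h3 := index_LN_ne_zero h1 (d : F) v
  split_ifs with h
  · omega
  · have := mt Subgroup.index_eq_one.mp (hL2 F v d h)
    omega

open Classical in
/-- **the count**: both inequalities -/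
theorem core (h1 : L1Stmt.{u}) (hL2 : L2Stmt.{u}) (h3 : L3Stmt.{u})
    (h2 : ∀ v, v ∉ S → v.valuation F 2 = 1) (hK : Kill S) (hdS : d ∈ (S : Set (Pl F)).unit F)
    (hd : d ∉ Sqs F) (h : Aux S d T)
    (hT : T.card + 1 = S.card + Fintype.card (NumberField.InfinitePlace F)) :
    (⨅ i, Lf (d : F) S i) ⊓ ((S ∪ T : Finset (Pl F)) : Set (Pl F)).unit F ≤ Nr (d : F) ∧
    ∏ i, (Lf (d : F) S i).index = 2 ^ ns d S ∧
    2 * (⨅ i, Lf (d : F) S i).relIndex (((S ∪ T : Finset (Pl F)) : Set (Pl F)).unit F) =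
      2 ^ ns d S := by
  set U := ((S ∪ T : Finset (Pl F)) : Set (Pl F)).unit F with hU
  set r := Fintype.card (NumberField.InfinitePlace F) with hr
  have hQ : ∀ i, (Qf S i).index ≠ 0 := by
    rintro (v | φ)
    · exact (h1 F S).1 v
    · change (Pos φ).index ≠ 0
      rw [index_Pos]; exact two_ne_zero
  have e1 : ∏ i, (Qf S i).index ≤ 2 ^ (2 * (S.card + r)) := by
    rw [Fintype.prod_sum_type]
    change (∏ v : S, (Sq v.1).index) * ∏ φ : F →+* ℝ, (Pos φ).index ≤ _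
    rw [Finset.prod_coe_sort S fun v => (Sq v).index]
    simp only [index_Pos, Finset.prod_const, Finset.card_univ]
    refine (Nat.mul_le_mul_right _ (h1 F S).2).trans (le_of_eq ?_)
    rw [mul_add, hr, two_card_inf, pow_add, pow_add, pow_mul]
    ring
  have e2 : 2 ^ (S.card + T.card + r) ≤ (⨅ i, Qf S i).relIndex U := by
    have sU : (sqr U).relIndex U = 2 ^ ((S ∪ T).card + r) := suStmt F (S ∪ T)
    rw [Finset.card_union_of_disjoint (Finset.disjoint_right.mpr fun v hv => h.out v hv)] at sU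
    rw [← sU, ← Subgroup.inf_relIndex_right (⨅ i, Qf S i)]
    refine Subgroup.relIndex_le_of_le_left ?_ ?_
    · rintro b ⟨hb, hb'⟩
      have hb2 := Subgroup.mem_iInf.mp hb
      exact mem_sqr_unit hb' (h.inj hL2 h3 h2 hK hb' (fun v hv => hb2 (.inl ⟨v, hv⟩))
        fun φ => hb2 (.inr φ))
    · rw [Subgroup.inf_relIndex_right]
      exact fun h0 => Subgroup.index_iInf_ne_zero hQ (Subgroup.index_eq_zero_of_relIndex_eq_zero h0)
  have e3 := relIndex_iInf_mul_le U (Qf S) (Lf (d : F) S) (Qf_le _ S) hQ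
  have e4 : ∏ i, (Lf (d : F) S i).index ≤ 2 * (⨅ i, Lf (d : F) S i).relIndex U := by
    refine Nat.le_of_mul_le_mul_left (c := 2 ^ (S.card + T.card + r)) ?_ (by positivity)
    refine (Nat.mul_le_mul_right _ e2).trans (e3.trans ((Nat.mul_le_mul_right _ e1).trans ?_))
    rw [← mul_assoc, ← pow_succ]
    exact Nat.mul_le_mul_right _ (Nat.pow_le_pow_right two_pos (by omega))
  have e5 : 2 ^ ns d S ≤ ∏ i, (Lf (d : F) S i).index := by
    rw [Fintype.prod_sum_type]
    change _ ≤ (∏ v : S, (LN (d : F) v.1).index) * ∏ φ : F →+* ℝ, (LR (d : F) φ).index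
    rw [Finset.prod_coe_sort S fun v => (LN (d : F) v).index, prod_index_LR, ns, pow_add]
    exact Nat.mul_le_mul_right _ (le_prod_index_LN h1 hL2 d S)
  obtain ⟨e6, e7⟩ := ambStmt F (S ∪ T) d hd (hK.mono Finset.subset_union_left)
    (fun v hv => h2 v fun h' => hv (Finset.mem_union_left _ h'))
    (unit_mono Finset.subset_union_left hdS)
  have e8 : ((S ∪ T).filter fun v => d ∉ Sq v) = S.filter fun v => d ∉ Sq v := by
    rw [Finset.filter_union, Finset.filter_eq_empty_iff.mpr fun v hv => not_not.mpr (h.split v hv),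
      Finset.union_empty]
  rw [e8] at e7
  change 2 * (Nr (d : F)).relIndex U ≤ 2 ^ ns d S at e7
  change (Nr (d : F)).relIndex U ≠ 0 at e6
  have e9 : Nr (d : F) ≤ ⨅ i, Lf (d : F) S i := le_iInf (Nr_le_Lf _ S)
  have e10 := Subgroup.relIndex_le_of_le_left e9 e6
  have e11 := Subgroup.relIndex_inf_mul_relIndex (Nr (d : F)) (⨅ i, Lf (d : F) S i) U
  rw [inf_eq_left.mpr e9] at e11
  refine ⟨Subgroup.relIndex_eq_one.mp ?_, by omega, by omega⟩
  have e12 : (⨅ i, Lf (d : F) S i).relIndex U = (Nr (d : F)).relIndex U := by omega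
  rw [e12] at e11
  exact (mul_eq_right₀ e6).mp e11

/-- a large finite set of places -/
theorem exists_big (S₀ : Finset (Pl F)) (d : Fˣ) : ∃ S : Finset (Pl F), S₀ ⊆ S ∧
    (∀ v, v ∉ S → v.valuation F 2 = 1) ∧ Kill S ∧ d ∈ (S : Set (Pl F)).unit F := by
  classical
  obtain ⟨S₁, h1⟩ := exists_kill F
  obtain ⟨S₂, h2⟩ := exists_supp (Units.mk0 (2 : F) two_ne_zero)
  obtain ⟨S₃, h3⟩ := exists_supp d
  refine ⟨S₀ ∪ (S₁ ∪ (S₂ ∪ S₃)), Finset.subset_union_left, fun v hv => h2 v fun h => hv ?_,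
    h1.mono fun v h => ?_, unit_mono (fun v h => ?_) h3⟩
  · simp [Finset.mem_coe.mp h]
  · simp [h]
  · simp [h]

end Main

/-- **Hasse norm theorem** for quadratic extensions of number fields. -/
theorem hnStmt_of (h1 : L1Stmt.{u}) (h2 : L2Stmt.{u}) (h3 : L3Stmt.{u}) (h4 : L4Stmt.{u}) :
    HNStmt.{u} := by
  classical
  intro F _ _ d a ha hR
  by_cases hd : d ∈ Sqs F
  · rw [Nr_of_sq hd]; trivial
  obtain ⟨S₀, h0⟩ := exists_supp a
  obtain ⟨S, hS, e2, hK, hdS⟩ := exists_big S₀ d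
  obtain ⟨T, hT, hc⟩ := exists_aux h3 h4 e2 hdS hd
  refine (core h1 h2 h3 e2 hK hdS hd hT hc).1 ⟨Subgroup.mem_iInf.mpr ?_,
    unit_mono (hS.trans Finset.subset_union_left) h0⟩
  rintro (v | φ)
  · exact ha v
  · change a ∈ LR (d : F) φ
    unfold LR
    split_ifs with h
    · exact hR φ h
    · trivial

/-- the local norm index at a non-split place is two -/
theorem index_LN_of (h1 : L1Stmt.{u}) (h2 : L2Stmt.{u}) (h3 : L3Stmt.{u}) (h4 : L4Stmt.{u})
    {F : Type u} [Field F] [NumberField F] (v : Pl F) (d : Fˣ) (hv : d ∉ Sq v) :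
    (LN (d : F) v).index = 2 := by
  classical
  have hd : d ∉ Sqs F := by
    rintro ⟨y, rfl⟩
    exact hv (sq_mem_Sq v y)
  obtain ⟨S, hS, e2, hK, hdS⟩ := exists_big {v} d
  obtain ⟨T, hT, hc⟩ := exists_aux h3 h4 e2 hdS hd
  have h5 := (core h1 h2 h3 e2 hK hdS hd hT hc).2.1
  rw [Fintype.prod_sum_type] at h5
  change (∏ v : S, (LN (d : F) v.1).index) * ∏ φ : F →+* ℝ, (LR (d : F) φ).index = _ at h5
  rw [Finset.prod_coe_sort S fun v => (LN (d : F) v).index, prod_index_LR, ns, pow_add] at h5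
  have h6 := Nat.eq_of_mul_eq_mul_right (by positivity) h5
  have hvS : v ∈ S := hS (Finset.mem_singleton_self v)
  have h7 := le_prod_index_LN h1 h2 d (S.erase v)
  have h8 : (S.filter fun v => d ∉ Sq v).card = ((S.erase v).filter fun v => d ∉ Sq v).card + 1 := by
    rw [Finset.filter_erase, Finset.card_erase_add_one (Finset.mem_filter.mpr ⟨hvS, hv⟩)]
  rw [← Finset.mul_prod_erase _ _ hvS, h8, pow_succ, mul_comm (2 ^ _)] at h6
  have h9 := index_LN_ne_zero h1 (d : F) v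
  have h10 := mt Subgroup.index_eq_one.mp (h2 F v d hv)
  have h11 : (LN (d : F) v).index ≤ 2 :=
    Nat.le_of_mul_le_mul_right ((Nat.mul_le_mul_left _ h7).trans h6.le) (by positivity)
  omega

end Crest.Agent.T24.Hn
end
end

-- ▼ part T24/HnLocC_73
section

/-!
# Row 24, Hasse norm theorem, local part C (helper73): `l4Stmt`

Primes split in `F(√d)` and inert in `F(√u)`, from the Frobenius density theorem of row 18.
-/

set_option autoImplicit false

noncomputable section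

open scoped NumberField
open IsDedekindDomain WithZero Polynomial

namespace Crest.Agent.T24.Hn

namespace Loc

theorem exists_aut {F L : Type*} [Field F] [Field L] [Algebra F L] [FiniteDimensional F L]
    [IsGalois F L] {d u : F} {a b : L} (ha : a ^ 2 = algebraMap F L d)
    (hb : b ^ 2 = algebraMap F L u) (h1 : ¬ IsSquare u) (h2 : ¬ IsSquare (d * u)) :
    ∃ σ : Gal(L/F), σ a = a ∧ σ b = -b := by
  have hpm : ∀ (σ : Gal(L/F)) (c : F) (x : L), x ^ 2 = algebraMap F L c → σ x = x ∨ σ x = -x := by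
    intro σ c x hx
    apply sq_eq_sq_iff_eq_or_eq_neg.mp
    rw [← map_pow, hx, AlgEquiv.commutes]
  have hsq : ∀ (c : F) (x : L), x ^ 2 = algebraMap F L c → (∀ σ : Gal(L/F), σ x = x) →
      IsSquare c := by
    intro c x hx hfix
    obtain ⟨y, rfl⟩ := (IsGalois.mem_range_algebraMap_iff_fixed x).mpr hfix
    exact ⟨y, (algebraMap F L).injective (by rw [← hx, map_mul, sq])⟩
  by_contra hc
  push Not at hc
  obtain ⟨τ, hτ⟩ : ∃ τ : Gal(L/F), τ b = -b := by
    by_contra h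
    push Not at h
    exact h1 (hsq u b hb fun σ => (hpm σ u b hb).resolve_right (h σ))
  have hτa : τ a = -a := (hpm τ d a ha).resolve_left fun h => hc τ h hτ
  refine h2 (hsq (d * u) (a * b) (by rw [mul_pow, ha, hb, map_mul]) fun σ => ?_)
  rcases hpm σ d a ha with h | h <;> rcases hpm σ u b hb with h' | h'
  · rw [map_mul, h, h']
  · exact absurd h' (hc σ h)
  · exact absurd (by simp [h', hτ]) (hc (τ * σ) (by simp [h, hτa]))
  · rw [map_mul, h, h', neg_mul_neg]

variable {F : Type*} [Field F] [NumberField F]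

theorem exists_prime_core {L : Type*} [Field L] [NumberField L] [Algebra F L] [IsGalois F L]
    {d u : 𝓞 F} {a b : L} (ha : a ^ 2 = algebraMap F L d) (hb : b ^ 2 = algebraMap F L u)
    (h1 : ¬ IsSquare (u : F)) (h2 : ¬ IsSquare ((d : F) * u)) (N : ℕ) :
    ∃ v : Pl F, N < Ideal.absNorm v.asIdeal ∧ (2 * d * u ∉ v.asIdeal →
      (∃ x : 𝓞 F, x ^ 2 - d ∈ v.asIdeal) ∧ ∀ x : 𝓞 F, x ^ 2 - u ∉ v.asIdeal) := by
  classical
  obtain ⟨σ, hσa, hσb⟩ := exists_aut ha hb h1 h2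
  obtain ⟨p, hp, hpN, -, P, hP, -, hpP, hnorm, -, φ, hφ, hfrob⟩ :=
    Crest.Agent.R018.Frobeniusx389.exists_frob σ N
  have hb0 : b ≠ 0 := by
    rintro rfl
    apply h1
    have : (u : F) = 0 := (algebraMap F L).injective (by rw [← hb]; simp)
    rw [this]; exact IsSquare.zero
  have hφa : φ a = a := by
    have : Subgroup.zpowers σ ≤ MulAction.stabilizer Gal(L/F) a :=
      Subgroup.zpowers_le.mpr hσa
    exact this (hφ ▸ Subgroup.mem_zpowers φ)
  have hφb : φ b = -b := by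
    have h : φ b = b ∨ φ b = -b := by
      apply sq_eq_sq_iff_eq_or_eq_neg.mp
      rw [← map_pow, hb, AlgEquiv.commutes]
    refine h.resolve_left fun h => ?_
    have : Subgroup.zpowers φ ≤ MulAction.stabilizer Gal(L/F) b := Subgroup.zpowers_le.mpr h
    have h3 : σ b = b := this (hφ ▸ Subgroup.mem_zpowers σ)
    rw [hσb] at h3
    exact hb0 (by linear_combination (-1 / 2 : L) * h3)
  have hint : ∀ (c : 𝓞 F) (x : L), x ^ 2 = algebraMap F L c → ∃ y : 𝓞 L, (y : L) = x ∧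
      y ^ 2 = algebraMap (𝓞 F) (𝓞 L) c := by
    intro c x hx
    have : IsIntegral ℤ x := by
      refine IsIntegral.of_pow two_pos ?_
      rw [hx]
      exact (algebraMap (𝓞 F) (𝓞 L) c).isIntegral_coe
    refine ⟨⟨x, this⟩, rfl, ?_⟩
    ext
    exact hx
  obtain ⟨a', ha1, ha2⟩ := hint d a ha
  obtain ⟨b', hb1, hb2⟩ := hint u b hb
  have hφa' : φ • a' = a' := by
    ext
    change φ (a' : L) = a'
    rw [ha1, hφa]
  have hφb' : φ • b' = -b' := by
    ext
    change φ (b' : L) = -b'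
    rw [hb1, hφb]
  have hne : P.under (𝓞 F) ≠ ⊥ := by
    intro h0
    rw [h0, Ideal.absNorm_bot] at hnorm
    exact hp.ne_zero hnorm.symm
  let v : Pl F := ⟨P.under (𝓞 F), inferInstance, hne⟩
  have hmem : ∀ x : 𝓞 F, x ∈ v.asIdeal ↔ algebraMap (𝓞 F) (𝓞 L) x ∈ P := fun x => Iff.rfl
  refine ⟨v, hnorm ▸ hpN, fun hbad => ?_⟩
  have h2v : (2 : 𝓞 F) ∉ v.asIdeal := fun h =>
    hbad (Ideal.mul_mem_right _ _ (Ideal.mul_mem_right _ _ h))
  have hdv : d ∉ v.asIdeal := fun h => hbad (Ideal.mul_mem_right _ _ (Ideal.mul_mem_left _ _ h))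
  have huv : u ∉ v.asIdeal := fun h => hbad (Ideal.mul_mem_left _ _ h)
  have hp2 : p ≠ 2 := by
    rintro rfl
    exact h2v ((hmem 2).mpr (by simpa [map_ofNat] using hpP))
  obtain ⟨m, hm⟩ := hp.odd_of_ne_two hp2
  have hd1 : 1 - d ^ m ∈ v.asIdeal := by
    have h3 := hfrob a'
    have e : a' - a' ^ p = a' * algebraMap (𝓞 F) (𝓞 L) (1 - d ^ m) := by
      rw [hm, pow_succ, pow_mul, ha2, map_sub, map_one, map_pow]; ring
    rw [hφa', e] at h3
    refine (hmem _).mpr ((hP.mem_or_mem h3).resolve_left fun h => hdv ((hmem _).mpr ?_))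
    rw [← ha2]; exact Ideal.pow_mem_of_mem _ h 2 two_pos
  have hu1 : 1 + u ^ m ∈ v.asIdeal := by
    have h3 := hfrob b'
    have e : -b' - b' ^ p = -b' * algebraMap (𝓞 F) (𝓞 L) (1 + u ^ m) := by
      rw [hm, pow_succ, pow_mul, hb2, map_add, map_one, map_pow]; ring
    rw [hφb', e] at h3
    refine (hmem _).mpr ((hP.mem_or_mem h3).resolve_left fun h => huv ((hmem _).mpr ?_))
    rw [← hb2]; exact Ideal.pow_mem_of_mem _ (neg_mem_iff.mp h) 2 two_pos
  have hmax := v.isMaximal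
  let _ : Field (𝓞 F ⧸ v.asIdeal) := Ideal.Quotient.field _
  let _ : Fintype (𝓞 F ⧸ v.asIdeal) := Fintype.ofFinite _
  have hcard : Fintype.card (𝓞 F ⧸ v.asIdeal) / 2 = m := by
    have : Fintype.card (𝓞 F ⧸ v.asIdeal) = p := by
      rw [← Nat.card_eq_fintype_card, ← hnorm]; rfl
    omega
  have h20 : (2 : 𝓞 F ⧸ v.asIdeal) ≠ 0 := fun h => h2v (Ideal.Quotient.eq_zero_iff_mem.mp (by
    simpa [map_ofNat] using h))
  have hchar : ringChar (𝓞 F ⧸ v.asIdeal) ≠ 2 := fun h => h20 (by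
    have := ringChar.Nat.cast_ringChar (R := 𝓞 F ⧸ v.asIdeal)
    rw [h] at this
    exact_mod_cast this)
  constructor
  · have h3 : IsSquare (Ideal.Quotient.mk v.asIdeal d) := by
      rw [FiniteField.isSquare_iff hchar (mt Ideal.Quotient.eq_zero_iff_mem.mp hdv), hcard]
      have := Ideal.Quotient.eq.mpr hd1
      rw [map_one, map_pow] at this
      exact this.symm
    obtain ⟨x, hx⟩ := h3
    obtain ⟨x, rfl⟩ := Ideal.Quotient.mk_surjective x
    exact ⟨x, Ideal.Quotient.eq.mp (by rw [hx, map_pow, sq])⟩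
  · intro x hx
    have h3 : IsSquare (Ideal.Quotient.mk v.asIdeal u) :=
      ⟨Ideal.Quotient.mk _ x, by rw [← Ideal.Quotient.eq.mpr hx, map_pow, sq]⟩
    rw [FiniteField.isSquare_iff hchar (mt Ideal.Quotient.eq_zero_iff_mem.mp huv), hcard] at h3
    have := Ideal.Quotient.eq_zero_iff_mem.mpr hu1
    rw [map_add, map_one, map_pow, h3] at this
    exact h20 (by rw [← this]; norm_num)

theorem exists_prime_int (d u : 𝓞 F) (h1 : ¬ IsSquare (u : F)) (h2 : ¬ IsSquare ((d : F) * u))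
    (N : ℕ) : ∃ v : Pl F, N < Ideal.absNorm v.asIdeal ∧ (2 * d * u ∉ v.asIdeal →
      (∃ x : 𝓞 F, x ^ 2 - d ∈ v.asIdeal) ∧ ∀ x : 𝓞 F, x ^ 2 - u ∉ v.asIdeal) := by
  let f : F[X] := (X ^ 2 - C (d : F)) * (X ^ 2 - C (u : F))
  let L := f.SplittingField
  have : NumberField L := NumberField.of_module_finite F L
  have : IsGalois F L := {}
  have hs : (f.map (algebraMap F L)).Splits := SplittingField.splits f
  have hf0 : f.map (algebraMap F L) ≠ 0 :=
    map_ne_zero (mul_ne_zero (X_pow_sub_C_ne_zero two_pos _) (X_pow_sub_C_ne_zero two_pos _))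
  have hroot : ∀ c : F, X ^ 2 - C c ∣ f → ∃ x : L, x ^ 2 = algebraMap F L c := by
    intro c hc
    have h3 := hs.of_dvd hf0 (Polynomial.map_dvd (algebraMap F L) hc)
    obtain ⟨x, hx⟩ := h3.exists_eval_eq_zero (by
      rw [degree_map, degree_X_pow_sub_C two_pos]; norm_num)
    exact ⟨x, by simpa [sub_eq_zero] using hx⟩
  obtain ⟨a, ha⟩ := hroot d (dvd_mul_right _ _)
  obtain ⟨b, hb⟩ := hroot u (dvd_mul_left _ _)
  exact exists_prime_core ha hb h1 h2 N

theorem exists_mul_sq_int (x : Fˣ) : ∃ (c : Fˣ) (a : 𝓞 F), ((x * c ^ 2 : Fˣ) : F) = a := by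
  obtain ⟨n, m, hm, h⟩ := IsFractionRing.div_surjective (A := 𝓞 F) (x : F)
  have hm0 : (m : F) ≠ 0 := by simpa using nonZeroDivisors.ne_zero hm
  refine ⟨Units.mk0 _ hm0, n * m, ?_⟩
  rw [Units.val_mul, ← h]
  simp only [Units.val_pow_eq_pow_val, Units.val_mk0]
  push_cast
  field_simp

omit [NumberField F] in
theorem mem_Sqs {x : Fˣ} : x ∈ Sqs F ↔ IsSquare (x : F) := by
  constructor
  · rintro ⟨y, rfl⟩
    exact ⟨y, by simp [sq]⟩
  · rintro ⟨y, hy⟩
    have : y ≠ 0 := by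
      rintro rfl
      simp at hy
    exact ⟨Units.mk0 y this, Units.ext (by simp [hy, sq])⟩

omit [NumberField F] in
theorem mul_sq_mem_Sqs {x : Fˣ} (c : Fˣ) : x * c ^ 2 ∈ Sqs F ↔ x ∈ Sqs F :=
  Subgroup.mul_mem_cancel_right _ ⟨c, rfl⟩

theorem val_two_eq_one (v : Pl F) (h : (2 : 𝓞 F) ∉ v.asIdeal) : v.valuation F 2 = 1 := by
  simpa [map_ofNat] using val_int_eq_one v h

/-- at an odd place a unit is a local square iff it is a square in the residue field -/
theorem mem_Sq_iff_int (v : Pl F) (h2 : v.valuation F 2 = 1) {x : Fˣ} {a : 𝓞 F} (hx : (x : F) = a)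
    (ha : a ∉ v.asIdeal) : x ∈ Sq v ↔ ∃ y : 𝓞 F, y ^ 2 - a ∈ v.asIdeal := by
  have h4 : v.valuation F 4 = 1 := by rw [val_four, h2, one_pow]
  have h1 := val_int_eq_one v ha
  constructor
  · intro hs
    obtain ⟨y, hy, hy1, hy2⟩ := exists_of_mem_Sq v hs
    rw [h4] at hy1
    rw [hx, map_mul, h1, one_mul, map_pow] at hy2
    have hy3 : v.valuation F y = 1 := (pow_eq_one_iff_of_nonneg zero_le two_ne_zero).mp hy2
    obtain ⟨z, hz⟩ := exists_int_near v (x := y⁻¹) (by simp [hy3]) 0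
    rw [exp_zero] at hz
    refine ⟨z, (val_int_lt_iff v _).mp ?_⟩
    have e : ((z ^ 2 - a : 𝓞 F) : F) =
        ((z : F) - y⁻¹) * (z + y⁻¹) - ((x : F) * y ^ 2 - 1) / y ^ 2 := by
      rw [hx]; push_cast; field_simp; ring
    rw [e]
    refine (v.valuation F).map_sub_lt ?_ ?_
    · rw [map_mul]
      exact mul_lt_one_of_lt_of_le hz
        ((v.valuation F).map_add_le (val_int_le v z) (by simp [hy3]))
    · rw [map_div₀, map_pow, hy2, div_one]; exact hy1
  · rintro ⟨y, hy⟩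
    have hy1 : y ∉ v.asIdeal := fun h => ha (by
      have := v.asIdeal.sub_mem (Ideal.pow_mem_of_mem _ h 2 two_pos) hy
      simpa using this)
    have hy2 := val_int_eq_one v hy1
    have hy0 : (y : F) ≠ 0 := (ev_of_val_one v hy2).ne_zero
    refine ⟨(y : F)⁻¹, ?_⟩
    have e : (x : F) * (y : F)⁻¹ ^ 2 - 1 = -(((y ^ 2 - a : 𝓞 F) : F) / y ^ 2) := by
      rw [hx]; push_cast; field_simp; ring
    rw [e, Valuation.map_neg, map_div₀, map_pow, hy2, one_pow, div_one, h4]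
    exact (val_int_lt_iff v _).mpr hy

end Loc

open Loc

universe u

theorem l4Stmt : L4Stmt.{u} := by
  intro F _ _ d u h1 h2 hfin
  obtain ⟨c, d', hd⟩ := exists_mul_sq_int d
  obtain ⟨c', u', hu⟩ := exists_mul_sq_int u
  have hd0 : d' ≠ 0 := fun h => (d * c ^ 2).ne_zero (by rw [hd, h]; rfl)
  have hu0 : u' ≠ 0 := fun h => (u * c' ^ 2).ne_zero (by rw [hu, h]; rfl)
  have h1' : ¬ IsSquare (u' : F) := by
    rwa [← hu, ← mem_Sqs, mul_sq_mem_Sqs]
  have h2' : ¬ IsSquare ((d' : F) * u') := by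
    have e : d * c ^ 2 * (u * c' ^ 2) = d * u * (c * c') ^ 2 := by
      rw [mul_pow, mul_mul_mul_comm]
    rwa [← hu, ← hd, ← Units.val_mul, ← mem_Sqs, e, mul_sq_mem_Sqs]
  have hbad : {v : Pl F | v.asIdeal ∣ Ideal.span {2 * d' * u'}}.Finite :=
    Ideal.finite_factors (by simp [hd0, hu0])
  obtain ⟨N, hN⟩ := ((hfin.union hbad).image fun v => Ideal.absNorm v.asIdeal).bddAbove
  obtain ⟨v, hvN, hv⟩ := exists_prime_int d' u' h1' h2' N
  have hv1 : v ∉ {v : Pl F | d ∈ Sq v ∧ u ∉ Sq v} ∪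
      {v : Pl F | v.asIdeal ∣ Ideal.span {2 * d' * u'}} := fun h =>
    absurd (hN ⟨v, h, rfl⟩) (not_le.mpr hvN)
  have hv2 : 2 * d' * u' ∉ v.asIdeal := fun h =>
    hv1 (Or.inr (Ideal.dvd_span_singleton.mpr h))
  obtain ⟨hv3, hv4⟩ := hv hv2
  have h2v := val_two_eq_one v fun h =>
    hv2 (Ideal.mul_mem_right _ _ (Ideal.mul_mem_right _ _ h))
  refine hv1 (Or.inl ⟨?_, fun h => ?_⟩)
  · rw [← mul_sq_mem_Sq v c]
    exact (mem_Sq_iff_int v h2v hd fun h =>
      hv2 (Ideal.mul_mem_right _ _ (Ideal.mul_mem_left _ _ h))).mpr hv3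
  · rw [← mul_sq_mem_Sq v c'] at h
    obtain ⟨y, hy⟩ := (mem_Sq_iff_int v h2v hu fun h => hv2 (Ideal.mul_mem_left _ _ h)).mp h
    exact hv4 y hy

end Crest.Agent.T24.Hn
end
end

-- ▼ part T24/HnAll_7

/-!
# Row 24: the Hasse norm theorem for quadratic extensions, unconditional forms
-/

set_option autoImplicit false

noncomputable section

open scoped NumberField
open IsDedekindDomain

namespace Crest.Agent.T24.Hn

universe u

/-- **Hasse norm theorem** -/
theorem hnStmt : HNStmt.{u} := hnStmt_of l1Stmt l2Stmt l3Stmt l4Stmt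

variable {F : Type u} [Field F] [NumberField F]

/-- the local norm index at a non-split place is two -/
theorem index_LN (v : Pl F) (d : Fˣ) (hv : d ∉ Sq v) : (LN (d : F) v).index = 2 :=
  index_LN_of l1Stmt l2Stmt l3Stmt l4Stmt v d hv

theorem LN_eq_top (v : Pl F) (d : Fˣ) (hv : d ∈ Sq v) : LN (d : F) v = ⊤ := by
  refine (Subgroup.eq_top_iff' _).mpr fun a => ((l5Stmt F v d a).1).mpr ?_
  obtain ⟨r, hr⟩ := (Loc.mem_Sq_iff v d).mp hv
  have h0 : r ≠ 0 := by
    rintro rfl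
    rw [mul_zero, map_eq_zero] at hr
    exact d.ne_zero hr
  have : CharZero (v.adicCompletion F) := algebraRat.charZero _
  refine ⟨(algebraMap F _ (a : F) + 1) / 2, (algebraMap F _ (a : F) - 1) / (2 * r), ?_⟩
  rw [hr]
  field_simp
  ring



end Crest.Agent.T24.Hn
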