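import Crest.Agent.T24.HilDef_56
import Crest.Agent.T24.HnAll_7
import Crest.Agent.T24.AsaA_53

/-! Row 24, Hilbert symbols, part A: local API, weak approximation, four variables (helper56). -/

set_option autoImplicit false
set_option linter.unusedSectionVars false

noncomputable section

open scoped NumberField Topology Valued
open IsDedekindDomain WithZero Filter

namespace Crest.Agent.T24.Hil

open Hn

universe u

section Fld

variable {L : Type*} [Field L]

theorem nm_of_sq [CharZero L] {a b : L} (ha : a ≠ 0) (h : IsSquare a) :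
    ∃ x y, b = x ^ 2 - a * y ^ 2 := by
  obtain ⟨r, rfl⟩ := h
  have : r ≠ 0 := left_ne_zero_of_mul ha
  exact ⟨(b + 1) / 2, (b - 1) / (2 * r), by field_simp; ring⟩

theorem nm_symm [CharZero L] {a b : L} (ha : a ≠ 0) (h : ∃ x y, a = x ^ 2 - b * y ^ 2) :
    ∃ x y, b = x ^ 2 - a * y ^ 2 := by
  obtain ⟨x, y, h⟩ := h
  by_cases hy : y = 0
  · exact nm_of_sq ha ⟨x, by rw [h, hy]; ring⟩
  · exact ⟨x / y, 1 / y, by rw [h]; field_simp; ring⟩

end Fld

variable {F : Type u} [Field F] [NumberField F]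

/-- `f : F → L` is the completion at `p` -/
structure Lc (p : Pc F) {L : Type*} [Field L] [TopologicalSpace L] (f : F →+* L) : Prop where
  sq : ∀ s : Fˣ, s ∈ SqP p ↔ IsSquare (f s)
  nm : ∀ (d : F) (a : Fˣ), a ∈ LNP d p ↔ ∃ x y : L, f a = x ^ 2 - f d * y ^ 2
  op : {x : L | IsSquare x} ∈ 𝓝 (1 : L)

theorem lc_inl (v : Pl F) : Lc (.inl v) (algebraMap F (v.adicCompletion F)) where
  sq := Loc.mem_Sq_iff v
  nm := Loc.mem_LN_iff v
  op := by
    have : CharZero (v.adicCompletion F) := algebraRat.charZero _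
    have h : ∀ᶠ x in 𝓝 (1 : v.adicCompletion F), ‖(x - 1) / 4‖ < 1 :=
      ContinuousAt.eventually_lt (by fun_prop) continuousAt_const (by simp)
    filter_upwards [h] with x hx
    obtain ⟨t, ht⟩ := Loc.exists_sq_add hx
    exact ⟨1 + 2 * t, by linear_combination -4 * ht⟩

theorem pos_iff_sq (φ : F →+* ℝ) (s : Fˣ) : s ∈ Pos φ ↔ IsSquare (φ s) :=
  ⟨fun h => ⟨√(φ s), (Real.mul_self_sqrt (le_of_lt h)).symm⟩,
    fun h => lt_of_le_of_ne h.nonneg ((map_ne_zero φ).2 s.ne_zero).symm⟩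

theorem lc_inr (φ : F →+* ℝ) : Lc (.inr φ) φ where
  sq := pos_iff_sq φ
  nm d a := by
    constructor
    · intro h
      obtain ⟨n, ⟨x, y, hn⟩, s, hs, rfl⟩ := Subgroup.mem_sup.mp h
      obtain ⟨z, hz⟩ := (pos_iff_sq φ s).1 hs
      refine ⟨φ x * z, φ y * z, ?_⟩
      rw [Units.val_mul, map_mul, hz, hn, map_sub, map_mul, map_pow, map_pow]
      ring
    · rintro ⟨x, y, h⟩
      rcases lt_or_gt_of_ne ((map_ne_zero φ).2 a.ne_zero) with ha | ha
      · have hd : 0 < φ d := by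
          by_contra hd
          nlinarith [sq_nonneg x, sq_nonneg y]
        have h0 : -d ≠ 0 := neg_ne_zero.2 ((map_ne_zero φ).1 hd.ne')
        refine Subgroup.mem_sup.2 ⟨Units.mk0 _ h0, ⟨0, 1, by simp⟩, (Units.mk0 _ h0)⁻¹ * a, ?_,
          mul_inv_cancel_left _ _⟩
        change 0 < φ _
        simp only [Units.val_mul, Units.val_inv_eq_inv_val, Units.val_mk0, map_mul, map_inv₀, map_neg]
        exact mul_pos_of_neg_of_neg (inv_lt_zero.2 (by linarith)) ha
      · exact Subgroup.mem_sup_right (T := Pos φ) ha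
  op := by
    filter_upwards [lt_mem_nhds (zero_lt_one' ℝ)] with x hx
    exact ⟨√x, (Real.mul_self_sqrt hx.le).symm⟩

theorem sq_mem_SqP (p : Pc F) (y : Fˣ) : y ^ 2 ∈ SqP p := by
  rcases p with v | φ
  exacts [sq_mem_Sq v y, sq_mem_Pos φ y]

theorem Sqs_le (p : Pc F) : Sqs F ≤ SqP p := by
  rintro _ ⟨y, rfl⟩; exact sq_mem_SqP p y

theorem LNP_symm {p : Pc F} {a b : Fˣ} (h : a ∈ LNP (b : F) p) : b ∈ LNP (a : F) p := by
  rcases p with v | φ
  · have : CharZero (v.adicCompletion F) := algebraRat.charZero _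
    exact ((lc_inl v).nm _ _).2 (nm_symm (by simp) (((lc_inl v).nm _ _).1 h))
  · exact ((lc_inr φ).nm _ _).2 (nm_symm (by simp) (((lc_inr φ).nm _ _).1 h))

theorem LNP_eq_top {p : Pc F} {d : Fˣ} (h : d ∈ SqP p) : LNP (d : F) p = ⊤ :=
  (Subgroup.eq_top_iff' _).2 fun _ => LNP_symm (Subgroup.mem_sup_right h)

theorem LR_eq (d : Fˣ) (φ : F →+* ℝ) : LR (d : F) φ = LNP (d : F) (.inr φ) := by
  unfold LR
  split_ifs with h
  · exact (sup_eq_right.2 (Nr_le_Pos h)).symm
  · exact (LNP_eq_top (p := .inr φ)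
      (lt_of_le_of_ne (not_lt.1 h) ((map_ne_zero φ).2 d.ne_zero).symm)).symm

theorem notMem_Pos {φ : F →+* ℝ} {d : Fˣ} : d ∉ Pos φ ↔ φ d < 0 :=
  ⟨fun h => lt_of_le_of_ne (not_lt.1 h) ((map_ne_zero φ).2 d.ne_zero), fun h h' => lt_asymm h h'⟩

theorem index_LNP {p : Pc F} {d : Fˣ} (h : d ∉ SqP p) : (LNP (d : F) p).index = 2 := by
  rcases p with v | φ
  · exact index_LN v d h
  · rw [← LR_eq, LR, if_pos (notMem_Pos.1 h), index_Pos]

theorem hil_comm (p : Pc F) (a b : Fˣ) : hil p a b = hil p b a := by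
  classical
  unfold hil
  exact if_congr ⟨LNP_symm, LNP_symm⟩ rfl rfl

theorem hil_eq_neg {p : Pc F} {a b : Fˣ} : hil p a b = -1 ↔ a ∉ LNP (b : F) p := by
  unfold hil; split_ifs with h <;> simp [h]

theorem hil_of_sq_right {p : Pc F} (a : Fˣ) {d : Fˣ} (h : d ∈ SqP p) : hil p a d = 1 :=
  hil_eq_one.2 (by rw [LNP_eq_top h]; trivial)

theorem hil_of_sq_left {p : Pc F} {a : Fˣ} (d : Fˣ) (h : a ∈ SqP p) : hil p a d = 1 :=
  hil_eq_one.2 (Subgroup.mem_sup_right h)

theorem hil_of_nr {p : Pc F} {a d : Fˣ} (h : a ∈ Nr (d : F)) : hil p a d = 1 :=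
  hil_eq_one.2 (Subgroup.mem_sup_left h)

theorem hil_mul_left (p : Pc F) (a b d : Fˣ) : hil p (a * b) d = hil p a d * hil p b d := by
  by_cases h : d ∈ SqP p
  · simp only [hil_of_sq_right _ h, mul_one]
  · have := Subgroup.mul_mem_iff_of_index_two (index_LNP h) (a := a) (b := b)
    unfold hil
    by_cases ha : a ∈ LNP (d : F) p <;> by_cases hb : b ∈ LNP (d : F) p <;> simp [ha, hb, this]

theorem hil_mul_right (p : Pc F) (a b d : Fˣ) : hil p a (b * d) = hil p a b * hil p a d := by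
  rw [hil_comm, hil_mul_left, hil_comm p b, hil_comm p d]


/-- the symbol as a character in the first variable -/
def hilL (p : Pc F) (d : Fˣ) : Fˣ →* ℤˣ := MonoidHom.mk' (fun a => hil p a d) fun a b => hil_mul_left p a b d

@[simp] theorem hilL_apply (p : Pc F) (d a : Fˣ) : hilL p d a = hil p a d := rfl

@[simp] theorem hil_one_left (p : Pc F) (d : Fˣ) : hil p 1 d = 1 := map_one (hilL p d)

@[simp] theorem hil_one_right (p : Pc F) (a : Fˣ) : hil p a 1 = 1 := by rw [hil_comm, hil_one_left]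

@[simp] theorem hil_inv_left (p : Pc F) (a d : Fˣ) : hil p a⁻¹ d = hil p a d :=
  (map_inv (hilL p d) a).trans (Int.units_inv_eq_self _)

@[simp] theorem hil_inv_right (p : Pc F) (a d : Fˣ) : hil p a d⁻¹ = hil p a d := by
  rw [hil_comm, hil_inv_left, hil_comm]

theorem hil_div_left (p : Pc F) (a b d : Fˣ) : hil p (a / b) d = hil p a d * hil p b d := by
  rw [div_eq_mul_inv, hil_mul_left, hil_inv_left]


theorem hil_prod_left {ι : Type*} (p : Pc F) (s : Finset ι) (a : ι → Fˣ) (d : Fˣ) :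
    hil p (∏ i ∈ s, a i) d = ∏ i ∈ s, hil p (a i) d := map_prod (hilL p d) a s

theorem hil_congr_left {p : Pc F} {a b : Fˣ} (h : a / b ∈ SqP p) (d : Fˣ) : hil p a d = hil p b d := by
  rw [← div_mul_cancel a b, hil_mul_left, hil_of_sq_left d h, one_mul]

theorem hil_congr_right {p : Pc F} {a b : Fˣ} (h : a / b ∈ SqP p) (d : Fˣ) :
    hil p d a = hil p d b := by
  rw [hil_comm, hil_congr_left h, hil_comm]



/-- non-degeneracy -/
theorem exists_hil_neg {p : Pc F} {d : Fˣ} (h : d ∉ SqP p) : ∃ a, hil p a d = -1 := by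
  by_contra h'
  have : LNP (d : F) p = ⊤ :=
    (Subgroup.eq_top_iff' _).2 fun a => not_not.1 fun ha => h' ⟨a, hil_eq_neg.2 ha⟩
  have h2 := index_LNP h
  rw [this, Subgroup.index_top] at h2
  omega

theorem notMem_of_hil_neg {p : Pc F} {a d : Fˣ} (h : hil p a d = -1) : d ∉ SqP p := fun h' => by
  rw [hil_of_sq_right a h'] at h
  exact absurd h (by decide)

theorem hil_unit {v : Pl F} {a d : Fˣ} (h2 : v.valuation F 2 = 1) (ha : v.valuation F (a : F) = 1)
    (hd : v.valuation F (d : F) = 1) : hil (.inl v) a d = 1 :=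
  hil_inl.2 (Loc.mem_LN_of_odd v h2 hd ha)

/-- at an odd place where `d` is a non-square unit the norms are the elements of even order -/
theorem hil_unram {v : Pl F} {a d : Fˣ} (h2 : v.valuation F 2 = 1)
    (hd : v.valuation F (d : F) = 1) (hd' : d ∉ Sq v) :
    hil (.inl v) a d = 1 ↔ ∃ n : ℤ, v.valuation F (a : F) = exp (2 * n) := by
  constructor
  · intro h
    exact (Loc.UR_of_notMem v hd' hd (by
      rw [Loc.val_four, h2, one_pow]
      exact (v.valuation F).map_sub_le hd.le (map_one _).le)).LN_le (hil_inl.1 h)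
  · rintro ⟨n, hn⟩
    obtain ⟨c, hc⟩ := Loc.exists_sq_mul_mem_Un v hn
    rw [← hil_congr_left (a := a * c ^ 2) (by rw [mul_div_cancel_left]; exact sq_mem_SqP _ c)]
    exact hil_unit h2 hc hd

/-- all places of `S` and all real places -/
def full (S : Finset (Pl F)) : Finset (Pc F) := S.disjSum Finset.univ

@[simp] theorem inl_mem_full {S : Finset (Pl F)} {v : Pl F} : .inl v ∈ full S ↔ v ∈ S :=
  Finset.inl_mem_disjSum

@[simp] theorem inr_mem_full {S : Finset (Pl F)} {φ : F →+* ℝ} : .inr φ ∈ full S := by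
  simp [full]

theorem hil_off {S : Finset (Pl F)} (h2 : ∀ v, v ∉ S → v.valuation F 2 = 1) {a d : Fˣ}
    (ha : a ∈ (S : Set (Pl F)).unit F) (hd : d ∈ (S : Set (Pl F)).unit F) (p : Pc F)
    (hp : p ∉ full S) : hil p a d = 1 := by
  rcases p with v | φ
  · rw [inl_mem_full] at hp
    exact hil_unit (h2 v hp) (ha v hp) (hd v hp)
  · exact absurd inr_mem_full hp

theorem exists_hil_supp (a d : Fˣ) : ∃ S : Finset (Pc F), ∀ p, p ∉ S → hil p a d = 1 := by
  obtain ⟨S₀, h0⟩ := exists_supp a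
  obtain ⟨S, hS, h2, -, hd⟩ := exists_big S₀ d
  exact ⟨full S, hil_off h2 (unit_mono hS h0) hd⟩

theorem finite_hil (a d : Fˣ) : {p : Pc F | hil p a d ≠ 1}.Finite := by
  obtain ⟨S, hS⟩ := exists_hil_supp a d
  exact S.finite_toSet.subset fun p hp => not_not.1 fun h => hp (hS p h)

/-- Hasse norm theorem -/
theorem nr_of_LNP {a d : Fˣ} (h : ∀ p, a ∈ LNP (d : F) p) : a ∈ Nr (d : F) :=
  hnStmt F d a (fun v => h (.inl v)) fun φ hφ => by
    have := h (.inr φ)
    rwa [← LR_eq, LR, if_pos hφ] at this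


/-! ## Weak approximation -/

theorem wa1 (S : Finset (Pl F)) (a : ∀ v : Pl F, v.adicCompletion F)
    (U : ∀ v : Pl F, Set (v.adicCompletion F)) (hU : ∀ v ∈ S, U v ∈ 𝓝 (a v))
    (r : (F →+* ℝ) → ℝ) (V : (F →+* ℝ) → Set ℝ) (hV : ∀ φ, V φ ∈ 𝓝 (r φ)) :
    ∃ x : F, (∀ v ∈ S, algebraMap F (v.adicCompletion F) x ∈ U v) ∧ ∀ φ : F →+* ℝ, φ x ∈ V φ := by
  have h1 : ∀ v ∈ S, ∀ᶠ m : ℕ in atTop, ∀ y : v.adicCompletion F,
      Valued.v (y - a v) ≤ exp (-(m : ℤ)) → y ∈ U v := by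
    intro v hv
    obtain ⟨ε, hε, h⟩ := Metric.mem_nhds_iff.1 (hU v hv)
    obtain ⟨c, hc⟩ := Loc.exists_val_eq v (-1)
    have hc1 : ‖algebraMap F (v.adicCompletion F) c‖ < 1 := by
      have := (Loc.norm_lt_iff v c 1).2 (by rw [hc, map_one, ← exp_zero, exp_lt_exp]; omega)
      rwa [map_one, norm_one] at this
    filter_upwards [(tendsto_pow_atTop_nhds_zero_of_lt_one (norm_nonneg _) hc1).eventually
      (gt_mem_nhds hε)] with m hm y hy
    refine h (mem_ball_iff_norm.2 (lt_of_le_of_lt ?_ hm))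
    rw [← norm_pow, Valued.toNormedField.norm_le_iff, map_pow, Loc.valued_algebraMap, hc,
      ← exp_nsmul]
    simpa using hy
  obtain ⟨m, hm⟩ := ((eventually_all_finset S).2 h1).exists
  have h2 : ∀ φ : F →+* ℝ, ∀ᶠ ε in 𝓝[>] (0 : ℝ), Metric.ball (r φ) ε ⊆ V φ := fun φ => by
    obtain ⟨ε, hε, h⟩ := Metric.mem_nhds_iff.1 (hV φ)
    filter_upwards [nhdsWithin_le_nhds (gt_mem_nhds hε)] with δ hδ
    exact (Metric.ball_subset_ball hδ.le).trans h
  obtain ⟨ε, hε, hε0⟩ := ((eventually_all.2 h2).and self_mem_nhdsWithin).exists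
  obtain ⟨v₀, h₀⟩ := Asa.exists_notMem S
  obtain ⟨x, h3, h4, -⟩ := Asa.approxC S v₀ h₀ a m
    (fun w => r (NumberField.InfinitePlace.embedding_of_isReal w.2), 0) hε0
  refine ⟨x, fun v hv => hm v hv _ (h3 v hv), fun φ => hε φ ?_⟩
  have hr : NumberField.ComplexEmbedding.IsReal (Complex.ofRealHom.comp φ) := by
    rw [NumberField.ComplexEmbedding.isReal_iff]
    ext x
    simp [NumberField.ComplexEmbedding.conjugate_coe_eq]
  have hw := NumberField.InfinitePlace.isReal_mk_iff.2 hr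
  have e : NumberField.InfinitePlace.embedding_of_isReal hw = φ := RingHom.ext fun y =>
    Complex.ofReal_injective (by
      rw [NumberField.InfinitePlace.embedding_of_isReal_apply,
        NumberField.InfinitePlace.embedding_mk_eq_of_isReal hr]; rfl)
  have h5 := h4 (NumberField.InfinitePlace.mk (Complex.ofRealHom.comp φ))
  rw [NumberField.mixedEmbedding.normAtPlace_apply_of_isReal hw] at h5
  rw [mem_ball_iff_norm]
  simpa [e] using h5

/-- weak approximation in several variables -/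
theorem wa {ι : Type*} (S : Finset (Pl F)) (a : ∀ v : Pl F, ι → v.adicCompletion F)
    (U : ∀ v : Pl F, Set (ι → v.adicCompletion F)) (hU : ∀ v ∈ S, U v ∈ 𝓝 (a v))
    (r : (F →+* ℝ) → ι → ℝ) (V : (F →+* ℝ) → Set (ι → ℝ)) (hV : ∀ φ, V φ ∈ 𝓝 (r φ)) :
    ∃ x : ι → F, (∀ v ∈ S, (fun i => algebraMap F (v.adicCompletion F) (x i)) ∈ U v) ∧
      ∀ φ : F →+* ℝ, (fun i => φ (x i)) ∈ V φ := by
  simp only [nhds_pi, mem_pi'] at hU hV
  choose! I t ht hI using hU
  choose J s hs hJ using hV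
  choose x h1 h2 using fun i => wa1 S (fun v => a v i) (fun v => t v i) (fun v hv => ht v hv i)
    (fun φ => r φ i) (fun φ => s φ i) fun φ => hs φ i
  exact ⟨x, fun v hv => hI v hv fun i _ => h1 i v hv, fun φ => hJ φ fun i _ => h2 i φ⟩

theorem Lc.nhds {p : Pc F} {L : Type*} [Field L] [TopologicalSpace L] [IsTopologicalRing L] [T1Space L]
    {f : F →+* L} (h : Lc p f) {X : Type*} [TopologicalSpace X] {g : X → L} {z : X}
    (hg : ContinuousAt g z) (h0 : g z ≠ 0) : {x | g x ≠ 0 ∧ IsSquare (g x / g z)} ∈ 𝓝 z := by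
  have h1 : ContinuousAt (fun x => g x / g z) z := by
    simp only [div_eq_mul_inv]; exact hg.mul continuousAt_const
  have h2 := h1.eventually_mem (s := {x : L | IsSquare x}) (by simpa only [div_self h0] using h.op)
  exact (hg.eventually_ne h0).and h2

/-- a global norm in given local square classes -/
theorem wa_nr (d : F) (S : Finset (Pc F)) (c : Pc F → Fˣ) (hc : ∀ p ∈ S, c p ∈ LNP d p) :
    ∃ n ∈ Nr d, ∀ p ∈ S, n / c p ∈ SqP p := by
  classical
  let c' : Pc F → Fˣ := fun p => if p ∈ S then c p else 1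
  have hc' : ∀ p, c' p ∈ LNP d p := fun p => by
    by_cases hp : p ∈ S
    · simpa only [c', if_pos hp] using hc p hp
    · simp only [c', if_neg hp, one_mem]
  choose x y h using fun v => ((lc_inl v).nm d _).1 (hc' (.inl v))
  choose x' y' h' using fun φ => ((lc_inr φ).nm d _).1 (hc' (.inr φ))
  obtain ⟨v₀, -⟩ := Asa.exists_notMem (∅ : Finset (Pl F))
  obtain ⟨z, h1, h2⟩ := wa (insert v₀ S.toLeft) (fun v => ![x v, y v]) _
    (fun v _ => (lc_inl v).nhds (g := fun z : Fin 2 → _ => z 0 ^ 2 - algebraMap F _ d * z 1 ^ 2) (by fun_prop)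
      (by simp [← h v])) (fun φ => ![x' φ, y' φ]) _
    (fun φ => (lc_inr φ).nhds (g := fun z => z 0 ^ 2 - φ d * z 1 ^ 2) (by fun_prop)
      (by simp [← h' φ]))
  have h0 : z 0 ^ 2 - d * z 1 ^ 2 ≠ 0 := fun h0 => (h1 v₀ (Finset.mem_insert_self _ _)).1 (by
    simpa using congrArg (algebraMap F (v₀.adicCompletion F)) h0)
  refine ⟨Units.mk0 _ h0, ⟨_, _, rfl⟩, ?_⟩
  rintro (v | φ) hp
  · have := (h1 v (Finset.mem_insert_of_mem (Finset.mem_toLeft.2 hp))).2
    refine ((lc_inl v).sq _).2 ?_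
    simpa [← h v, c', hp] using this
  · have := (h2 φ).2
    refine ((lc_inr φ).sq _).2 ?_
    simpa [← h' φ, c', hp] using this

/-- a global element in given local square classes -/
theorem wa_sq (S : Finset (Pc F)) (c : Pc F → Fˣ) : ∃ a : Fˣ, ∀ p ∈ S, a / c p ∈ SqP p := by
  obtain ⟨n, -, h⟩ := wa_nr ((1 : Fˣ) : F) S c fun p _ => by rw [LNP_eq_top (one_mem _)]; trivial
  exact ⟨n, h⟩

/-! ## Base change and four variables -/

section Up

variable {E : Type*} [Field E] [NumberField E] [Algebra F E]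

theorem io_mem_SqP {q : Pc E} {s : Fˣ} (h : s ∈ SqP (unP F q)) : io F E s ∈ SqP q := by
  rcases q with w | ψ
  · obtain ⟨y, hy⟩ := h
    obtain ⟨e, he, hv⟩ := val_un (F := F) w
    refine ⟨algebraMap F E y, ?_⟩
    have h1 := hv (s * y ^ 2 - 1)
    have h2 := hv 4
    simp only [map_sub, map_mul, map_pow, map_one, map_ofNat] at h1 h2
    change w.valuation E (algebraMap F E s * _ - 1) < _
    rw [h1, h2]
    exact pow_lt_pow_left₀ hy zero_le he
  · exact h

theorem io_mem_Nr {d : F} {a : Fˣ} (h : a ∈ Nr d) : io F E a ∈ Nr (algebraMap F E d) := by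
  obtain ⟨x, y, h⟩ := h
  exact ⟨algebraMap F E x, algebraMap F E y, by
    change algebraMap F E a = _
    rw [h, map_sub, map_mul, map_pow, map_pow]⟩

theorem io_mem_LNP {q : Pc E} {d : F} {a : Fˣ} (h : a ∈ LNP d (unP F q)) :
    io F E a ∈ LNP (algebraMap F E d) q := by
  obtain ⟨n, hn, s, hs, rfl⟩ := Subgroup.mem_sup.1 h
  rw [map_mul]
  exact Subgroup.mul_mem_sup (io_mem_Nr hn) (io_mem_SqP hs)

end Up

theorem hm4_aux {E : Type u} [Field E] [NumberField E] [Algebra F E] {a d e : Fˣ} {θ : E}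
    {σ : E ≃ₐ[F] E} (hq : Qd ((d : F) * e) θ σ)
    (h : ∀ p, ∃ c : Fˣ, c ∈ LNP (e : F) p ∧ a * c ∈ LNP (d : F) p) :
    ∃ c ∈ Nr (e : F), a * c ∈ Nr (d : F) := by
  have hθ : θ ^ 2 = algebraMap F E d * algebraMap F E e := by rw [hq.sq, map_mul]
  have hd0 : algebraMap F E d ≠ 0 := by simp
  have hθ0 : θ ≠ 0 := by
    rintro rfl
    simp at hθ
  have h1 : Nr (algebraMap F E e) = Nr (algebraMap F E d) := by
    rw [← Loc.Nr_mul_sq (algebraMap F E d) (c := θ / algebraMap F E d) (by simp [*])]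
    congr 1
    field_simp
    linear_combination -hθ
  obtain ⟨x, y, hxy⟩ : io F E a ∈ Nr ((io F E d : Eˣ) : E) := nr_of_LNP fun q => by
    obtain ⟨c, h2, h3⟩ := h (unP F q)
    have h4 := io_mem_LNP h2
    have h5 := io_mem_LNP h3
    rw [LNP, h1] at h4
    rw [map_mul] at h5
    exact (Subgroup.mul_mem_cancel_right _ h4).1 h5
  obtain ⟨x0, x1, rfl⟩ := hq.span x
  obtain ⟨y0, y1, rfl⟩ := hq.span y
  change algebraMap F E a = _ - algebraMap F E d * _ at hxy
  have e0 : algebraMap F E (x0 ^ 2 + d * e * x1 ^ 2 - d * (y0 ^ 2 + d * e * y1 ^ 2) - a) +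
      algebraMap F E (2 * (x0 * x1 - d * y0 * y1)) * θ = 0 := by
    simp only [map_sub, map_add, map_mul, map_pow, map_ofNat]
    linear_combination -hxy - (algebraMap F E x1 ^ 2 - algebraMap F E d * algebraMap F E y1 ^ 2) * hθ
  have e0' := hq.apply (x0 ^ 2 + d * e * x1 ^ 2 - d * (y0 ^ 2 + d * e * y1 ^ 2) - a)
    (2 * (x0 * x1 - d * y0 * y1))
  rw [e0, map_zero] at e0'
  have e1 := (map_eq_zero (algebraMap F E)).1 (show algebraMap F E
    (x0 ^ 2 + d * e * x1 ^ 2 - d * (y0 ^ 2 + d * e * y1 ^ 2) - a) = 0 by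
      linear_combination (1 / 2) * e0 - (1 / 2) * e0')
  rw [e1, map_zero, zero_add, mul_eq_zero, or_iff_left hθ0, map_eq_zero] at e0
  by_cases hc : y0 ^ 2 - e * x1 ^ 2 = 0
  · exact ⟨a, ⟨x0, d * y1, by linear_combination -e1 - d * hc⟩, a, 0, by simp [sq]⟩
  · refine ⟨Units.mk0 _ hc, ⟨_, _, rfl⟩, x0 * y0 - e * d * x1 * y1, y0 ^ 2 - e * x1 ^ 2, ?_⟩
    simp only [Units.val_mul, Units.val_mk0]
    linear_combination -(y0 ^ 2 - e * x1 ^ 2) * e1 - (e * (x0 * x1 - d * y0 * y1) / 2) * e0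

/-- **Hasse-Minkowski in four variables**, norm group form -/
theorem hm4 (a d e : Fˣ) (h : ∀ p, ∃ c : Fˣ, c ∈ LNP (e : F) p ∧ a * c ∈ LNP (d : F) p) :
    ∃ c ∈ Nr (e : F), a * c ∈ Nr (d : F) := by
  by_cases hδ : d * e ∈ Sqs F
  · obtain ⟨r, hr⟩ := hδ
    have h1 : Nr (e : F) = Nr (d : F) := by
      rw [← Loc.Nr_mul_sq (d : F) (c := r / d) (by simp)]
      congr 1
      have : (r : F) ^ 2 = d * e := by simpa using congrArg Units.val hr
      field_simp
      linear_combination -this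
    refine ⟨1, one_mem _, nr_of_LNP fun p => ?_⟩
    obtain ⟨c, h2, h3⟩ := h p
    rw [LNP, h1] at h2
    rw [mul_one]
    exact (Subgroup.mul_mem_cancel_right _ h2).1 h3
  have : Fact (∀ r : F, r ^ 2 ≠ (d : F) * e + 0 * r) := fact_of_not_sq hδ
  have : NumberField (QuadraticAlgebra F ((d : F) * e) 0) := NumberField.of_module_finite F _
  exact hm4_aux (qd_quad ((d : F) * e)) h

end Crest.Agent.T24.Hil
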