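import Crest.Agent.T24.HilDef_56
import Crest.Agent.T24.HnAll_7
import Crest.Agent.T24.HilA_56
import Crest.Agent.T24.HilC_56

-- ▼ part T24/HnRecA_7
section

/-!
# Row 24, Hilbert reciprocity, part A: the symbol, ramification vectors, partial reciprocity
-/

set_option autoImplicit false
set_option linter.unusedSectionVars false

noncomputable section

open scoped NumberField
open IsDedekindDomain

namespace Crest.Agent.T24.Hil.R7

open Hn Crest.Agent.R018.Selmerx380 Crest.Agent.R018.SLatx824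

universe u

variable {F : Type u} [Field F] [NumberField F]

section Symbol

theorem neg_mem_Nr (d : Fˣ) : -d ∈ Nr (d : F) := ⟨0, 1, by simp⟩

theorem sq_mem_Nr (d : F) (y : Fˣ) : y ^ 2 ∈ Nr d := ⟨y, 0, by simp⟩

theorem LNP_inr (d : Fˣ) (φ : F →+* ℝ) : LNP (d : F) (.inr φ) = LR (d : F) φ := by
  change Nr (d : F) ⊔ Pos φ = _
  unfold LR
  split_ifs with h
  · exact sup_eq_right.mpr (Nr_le_Pos h)
  · have h1 : 0 < φ d := lt_of_le_of_ne (not_lt.mp h) ((map_ne_zero φ).mpr d.ne_zero).symm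
    refine (Subgroup.eq_top_iff' _).mpr fun a => ?_
    rcases lt_or_gt_of_ne ((map_ne_zero φ).mpr a.ne_zero) with h2 | h2
    · have : a = -d * (a / -d) := by rw [mul_div_cancel]
      rw [this]
      refine Subgroup.mul_mem_sup (neg_mem_Nr d) ?_
      rw [mem_Pos, Units.val_div_eq_div_val, map_div₀, Units.val_neg, map_neg]
      exact div_pos_of_neg_of_neg h2 (by linarith)
    · exact Subgroup.mem_sup_right h2

theorem mem_LNP_inr {d a : Fˣ} {φ : F →+* ℝ} :
    a ∈ LNP (d : F) (.inr φ) ↔ (φ d < 0 → 0 < φ a) := by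
  rw [LNP_inr]
  unfold LR
  split_ifs with h
  · simp [h, mem_Pos]
  · simp [h]

theorem notMem_Pos {d : Fˣ} {φ : F →+* ℝ} : d ∉ SqP (.inr φ) ↔ φ d < 0 := by
  change ¬ 0 < φ d ↔ _
  rw [not_lt]
  exact ⟨fun h => lt_of_le_of_ne h ((map_ne_zero φ).mpr d.ne_zero), le_of_lt⟩

theorem LNP_top {p : Pc F} {d : Fˣ} (h : d ∈ SqP p) : LNP (d : F) p = ⊤ := by
  rcases p with v | φ
  · exact LN_eq_top v d h
  · rw [LNP_inr, LR, if_neg (fun h' => notMem_Pos.mpr h' h)]

theorem index_LNP {p : Pc F} {d : Fˣ} (h : d ∉ SqP p) : (LNP (d : F) p).index = 2 := by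
  rcases p with v | φ
  · exact index_LN v d h
  · rw [LNP_inr, LR, if_pos (notMem_Pos.mp h), index_Pos]

theorem sq_mem_SqP (p : Pc F) (y : Fˣ) : y ^ 2 ∈ SqP p := by
  rcases p with v | φ
  exacts [sq_mem_Sq v y, sq_mem_Pos φ y]

theorem index_SqP_ne (p : Pc F) : (SqP p).index ≠ 0 := by
  rcases p with v | φ
  · exact (l1Stmt F ∅).1 v
  · change (Pos φ).index ≠ 0
    rw [index_Pos]; exact two_ne_zero

theorem hil_eq_neg {p : Pc F} {a b : Fˣ} : hil p a b = -1 ↔ a ∉ LNP (b : F) p := by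
  unfold hil; split_ifs with h <;> simp [h]

theorem hil_or (p : Pc F) (a b : Fˣ) : hil p a b = 1 ∨ hil p a b = -1 := Int.units_eq_one_or _

theorem hil_mul (p : Pc F) (a b d : Fˣ) : hil p (a * b) d = hil p a d * hil p b d := by
  by_cases h : d ∈ SqP p
  · simp [hil, LNP_top h]
  · have := Subgroup.mul_mem_iff_of_index_two (index_LNP h) (a := a) (b := b)
    unfold hil
    by_cases ha : a ∈ LNP (d : F) p <;> by_cases hb : b ∈ LNP (d : F) p <;> simp_all

theorem hil_of_Nr (p : Pc F) {a d : Fˣ} (h : a ∈ Nr (d : F)) : hil p a d = 1 :=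
  hil_eq_one.mpr (Subgroup.mem_sup_left h)

theorem hil_of_SqP {p : Pc F} {a : Fˣ} (h : a ∈ SqP p) (d : Fˣ) : hil p a d = 1 :=
  hil_eq_one.mpr (Subgroup.mem_sup_right h)

theorem hil_of_SqP' {p : Pc F} {d : Fˣ} (h : d ∈ SqP p) (a : Fˣ) : hil p a d = 1 :=
  hil_eq_one.mpr (by rw [LNP_top h]; trivial)

theorem LNP_symm {p : Pc F} {a b : Fˣ} (h : a ∈ LNP (b : F) p) : b ∈ LNP (a : F) p := by
  rcases p with v | φ
  · obtain ⟨x, y, hxy⟩ := (Loc.mem_LN_iff v (b : F) a).mp h
    by_cases hy : y = 0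
    · have : a ∈ SqP (.inl v) := (Loc.mem_Sq_iff v a).mpr ⟨x, by rw [hxy, hy]; ring⟩
      rw [LNP_top this]; trivial
    · refine (Loc.mem_LN_iff v (a : F) b).mpr ⟨x / y, 1 / y, ?_⟩
      rw [hxy]; field_simp; ring
  · rw [mem_LNP_inr] at h ⊢
    intro ha
    by_contra hb
    have := h (notMem_Pos.mp hb)
    linarith

theorem hil_comm (p : Pc F) (a b : Fˣ) : hil p a b = hil p b a := by
  unfold hil
  by_cases h : a ∈ LNP (b : F) p
  · rw [if_pos h, if_pos (LNP_symm h)]
  · rw [if_neg h, if_neg fun h' => h (LNP_symm h')]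

theorem hil_mul' (p : Pc F) (a b d : Fˣ) : hil p d (a * b) = hil p d a * hil p d b := by
  rw [hil_comm, hil_mul, hil_comm p a, hil_comm p b]

theorem hil_one (p : Pc F) (d : Fˣ) : hil p 1 d = 1 := hil_of_SqP (one_mem _) d

theorem hil_inv (p : Pc F) (a d : Fˣ) : hil p a⁻¹ d = hil p a d := by
  unfold hil
  by_cases h : a ∈ LNP (d : F) p
  · rw [if_pos h, if_pos (inv_mem h)]
  · rw [if_neg h, if_neg fun h' => h (inv_mem_iff.mp h')]

theorem hil_div (p : Pc F) (a b d : Fˣ) : hil p (a / b) d = hil p a d * hil p b d := by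
  rw [div_eq_mul_inv, hil_mul, hil_inv]

theorem hil_div' (p : Pc F) (a b d : Fˣ) : hil p d (a / b) = hil p d a * hil p d b := by
  rw [hil_comm, hil_div, hil_comm p a, hil_comm p b]

theorem hil_add (p : Pc F) {x y s : Fˣ} (h : (x : F) + y = s) :
    hil p x y = hil p (-(x * y)) s := by
  have h1 : hil p (x / s) (y / s) = 1 := by
    refine hil_of_Nr p ⟨1, 1, ?_⟩
    have : (s : F) ≠ 0 := s.ne_zero
    rw [Units.val_div_eq_div_val, Units.val_div_eq_div_val]
    field_simp
    linear_combination h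
  have h2 : hil p (-s) s = 1 := hil_of_Nr p (neg_mem_Nr s)
  have h3 : -(x * y) = x * y * (-s / s) := by
    rw [neg_div, div_self', mul_neg, mul_one]
  rw [hil_div, hil_div', hil_div', hil_comm p s y] at h1
  rw [h3, hil_mul, hil_mul, hil_div, h2, one_mul]
  rcases hil_or p x y with e1 | e1 <;> rcases hil_or p x s with e2 | e2 <;>
    rcases hil_or p y s with e3 | e3 <;> rcases hil_or p s s with e4 | e4 <;> simp_all

theorem exists_hil {p : Pc F} {d : Fˣ} (h : d ∉ SqP p) : ∃ t, hil p t d = -1 := by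
  by_contra h1
  push Not at h1
  have : LNP (d : F) p = ⊤ := (Subgroup.eq_top_iff' _).mpr fun t =>
    not_not.mp fun h2 => h1 t (hil_eq_neg.mpr h2)
  have h2 := index_LNP h
  rw [this, Subgroup.index_top] at h2
  omega

theorem notMem_of_hil {p : Pc F} {a d : Fˣ} (h : hil p a d = -1) : d ∉ SqP p := fun h' => by
  rw [hil_of_SqP' h'] at h
  exact absurd h (by decide)

theorem hil_unit {v : Pl F} {a d : Fˣ} (h2 : v.valuation F 2 = 1) (hd : v.valuation F (d : F) = 1)
    (ha : v.valuation F (a : F) = 1) : hil (.inl v) a d = 1 :=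
  hil_inl.mpr ((l5Stmt F v d a).2 h2 hd ha)

theorem hil_unif {v : Pl F} {c d : Fˣ} (h2 : v.valuation F 2 = 1) (hd : v.valuation F (d : F) = 1)
    (hd' : d ∉ Sq v) (hc : ord (𝓞 F) v c = 1) : hil (.inl v) c d = -1 := by
  obtain ⟨t, ht⟩ := exists_hil (p := .inl v) hd'
  rw [hil_eq_neg] at ht ⊢
  intro h
  apply ht
  have : t = t / c ^ ord (𝓞 F) v t * c ^ ord (𝓞 F) v t := by rw [div_mul_cancel]
  rw [this]
  refine mul_mem (hil_eq_one.mp (hil_unit h2 hd ?_)) (zpow_mem h _)
  rw [valuation_eq_one_iff, ord_div, Crest.Agent.R018.SLatBx824.ord_zpow, hc, mul_one, sub_self]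

/-- the vector of all symbols -/
def hv (d : Fˣ) : Fˣ →* (Pc F → ℤˣ) where
  toFun a p := hil p a d
  map_one' := funext fun p => hil_one p d
  map_mul' a b := funext fun p => hil_mul p a b d

open Classical in
/-- the sign vector of a finite set -/
def dl (B : Finset (Pc F)) : Pc F → ℤˣ := fun q => if q ∈ B then -1 else 1

theorem dl_mul_self (B : Finset (Pc F)) : dl B * dl B = 1 :=
  funext fun _ => Int.units_mul_self _

theorem dl_prod (B : Finset (Pc F)) : dl B = ∏ p ∈ B, dl {p} := by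
  classical
  funext q
  rw [Finset.prod_apply]
  simp only [dl, Finset.mem_singleton]
  rw [Finset.prod_ite_eq]

theorem dl_mem {I : Subgroup (Pc F → ℤˣ)} {B : Finset (Pc F)} (h : ∀ p ∈ B, dl {p} ∈ I) :
    dl B ∈ I := by
  rw [dl_prod]; exact prod_mem h

/-- all places of `S` and all real places -/
def al (S : Finset (Pl F)) : Finset (Pc F) := S.disjSum Finset.univ

theorem notMem_al {S : Finset (Pl F)} {p : Pc F} (h : p ∉ al S) : ∃ v, v ∉ S ∧ p = .inl v := by
  rcases p with v | φ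
  · exact ⟨v, by simpa [al] using h, rfl⟩
  · simp [al] at h

theorem exists_al (B : Finset (Pc F)) : ∃ S : Finset (Pl F), B ⊆ al S :=
  ⟨B.toLeft, fun p hp => by rcases p with v | φ <;> simp [al, hp]⟩

theorem al_mono {S S' : Finset (Pl F)} (h : S ⊆ S') : al S ⊆ al S' :=
  Finset.disjSum_mono h le_rfl

theorem hil_out {S : Finset (Pl F)} (h2 : ∀ v, v ∉ S → v.valuation F 2 = 1) {a d : Fˣ}
    (ha : a ∈ (S : Set (Pl F)).unit F) (hd : d ∈ (S : Set (Pl F)).unit F) {p : Pc F}
    (hp : p ∉ al S) : hil p a d = 1 := by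
  obtain ⟨v, hv, rfl⟩ := notMem_al hp
  exact hil_unit (h2 v hv) (hd v hv) (ha v hv)

theorem finite_rm (a d : Fˣ) : {p : Pc F | hil p a d = -1}.Finite := by
  obtain ⟨S₀, h0⟩ := exists_supp a
  obtain ⟨S, hS, h2, -, hd⟩ := exists_big S₀ d
  refine (al S).finite_toSet.subset fun p hp => ?_
  by_contra h
  have := hil_out h2 (unit_mono hS h0) hd h
  rw [hp] at this
  exact absurd this (by decide)

/-- the ramified places of `(a, d)` -/
def rm (a d : Fˣ) : Finset (Pc F) := (finite_rm a d).toFinset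

theorem mem_rm {a d : Fˣ} {p : Pc F} : p ∈ rm a d ↔ hil p a d = -1 := by simp [rm]

theorem hv_eq (a d : Fˣ) : hv d a = dl (rm a d) := by
  funext p
  change hil p a d = dl _ p
  unfold dl
  split_ifs with h
  · exact mem_rm.mp h
  · exact (hil_or p a d).resolve_right fun h' => h (mem_rm.mpr h')

end Symbol

section Bad

/-- `(a, d)` is ramified exactly at `p` for some `a` -/
def Bad (d : Fˣ) (p : Pc F) : Prop := dl {p} ∈ (hv d).range

theorem Bad.notMem {d : Fˣ} {p : Pc F} (h : Bad d p) : d ∉ SqP p := by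
  obtain ⟨a, ha⟩ := h
  exact notMem_of_hil (a := a) ((congrFun ha p).trans (by simp [dl]))

open Classical in
/-- the non-split places among `al S` -/
def nsp (d : Fˣ) (S : Finset (Pl F)) : Finset (Pc F) := (al S).filter fun p => d ∉ SqP p

theorem card_nsp (d : Fˣ) (S : Finset (Pl F)) : (nsp d S).card = ns d S := by
  classical
  have : nsp d S = (S.filter fun v => d ∉ Sq v).disjSum
      (Finset.univ.filter fun φ : F →+* ℝ => φ d < 0) := by
    ext p
    rcases p with v | φ
    · rw [nsp, Finset.mem_filter, Finset.inl_mem_disjSum, Finset.mem_filter, al,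
        Finset.inl_mem_disjSum]
      rfl
    · simp [nsp, al, notMem_Pos]
  rw [this, Finset.card_disjSum, ns]

theorem mem_nsp {d : Fˣ} {S : Finset (Pl F)} {p : Pc F} : p ∈ nsp d S ↔ p ∈ al S ∧ d ∉ SqP p := by
  simp [nsp]

theorem iInf_Lf (d : Fˣ) (S : Finset (Pl F)) :
    ⨅ i, Lf (d : F) S i = ⨅ p ∈ nsp d S, LNP (d : F) p := by
  ext x
  simp only [Subgroup.mem_iInf]
  constructor
  · rintro h (v | φ) hp
    · exact h (.inl ⟨v, by simpa [al] using (mem_nsp.mp hp).1⟩)
    · rw [LNP_inr]; exact h (.inr φ)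
  · intro h
    have h' : ∀ p ∈ al S, x ∈ LNP (d : F) p := fun p hp => by
      by_cases h1 : d ∈ SqP p
      · rw [LNP_top h1]; trivial
      · exact h p (mem_nsp.mpr ⟨hp, h1⟩)
    rintro (v | φ)
    · exact h' (.inl v.1) (by simp [al])
    · have := h' (.inr φ) (by simp [al])
      rwa [LNP_inr] at this

/-- second inequality: two good places are the ramification set of some `(a, d)` -/
theorem pair {d : Fˣ} {p q : Pc F} (hp : d ∉ SqP p) (hq : d ∉ SqP q) (hp' : ¬ Bad d p)
    (hq' : ¬ Bad d q) : dl {p} * dl {q} ∈ (hv d).range := by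
  classical
  by_cases hpq : p = q
  · rw [hpq, dl_mul_self]; exact one_mem _
  by_contra h0
  have hd : d ∉ Sqs F := by
    rintro ⟨y, rfl⟩
    exact hp (sq_mem_SqP p y)
  obtain ⟨S₀, hS₀⟩ := exists_al {p, q}
  obtain ⟨S, hS, h2, hK, hdS⟩ := exists_big S₀ d
  obtain ⟨T, hT, hc⟩ := exists_aux l3Stmt l4Stmt h2 hdS hd
  have h3 := (core l1Stmt l2Stmt l3Stmt h2 hK hdS hd hT hc).2.2
  set U := ((S ∪ T : Finset (Pl F)) : Set (Pl F)).unit F with hU
  rw [iInf_Lf, ← card_nsp] at h3
  have hpN : p ∈ nsp d S := mem_nsp.mpr ⟨al_mono hS (hS₀ (by simp)), hp⟩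
  have hqN : q ∈ (nsp d S).erase p :=
    Finset.mem_erase.mpr ⟨Ne.symm hpq, mem_nsp.mpr ⟨al_mono hS (hS₀ (by simp)), hq⟩⟩
  set N' := ((nsp d S).erase p).erase q with hN'
  have h4 : (nsp d S).card = N'.card + 2 := by
    rw [← Finset.card_erase_add_one hpN, ← Finset.card_erase_add_one hqN]
  have h5 : (⨅ r ∈ N', LNP (d : F) r) ⊓ U ≤ ⨅ r ∈ nsp d S, LNP (d : F) r := by
    rintro u ⟨hu, huU⟩
    have h6 : ∀ r, r ≠ p → r ≠ q → hil r u d = 1 := by
      intro r h7 h8
      by_cases h9 : d ∈ SqP r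
      · exact hil_of_SqP' h9 u
      by_cases h10 : r ∈ al S
      · exact hil_eq_one.mpr (Subgroup.mem_iInf.mp (Subgroup.mem_iInf.mp hu r)
          (Finset.mem_erase.mpr ⟨h8, Finset.mem_erase.mpr ⟨h7, mem_nsp.mpr ⟨h10, h9⟩⟩⟩))
      · obtain ⟨v, hv, rfl⟩ := notMem_al h10
        have h11 : v ∉ T := fun h => h9 (hT.split v h)
        exact hil_unit (h2 v hv) (hdS v hv) (huU v (by simp [hv, h11]))
    have h7 : hil p u d = 1 ∧ hil q u d = 1 := by
      rcases hil_or p u d with e1 | e1 <;> rcases hil_or q u d with e2 | e2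
      · exact ⟨e1, e2⟩
      · refine absurd ⟨u, funext fun r => ?_⟩ hq'
        change hil r u d = _
        by_cases h8 : r = q
        · simp [dl, h8, e2]
        by_cases h9 : r = p
        · simp [dl, h9, hpq, e1]
        · simp [dl, h8, h6 r h9 h8]
      · refine absurd ⟨u, funext fun r => ?_⟩ hp'
        change hil r u d = _
        by_cases h8 : r = p
        · simp [dl, h8, e1]
        by_cases h9 : r = q
        · simp [dl, h9, Ne.symm hpq, e2]
        · simp [dl, h8, h6 r h8 h9]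
      · refine absurd ⟨u, funext fun r => ?_⟩ h0
        change hil r u d = _
        by_cases h8 : r = p
        · simp [dl, h8, e1, hpq]
        by_cases h9 : r = q
        · simp [dl, h9, Ne.symm hpq, e2]
        · simp [dl, h8, h9, h6 r h8 h9]
    refine Subgroup.mem_iInf.mpr fun r => Subgroup.mem_iInf.mpr fun _ => hil_eq_one.mp ?_
    by_cases h8 : r = p
    · rw [h8]; exact h7.1
    by_cases h9 : r = q
    · rw [h9]; exact h7.2
    · exact h6 r h8 h9
  have h6 : (⨅ r ∈ N', LNP (d : F) r).index ≤ 2 ^ N'.card ∧ (⨅ r ∈ N', LNP (d : F) r).index ≠ 0 := by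
    have h7 : ∀ r : N', (LNP (d : F) r.1).index = 2 := fun r =>
      index_LNP (mem_nsp.mp (Finset.mem_of_mem_erase (Finset.mem_of_mem_erase r.2))).2
    rw [iInf_subtype']
    refine ⟨(Subgroup.index_iInf_le _).trans (le_of_eq ?_),
      Subgroup.index_iInf_ne_zero fun r => by rw [h7 r]; exact two_ne_zero⟩
    simp only [h7, Finset.prod_const, Finset.card_univ, Fintype.card_coe]
  have h7 : (⨅ r ∈ N', LNP (d : F) r).relIndex U ≤ 2 ^ N'.card := by
    refine le_trans ?_ h6.1
    rw [← Subgroup.relIndex_top_right]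
    exact Subgroup.relIndex_le_of_le_right le_top (by rw [Subgroup.relIndex_top_right]; exact h6.2)
  have h8 := Subgroup.relIndex_le_of_le_left (L := U) h5 (by
    rw [Subgroup.inf_relIndex_right]
    exact fun h => h6.2 (Subgroup.index_eq_zero_of_relIndex_eq_zero h))
  rw [Subgroup.inf_relIndex_right] at h8
  rw [h4, pow_add] at h3
  have h9 : 0 < 2 ^ N'.card := by positivity
  omega

theorem exists_unif {S : Finset (Pl F)} (hK : Kill S) (v : Pl F) (hv : v ∉ S) :
    ∃ c : Fˣ, ord (𝓞 F) v c = 1 ∧ ∀ w, w ∉ S → w ≠ v → w.valuation F (c : F) = 1 := by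
  classical
  obtain ⟨c, hc⟩ := hK.ord (fun w => if w = v then 1 else 0)
    ((Set.finite_singleton v).subset fun w hw => by
      by_contra h4
      exact hw (if_neg h4))
  refine ⟨c, by rw [hc v hv, if_pos rfl], fun w hw hne => ?_⟩
  rw [valuation_eq_one_iff, hc w hw, if_neg hne]

/-- first inequality: some non-split place is good -/
theorem exists_good {d : Fˣ} (hd : d ∉ Sqs F) : ∃ p, d ∉ SqP p ∧ ¬ Bad d p := by
  classical
  by_contra h0
  push Not at h0
  obtain ⟨S, -, h2, hK, hdS⟩ := exists_big ∅ d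
  choose! a ha using h0
  choose R hR using fun p => exists_supp (a p)
  set S' := S ∪ (nsp d S).biUnion R with hS'
  have hSS : S ⊆ S' := Finset.subset_union_left
  set U := (S' : Set (Pl F)).unit F with hU
  have h3 : ∀ p ∈ nsp d S, dl {p} ∈ U.map (hv d) := fun p hp =>
    ⟨a p, unit_mono ((Finset.subset_biUnion_of_mem R hp).trans Finset.subset_union_right) (hR p),
      ha p (mem_nsp.mp hp).2⟩
  have h4 : ∀ p ∈ nsp d S', dl {p} ∈ U.map (hv d) := by
    intro p hp
    by_cases h5 : p ∈ al S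
    · exact h3 p (mem_nsp.mpr ⟨h5, (mem_nsp.mp hp).2⟩)
    obtain ⟨v, hv, rfl⟩ := notMem_al h5
    obtain ⟨c, hc, hc'⟩ := exists_unif hK v hv
    have hvS : v ∈ S' := by simpa [al] using (mem_nsp.mp hp).1
    have h6 : c ∈ U := fun w hw => hc' w (fun h => hw (hSS h)) (by rintro rfl; exact hw hvS)
    have h7 : .inl v ∈ rm c d := mem_rm.mpr (hil_unif (h2 v hv) (hdS v hv) (mem_nsp.mp hp).2 hc)
    have h8 : dl (rm c d) ∈ U.map (R7.hv d) := ⟨c, h6, hv_eq c d⟩
    rw [dl_prod, ← Finset.mul_prod_erase _ _ h7] at h8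
    refine (mul_mem_cancel_right (prod_mem fun q hq => h3 q ?_)).mp h8
    obtain ⟨h9, h10⟩ := Finset.mem_erase.mp hq
    rw [mem_rm] at h10
    refine mem_nsp.mpr ⟨?_, notMem_of_hil h10⟩
    by_contra h11
    obtain ⟨w, hw, rfl⟩ := notMem_al h11
    rw [hil_unit (h2 w hw) (hdS w hw) (hc' w hw fun h => h9 (by rw [h]))] at h10
    exact absurd h10 (by decide)
  obtain ⟨h5, h6⟩ := ambStmt F S' d hd (hK.mono hSS) (fun v hv => h2 v fun h => hv (hSS h))
    (unit_mono hSS hdS)
  change 2 * (Nr (d : F)).relIndex U ≤ 2 ^ ns d S' at h6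
  have h7 : Nr (d : F) ≤ ⨅ p ∈ nsp d S', LNP (d : F) p := le_iInf₂ fun _ _ => le_sup_left
  have h8 := two_pow_le_relIndex U (LNP (d : F)) (nsp d S') (fun p hp => by
      obtain ⟨g, hg, h9⟩ := h4 p hp
      refine ⟨g, hg, hil_eq_neg.mp ((congrFun h9 p).trans (by simp [dl])), fun q _ hne => ?_⟩
      exact hil_eq_one.mp ((congrFun h9 q).trans (by simp [dl, hne])))
    (fun h => h5 (Subgroup.relIndex_eq_zero_of_le_left h7 h))
  have h9 := Subgroup.relIndex_le_of_le_left h7 h5
  rw [card_nsp] at h8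
  have h10 : 0 < 2 ^ ns d S' := by positivity
  change (⨅ p ∈ nsp d S', LNP (d : F) p).relIndex U ≤ (Nr (d : F)).relIndex U at h9
  omega

/-- an even set of good places is a ramification set; an odd one is not -/
theorem even_of_mem {d : Fˣ} {B : Finset (Pc F)} (hB : ∀ p ∈ B, d ∉ SqP p ∧ ¬ Bad d p) :
    dl B ∈ (hv d).range ↔ Even B.card := by
  rcases B.eq_empty_or_nonempty with rfl | ⟨p, hp⟩
  · simp only [Finset.card_empty, Even.zero, iff_true]
    exact dl_mem (by simp)
  have h1 : dl {p} ^ B.card * dl B ∈ (hv d).range := by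
    rw [dl_prod B, ← Finset.prod_const, ← Finset.prod_mul_distrib]
    exact prod_mem fun q hq => pair (hB p hp).1 (hB q hq).1 (hB p hp).2 (hB q hq).2
  have h2 : dl ({p} : Finset (Pc F)) ^ 2 = 1 := by rw [pow_two, dl_mul_self]
  constructor
  · intro h
    by_contra h3
    obtain ⟨k, hk⟩ := Nat.not_even_iff_odd.mp h3
    rw [mul_mem_cancel_right h, hk, pow_succ, pow_mul, h2, one_pow, one_mul] at h1
    exact (hB p hp).2 h1
  · rintro ⟨k, hk⟩
    rwa [hk, ← two_mul, pow_mul, h2, one_pow, one_mul] at h1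

open Classical in
/-- partial reciprocity -/
theorem even_good (a d : Fˣ) : Even ((rm a d).filter fun p => ¬ Bad d p).card := by
  refine (even_of_mem (d := d) fun p hp => ?_).mp ?_
  · obtain ⟨h1, h2⟩ := Finset.mem_filter.mp hp
    exact ⟨notMem_of_hil (mem_rm.mp h1), h2⟩
  · have h1 : dl (rm a d) ∈ (hv d).range := ⟨a, hv_eq a d⟩
    rw [dl_prod, ← Finset.prod_filter_mul_prod_filter_not _ (Bad d)] at h1
    rw [dl_prod]
    exact (mul_mem_cancel_left (prod_mem fun q hq => (Finset.mem_filter.mp hq).2)).mp h1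

open Classical in
theorem prod_hil (a d : Fˣ) (G : Finset (Pc F)) :
    ∏ p ∈ G, hil p a d = (-1) ^ (G.filter fun p => p ∈ rm a d).card := by
  rw [← Finset.prod_const, Finset.prod_filter]
  exact Finset.prod_congr rfl fun p _ => congrFun (hv_eq a d) p

end Bad

end Crest.Agent.T24.Hil.R7
end
end

-- ▼ part T24/HnRec_7
section

/-!
# Row 24: Hilbert reciprocity and prescribed symbols
-/

set_option autoImplicit false
set_option linter.unusedSectionVars false

noncomputable section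

open scoped NumberField
open IsDedekindDomain

namespace Crest.Agent.T24.Hil

namespace R7

open Hn Crest.Agent.R018.Selmerx380 Crest.Agent.R018.SLatx824

/-- an isotropic subgroup of a non-degenerate pairing is small -/
theorem iso_bound {W V : Type*} [CommGroup W] [CommGroup V] (β : W →* V →* ℤˣ) (Q : Subgroup W)
    (hQ : Q.index ≠ 0) (hQβ : Q ≤ β.ker) (j : V →* W) (hj : ∀ u, β (j u) = 1) (K : Subgroup V)
    (h1 : ∀ u, (∀ w, β w u = 1) → u ∈ K) (h2 : ∀ u, j u ∈ Q → u ∈ K) :
    K.index * K.index ≤ Q.index := by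
  have e1 : Q.relIndex β.ker * β.ker.index = Q.index := Subgroup.relIndex_mul_index hQβ
  have e2 : Q.relIndex β.ker ≠ 0 := fun h => hQ (by rw [← e1, h, zero_mul])
  have e3 : β.ker.index ≠ 0 := fun h => hQ (by rw [← e1, h, mul_zero])
  have e4 : K.index ≤ Q.relIndex β.ker := by
    have h3 : Q.relIndex j.range ≤ Q.relIndex β.ker :=
      Subgroup.relIndex_le_of_le_right (by rintro _ ⟨u, rfl⟩; exact hj u) e2
    refine le_trans ?_ h3
    rw [← Subgroup.index_comap]
    refine Nat.le_of_dvd (Nat.pos_of_ne_zero ?_) (Subgroup.index_dvd_of_le h2)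
    rw [Subgroup.index_comap]
    exact fun h => hQ (Subgroup.index_eq_zero_of_relIndex_eq_zero h)
  have e5 : K.index ≤ β.ker.index := by
    have : β.ker.FiniteIndex := ⟨e3⟩
    let ι : ℤˣ →* ℂˣ := Units.map (Int.castRingHom ℂ : ℤ →* ℂ)
    have hι : Function.Injective ι := Units.map_injective Int.cast_injective
    let γ : V →* (W ⧸ β.ker →* ℂˣ) :=
      (MonoidHom.compHom ι).comp (QuotientGroup.kerLift β).flip
    have h3 : γ.ker ≤ K := fun u hu => h1 u fun w => hι (by
      have := DFunLike.congr_fun (MonoidHom.mem_ker.mp hu) (QuotientGroup.mk w)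
      rw [map_one]
      exact this)
    have h4 : Nat.card (W ⧸ β.ker →* ℂˣ) = Nat.card (W ⧸ β.ker) :=
      CommGroup.card_monoidHom_of_hasEnoughRootsOfUnity _ ℂ
    have h5 : Finite (W ⧸ β.ker →* ℂˣ) := Nat.finite_of_card_ne_zero (h4 ▸ e3)
    have h6 : γ.ker.index ≤ β.ker.index := by
      rw [Subgroup.index_ker]
      exact (Nat.card_le_card_of_injective _ Subtype.val_injective).trans h4.le
    refine le_trans (Nat.le_of_dvd (Nat.pos_of_ne_zero ?_) (Subgroup.index_dvd_of_le h3)) h6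
    rw [Subgroup.index_ker]
    exact Nat.card_pos.ne'
  rw [← e1]
  exact Nat.mul_le_mul e4 e5

universe u

variable {F : Type u} [Field F] [NumberField F]

/-- badness of a place does not depend on the quadratic extension -/
theorem Bad.indep {d c : Fˣ} {p : Pc F} (h : Bad d p) (hc : c ∉ SqP p) : Bad c p := by
  classical
  obtain ⟨a, ha⟩ := h
  have ha' : ∀ q, hil q a d = dl {p} q := congrFun ha
  have hp : hil p a d = -1 := (ha' p).trans (by simp [dl])
  obtain ⟨n, ⟨x, y, hn⟩, hn'⟩ := hm4 (a * c) d (c * d) (fun q => by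
    by_cases hq : q = p
    · subst hq
      obtain ⟨b, hb⟩ := exists_hil hc
      suffices h1 : ∃ t, hil q t d = -1 ∧ hil q t c = -hil q c (c * d) by
        obtain ⟨t, h1, h2⟩ := h1
        refine ⟨t / c, hil_eq_one.mp ?_, hil_eq_one.mp ?_⟩
        · rw [R7.hil_div, hil_mul' q c d t, h1, h2]
          rcases hil_or q c (c * d) with e | e <;> simp [e]
        · rw [mul_assoc, mul_div_cancel, hil_mul, hp, h1]; simp
      by_contra h1
      push Not at h1
      have h2 := h1 a hp
      have h3 := h1 b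
      have h4 := h1 (a * b)
      have h5 := h1 c
      have h6 := h1 (a * c)
      rw [hil_mul, hil_mul, hp, hb] at h4
      rw [hil_mul, hil_mul, hp] at h6
      rw [hb] at h3
      rw [hil_mul' q c d c] at h2 h3 h4 h5 h6
      rcases hil_or q a c with e1 | e1 <;> rcases hil_or q b d with e2 | e2 <;>
        rcases hil_or q c c with e3 | e3 <;> rcases hil_or q c d with e4 | e4 <;> simp_all
    · refine ⟨-(c * d), Subgroup.mem_sup_left (neg_mem_Nr _), ?_⟩
      have : a * c * -(c * d) = a * (c ^ 2 * -d) := by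
        rw [mul_neg, mul_neg, mul_neg, pow_two]; simp only [mul_assoc]
      rw [this]
      exact mul_mem (hil_eq_one.mp ((ha' q).trans (by simp [dl, hq])))
        (Subgroup.mem_sup_left (mul_mem (sq_mem_Nr _ c) (neg_mem_Nr d))))
  have h1 : ∀ q, hil q a d = hil q (c * n) d := by
    intro q
    have := hil_of_Nr q hn'
    rw [mul_assoc, hil_mul] at this
    rcases hil_or q a d with e1 | e1 <;> rcases hil_or q (c * n) d with e2 | e2 <;> simp_all
  have h2 : ((c * n : Fˣ) : F) = c * x ^ 2 - d * (c * y) ^ 2 := by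
    rw [Units.val_mul, hn, Units.val_mul]; ring
  have hx : x ≠ 0 := by
    rintro rfl
    rw [h1, hil_of_Nr p ⟨0, c * y, by rw [h2]; ring⟩] at hp
    exact absurd hp (by decide)
  have h3 : ∀ (q : Pc F) (s t r : Fˣ), hil q s (t * r ^ 2) = hil q s t := fun q s t r => by
    rw [hil_mul', hil_of_SqP' (sq_mem_SqP q r), mul_one]
  by_cases hy : y = 0
  · refine ⟨d, funext fun q => ?_⟩
    have h4 : c * n = c * Units.mk0 x hx ^ 2 := Units.ext (by rw [h2, hy]; simp)
    change hil q d c = _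
    rw [← ha', h1, h4, R7.hil_comm q _ d, h3]
  · refine ⟨-(c * n * (d * (c * Units.mk0 y hy) ^ 2)), funext fun q => ?_⟩
    change hil q _ c = _
    rw [← ha', h1, ← h3 q _ d (c * Units.mk0 y hy), ← h3 q _ c (Units.mk0 x hx)]
    exact (hil_add q (by rw [h2]; simp)).symm

/-- no quaternion algebra is ramified at exactly one place -/
theorem not_bad (d : Fˣ) (p : Pc F) : ¬ Bad d p := by
  classical
  intro hbad
  obtain ⟨S₀, hS₀⟩ := exists_al {p}
  obtain ⟨S, hS, h2, hK, -⟩ := exists_big S₀ d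
  have hpS : p ∈ al S := al_mono hS (hS₀ (by simp))
  set U := (S : Set (Pl F)).unit F with hU
  set G := (al S).filter fun q => ¬ ∃ e : Fˣ, Bad e q with hG
  have hGm : ∀ {q : Pc F} {e : Fˣ}, e ∉ SqP q → (¬ Bad e q ↔ ¬ ∃ e' : Fˣ, Bad e' q) := fun he =>
    ⟨fun h ⟨_, h'⟩ => h (h'.indep he), fun h h' => h ⟨_, h'⟩⟩
  have hinj : ∀ u ∈ U, (∀ q ∈ G, u ∈ SqP q) → u ∈ sqr U := by
    intro u hu h
    refine mem_sqr_unit hu (not_not.mp fun h0 => ?_)
    have h3 : ∀ q, u ∉ SqP q → ¬ Bad u q → q ∉ al S := fun q h4 h5 h6 =>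
      h4 (h q (Finset.mem_filter.mpr ⟨h6, (hGm h4).mp h5⟩))
    obtain ⟨q, h4, h5⟩ := exists_good h0
    obtain ⟨v, hv, rfl⟩ := notMem_al (h3 q h4 h5)
    obtain ⟨c, hc, hc'⟩ := exists_unif hK v hv
    have h6 := even_good c u
    have h7 : ((rm c u).filter fun q => ¬ Bad u q) = {.inl v} := by
      refine Finset.eq_singleton_iff_unique_mem.mpr ⟨Finset.mem_filter.mpr
        ⟨mem_rm.mpr (hil_unif (h2 v hv) (hu v hv) h4 hc), h5⟩, fun q hq => ?_⟩
      obtain ⟨h8, h9⟩ := Finset.mem_filter.mp hq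
      rw [mem_rm] at h8
      obtain ⟨w, hw, rfl⟩ := notMem_al (h3 q (notMem_of_hil h8) h9)
      by_contra h10
      rw [R7.hil_unit (h2 w hw) (hu w hw) (hc' w hw fun h => h10 (by rw [h]))] at h8
      exact absurd h8 (by decide)
    rw [h7, Finset.card_singleton] at h6
    exact absurd h6 (by decide)
  let β : (G → Fˣ) →* U →* ℤˣ :=
    { toFun := fun w =>
        { toFun := fun u => ∏ q : G, hil q.1 (w q) u.1
          map_one' := Finset.prod_eq_one fun q _ => hil_of_SqP' (one_mem _) _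
          map_mul' := fun a b => by
            rw [← Finset.prod_mul_distrib]
            exact Finset.prod_congr rfl fun q _ => hil_mul' _ _ _ _ }
      map_one' := MonoidHom.ext fun u => Finset.prod_eq_one fun q _ => R7.hil_one _ _
      map_mul' := fun a b => MonoidHom.ext fun u => by
        change ∏ q : G, hil q.1 (a q * b q) u.1 =
          (∏ q : G, hil q.1 (a q) u.1) * ∏ q : G, hil q.1 (b q) u.1
        rw [← Finset.prod_mul_distrib]
        exact Finset.prod_congr rfl fun q _ => hil_mul _ _ _ _ }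
  let Q : Subgroup (G → Fˣ) := ⨅ q : G, (SqP q.1).comap (Pi.evalMonoidHom (fun _ => Fˣ) q)
  have hQi : ∀ q : G, ((SqP q.1).comap (Pi.evalMonoidHom (fun _ : G => Fˣ) q)).index =
      (SqP q.1).index := fun q =>
    Subgroup.index_comap_of_surjective _ fun x => ⟨fun _ => x, rfl⟩
  have h3 := iso_bound β Q
    (Subgroup.index_iInf_ne_zero fun q => by rw [hQi]; exact index_SqP_ne _)
    (fun w hw => MonoidHom.ext fun u => Finset.prod_eq_one fun q _ =>
      hil_of_SqP (Subgroup.mem_iInf.mp hw q) _)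
    (MonoidHom.pi fun _ => U.subtype)
    (fun u => MonoidHom.ext fun u' => by
      change ∏ q : G, hil q.1 u.1 u'.1 = 1
      rw [Finset.prod_coe_sort G fun q => hil q u.1 u'.1, prod_hil]
      have h4 : (G.filter fun q => q ∈ rm u.1 u'.1) =
          (rm u.1 u'.1).filter fun q => ¬ Bad u'.1 q := by
        ext q
        simp only [hG, Finset.mem_filter]
        constructor
        · rintro ⟨⟨-, h5⟩, h6⟩
          exact ⟨h6, fun h7 => h5 ⟨_, h7⟩⟩
        · rintro ⟨h5, h6⟩
          refine ⟨⟨?_, (hGm (notMem_of_hil (mem_rm.mp h5))).mp h6⟩, h5⟩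
          by_contra h7
          rw [mem_rm, hil_out h2 u.2 u'.2 h7] at h5
          exact absurd h5 (by decide)
      rw [h4]
      exact (even_good _ _).neg_one_pow)
    ((sqr U).subgroupOf U)
    (fun u h => hinj u.1 u.2 fun q hq => by
      by_contra h4
      obtain ⟨t, ht⟩ := exists_hil h4
      have h5 : ∏ r : G, hil r.1 (Pi.mulSingle (M := fun _ : G => Fˣ) ⟨q, hq⟩ t r) u.1 = 1 := h _
      rw [Finset.prod_eq_single ⟨q, hq⟩ (fun r _ hr => by
        rw [Pi.mulSingle_eq_of_ne hr, R7.hil_one]) (by simp), Pi.mulSingle_eq_same, ht] at h5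
      exact absurd h5 (by decide))
    (fun u h => hinj u.1 u.2 fun q hq => Subgroup.mem_iInf.mp h ⟨q, hq⟩)
  have sU : ((sqr U).subgroupOf U).index =
      2 ^ (S.card + Fintype.card (NumberField.InfinitePlace F)) := suStmt F S
  have h4 : Q.index ≤ ∏ q ∈ G, (SqP q).index := by
    refine (Subgroup.index_iInf_le _).trans (le_of_eq ?_)
    simp only [hQi]
    exact Finset.prod_coe_sort G fun q => (SqP q).index
  have h5 : ∏ q ∈ al S, (SqP q).index ≤
      2 ^ (2 * (S.card + Fintype.card (NumberField.InfinitePlace F))) := by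
    rw [al, Finset.prod_disjSum]
    change (∏ v ∈ S, (Sq v).index) * ∏ φ : F →+* ℝ, (Pos φ).index ≤ _
    simp only [index_Pos, Finset.prod_const, Finset.card_univ]
    refine (Nat.mul_le_mul_right _ (l1Stmt F S).2).trans (le_of_eq ?_)
    rw [mul_add, two_card_inf, pow_add, pow_add, pow_mul]
    ring
  have h6 : ∏ q ∈ G, (SqP q).index ≤ ∏ q ∈ (al S).erase p, (SqP q).index := by
    refine Finset.prod_le_prod_of_subset_of_one_le' (fun q hq => ?_)
      fun q _ _ => Nat.pos_of_ne_zero (index_SqP_ne q)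
    obtain ⟨h7, h8⟩ := Finset.mem_filter.mp hq
    exact Finset.mem_erase.mpr ⟨by rintro rfl; exact h8 ⟨d, hbad⟩, h7⟩
  have h7 : 2 ≤ (SqP p).index := by
    have e0 := index_SqP_ne p
    have e1 : (SqP p).index ≠ 1 := fun h =>
      hbad.notMem (by rw [Subgroup.index_eq_one.mp h]; trivial)
    omega
  rw [← Finset.mul_prod_erase _ _ hpS] at h5
  rw [sU, ← pow_add, ← two_mul] at h3
  have h8 := (Nat.mul_le_mul h7 (h3.trans (h4.trans h6))).trans h5
  have h9 : 0 < 2 ^ (2 * (S.card + Fintype.card (NumberField.InfinitePlace F))) := by positivity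
  omega

/-- a finite set of non-split places is a ramification set iff it is even -/
theorem exists_rm_iff {d : Fˣ} {B : Finset (Pc F)} (hB : ∀ p ∈ B, d ∉ SqP p) :
    (∃ a, ∀ p, hil p a d = -1 ↔ p ∈ B) ↔ Even B.card := by
  classical
  rw [← even_of_mem (d := d) fun p hp => ⟨hB p hp, not_bad d p⟩]
  refine exists_congr fun a => ⟨fun h => ?_, fun h p => ?_⟩
  · rw [hv_eq]
    congr 1
    ext p
    rw [mem_rm, h]
  · have : hil p a d = dl B p := congrFun h p
    rw [this, dl]
    split_ifs with h1 <;> simp [h1]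

theorem even_rm (a d : Fˣ) : Even (rm a d).card :=
  (exists_rm_iff fun _ hp => notMem_of_hil (mem_rm.mp hp)).mp ⟨a, fun _ => mem_rm.symm⟩

end R7

open Hn R7

universe u

/-- **Hilbert reciprocity** -/
theorem recStmt7 : RecStmt.{u} := by
  classical
  intro F _ _ a b S h
  rw [prod_hil, Finset.filter_mem_eq_inter, Finset.inter_eq_right.mpr fun p hp => ?_]
  · exact (even_rm a b).neg_one_pow
  · by_contra h1
    rw [mem_rm, h p h1] at hp
    exact absurd hp (by decide)

/-- **prescribed symbols** -/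
theorem preStmt7 : PreStmt.{u} := by
  classical
  intro F _ _ d S c h
  obtain ⟨a, ha⟩ := wa_sq S c
  have h1 : ∏ p ∈ S, hil p a d = 1 := by
    rw [← h]
    refine Finset.prod_congr rfl fun p hp => ?_
    rw [← div_mul_cancel a (c p), hil_mul, hil_of_SqP (ha p hp), one_mul]
  have h2 : Even ((rm a d).filter fun p => p ∉ S).card := by
    have h3 := even_rm a d
    rw [← Finset.card_filter_add_card_filter_not (fun p => p ∈ S)] at h3
    rw [prod_hil, neg_one_pow_eq_one_iff_even (by decide), Finset.filter_mem_eq_inter,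
      Finset.inter_comm, ← Finset.filter_mem_eq_inter] at h1
    exact (Nat.even_add.mp h3).mp h1
  obtain ⟨b, hb⟩ := (exists_rm_iff (d := d) fun p hp =>
    notMem_of_hil (mem_rm.mp (Finset.mem_filter.mp hp).1)).mpr h2
  obtain ⟨n, hn, hn'⟩ := wa_nr (d : F) S (fun _ => b) fun p hp => by
    by_contra h3
    exact (Finset.mem_filter.mp ((hb p).mp (R7.hil_eq_neg.mpr h3))).2 hp
  refine ⟨a * (n / b), fun p hp => ?_, fun p hp => ?_⟩
  · rw [mul_div_right_comm]
    exact mul_mem (ha p hp) (hn' p hp)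
  · rw [hil_mul, R7.hil_div, hil_of_Nr p hn, one_mul]
    have h3 := hb p
    rw [Finset.mem_filter, mem_rm] at h3
    rcases hil_or p a d with e1 | e1 <;> rcases hil_or p b d with e2 | e2 <;> simp_all

end Crest.Agent.T24.Hil
end
end

-- ▼ part T24/HilD_56

/-! Row 24, Hilbert symbols, part D: norm functoriality (helper56). -/

set_option autoImplicit false
set_option linter.unusedSectionVars false

noncomputable section

open scoped NumberField Topology Valued
open IsDedekindDomain WithZero Filter Module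

namespace Crest.Agent.T24.Hil

open Hn

universe u

theorem isSquare_of_even (k K : Type*) [Field k] [Field K] [Finite K] [Algebra k K]
    (h2 : (2 : K) ≠ 0) (h : Even (finrank k K)) (a : k) : IsSquare (algebraMap k K a) := by
  have : Finite k := Finite.of_injective _ (algebraMap k K).injective
  have := Fintype.ofFinite k
  have := Fintype.ofFinite K
  by_cases ha : a = 0
  · simp [ha]
  have hK : ringChar K ≠ 2 := fun h => h2 (by simpa [h] using ringChar.Nat.cast_ringChar (R := K))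
  have hk : ringChar k ≠ 2 := by rwa [Algebra.ringChar_eq k K]
  rw [FiniteField.isSquare_iff hK (by simpa using ha), ← map_pow, Module.card_eq_pow_finrank (K := k)]
  obtain ⟨g, hg⟩ := h
  obtain ⟨m, hm⟩ := Nat.odd_iff.2 (FiniteField.odd_card_of_char_ne_two hk)
  have key : ∀ x g : ℕ, ∃ t, (x + 1) ^ g = x * t + 1 := fun x g => by
    induction g with
    | zero => exact ⟨0, by simp⟩
    | succ g ih => obtain ⟨t, ht⟩ := ih; exact ⟨x * t + t + 1, by rw [pow_succ, ht]; ring⟩
  obtain ⟨t, ht⟩ := key (2 * (2 * m * (m + 1))) g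
  have e : Fintype.card k ^ finrank k K / 2 = (Fintype.card k - 1) * ((m + 1) * t) := by
    have : (2 * m + 1) ^ 2 = 2 * (2 * m * (m + 1)) + 1 := by ring
    rw [hg, ← two_mul, pow_mul, hm, this, ht, Nat.add_sub_cancel, mul_assoc 2, mul_assoc (2 * m)]
    omega
  rw [e, pow_mul, FiniteField.pow_card_sub_one_eq_one a ha, one_pow, map_one]

theorem val_prod_sub_one {K Γ ι : Type*} [Field K] [LinearOrderedCommGroupWithZero Γ]
    (W : Valuation K Γ) {γ : Γ} (h0 : 0 < γ) (h1 : γ ≤ 1) (s : Finset ι) (a : ι → K)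
    (h : ∀ i ∈ s, W (a i - 1) < γ) : W (∏ i ∈ s, a i - 1) < γ := by
  refine Finset.prod_induction a (fun x => W (x - 1) < γ) (fun x y hx hy => ?_) (by simpa) h
  have e : x * y - 1 = (x - 1) * (y - 1) + ((x - 1) + (y - 1)) := by ring
  rw [e]
  refine W.map_add_lt ?_ (W.map_add_lt hx hy)
  rw [map_mul]
  exact (mul_le_of_le_one_right' (hy.le.trans h1)).trans_lt hx

variable {F E : Type u} [Field F] [NumberField F] [Field E] [NumberField E] [Algebra F E]

/-- the norm on units -/
abbrev nm (F : Type*) {E : Type*} [Field F] [Field E] [Algebra F E] : Eˣ →* Fˣ :=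
  Units.map (Algebra.norm F : E →* F)

theorem nm_mem_Nr {d : F} {b : Eˣ} (h : b ∈ Nr (algebraMap F E d)) : nm F b ∈ Nr d := by
  obtain ⟨x, y, h⟩ := h
  let e := Module.finBasis F E
  let A := QuadraticAlgebra F d 0
  let ψ : E →ₐ[F] Matrix _ _ A := (Algebra.ofId F A).mapMatrix.comp (Algebra.leftMulMatrix e)
  let ω : A := QuadraticAlgebra.omega
  have hω : ω * ω = algebraMap F A d := by
    rw [QuadraticAlgebra.omega_mul_omega_eq_mk]; rfl
  have h1 : star (ψ x + ω • ψ y).det = (ψ x - ω • ψ y).det := by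
    refine ((qconj d).toAlgHom.map_det _).trans (congrArg _ ?_)
    ext i j <;> simp [ψ, ω, qconj, A]
  have h2 : (ψ x + ω • ψ y) * (ψ x - ω • ψ y) = ψ b := by
    have : ψ (algebraMap F E d * (y * y)) = (ω * ω) • (ψ y * ψ y) := by
      rw [← Algebra.smul_def, map_smul, map_mul, hω, algebraMap_smul]
    rw [h, sq, sq, map_sub, this, map_mul, add_mul, mul_sub, mul_sub, smul_mul_smul_comm,
      mul_smul_comm, smul_mul_assoc, ← map_mul ψ x y, ← map_mul ψ y x, mul_comm x y]
    abel
  have h3 : (ψ b).det = algebraMap F A (Algebra.norm F (b : E)) := by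
    rw [Algebra.norm_eq_matrix_det e]
    exact ((Algebra.ofId F A).map_det _).symm
  have h4 := congrArg (fun M => M.det.re) h2
  simp only [Matrix.det_mul, ← h1, h3] at h4
  refine ⟨(ψ x + ω • ψ y).det.re, (ψ x + ω • ψ y).det.im, ?_⟩
  generalize (ψ x + ω • ψ y).det = D at h4
  simp [A] at h4
  change Algebra.norm F (b : E) = _
  linear_combination -h4

theorem pl_ext {v v' : Pl F} (h : ∀ x : F, v.valuation F x < 1 ↔ v'.valuation F x < 1) : v = v' :=
  HeightOneSpectrum.ext (Ideal.ext fun a => by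
    rw [← Loc.val_int_lt_iff, ← Loc.val_int_lt_iff, h])

theorem exists_val {Ω : Type*} [Field Ω] [NumberField Ω] (σ : E →+* Ω) (W : Pl Ω) :
    ∃ (w : Pl E) (e : ℕ), e ≠ 0 ∧ ∀ x, W.valuation Ω (σ x) = w.valuation E x ^ e := by
  let _ := σ.toAlgebra
  exact ⟨un E W, val_un W⟩

theorem val_norm_lt {v : Pl F} {z : E}
    (h : ∀ w : Pl E, un F w = v → w.valuation E (z - 1) < w.valuation E 4) :
    v.valuation F (Algebra.norm F z - 1) < v.valuation F 4 := by
  let Ω := IntermediateField.normalClosure F E (AlgebraicClosure F)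
  have : NumberField Ω := NumberField.of_module_finite F _
  have h1 : algebraMap F Ω (Algebra.norm F z) = ∏ σ : E →ₐ[F] Ω, σ z := Subtype.ext (by
    refine (Algebra.norm_eq_prod_embeddings F (AlgebraicClosure F) z).trans ?_
    rw [IntermediateField.coe_prod]
    exact (Fintype.prod_equiv (normalClosure.algHomEquiv F E _) _ _ fun _ => rfl).symm)
  obtain ⟨W, rfl⟩ := exists_un Ω v
  obtain ⟨e, he, hW⟩ := val_un (F := F) W
  have h2 := val_prod_sub_one (W.valuation Ω) (Loc.val_four_pos W) (Loc.val_four_le W) Finset.univ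
    (fun σ : E →ₐ[F] Ω => σ z) fun σ _ => by
      obtain ⟨w, e', he', hw⟩ := exists_val σ.toRingHom W
      obtain ⟨e'', he'', hw'⟩ := val_un (F := F) w
      have h3 := pow_lt_pow_left₀ (h w (pl_ext fun x => ?_)) zero_le he'
      · simpa [← hw, map_ofNat] using h3
      · have h4 := hw (algebraMap F E x)
        rw [hw', AlgHom.toRingHom_eq_coe, RingHom.coe_coe, σ.commutes, hW] at h4
        symm
        rw [← pow_lt_one_iff_of_nonneg zero_le he, h4, pow_lt_one_iff_of_nonneg zero_le he',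
          pow_lt_one_iff_of_nonneg zero_le he'']
  rw [← h1, ← map_one (algebraMap F Ω), ← map_sub, ← map_ofNat (algebraMap F Ω) 4, hW, hW] at h2
  exact lt_of_pow_lt_pow_left₀ e zero_le h2

theorem norm_pos {φ : F →+* ℝ} {b : E} (hb : b ≠ 0)
    (h : ∀ ψ : E →+* ℝ, ψ.comp (algebraMap F E) = φ → 0 < ψ b) : 0 < φ (Algebra.norm F b) := by
  let _ : Algebra F ℂ := (Complex.ofRealHom.comp φ).toAlgebra
  let c : ℂ →ₐ[F] ℂ := { starRingEnd ℂ with commutes' := fun x => Complex.conj_ofReal _ }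
  have h0 : ∀ σ : E →ₐ[F] ℂ, (‖σ b‖ : ℂ) ≠ 0 := fun σ => by simpa using hb
  have h1 : ∏ σ : E →ₐ[F] ℂ, σ b / ‖σ b‖ = 1 := by
    refine Finset.prod_involution (fun σ _ => c.comp σ) (fun σ _ => ?_) (fun σ _ hσ hc => hσ ?_)
      (fun _ _ => Finset.mem_univ _) fun σ _ => AlgHom.ext fun x => Complex.conj_conj _
    · change σ b / _ * (starRingEnd ℂ (σ b) / (‖starRingEnd ℂ (σ b)‖ : ℝ)) = 1
      rw [div_mul_div_comm, Complex.mul_conj', RCLike.norm_conj, ← sq, div_self (pow_ne_zero 2 (h0 σ))]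
    · have hr : NumberField.ComplexEmbedding.IsReal σ.toRingHom :=
        NumberField.ComplexEmbedding.isReal_iff.2 (RingHom.ext fun x => AlgHom.congr_fun hc x)
      have e : ∀ x, (hr.embedding x : ℂ) = σ x := fun x => hr.coe_embedding_apply x
      have h3 := h hr.embedding (RingHom.ext fun x => Complex.ofReal_injective
        ((e _).trans (σ.commutes x)))
      rw [div_eq_one_iff_eq (h0 σ), ← e, Complex.norm_real, Real.norm_of_nonneg h3.le]
  have h2 : (φ (Algebra.norm F b) : ℂ) = (∏ σ : E →ₐ[F] ℂ, ‖σ b‖ : ℝ) := by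
    rw [Finset.prod_div_distrib, div_eq_one_iff_eq (Finset.prod_ne_zero_iff.2 fun σ _ => h0 σ)] at h1
    exact (Algebra.norm_eq_prod_embeddings F ℂ b).trans (by rw [h1, Complex.ofReal_prod])
  rw [Complex.ofReal_injective h2]
  exact Finset.prod_pos fun σ _ => by simpa using hb

theorem nm_mem_SqP {p : Pc F} {b : Eˣ} (h : ∀ q, unP F q = p → b ∈ SqP q) : nm F b ∈ SqP p := by
  rcases p with v | φ
  · have h1 : ∀ w : Pl E, ∃ y : w.adicCompletion E, un F w = v →
        ‖algebraMap E _ b * y ^ 2 - 1‖ < ‖algebraMap E (w.adicCompletion E) 4‖ := fun w => by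
      by_cases hw : un F w = v
      · obtain ⟨y, hy⟩ := h (.inl w) (congrArg _ hw)
        exact ⟨algebraMap E _ y, fun _ => by simpa using (Loc.norm_lt_iff w _ _).2 hy⟩
      · exact ⟨0, fun h => absurd h hw⟩
    choose y hy using h1
    obtain ⟨x, hx, -⟩ := wa1 (up E {v}) y
      (fun w => {y | ‖algebraMap E _ b * y ^ 2 - 1‖ < ‖algebraMap E (w.adicCompletion E) 4‖})
      (fun w hw => (isOpen_lt (by fun_prop) continuous_const).mem_nhds
        (hy w (Finset.mem_singleton.1 (mem_up.1 hw)))) 0 (fun _ => Set.univ) fun _ => univ_mem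
    refine ⟨Algebra.norm F x, ?_⟩
    have := val_norm_lt (v := v) (z := b * x ^ 2) fun w hw => (Loc.norm_lt_iff w _ _).1 (by
      simpa using hx w (mem_up.2 (Finset.mem_singleton.2 hw)))
    simpa using this
  · exact norm_pos b.ne_zero fun ψ hψ => h (.inr ψ) (congrArg _ hψ)

theorem exists_fibre (p : Pc F) : ∃ S : Finset (Pc E), ∀ q, q ∈ S ↔ unP F q = p := by
  classical
  rcases p with v | φ
  · exact ⟨(up E {v}).disjSum ∅, by rintro (w | ψ) <;> simp [unP, mem_up]⟩
  · exact ⟨(∅ : Finset (Pl E)).disjSum (Finset.univ.filter fun ψ => ψ.comp (algebraMap F E) = φ),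
      by rintro (w | ψ) <;> simp [unP]⟩

theorem hil_nm_eq_one {p : Pc F} {b : Eˣ} {d : Fˣ} (h : ∀ q, unP F q = p → hil q b (io F E d) = 1) :
    hil p (nm F b) d = 1 := by
  obtain ⟨S, hS⟩ := exists_fibre (E := E) p
  obtain ⟨n, hn, h1⟩ := wa_nr _ S (fun _ => b) fun q hq => hil_eq_one.1 (h q ((hS q).1 hq))
  rw [← hil_congr_left (a := nm F n) (by
    rw [← map_div]; exact nm_mem_SqP fun q hq => h1 q ((hS q).2 hq))]
  exact hil_of_nr (nm_mem_Nr hn)

/-- the computation at a good place -/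
theorem exists_good {w : Pl E} {d : Fˣ} {a : 𝓞 F} (hd : (d : F) = a)
    (h2 : (un F w).valuation F 2 = 1) (ha : (un F w).valuation F (d : F) = 1)
    (hw : io F E d ∉ Sq w) : ∃ b : Eˣ, hil (.inl w) b (io F E d) = -1 ∧
      (∀ q, q ≠ .inl w → unP F q = .inl (un F w) → hil q b (io F E d) = 1) ∧
      hil (.inl (un F w)) (nm F b) d = -1 := by
  set v := un F w with hv
  have hu : ∀ (w' : Pl E) {x : F}, un F w' = v → v.valuation F x = 1 →
      w'.valuation E (algebraMap F E x) = 1 := fun w' x h hx => by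
    obtain ⟨e, -, he⟩ := val_un (F := F) w'
    rw [he, h, hx, one_pow]
  have hu2 : ∀ w' : Pl E, un F w' = v → w'.valuation E 2 = 1 := fun w' h => by
    simpa [map_ofNat] using hu w' h h2
  have := v.isMaximal
  have hN : ∀ w' : Pl E, un F w' = v →
      Ideal.relNorm (𝓞 F) w'.asIdeal = v.asIdeal ^ w'.asIdeal.inertiaDeg (𝓞 F) := fun w' h => by
    have := w'.isMaximal
    have : w'.asIdeal.LiesOver v.asIdeal := ⟨h ▸ rfl⟩
    exact Ideal.relNorm_eq_pow_of_isMaximal _ _
  set f := w.asIdeal.inertiaDeg (𝓞 F) with hf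
  obtain ⟨b, hb, hb'⟩ : ∃ b ∈ w.asIdeal, Algebra.intNorm (𝓞 F) (𝓞 E) b ∉ v.asIdeal ^ (f + 1) := by
    by_contra h
    push Not at h
    refine (Ideal.pow_succ_lt_pow v.ne_bot f).not_ge ?_
    rw [← hN w rfl, Ideal.relNorm_apply, Ideal.span_le]
    rintro _ ⟨b, hb, rfl⟩
    exact h b hb
  have h3 : ∀ w' : Pl E, un F w' = v → b ∉ w.asIdeal * w'.asIdeal := fun w' h hm => hb' (by
    have h4 := Ideal.intNorm_mem_spanNorm (𝓞 F) hm
    rw [Ideal.spanNorm_eq, map_mul, hN w rfl, hN w' h, ← pow_add] at h4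
    have := w'.isPrime
    exact Ideal.pow_le_pow_right (Nat.add_le_add_left (w'.asIdeal.inertiaDeg_pos (𝓞 F)) f) h4)
  have hb0 : (b : E) ≠ 0 := fun h0 => h3 w rfl (by
    rw [NumberField.RingOfIntegers.coe_eq_zero_iff.1 h0]; exact zero_mem _)
  have exact_val : ∀ {K : Type u} [Field K] [NumberField K] (v : Pl K) (x : 𝓞 K) (k : ℕ),
      x ∈ v.asIdeal ^ k → x ∉ v.asIdeal ^ (k + 1) → v.valuation K (x : K) = exp (-(k : ℤ)) := by
    intro K _ _ v x k h1 h2
    rw [← Loc.val_int_le_pow_iff] at h1 h2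
    refine le_antisymm h1 (not_lt.1 fun h => h2 ?_)
    convert Loc.lt_exp_iff.1 h using 2
    push_cast; ring
  have hodd : Odd f := by
    have := w.isMaximal
    have : w.asIdeal.LiesOver v.asIdeal := ⟨rfl⟩
    by_contra he
    rw [Nat.not_odd_iff_even, hf, Ideal.inertiaDeg_eq_of_isMaximal v.asIdeal] at he
    let _ : Field (𝓞 F ⧸ v.asIdeal) := Ideal.Quotient.field _
    let _ : Field (𝓞 E ⧸ w.asIdeal) := Ideal.Quotient.field _
    obtain ⟨y, hy⟩ := isSquare_of_even _ _ (fun h0 => by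
      have := (Loc.val_int_lt_iff w 2).2 (Ideal.Quotient.eq_zero_iff_mem.1 (by simpa [map_ofNat] using h0))
      simp [map_ofNat, hu2 w rfl] at this) he (Ideal.Quotient.mk _ a)
    obtain ⟨y, rfl⟩ := Ideal.Quotient.mk_surjective y
    have e : ((io F E d : Eˣ) : E) = (algebraMap (𝓞 F) (𝓞 E) a : 𝓞 E) := congrArg (algebraMap F E) hd
    refine hw ((Loc.mem_Sq_iff_int w (hu2 w rfl) e fun h => ?_).2 ⟨y, Ideal.Quotient.eq.1 ?_⟩)
    · exact ((Loc.val_int_lt_iff w _).2 h).ne (e ▸ hu w rfl ha)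
    · rw [sq, map_mul, ← hy]; rfl
  have neg : ∀ {x : ℤˣ}, x ≠ 1 → x = -1 := fun h => (Int.units_eq_one_or _).resolve_left h
  refine ⟨Units.mk0 _ hb0, neg fun h => ?_, ?_, neg fun h => ?_⟩
  · obtain ⟨n, hn⟩ := (hil_unram (hu2 w rfl) (hu w rfl ha) hw).1 h
    rw [Units.val_mk0, exact_val w b 1 (by simpa) (by simpa [pow_succ] using h3 w rfl), exp_inj] at hn
    omega
  · rintro (w' | ψ) hq h
    · have h4 : un F w' = v := Sum.inl_injective h
      refine hil_unit (hu2 w' h4) (Loc.val_int_eq_one w' fun h5 => h3 w' h4 ?_) (hu w' h4 ha)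
      rw [Ideal.mul_eq_inf_of_isCoprime (Ideal.isCoprime_iff_sup_eq.2 (w.isMaximal.coprime_of_ne
        w'.isMaximal fun h6 => hq (congrArg _ (HeightOneSpectrum.ext h6.symm))))]
      exact ⟨hb, h5⟩
    · exact absurd h (by simp [unP])
  · obtain ⟨n, hn⟩ := (hil_unram h2 ha fun h' => hw (io_mem_SqP (q := .inl w) h')).1 h
    have e : ((nm F (Units.mk0 _ hb0) : Fˣ) : F) = Algebra.intNorm (𝓞 F) (𝓞 E) b :=
      (Algebra.algebraMap_intNorm (K := F) (L := E) b).symm
    rw [e, exact_val v _ f (hN w rfl ▸ Ideal.intNorm_mem_spanNorm (𝓞 F) hb) hb', exp_inj] at hn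
    obtain ⟨m, hm⟩ := hodd
    omega

theorem hil_nm_eq_neg (hR : RecStmt.{u}) (hP : PreStmt.{u}) {q : Pc E} {b : Eˣ} {d : Fˣ}
    (h : hil q b (io F E d) = -1) (h' : ∀ q', q' ≠ q → unP F q' = unP F q → hil q' b (io F E d) = 1) :
    hil (unP F q) (nm F b) d = -1 := by
  classical
  obtain ⟨c, a, hd⟩ := Loc.exists_mul_sq_int d
  have e1 : ∀ (q : Pc E) (b : Eˣ), hil q b (io F E (d * c ^ 2)) = hil q b (io F E d) := fun q b => by
    rw [map_mul, map_pow, hil_mul_right, hil_of_sq_right b (sq_mem_SqP q _), mul_one]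
  have e2 : ∀ (p : Pc F) (b : Fˣ), hil p b (d * c ^ 2) = hil p b d := fun q b => by
    rw [hil_mul_right, hil_of_sq_right b (sq_mem_SqP q _), mul_one]
  have wd : ∀ {q : Pc E} {b b' : Eˣ}, hil q b (io F E d) = -1 → hil q b' (io F E d) = -1 →
      (∀ q', q' ≠ q → unP F q' = unP F q → hil q' b (io F E d) = 1) →
      (∀ q', q' ≠ q → unP F q' = unP F q → hil q' b' (io F E d) = 1) →
      hil (unP F q) (nm F b) d = hil (unP F q) (nm F b') d := by
    intro q b b' h1 h2 h3 h4
    have := hil_nm_eq_one (p := unP F q) (b := b / b') (d := d) fun q' hq' => by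
      rw [hil_div_left]
      by_cases h5 : q' = q
      · rw [h5, h1, h2]; rfl
      · rw [h3 q' h5 hq', h4 q' h5 hq', one_mul]
    rwa [map_div, ← hilL_apply, map_div, div_eq_one] at this
  obtain ⟨S, hS, h2, -, hu⟩ := exists_big (Finset.toLeft {unP F q}) (d * c ^ 2)
  have hns : io F E (d * c ^ 2) ∉ Sqs E := fun h' =>
    notMem_of_hil_neg ((e1 q b).trans h) (Sqs_le q h')
  obtain ⟨w, hw, hwS⟩ := (l4Stmt E 1 _ hns (by rwa [one_mul])).exists_notMem_finset (up E S)
  rw [mem_up] at hwS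
  obtain ⟨b₀, h3, h4, h5⟩ := exists_good hd (h2 _ hwS) (hu _ hwS) hw.2
  simp only [e1, e2] at h3 h4 h5
  have hp : unP F q ≠ unP F (.inl w) := fun h6 => hwS (hS (by
    rw [Finset.mem_toLeft, Finset.mem_singleton]; exact h6.symm))
  have hq : q ≠ .inl w := fun h6 => hp (h6 ▸ rfl)
  obtain ⟨t, h6, h7⟩ := hP E (io F E d) {q, .inl w} (fun q' => if q' = q then b else b₀) (by
    rw [Finset.prod_pair hq, if_pos rfl, if_neg hq.symm, h, h3]; rfl)
  have h8 : hil q t (io F E d) = -1 := by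
    rw [hil_congr_left (h6 q (by simp)), if_pos rfl, h]
  have h9 : hil (.inl w) t (io F E d) = -1 := by
    rw [hil_congr_left (h6 (.inl w) (by simp)), if_neg hq.symm, h3]
  have h10 := hR F (nm F t) d {unP F q, unP F (.inl w)} fun p hp => hil_nm_eq_one fun q' hq' =>
    h7 q' fun h11 => hp (by
      rcases Finset.mem_insert.1 h11 with rfl | h11
      · simp [hq']
      · simp [← hq', Finset.mem_singleton.1 h11])
  rw [Finset.prod_pair hp, wd h9 h3 (fun q' h11 h12 => h7 q' (by
      simp only [Finset.mem_insert, Finset.mem_singleton, not_or]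
      exact ⟨fun h13 => hp (h13 ▸ h12), h11⟩)) h4,
    wd h8 h (fun q' h11 h12 => h7 q' (by
      simp only [Finset.mem_insert, Finset.mem_singleton, not_or]
      exact ⟨h11, fun h13 => hp (h13 ▸ h12).symm⟩)) h'] at h10
  change _ * hil (.inl (un F w)) _ _ = _ at h10
  rwa [h5, mul_neg, mul_one, neg_eq_iff_eq_neg] at h10

/-- **norm functoriality** -/
theorem nrmStmt_of (hR : RecStmt.{u}) (hP : PreStmt.{u}) : NrmStmt.{u} := by
  classical
  intro F E _ _ _ _ _ p b d S hS
  choose t ht using fun q : Pc E => wa_sq S fun q' => if q' = q then b else 1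
  have h1 : ∀ q q', q' ∈ S → hil q' (t q) (io F E d) = if q' = q then hil q' b (io F E d) else 1 :=
    fun q q' h => by rw [hil_congr_left (ht q q' h)]; split_ifs <;> simp
  have h2 := hil_nm_eq_one (p := p) (b := b / ∏ q ∈ S, t q) (d := d) fun q' hq' => by
    have := (hS q').2 hq'
    rw [hil_div_left, hil_prod_left, Finset.prod_congr rfl fun q _ => h1 q q' this,
      Finset.prod_ite_eq, if_pos this, Int.units_mul_self]
  rw [map_div, ← hilL_apply, map_div, div_eq_one, map_prod, map_prod] at h2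
  refine h2.trans (Finset.prod_congr rfl fun q hq => ?_)
  have hq' := (hS q).1 hq
  rcases Int.units_eq_one_or (hil q b (io F E d)) with h | h
  · rw [h]
    refine hil_nm_eq_one fun q' h3 => ?_
    rw [h1 q q' ((hS q').2 h3)]
    split_ifs with h4
    · rw [h4, h]
    · rfl
  · rw [h, ← hq']
    exact hil_nm_eq_neg hR hP (by rw [h1 q q hq, if_pos rfl, h]) fun q' h3 h4 => by
      rw [h1 q q' ((hS q').2 (h4.trans hq')), if_neg h3]

theorem recStmt : RecStmt.{u} := recStmt7

theorem preStmt : PreStmt.{u} := preStmt7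

theorem nrmStmt : NrmStmt.{u} := nrmStmt_of recStmt preStmt

end Crest.Agent.T24.Hil
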