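import Crest.Agent.T24.InDef_71
import Crest.Agent.T24.Csa7_50
import Crest.Agent.T24.HsmB_23
import Crest.Agent.T24.LocG_59

/-! Row 24, inner step: centralisers, splitting outside `N`, valuation form of the inner step. -/

set_option autoImplicit false

namespace Crest.Agent.T24.In

open Filter Module Polynomial NumberField
open Crest.Agent.T24.Csa Crest.Agent.T24.Hsm Crest.Agent.T24.Asa

universe u v w

/-- a splitting of `B` over `F ⊇ E` splits the centraliser of `E` -/
theorem spl_Cz {K E B F : Type*} [Field K] [CharZero K] [Field E] [Algebra K E] [Ring B]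
    [Algebra K B] [Algebra.IsCentral K B] [IsSimpleRing B] [FiniteDimensional K B] [Field F]
    (i : E →ₐ[K] B) (g : E →+* F) (h : Spl B (deg K B) (g.comp (algebraMap K E))) :
    Spl (Cz i) (deg E (Cz i)) g := by
  classical
  have := Cz.finite_field i
  obtain ⟨φ, hφ⟩ := h
  let f := g.comp (algebraMap K E)
  let ρ : B →+* End F (Fin (deg K B) → F) :=
    (Matrix.toLinAlgEquiv' (R := F) (n := Fin (deg K B))).toRingHom.comp φ
  have hρ : ∀ c x, ρ (algebraMap K B c) x = f c • x := fun c x => by
    rw [RingHom.comp_apply, hφ]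
    exact LinearMap.congr_fun ((Matrix.toLinAlgEquiv' (R := F) (n := Fin _)).commutes (f c)) x
  let pb := Field.powerBasisOfFiniteOfSeparable K E
  let T := ρ (i pb.gen)
  have hs : ((minpoly K pb.gen).map f).Separable :=
    Separable.map (Algebra.IsSeparable.isSeparable K pb.gen)
  have hm : ((minpoly K pb.gen).map f).Monic := (minpoly.monic pb.isIntegral_gen).map f
  have hr : ((minpoly K pb.gen).map f).IsRoot (g pb.gen) := by
    rw [IsRoot.def, ← Polynomial.map_map, eval_map, eval₂_at_apply, eval_map_algebraMap,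
      minpoly.aeval, map_zero]
  have hev : ∀ p : K[X], ρ (i (aeval pb.gen p)) = aeval T (p.map f) := fun p => by
    induction p using Polynomial.induction_on' with
    | add p q hp hq => rw [map_add, map_add, map_add, hp, hq, Polynomial.map_add, map_add]
    | monomial n a =>
      rw [Polynomial.map_monomial, aeval_monomial, aeval_monomial, map_mul, map_mul, map_pow,
        map_pow, i.commutes]
      congr 1
      exact LinearMap.ext (hρ a)
  have hT : T.charpoly = (minpoly K pb.gen).map f ^ deg E (Cz i) := by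
    have h1 : T.charpoly = (φ (i pb.gen)).charpoly := Matrix.charpoly_toLin' _
    rw [h1, charpoly_eq' f φ hφ sp_card, rch_field, lch_eq K pb.basis, charpoly_leftMulMatrix,
      Polynomial.map_pow, ← Cz.finrank_mul_deg i, Nat.mul_div_cancel_left _ finrank_pos]
  have hss : T.IsSemisimple := End.isSemisimple_of_squarefree_aeval_eq_zero hs.squarefree
    (by rw [← hev, minpoly.aeval, map_zero, map_zero])
  refine spl_of_end (V := T.eigenspace (g pb.gen)) ?_ (restr (ρ.comp (Cz i).val.toRingHom) _
    fun d x hx => ?_) fun c x => Subtype.ext ?_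
  · rw [← hss.isFinitelySemisimple.maxGenEigenspace_eq_eigenspace,
      LinearMap.finrank_maxGenEigenspace_eq, hT, rootMultiplicity_pow' hm.ne_zero,
      le_antisymm (rootMultiplicity_le_one_of_separable hs _) ((rootMultiplicity_pos hm.ne_zero).2 hr),
      mul_one]
  · rw [End.mem_eigenspace_iff] at hx ⊢
    change ρ _ (ρ d x) = g pb.gen • ρ d x
    rw [← End.mul_apply, ← map_mul, Cz.mem_iff.1 d.2, map_mul, End.mul_apply, ← map_smul, ← hx]
  · obtain ⟨p, rfl⟩ := pb.exists_eq_aeval' c
    change ρ (i _) x = _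
    rw [hev, End.aeval_apply_of_mem_apply_eq_smul (End.mem_eigenspace_iff.1 x.2),
      ← Polynomial.map_map, eval_map, eval₂_at_apply, eval_map_algebraMap]
    rfl


theorem exists_nat_mem {K : Type*} [Field K] [NumberField K] (S : Finset (Pl K)) :
    ∃ N : ℕ, 2 ≤ N ∧ ∀ v ∈ S, (N : 𝓞 K) ∈ v.asIdeal := by
  refine ⟨2 * ∏ v ∈ S, Ideal.absNorm v.asIdeal, ?_, fun v hv => ?_⟩
  · have : 0 < ∏ v ∈ S, Ideal.absNorm v.asIdeal := Finset.prod_pos fun v _ =>
      Nat.pos_of_ne_zero (Ideal.absNorm_eq_zero_iff.not.2 v.ne_bot)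
    omega
  · obtain ⟨c, hc⟩ := Finset.dvd_prod_of_mem (fun v : Pl K => Ideal.absNorm v.asIdeal) hv
    rw [hc, Nat.cast_mul, Nat.cast_mul]
    exact Ideal.mul_mem_left _ _ (Ideal.mul_mem_right _ _ (Ideal.absNorm_mem _))

theorem splStmt : SplStmt.{u, v} := by
  intro K _ _ B _ _ _ _ _ S
  classical
  have h := Loc.spl_ae (finrank_eq_deg_sq K B)
  rw [eventually_cofinite] at h
  obtain ⟨N, hN, hS⟩ := exists_nat_mem (S ∪ h.toFinset)
  refine ⟨N, hN, fun v hv => spl_iff.2 ?_, fun v hv => hS v (Finset.mem_union_left _ hv)⟩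
  by_contra h'
  exact hv (hS v (Finset.mem_union_right _ (h.mem_toFinset.2 h')))




end Crest.Agent.T24.In
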