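import Crest.Agent.T24.HsmB_23
import Crest.Agent.T24.Csa5_56

/-! Row 24 (helper23): open form of the interpolation theorem, Hasse–Schilling–Maass with prescribed
local conjugacy classes. -/

set_option autoImplicit false

noncomputable section

namespace Crest.Agent.T24.Hsm

open scoped TensorProduct Topology Valued
open Module Polynomial NumberField IsDedekindDomain Filter WithZero
open Crest.Agent.T24.Csa Crest.Agent.T24.Asa

universe u v w

section Approx

variable {K : Type*} [Field K] [NumberField K]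

theorem exists_exp_norm (v : Pl K) {ε : ℝ} (hε : 0 < ε) :
    ∃ m : ℕ, ∀ x : v.adicCompletion K, Valued.v x ≤ exp (-(m : ℤ)) → ‖x‖ < ε := by
  obtain ⟨π, hπ0, hπ⟩ := exists_deep {v} 1
  have h1 : ‖algebraMap K (v.adicCompletion K) π‖ < 1 :=
    Valued.toNormedField.norm_lt_one_iff.2 ((v.valuedAdicCompletion_eq_valuation' _).trans_lt
      ((hπ _ (Finset.mem_singleton_self _)).trans_lt (exp_neg_lt_one one_pos)))
  obtain ⟨k, hk⟩ := exists_pow_lt_of_lt_one hε h1
  obtain ⟨m, hm⟩ := exists_exp_le (γ := Valued.v (algebraMap K (v.adicCompletion K) π ^ k))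
    (by simpa using fun h => absurd h hπ0)
  exact ⟨m, fun x hx => (Valued.toNormedField.norm_le_iff.2 (hx.trans hm)).trans_lt
    (by rwa [norm_pow])⟩

theorem exists_exp_norm' (S : Finset (Pl K)) {ε : ℝ} (hε : 0 < ε) :
    ∃ m : ℕ, ∀ v ∈ S, ∀ x : v.adicCompletion K, Valued.v x ≤ exp (-(m : ℤ)) → ‖x‖ < ε := by
  choose m hm using fun v : Pl K => exists_exp_norm v hε
  exact ⟨S.sup m, fun v hv x hx => hm v x (hx.trans (exp_neg_anti (Finset.le_sup hv)))⟩

/-- approximation at finitely many finite places and all real embeddings, integral outside one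
more place -/
theorem approx_real (S : Finset (Pl K)) (v₀ : Pl K) (h₀ : v₀ ∉ S)
    (a : ∀ v : Pl K, v.adicCompletion K) (t : (K →+* ℝ) → ℝ) {ε : ℝ} (hε : 0 < ε) :
    ∃ x : K, (∀ v ∈ S, ‖algebraMap K (v.adicCompletion K) x - a v‖ < ε) ∧
      (∀ ρ : K →+* ℝ, |ρ x - t ρ| < ε) ∧ ∀ v ∉ S, v ≠ v₀ → v.valuation K x ≤ 1 := by
  obtain ⟨m, hm⟩ := exists_exp_norm' S hε
  obtain ⟨x, h1, h2, h3⟩ := approxC S v₀ h₀ a m
    (fun w => t (InfinitePlace.embedding_of_isReal w.2), 0) hε
  refine ⟨x, fun v hv => hm v hv _ (h1 v hv), fun ρ => ?_, h3⟩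
  have hr : ComplexEmbedding.IsReal (Complex.ofRealHom.comp ρ) :=
    ComplexEmbedding.isReal_iff.2 (RingHom.ext fun x => by simp)
  have hw := InfinitePlace.isReal_mk_iff.2 hr
  have e : InfinitePlace.embedding_of_isReal hw = ρ := RingHom.ext fun x =>
    Complex.ofReal_injective (by
      rw [InfinitePlace.embedding_of_isReal_apply, InfinitePlace.embedding_mk_eq_of_isReal hr]; rfl)
  have := h2 (InfinitePlace.mk (Complex.ofRealHom.comp ρ))
  rw [mixedEmbedding.normAtPlace_apply_of_isReal hw, Prod.fst_sub, Pi.sub_apply,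
    mixedEmbedding.mixedEmbedding_apply_isReal] at this
  simpa only [e, Real.norm_eq_abs] using this

theorem exists_min {ι : Type*} (S : Finset ι) (ε : ι → ℝ) (h : ∀ i, 0 < ε i) :
    ∃ δ > 0, ∀ i ∈ S, δ ≤ ε i := by
  classical
  induction S using Finset.induction_on with
  | empty => exact ⟨1, one_pos, by simp⟩
  | insert a S _ ih =>
    obtain ⟨δ, hδ, h'⟩ := ih
    refine ⟨min δ (ε a), lt_min hδ (h a), fun i hi => ?_⟩
    rcases Finset.mem_insert.1 hi with rfl | hi
    exacts [min_le_right _ _, (min_le_left _ _).trans (h' i hi)]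

omit [NumberField K] in
/-- the monic polynomial with given lower coefficients -/
theorem exists_monic (n : ℕ) (a : ℕ → K) :
    ∃ P : K[X], P.Monic ∧ P.natDegree = n ∧ ∀ i < n, P.coeff i = a i := by
  have h := degree_sum_fin_lt fun i : Fin n => a i
  refine ⟨X ^ n + ∑ i : Fin n, C (a i) * X ^ (i : ℕ), monic_X_pow_add h, ?_, fun i hi => ?_⟩
  · rw [natDegree_add_eq_left_of_degree_lt (by rwa [degree_X_pow]), natDegree_X_pow]
  · rw [coeff_add, coeff_X_pow, if_neg hi.ne, zero_add, finsetSum_coeff,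
      Finset.sum_eq_single ⟨i, hi⟩ (fun j _ hj => by
        rw [coeff_C_mul_X_pow, if_neg fun h => hj (Fin.ext h.symm)]) (by simp)]
    simp

end Approx

section Conj

variable (F : Type*) [NontriviallyNormedField F] [CompleteSpace F] [CharZero F] {C : Type*} [Ring C]
  [Algebra F C] [Algebra.IsCentral F C] [IsSimpleRing C] [FiniteDimensional F C]
  [TopologicalSpace C] [IsTopologicalAddGroup C] [ContinuousSMul F C] [T2Space C]

/-- elements whose `rch` is close to a separable `rch y₀` are conjugate to elements of `F[y₀]`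
close to `y₀` -/
theorem conj_into {y₀ : C} (hs : (rch F y₀).Separable) {V : Set C} (hV : V ∈ 𝓝 y₀) :
    ∃ ε > 0, ∀ x : C, (∀ i < deg F C, ‖(rch F x).coeff i - (rch F y₀).coeff i‖ < ε) →
      ∃ g : Cˣ, g * x * ↑g⁻¹ ∈ V ∧ g * x * ↑g⁻¹ ∈ Algebra.adjoin F {y₀} := by
  let g : C → Fin (deg F C) → F := fun x i => (rch F x).coeff i
  have h := rch_near F hs (l := comap g (𝓝 (g y₀))) (P := rch F) (fun i => ?_)
    (.of_forall fun x => ⟨rch_monic F x, rch_natDegree x⟩) hV
  · rw [eventually_comap, Metric.eventually_nhds_iff] at h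
    obtain ⟨ε, hε, h⟩ := h
    refine ⟨ε, hε, fun x h3 => ?_⟩
    obtain ⟨h1, z, h2, h4, h5⟩ := h ((dist_pi_lt_iff hε).2 fun i => by
      rw [dist_eq_norm]; exact h3 i i.2) x rfl
    obtain ⟨u, rfl⟩ := conj_of_rch_eq h1.squarefree h5.symm
    exact ⟨u, h4, h2⟩
  by_cases hi : i < deg F C
  · exact tendsto_pi_nhds.1 (tendsto_comap (f := g)) ⟨i, hi⟩
  refine tendsto_const_nhds.congr fun x => ?_
  rcases (not_lt.1 hi).eq_or_lt with rfl | hi
  · exact (rch_natDegree (K := F) y₀ ▸ (rch_monic F y₀).coeff_natDegree).trans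
      (rch_natDegree (K := F) x ▸ (rch_monic F x).coeff_natDegree).symm
  · exact (coeff_eq_zero_of_natDegree_lt ((rch_natDegree y₀).trans_lt hi)).trans
      (coeff_eq_zero_of_natDegree_lt ((rch_natDegree x).trans_lt hi)).symm

end Conj

section Alg

variable {K : Type*} [Field K] [CharZero K] {B : Type*} [Ring B] [Algebra K B]
  [Algebra.IsCentral K B] [IsSimpleRing B] [FiniteDimensional K B] {n : ℕ}

omit [CharZero K] in
theorem Spl.equiv (hn : finrank K B = n ^ 2) (h : Spl B n (algebraMap K K)) :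
    Nonempty (B ≃ₐ[K] Matrix (Fin n) (Fin n) K) := by
  obtain ⟨φ⟩ := spl_iff.1 h
  have : Nonempty (Fin n) := ⟨⟨0, deg_eq K hn ▸ deg_pos K B⟩⟩
  have hi : Function.Injective φ := RingHom.injective φ.toRingHom
  exact ⟨AlgEquiv.ofBijective φ ⟨hi, (LinearMap.injective_iff_surjective_of_finrank_eq_finrank
    (by rw [hn, finrank_mat, Fintype.card_fin]) (f := φ.toLinearMap)).1 hi⟩⟩

/-- in a split algebra every monic polynomial of degree `n` is a characteristic polynomial; here
only the norm -/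
theorem Spl.onto (hn : finrank K B = n ^ 2) (h : Spl B n (algebraMap K K)) (c : K) :
    ∃ x : B, Nrd K x = c := by
  obtain ⟨φ⟩ := h.equiv hn
  refine ⟨φ.symm (Matrix.diagonal (Function.update 1 ⟨0, deg_eq K hn ▸ deg_pos K B⟩ c)), ?_⟩
  have := det_eq φ.toAlgHom (by rw [hn, Fintype.card_fin])
    (φ.symm (Matrix.diagonal (Function.update 1 ⟨0, deg_eq K hn ▸ deg_pos K B⟩ c)))
  simpa [Finset.prod_update_of_mem] using this.symm

omit [CharZero K] in
theorem Spl.onto_bc (hn : finrank K B = n ^ 2) {F : Type*} [Field F] [CharZero F] [Algebra K F]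
    (h : Spl B n (algebraMap K F)) (c : F) : ∃ x : F ⊗[K] B, Nrd F x = c :=
  Spl.onto (by rw [finrank_baseChange, hn]) (Spl.bc (g := algebraMap F F) h) c

theorem exists_root_odd {P : ℝ[X]} (hP : P.Monic) (h : Odd P.natDegree) : ∃ x, P.IsRoot x := by
  have h1 := tendsto_atTop_of_leadingCoeff_nonneg P (natDegree_pos_iff_degree_pos.1 h.pos)
    (by rw [hP.leadingCoeff]; exact zero_le_one)
  have h2 := tendsto_atBot_of_leadingCoeff_nonpos (P.comp (-X))
    (natDegree_pos_iff_degree_pos.1 (by simpa [natDegree_comp] using h.pos))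
    (by rw [leadingCoeff_comp (by simp), hP.leadingCoeff]; simp [h.neg_one_pow])
  obtain ⟨s, hs⟩ := (h1.eventually_ge_atTop 0).exists
  obtain ⟨t, ht⟩ := (h2.eventually_le_atBot 0).exists
  rw [eval_comp] at ht
  exact mem_range_of_exists_le_of_exists_ge (c := 0) P.continuous ⟨_, ht⟩ ⟨s, hs⟩

/-- an algebra of odd degree splits at the real places -/
theorem spl_or_even (hn : finrank K B = n ^ 2) (ρ : K →+* ℝ) : Spl B n ρ ∨ Even n := by
  rcases Nat.even_or_odd n with h | h
  · exact .inr h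
  obtain ⟨y, hy⟩ := exists_separable K B
  obtain ⟨a, ha⟩ := exists_root_odd ((rch_monic K y).map ρ)
    (by rwa [natDegree_map, rch_natDegree, deg_eq K hn])
  exact .inl (spl_of_root hn hy ha)

theorem rch_tmul {F : Type*} [Field F] [Algebra K F] (y : B) :
    rch F ((1 : F) ⊗ₜ[K] y) = (rch K y).map (algebraMap K F) :=
  rch_map (algebraMap K F) (Algebra.TensorProduct.includeRight : B →ₐ[K] F ⊗[K] B).toRingHom
    (fun c => (Algebra.TensorProduct.includeRight : B →ₐ[K] F ⊗[K] B).commutes c)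
    finrank_baseChange y

end Alg

section Near

variable {K : Type u} [Field K] [NumberField K] {B : Type v} [Ring B] [Algebra K B]
  [Algebra.IsCentral K B] [IsSimpleRing B] [FiniteDimensional K B] {n : ℕ}

/-- **interpolation, open form**: local targets `y v` at a finite set `S` that contains the
non-split finite places, real polynomials without real roots at the non-split real places -/
theorem interp_near (hn : finrank K B = n ^ 2) (S : Finset (Pl K))
    (hS : ∀ v ∉ S, Spl B n (algebraMap K (v.adicCompletion K)))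
    (y : ∀ v : Pl K, v.adicCompletion K ⊗[K] B)
    (hy : ∀ v ∈ S, (rch (v.adicCompletion K) (y v)).Separable) (Q : (K →+* ℝ) → ℝ[X])
    (hQ : ∀ ρ, Spl B n ρ ∨ (Q ρ).Monic ∧ (Q ρ).natDegree = n ∧ ∀ x, ¬ (Q ρ).IsRoot x) :
    ∃ ε > 0, ∀ P : K[X], P.Monic → P.natDegree = n → S.Nonempty ∨ P.Separable →
      (∀ v ∈ S, ∀ i < n, ‖algebraMap K _ (P.coeff i) - (rch (v.adicCompletion K) (y v)).coeff i‖ < ε) →
      (∀ ρ, Spl B n ρ ∨ ∀ i < n, |ρ (P.coeff i) - (Q ρ).coeff i| < ε) →
      P.Separable ∧ ∃ z : B, minpoly K z = P ∧ rch K z = P := by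
  have h1 : ∀ v : Pl K, ∃ ε > 0, v ∈ S → ∀ P : K[X], P.Monic → P.natDegree = n →
      (∀ i < n, ‖algebraMap K _ (P.coeff i) - (rch (v.adicCompletion K) (y v)).coeff i‖ < ε) →
      P.Separable ∧ LocRt B n P v := by
    intro v
    by_cases hv : v ∈ S
    · have hd : deg (v.adicCompletion K) (v.adicCompletion K ⊗[K] B) = n :=
        deg_eq _ (by rw [finrank_baseChange, hn])
      obtain ⟨ε, hε, h⟩ := exists_eps (v.adicCompletion K) (hy v hv)
      refine ⟨ε, hε, fun _ P hP hd' hc => ?_⟩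
      obtain ⟨h1, z, -, hz⟩ := h (P.map (algebraMap K _)) (hP.map _)
        (by rw [natDegree_map, hd', hd]) (by simpa only [hd, coeff_map] using hc)
      exact ⟨(separable_map _).1 h1, .inr ⟨z, hz⟩⟩
    · exact ⟨1, one_pos, fun h => absurd h hv⟩
  have h2 : ∀ ρ : K →+* ℝ, ∃ ε > 0, ∀ P : K[X], P.Monic → P.natDegree = n →
      (∀ i < n, |ρ (P.coeff i) - (Q ρ).coeff i| < ε) → Spl B n ρ ∨ ∀ x, ¬ (P.map ρ).IsRoot x := by
    intro ρ
    rcases hQ ρ with h | ⟨h1, h2, h3⟩
    · exact ⟨1, one_pos, fun _ _ _ _ => .inl h⟩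
    obtain ⟨ε, hε, h⟩ := noRoot_eps h1 h3
    exact ⟨ε, hε, fun P hP hd hc => .inr (h _ (hP.map _) (by rw [natDegree_map, hd, h2])
      (by simpa only [h2, coeff_map] using hc))⟩
  choose ε₁ p₁ h1 using h1
  choose ε₂ p₂ h2 using h2
  obtain ⟨δ₁, q₁, r₁⟩ := exists_min S ε₁ p₁
  have : Finite (K →+* ℝ) := Finite.of_injective (fun ρ => Complex.ofRealHom.comp ρ)
    fun ρ ρ' h => RingHom.ext fun x => Complex.ofReal_injective (RingHom.congr_fun h x)
  have := Fintype.ofFinite (K →+* ℝ)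
  obtain ⟨δ₂, q₂, r₂⟩ := exists_min Finset.univ ε₂ p₂
  refine ⟨min δ₁ δ₂, lt_min q₁ q₂, fun P hP hd hs hc hr => ?_⟩
  have h3 := fun v hv => h1 v hv P hP hd fun i hi =>
    (hc v hv i hi).trans_le ((min_le_left _ _).trans (r₁ v hv))
  have hs' : P.Separable := hs.elim (fun ⟨v, hv⟩ => (h3 v hv).1) id
  refine ⟨hs', interp_loc hn hP hd hs' (fun v => ?_) fun ρ => (hr ρ).elim .inl fun h =>
    h2 ρ P hP hd fun i hi => (h i hi).trans_le ((min_le_right _ _).trans (r₂ ρ (Finset.mem_univ _)))⟩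
  by_cases hv : v ∈ S
  exacts [(h3 v hv).2, .inl (hS v hv)]


/-- **Hasse–Schilling–Maass with prescribed local classes** -/
theorem hsm_near (hn : finrank K B = n ^ 2) (S : Finset (Pl K))
    (hS : ∀ v ∉ S, Spl B n (algebraMap K (v.adicCompletion K))) {c : K} (hc : c ≠ 0)
    (y : ∀ v : Pl K, v.adicCompletion K ⊗[K] B)
    (hy : ∀ v ∈ S, (rch (v.adicCompletion K) (y v)).Separable ∧
      Nrd (v.adicCompletion K) (y v) = algebraMap K _ c)
    (hr : ∀ ρ : K →+* ℝ, Spl B n ρ ∨ 0 < ρ c) {ε : ℝ} (hε : 0 < ε) :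
    ∃ z : B, Nrd K z = c ∧ (rch K z).Separable ∧ ∀ v ∈ S, ∀ i < n,
      ‖algebraMap K _ ((rch K z).coeff i) - (rch (v.adicCompletion K) (y v)).coeff i‖ < ε := by
  classical
  wlog hne : S.Nonempty generalizing S y
  · obtain rfl := Finset.not_nonempty_iff_eq_empty.1 hne
    obtain ⟨v₀, h₀⟩ := exists_notMem (∅ : Finset (Pl K))
    have h1 : ∀ v : Pl K, ∃ x : v.adicCompletion K ⊗[K] B,
        (rch (v.adicCompletion K) x).Separable ∧ Nrd _ x = algebraMap K _ c := fun v => by
      obtain ⟨x, hx⟩ := (hS v (by simp)).onto_bc hn (algebraMap K _ c)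
      obtain ⟨x', h1, h2⟩ := exists_separable_Nrd (v.adicCompletion K) (x := x)
        (by rw [hx]; simpa using hc)
      exact ⟨x', h2, h1.trans hx⟩
    choose x hx using h1
    obtain ⟨z, h1, h2, -⟩ := this {v₀} (fun v _ => hS v (by simp)) x (fun v _ => hx v) (by simp)
    exact ⟨z, h1, h2, by simp⟩
  have hn0 : n ≠ 0 := (deg_eq K hn ▸ deg_pos K B).ne'
  obtain ⟨δ, hδ, h⟩ := interp_near hn S hS y (fun v hv => (hy v hv).1) (fun ρ => X ^ n + C (ρ c))
    fun ρ => or_iff_not_imp_left.2 fun h => ⟨monic_X_pow_add_C _ hn0, natDegree_X_pow_add_C,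
      fun x hx => by
        have h1 := ((spl_or_even hn ρ).resolve_left h).pow_nonneg x
        have h2 := (hr ρ).resolve_left h
        simp only [IsRoot.def, eval_add, eval_pow, eval_X, eval_C] at hx
        linarith⟩
  obtain ⟨v₀, h₀⟩ := exists_notMem S
  choose a ha hb _ using fun i : ℕ => approx_real S v₀ h₀
    (fun v => (rch (v.adicCompletion K) (y v)).coeff i) (fun _ => 0) (lt_min hδ hε)
  obtain ⟨P, h1, h2, h3⟩ := exists_monic n fun i => if i = 0 then (-1) ^ n * c else a i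
  have h4 : ∀ v ∈ S, ∀ i < n,
      ‖algebraMap K _ (P.coeff i) - (rch (v.adicCompletion K) (y v)).coeff i‖ < min δ ε := by
    intro v hv i hi
    rw [h3 i hi]
    split_ifs with h0
    · have hd : deg (v.adicCompletion K) (v.adicCompletion K ⊗[K] B) = n :=
        deg_eq _ (by rw [finrank_baseChange, hn])
      rw [h0, map_mul, ← (hy v hv).2, Nrd_def, hd, map_pow, map_neg, map_one, ← mul_assoc,
        ← mul_pow]
      simpa using ⟨hδ, hε⟩
    · exact ha i v hv
  obtain ⟨hs, z, -, rfl⟩ := h P h1 h2 (.inl hne)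
    (fun v hv i hi => (h4 v hv i hi).trans_le (min_le_left _ _)) fun ρ =>
      or_iff_not_imp_left.2 fun h i hi => by
        rw [h3 i hi, coeff_add, coeff_X_pow, if_neg hi.ne, coeff_C]
        split_ifs with h0
        · simpa [((spl_or_even hn ρ).resolve_left h).neg_one_pow] using hδ
        · simpa using (hb i ρ).trans_le (min_le_left _ _)
  refine ⟨z, ?_, hs, fun v hv i hi => (h4 v hv i hi).trans_le (min_le_right _ _)⟩
  rw [Nrd_def, h3 0 (Nat.pos_of_ne_zero hn0), deg_eq K hn, if_pos rfl, ← mul_assoc, ← mul_pow]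
  simp

/-- **Hasse–Schilling–Maass** from the local facts -/
theorem hsm_of (hn : finrank K B = n ^ 2) (S : Finset (Pl K))
    (hS : ∀ v ∉ S, Spl B n (algebraMap K (v.adicCompletion K))) {c : K} (hc : c ≠ 0)
    (hy : ∀ v ∈ S, ∃ x : v.adicCompletion K ⊗[K] B,
      Nrd (v.adicCompletion K) x = algebraMap K _ c)
    (hr : ∀ ρ : K →+* ℝ, Spl B n ρ ∨ 0 < ρ c) : ∃ z : B, Nrd K z = c ∧ (rch K z).Separable := by
  have h1 : ∀ v : Pl K, ∃ x : v.adicCompletion K ⊗[K] B, v ∈ S →
      (rch (v.adicCompletion K) x).Separable ∧ Nrd _ x = algebraMap K _ c := fun v => by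
    by_cases hv : v ∈ S
    · obtain ⟨x, hx⟩ := hy v hv
      obtain ⟨x', h1, h2⟩ := exists_separable_Nrd (v.adicCompletion K) (x := x)
        (by rw [hx]; simpa using hc)
      exact ⟨x', fun _ => ⟨h2, h1.trans hx⟩⟩
    · exact ⟨0, fun h => absurd h hv⟩
  choose x hx using h1
  obtain ⟨z, h1, h2, -⟩ := hsm_near hn S hS hc x hx hr one_pos
  exact ⟨z, h1, h2⟩

end Near

end Crest.Agent.T24.Hsm
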