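import Crest.Agent.T24.Ct2Def_10
import Crest.Agent.T24.Ct2A_10
import Crest.Agent.T24.InNear_23
import Crest.Agent.T24.EvnApi_57
import Crest.Agent.T24.EvDef_47
import Crest.Agent.T24.HgtSpl_12
import Crest.Agent.T24.InCtr_50
import Crest.Agent.T24.SplEx_33
import Crest.Agent.T24.HsmB_23
import Crest.Agent.T24.HnLocD_73
import Crest.Agent.T24.OpnB_6
import Crest.Agent.T24.HilD_56
import Crest.Agent.T24.LocG_59
import Crest.Agent.T24.AsaA_53
import Crest.Agent.T24.Csa5_56
import Crest.Agent.T24.BcB_98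

-- ▼ part T24/Ct2B_10
section

/-!
# Row 24, CT(2), part B (helper10): the quaternion algebra inside `B`; the root trick
-/

set_option autoImplicit false
set_option linter.unusedSectionVars false

noncomputable section

namespace Crest.Agent.T24.Ct2

open Quaternion

section Hq

variable {F : Type*} [Field F] {a c : F}

/-- the reduced norm -/
def nq (x : ℍ[F,a,0,c]) : F := x.re ^ 2 - a * x.imI ^ 2 - c * x.imJ ^ 2 + a * c * x.imK ^ 2

theorem star_mul_nq (x : ℍ[F,a,0,c]) : star x * x = ⟨nq x, 0, 0, 0⟩ := by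
  ext <;> simp [nq] <;> ring

theorem mul_star_nq (x : ℍ[F,a,0,c]) : x * star x = ⟨nq x, 0, 0, 0⟩ := by
  ext <;> simp [nq] <;> ring

theorem nq_mul (x y : ℍ[F,a,0,c]) : nq (x * y) = nq x * nq y := by
  simp [nq]; ring

end Hq

namespace Quat

variable {F B : Type*} [Field F] [Ring B] [StarRing B] (q : Quat F B)

/-- the centraliser of the centre -/
def Cz : Subring B := Subring.centralizer (Set.range q.i)

theorem mem_Cz {x : B} : x ∈ q.Cz ↔ ∀ f, q.i f * x = x * q.i f := by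
  simp [Cz, Subring.mem_centralizer_iff]

theorem i_mem (f : F) : q.i f ∈ q.Cz := q.mem_Cz.2 fun g => by rw [← map_mul, mul_comm, map_mul]

instance : Algebra F q.Cz :=
  (q.i.codRestrict q.Cz q.i_mem).toAlgebra' fun f x => Subtype.ext (q.mem_Cz.1 x.2 f)

theorem coe_smul (f : F) (x : q.Cz) : ((f • x : q.Cz) : B) = q.i f * x := rfl

/-- the quaternion basis -/
def bas : QuaternionAlgebra.Basis q.Cz (q.a : F) 0 (q.c : F) where
  i := ⟨q.j, q.mem_Cz.2 q.ij⟩
  j := ⟨q.r, q.mem_Cz.2 q.ir⟩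
  k := ⟨q.j, q.mem_Cz.2 q.ij⟩ * ⟨q.r, q.mem_Cz.2 q.ir⟩
  i_mul_i := Subtype.ext (by simp [coe_smul, q.jj])
  j_mul_j := Subtype.ext (by simp [coe_smul, q.rr])
  i_mul_j := rfl
  j_mul_i := Subtype.ext (by simp [q.jr])

/-- the model -/
abbrev H : Type _ := ℍ[F,(q.a : F),0,(q.c : F)]

/-- the embedding -/
def ι : q.H →+* B := q.Cz.subtype.comp q.bas.liftHom.toRingHom

theorem ι_apply (x : q.H) : q.ι x = q.el x.re x.imI x.imJ x.imK := rfl

theorem ι_mk (x₀ x₁ x₂ x₃ : F) : q.ι ⟨x₀, x₁, x₂, x₃⟩ = q.el x₀ x₁ x₂ x₃ := rfl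

theorem ι_re (f : F) : q.ι ⟨f, 0, 0, 0⟩ = q.i f := by simp [ι_mk, el]

theorem i_comm (f : F) (x : q.H) : q.i f * q.ι x = q.ι x * q.i f :=
  q.mem_Cz.1 (q.bas.liftHom x).2 f

theorem ι_star (x : q.H) : q.ι (star x) = star (q.ι x) := by
  have h1 : ∀ f, q.j * q.r * q.i f = q.i f * (q.j * q.r) := fun f => by
    rw [mul_assoc, ← q.ir, ← mul_assoc, ← q.ij, mul_assoc]
  have h2 : q.r * q.j = -(q.j * q.r) := by rw [q.jr, neg_neg]
  simp only [ι_apply, el, star_add, star_mul, q.star_i, q.star_j, q.star_r, neg_mul, mul_neg,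
    neg_neg, ← q.ij, ← q.ir, h2, h1]
  simp

theorem star_mul_ι (x : q.H) : star (q.ι x) * q.ι x = q.i (nq x) := by
  rw [← ι_star, ← map_mul, star_mul_nq, ι_re]

theorem ι_mul_star (x : q.H) : q.ι x * star (q.ι x) = q.i (nq x) := by
  rw [← ι_star, ← map_mul, mul_star_nq, ι_re]

theorem ι_mem {x : q.H} (h : nq x = 1) : q.ι x ∈ unitary B := by
  rw [Unitary.mem_iff, star_mul_ι, ι_mul_star, h, map_one]; simp

theorem isUnit_ι {x : q.H} (h : nq x ≠ 0) : IsUnit (q.ι x) :=
  ⟨⟨q.ι x, star (q.ι x) * q.i (nq x)⁻¹, by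
      rw [← mul_assoc, ι_mul_star, ← map_mul, mul_inv_cancel₀ h, map_one], by
      rw [← ι_star, ← i_comm, ι_star, mul_assoc, star_mul_ι, ← map_mul, inv_mul_cancel₀ h,
        map_one]⟩, rfl⟩

theorem nq_eq_one [Nontrivial B] {x : q.H} (h : q.ι x ∈ unitary B) : nq x = 1 :=
  q.i.injective (by rw [← star_mul_ι, h.1, map_one])

theorem ι_eq_zero (hB : Aniso B) {x : q.H} (h : nq x = 0) : q.ι x = 0 :=
  hB _ (by rw [star_mul_ι, h, map_zero])

theorem eq_zero [CharZero F] [Nontrivial B] {x : q.H} (h : q.ι x = 0) : x = 0 := by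
  have key : ∀ y : q.H, q.ι y = 0 → y.re = 0 := fun y hy => by
    have h1 : y + star y = ⟨2 * y.re, 0, 0, 0⟩ := by ext <;> simp; ring
    have h2 := congrArg q.ι h1
    rw [map_add, ι_star, hy, star_zero, add_zero, ι_re, eq_comm, map_eq_zero] at h2
    simpa using h2
  have h0 := key _ h
  have h1 := key (x * ⟨0, 1, 0, 0⟩) (by rw [map_mul, h, zero_mul])
  have h2 := key (x * ⟨0, 0, 1, 0⟩) (by rw [map_mul, h, zero_mul])
  have h3 := key (x * ⟨0, 0, 0, 1⟩) (by rw [map_mul, h, zero_mul])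
  simp at h1 h2 h3
  ext <;> simp [h0, h1, h2, h3]

theorem aniso [CharZero F] [Nontrivial B] (hB : Aniso B) {x : q.H} (h : x ≠ 0) : nq x ≠ 0 :=
  fun h0 => h (q.eq_zero (q.ι_eq_zero hB h0))

/-- elements of norm one are killed by every character that does not vanish on units -/
theorem char_one {K : Type*} [Field K] (χ : B →* K) {x w r : q.H} (hr : nq r ≠ 0) (hw : nq w ≠ 0)
    (h : r * w = star w * r) (hx : x * star w = w) : χ (q.ι x) = 1 := by
  have h1 := congrArg (fun y => χ (q.ι y)) h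
  have h2 := congrArg (fun y => χ (q.ι y)) hx
  simp only [map_mul] at h1 h2
  have h3 := ((q.isUnit_ι hr).map χ).ne_zero
  have h4 := ((q.isUnit_ι hw).map χ).ne_zero
  rw [mul_comm] at h1
  rw [← mul_right_cancel₀ h3 h1] at h2
  exact mul_right_cancel₀ h4 (h2.trans (one_mul _).symm)

/-- one commutator -/
theorem comm {θ : B} {d : F} (h1 : star θ = -θ) (h2 : θ * θ = q.i d) (h3 : ∀ b, θ * b = b * θ)
    {x y g : q.H} {z₁ z₂ : F} (hx : nq x = z₁ ^ 2 - d * z₂ ^ 2) (h0 : nq x ≠ 0)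
    (h : x * y = g * y * x) (Y G : unitary B) (hY : (Y : B) = q.ι y) (hG : (G : B) = q.ι g) :
    ∃ U : unitary B, U * Y * U⁻¹ * Y⁻¹ = G := by
  set ζ : B := q.i (z₁ / nq x) + q.i (z₂ / nq x) * θ with hζ
  have h4 : ∀ u : q.H, ζ * q.ι u = q.ι u * ζ := fun u => by
    rw [hζ, add_mul, mul_add, mul_assoc, h3, ← mul_assoc, i_comm, i_comm, mul_assoc]
  have h5 : star ζ = q.i (z₁ / nq x) - q.i (z₂ / nq x) * θ := by
    rw [hζ, star_add, star_mul, q.star_i, q.star_i, h1, neg_mul, h3, sub_eq_add_neg]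
  have h6 : ∀ f g : F, (q.i f + q.i g * θ) * (q.i f - q.i g * θ) = q.i (f ^ 2 - d * g ^ 2) ∧
      (q.i f - q.i g * θ) * (q.i f + q.i g * θ) = q.i (f ^ 2 - d * g ^ 2) := fun f g => by
    have e1 : q.i g * θ * q.i f = q.i f * (q.i g * θ) := by
      rw [mul_assoc, h3, ← mul_assoc, ← mul_assoc, ← map_mul, ← map_mul, mul_comm f]
    have e2 : q.i g * θ * (q.i g * θ) = q.i (d * g ^ 2) := by
      rw [mul_assoc, ← mul_assoc θ, h3, mul_assoc, h2, ← map_mul, ← map_mul]; congr 1; ring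
    simp only [add_mul, mul_add, sub_mul, mul_sub, e1, e2, map_sub, sq f, map_mul q.i f f]
    constructor <;> abel
  have h7 : (z₁ / nq x) ^ 2 - d * (z₂ / nq x) ^ 2 = (nq x)⁻¹ := by
    field_simp; rw [hx]
  have h8 := h6 (z₁ / nq x) (z₂ / nq x)
  rw [← h5, ← hζ, h7] at h8
  have h9 : ζ * q.i (nq x) = q.i (nq x) * ζ := by rw [← ι_re, h4]
  refine ⟨⟨q.ι x * ζ, ?_, ?_⟩, ?_⟩
  · rw [star_mul, mul_assoc, ← mul_assoc (star (q.ι x)), star_mul_ι, ← h9, ← mul_assoc, h8.2,
      ← map_mul, inv_mul_cancel₀ h0, map_one]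
  · rw [star_mul, mul_assoc, ← mul_assoc ζ, h8.1, ← ι_star, i_comm, ← mul_assoc, ι_star,
      ι_mul_star, ← map_mul, mul_inv_cancel₀ h0, map_one]
  · rw [mul_inv_eq_iff_eq_mul, mul_inv_eq_iff_eq_mul]
    apply Subtype.ext
    simp only [Submonoid.coe_mul, hY, hG]
    rw [mul_assoc, h4, ← mul_assoc, ← map_mul, h, map_mul, map_mul, mul_assoc _ (q.ι x)]

/-- change of basis -/
def rot (n r : q.H) (hn : n.re = 0) (hr : r.re = 0) (h : n * r = -(r * n)) (h1 : nq n ≠ 0)
    (h2 : nq r ≠ 0) : Quat F B where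
  i := q.i
  j := q.ι n
  r := q.ι r
  a := Units.mk0 (-nq n) (neg_ne_zero.2 h1)
  c := Units.mk0 (-nq r) (neg_ne_zero.2 h2)
  star_i := q.star_i
  star_j := by rw [← ι_star, ← map_neg]; congr 1; ext <;> simp [hn]
  star_r := by rw [← ι_star, ← map_neg]; congr 1; ext <;> simp [hr]
  jj := by rw [← map_mul, ← ι_re]; congr 1; ext <;> simp [hn, nq] <;> ring
  rr := by rw [← map_mul, ← ι_re]; congr 1; ext <;> simp [hr, nq] <;> ring
  jr := by rw [← map_mul, h, map_neg, map_mul]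
  ij f := q.i_comm f n
  ir f := q.i_comm f r

end Quat

section Gram

variable {L : Type*} [Field L]

/-- splitting does not depend on the basis -/
theorem split_rot [CharZero L] {a c n₁ n₂ n₃ e₁ e₂ e₃ a' c' : L} (ha : a ≠ 0) (hc : c ≠ 0)
    (h : ∃ X Y, c = X ^ 2 - a * Y ^ 2) (ha' : a' = a * n₁ ^ 2 + c * n₂ ^ 2 - a * c * n₃ ^ 2)
    (hc' : c' = a * (c * (n₃ * e₂ - n₂ * e₃)) ^ 2 + c * (a * (n₁ * e₃ - n₃ * e₁)) ^ 2 -
      a * c * (n₁ * e₂ - n₂ * e₁) ^ 2) (h1 : a' ≠ 0) (h2 : c' ≠ 0) :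
    ∃ X Y, c' = X ^ 2 - a' * Y ^ 2 := by
  obtain ⟨X, Y, h⟩ := h
  obtain ⟨r₁, e1⟩ : ∃ r₁, r₁ = c * (n₃ * e₂ - n₂ * e₃) := ⟨_, rfl⟩
  obtain ⟨r₂, e2⟩ : ∃ r₂, r₂ = a * (n₁ * e₃ - n₃ * e₁) := ⟨_, rfl⟩
  obtain ⟨r₃, e3⟩ : ∃ r₃, r₃ = n₁ * e₂ - n₂ * e₁ := ⟨_, rfl⟩
  obtain ⟨k₁, f1⟩ : ∃ k₁, k₁ = c * (n₃ * r₂ - n₂ * r₃) := ⟨_, rfl⟩
  obtain ⟨k₂, f2⟩ : ∃ k₂, k₂ = a * (n₁ * r₃ - n₃ * r₁) := ⟨_, rfl⟩
  obtain ⟨k₃, f3⟩ : ∃ k₃, k₃ = n₁ * r₂ - n₂ * r₁ := ⟨_, rfl⟩
  have gram : ∀ y₁ y₂ y₃ z₁ z₂ z₃ : L, a' * c' * (a * y₁ * z₁ + c * y₂ * z₂ - a * c * y₃ * z₃) =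
      c' * (a * y₁ * n₁ + c * y₂ * n₂ - a * c * y₃ * n₃) * (a * z₁ * n₁ + c * z₂ * n₂ - a * c * z₃ * n₃)
      + a' * (a * y₁ * r₁ + c * y₂ * r₂ - a * c * y₃ * r₃) *
        (a * z₁ * r₁ + c * z₂ * r₂ - a * c * z₃ * r₃)
      - (a * y₁ * k₁ + c * y₂ * k₂ - a * c * y₃ * k₃) *
        (a * z₁ * k₁ + c * z₂ * k₂ - a * c * z₃ * k₃) := by
    intros
    rw [ha', hc', f1, f2, f3, e1, e2, e3]
    ring
  have g1 := gram c (a * Y) X c (a * Y) X
  have g2 := gram c (a * Y) X 1 0 0
  generalize a * c * n₁ + c * (a * Y) * n₂ - a * c * X * n₃ = α at g1 g2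
  generalize a * c * r₁ + c * (a * Y) * r₂ - a * c * X * r₃ = β at g1 g2
  generalize a * c * k₁ + c * (a * Y) * k₂ - a * c * X * k₃ = γ at g1 g2
  have g3 : c' * α ^ 2 + a' * β ^ 2 - γ ^ 2 = 0 := by
    linear_combination -g1 + a' * c' * a * c * h
  by_cases h3 : α = 0
  · have h4 : β ≠ 0 := by
      rintro rfl
      have : γ = 0 := by simpa [h3] using g3
      simp [h3, this, h1, h2, ha, hc] at g2
    have h5 : γ ≠ 0 := by
      rintro rfl
      simp [h3, h1, h4] at g3
    refine ⟨(c' + 1) / 2, (c' - 1) * β / (2 * γ), ?_⟩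
    field_simp
    rw [h3] at g3
    linear_combination (c' - 1) ^ 2 * g3
  · exact ⟨γ / α, β / α, by field_simp; linear_combination g3⟩

end Gram

/-- a filtration of a commutative ring -/
structure Fil (L : Type*) [CommRing L] where
  /-- the steps -/
  P : ℕ → AddSubgroup L
  one : 1 ∈ P 0
  mul : ∀ {k l x y}, x ∈ P k → y ∈ P l → x * y ∈ P (k + l)
  anti : ∀ {k l}, k ≤ l → P l ≤ P k
  qinv : ∀ {k x}, 1 ≤ k → x ∈ P k → ∃ y ∈ P k, (1 + x) * (1 + y) = 1

namespace Fil

variable {L : Type*} [CommRing L] (Φ : Fil L)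

theorem one_add {k : ℕ} {x : L} (h : x ∈ Φ.P k) : 1 + x ∈ Φ.P 0 :=
  add_mem Φ.one (Φ.anti (Nat.zero_le k) h)

theorem mul0 {k : ℕ} {x y : L} (hx : x ∈ Φ.P 0) (hy : y ∈ Φ.P k) : x * y ∈ Φ.P k := by
  simpa using Φ.mul hx hy

theorem pow0 {x : L} (hx : x ∈ Φ.P 0) (n : ℕ) : x ^ n ∈ Φ.P 0 := by
  induction n with
  | zero => simpa using Φ.one
  | succ n ih => rw [pow_succ]; exact Φ.mul0 ih hx

theorem binom {k : ℕ} {x : L} (h : x ∈ Φ.P k) (n : ℕ) :
    (1 + x) ^ n - 1 - n * x ∈ Φ.P (k + k) := by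
  induction n with
  | zero => simp
  | succ n ih =>
    have : (1 + x) ^ (n + 1) - 1 - ((n + 1 : ℕ) : L) * x =
        (1 + x) * ((1 + x) ^ n - 1 - n * x) + n • (x * x) := by
      push_cast; ring
    rw [this]
    exact add_mem (Φ.mul0 (Φ.one_add h) ih) (nsmul_mem (Φ.mul h h) n)

variable [StarRing L]

theorem step {n e k : ℕ} {c : L} (hc : c * (2 * n) = 1) (hs : star c = c)
    (hd : ∀ k x, x ∈ Φ.P (k + e) → c * x ∈ Φ.P k) (hk : 2 * e + 1 ≤ k) {x : L}
    (hx : x * star x = 1) (h : x - 1 ∈ Φ.P k) :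
    ∃ g w w' x' : L, w * w' = 1 ∧ g * star w = w ∧ x' * star x' = 1 ∧ x' - 1 ∈ Φ.P (k + 1) ∧
      x = x' * g ^ n := by
  obtain ⟨k, rfl⟩ : ∃ j, k = j + e := ⟨k - e, by omega⟩
  obtain ⟨y, hy, h1⟩ := Φ.qinv (by omega) h
  rw [add_sub_cancel] at h1
  have h2 : star x - 1 = y := by linear_combination (1 + y) * hx - star x * h1
  have h3 := hd _ _ h
  have h4 := hd _ _ hy
  obtain ⟨u, hu, h5⟩ := Φ.qinv (by omega) h3
  have h6 : star (1 + c * (x - 1)) = 1 + c * y := by simp [hs, ← h2]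
  have h7 := congrArg star h5
  rw [star_mul', h6, star_one] at h7
  refine ⟨(1 + c * (x - 1)) * star (1 + u), 1 + c * (x - 1), 1 + u,
    x * ((1 + c * y) * (1 + u)) ^ n, h5, ?_, ?_, ?_, ?_⟩
  · rw [h6]; linear_combination (1 + c * (x - 1)) * h7
  · rw [star_mul', star_pow, star_mul', ← h6, star_star, mul_mul_mul_comm, hx, one_mul, ← mul_pow,
      h6, show (1 + c * y) * (1 + u) * ((1 + c * (x - 1)) * star (1 + u)) = 1 by
        linear_combination ((1 + c * y) * star (1 + u)) * h5 + h7, one_pow]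
  · have h8 : x * ((1 + c * y) * (1 + u)) ^ n - 1 = (1 + u) ^ n *
        (x * ((1 + c * y) ^ n - 1 - n * (c * y)) -
          ((1 + c * (x - 1)) ^ n - 1 - n * (c * (x - 1)))) := by
      have : (1 + u) ^ n * (1 + c * (x - 1)) ^ n = 1 := by rw [← mul_pow, mul_comm, h5, one_pow]
      rw [mul_pow]
      linear_combination this + (1 + u) ^ n * (n * c * h1 - (x - 1) * hc)
    rw [h8]
    refine Φ.anti (show k + e + 1 ≤ k + k by omega) (Φ.mul0 (Φ.pow0 (Φ.one_add hu) n)
      (sub_mem (Φ.mul0 ?_ (Φ.binom h4 n)) (Φ.binom h3 n)))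
    simpa using Φ.one_add h
  · rw [mul_assoc, ← mul_pow, show (1 + c * y) * (1 + u) * ((1 + c * (x - 1)) * star (1 + u)) = 1 by
      linear_combination ((1 + c * y) * star (1 + u)) * h5 + h7, one_pow, mul_one]

/-- **the root trick** -/
theorem root {n e k₁ : ℕ} {c : L} (hc : c * (2 * n) = 1) (hs : star c = c)
    (hd : ∀ k x, x ∈ Φ.P (k + e) → c * x ∈ Φ.P k) (G : Submonoid L)
    (h1 : ∀ g w w' : L, w * w' = 1 → g * star w = w → g ^ n ∈ G)
    (h2 : ∀ x, x * star x = 1 → x - 1 ∈ Φ.P k₁ → x ∈ G) {x : L}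
    (hx : x * star x = 1) (h : x - 1 ∈ Φ.P (2 * e + 1)) : x ∈ G := by
  have key : ∀ j k x, 2 * e + 1 ≤ k → k₁ ≤ k + j → x * star x = 1 → x - 1 ∈ Φ.P k → x ∈ G := by
    intro j
    induction j with
    | zero => exact fun k x _ h3 h4 h5 => h2 x h4 (Φ.anti h3 h5)
    | succ j ih =>
      intro k x h3 h4 h5 h6
      obtain ⟨g, w, w', x', e1, e2, e3, e4, rfl⟩ := Φ.step hc hs hd h3 h5 h6
      exact mul_mem (ih (k + 1) x' (by omega) (by omega) e3 e4) (h1 g w w' e1 e2)
  exact key k₁ _ x le_rfl (by omega) hx h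

end Fil

end Crest.Agent.T24.Ct2
end
end

-- ▼ part T24/Ct2_10
section

/-!
# Row 24, CT(2) (helper10): `ct2Stmt`
-/

set_option autoImplicit false
set_option linter.unusedSectionVars false

noncomputable section

namespace Crest.Agent.T24.Ct2

open NumberField Filter Quaternion WithZero Module In Csa

universe u v w t

section Alg

variable {F : Type*} [Field F] {a c : F}

theorem cancel {e x y : ℍ[F,a,0,c]} (he : nq e ≠ 0) (h : e * x = e * y) : x = y := by
  have h1 := congrArg (fun z => ⟨(nq e)⁻¹, 0, 0, 0⟩ * (star e * z)) h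
  have h2 : (⟨(nq e)⁻¹, 0, 0, 0⟩ : ℍ[F,a,0,c]) * ⟨nq e, 0, 0, 0⟩ = 1 := by ext <;> simp [he]
  simpa only [← mul_assoc (star e), star_mul_nq, ← mul_assoc, h2, one_mul] using h1

theorem conj_id (s t u w p r : F) :
    (⟨1, -s, 0, 0⟩ : ℍ[F,a,0,c]) * (⟨1, s, 0, 0⟩ * ⟨0, 0, u, w⟩ * ⟨p, -(r * t * s), r * u, r * w⟩ *
      ⟨t, -(t * s), u, w⟩) = ⟨1, s, 0, 0⟩ * (⟨t, -(t * s), u, w⟩ *
      (⟨1, s, 0, 0⟩ * ⟨0, 0, u, w⟩ * ⟨p, -(r * t * s), r * u, r * w⟩)) := by
  ext <;> simp <;> ring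

variable (c) in
/-- the standard torus -/
def tor : QuadraticAlgebra F a 0 →+* ℍ[F,a,0,c] where
  toFun z := ⟨z.re, z.im, 0, 0⟩
  map_one' := rfl
  map_zero' := rfl
  map_add' x y := by ext <;> simp
  map_mul' x y := by ext <;> simp

theorem tor_apply (z : QuadraticAlgebra F a 0) : tor c z = ⟨z.re, z.im, 0, 0⟩ := rfl

theorem tor_star (z : QuadraticAlgebra F a 0) : tor c (star z) = star (tor c z) := by
  ext <;> simp [tor_apply]

theorem nq_star (x : ℍ[F,a,0,c]) : nq (star x) = nq x := by simp [nq]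

theorem unit_iff (z : QuadraticAlgebra F a 0) :
    z * star z = 1 ↔ z.re ^ 2 - a * z.im ^ 2 = 1 := by
  rw [← QuadraticAlgebra.algebraMap_norm_eq_mul_star, ← map_one (algebraMap F _),
    (algebraMap F (QuadraticAlgebra F a 0)).injective.eq_iff, QuadraticAlgebra.norm_def]
  constructor <;> intro h <;> linear_combination h

theorem exists_cross (hc : c ≠ 0) {n₁ n₂ n₃ : F}
    (h : (⟨0, n₁, n₂, n₃⟩ : ℍ[F,a,0,c]) ≠ 0) : ∃ e₁ e₂ e₃ : F,
    (⟨0, c * (n₃ * e₂ - n₂ * e₃), a * (n₁ * e₃ - n₃ * e₁), n₁ * e₂ - n₂ * e₁⟩ : ℍ[F,a,0,c]) ≠ 0 := by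
  by_contra h0
  push Not at h0
  have h1 := congrArg QuaternionAlgebra.imK (h0 1 0 0)
  have h2 := congrArg QuaternionAlgebra.imK (h0 0 1 0)
  have h3 := congrArg QuaternionAlgebra.imI (h0 0 1 0)
  simp [hc] at h1 h2 h3
  exact h (by ext <;> simp [h1, h2, h3])

end Alg

variable {k K B : Type*} [Field k] [NumberField k] [Field K] [NumberField K] [Algebra k K]
  [StarRing K] [Ring B] [StarRing B] [Algebra K B] [StarModule K B] [Algebra.IsCentral K B]
  [IsSimpleRing B] [FiniteDimensional K B] [Algebra k B] [IsScalarTower k K B] [Algebra ℚ B]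
  {M : ℕ}

theorem ev_deep (hM : M ≠ 0) (hT : ∀ w ∈ TT K B, (M : 𝓞 K) ∈ w.asIdeal) (m : ℕ) :
    ∀ᶠ x in nr M (1 : B), x ∈ Deep K B m := by
  have := fdQ K B
  have h1 : Tendsto (fun x : B => x - 1) (nr M 1) (nr M 0) := by
    simpa using nr_sub (tendsto_id (x := nr M (1 : B))) (nr_const (1 : B))
  have h2 := (nr_Nrd (N := M) K (0 : B)).comp h1
  filter_upwards [h2.eventually
    ((N23.basis_val (Basis.singleton Unit K) hM _).mem_of_mem (i := m + 1) trivial)] with x hx w hw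
  have h3 := hx w (hT w hw) ()
  simp only [Function.comp, Basis.singleton_repr, map_zero, sub_zero] at h3
  exact h3.trans_lt (by rw [exp_lt_exp]; omega)

/-- the hypotheses -/
structure Hyp (k K : Type*) {B : Type*} [Field k] [NumberField k] [Field K] [NumberField K]
    [Algebra k K] [StarRing K] [Ring B] [StarRing B] [Algebra K B] [StarModule K B]
    [Algebra.IsCentral K B] [IsSimpleRing B] [FiniteDimensional K B] (M : ℕ) (θ : K) (δ : k) (m : ℕ)
    (N : Subgroup (unitary B)) : Prop where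
  an : Aniso B
  two : 2 ∣ M
  ne : M ≠ 0
  tt : ∀ w ∈ TT K B, (M : 𝓞 K) ∈ w.asIdeal
  sk : star θ = -θ
  ne' : θ ≠ 0
  sq : θ ^ 2 = algebraMap k K δ
  un : ∀ v : Hn.Pl k, (M : 𝓞 k) ∉ v.asIdeal → v.valuation k δ = 1
  idx : N.relIndex (SU K B) ≠ 0
  inv : ∀ u : unitary B, ∀ g ∈ SUm K B m, u * g * u⁻¹ * g⁻¹ ∈ N

variable {θ : K} {δ : k} {m : ℕ} {N : Subgroup (unitary B)}

theorem Hyp.le (H : Hyp k K M θ δ m N) : 2 ≤ M := Nat.le_of_dvd (Nat.pos_of_ne_zero H.ne) H.two

variable {F : Type*} [Field F] [NumberField F] [Algebra k F] (q : Quat F B)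

/-- the coordinates as an additive map -/
def elA : (Fin 4 → F) →+ B where
  toFun x := q.ι ⟨x 0, x 1, x 2, x 3⟩
  map_zero' := map_zero q.ι
  map_add' x y := by rw [← map_add]; rfl

/-- LEMMA Q -/
theorem Hyp.lemQ (H : Hyp k K M θ δ m N) (hk : ∀ y : k, q.i (algebraMap k F y) = algebraMap k B y)
    (hc : ∀ v : Hn.Pl F, (M : 𝓞 F) ∉ v.asIdeal → q.c ∈ Hn.LN (q.a : F) v) :
    ∀ᶠ s in nr M (0 : F), ∀ g : q.H, ⟨1, -s, 0, 0⟩ * g = ⟨1, s, 0, 0⟩ →
      ∀ G : unitary B, (G : B) = q.ι g → G ∈ N := by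
  have hδ : δ ≠ 0 := fun h => H.ne' (by simpa [h] using H.sq)
  have h1 : Tendsto (elA q) (nr M ![1, 0, 0, 0]) (nr M 1) := by
    have := nr_map (N := M) (elA q) ![1, 0, 0, 0]
    rwa [show elA q ![1, 0, 0, 0] = 1 from map_one q.ι] at this
  obtain ⟨m₁, -, h2⟩ := (N23.basis_val (Pi.basisFun F (Fin 4)) H.ne _).mem_iff.1
    (h1.eventually (ev_deep H.ne H.tt m))
  have hS : ∀ v, v ∈ (N23.finite_N (K := F) H.ne).toFinset ↔ (M : 𝓞 F) ∈ v.asIdeal := fun v => by
    simp
  obtain ⟨m', h3⟩ := core (N23.finite_N H.ne).toFinset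
    ((Set.Finite.toFinset_nonempty _).2 (N23.exists_N H.le)) q.a q.c
    (Units.mk0 (algebraMap k F δ) (by simpa using hδ))
    (fun v hv => by
      obtain ⟨M', h⟩ := H.two
      refine N23.val_eq_one (N := 2) fun h' => hv ((hS v).2 ?_)
      rw [h, Nat.cast_mul]
      exact Ideal.mul_mem_right _ _ h')
    (fun v hv => (Asa.below_eq_one v δ).2 (H.un _ fun h => hv ((hS v).2 (by
      simpa using Ideal.mem_comap.1 h))))
    (fun v hv => hc v fun h => hv ((hS v).2 h)) m₁
  filter_upwards [(N23.basis_val (Basis.singleton Unit F) H.ne 0).mem_of_mem (i := max m' m₁)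
    trivial] with s hs g hg G hG
  replace hs : ∀ v : Hn.Pl F, (M : 𝓞 F) ∈ v.asIdeal →
      v.valuation F s ≤ exp (-((max m' m₁ : ℕ) : ℤ)) := fun v hv => by simpa using hs v hv ()
  by_cases hs0 : s = 0
  · have : g = 1 := by
      have h4 : (⟨1, -s, 0, 0⟩ : q.H) = 1 := by ext <;> simp [hs0]
      rw [h4, one_mul] at hg
      rw [hg]; ext <;> simp [hs0]
    rw [show G = 1 from Subtype.ext (by rw [hG, this, map_one]; rfl)]
    exact one_mem _
  obtain ⟨t, u, w, p, r, z₁, z₂, e1, e2, e3, e4⟩ := h3 s hs0 fun v hv =>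
    (hs v ((hS v).1 hv)).trans (Asa.exp_neg_anti (le_max_left _ _))
  simp only [Units.val_mk0] at e2 e3
  have hy : nq (⟨t, -(t * s), u, w⟩ : q.H) = 1 := by simp only [nq]; linear_combination e1
  have hx : nq ((⟨1, s, 0, 0⟩ * ⟨0, 0, u, w⟩ * ⟨p, -(r * t * s), r * u, r * w⟩ : q.H)) =
      z₁ ^ 2 - algebraMap k F δ * z₂ ^ 2 := by
    rw [nq_mul, nq_mul, ← e2]
    simp only [nq]
    rw [show (0 : F) ^ 2 - q.a * 0 ^ 2 - q.c * u ^ 2 + q.a * q.c * w ^ 2 =
      1 - t ^ 2 * (1 - s ^ 2 * q.a) by linear_combination e1,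
      show p ^ 2 - q.a * (-(r * t * s)) ^ 2 - q.c * (r * u) ^ 2 + q.a * q.c * (r * w) ^ 2 =
      p ^ 2 + (1 - t ^ 2) * r ^ 2 by linear_combination r ^ 2 * e1]
    ring
  rw [← e2] at e3
  have hD := left_ne_zero_of_mul (left_ne_zero_of_mul e3)
  have hν := right_ne_zero_of_mul (left_ne_zero_of_mul e3)
  obtain ⟨U, hU⟩ := q.comm (θ := algebraMap K B θ) (d := algebraMap k F δ)
    (by rw [T24.star_algebraMap (K := K), H.sk, map_neg])
    (by rw [← map_mul, ← pow_two θ, H.sq, hk, ← IsScalarTower.algebraMap_apply])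
    (Algebra.commutes θ) hx (by rwa [hx, ← e2]) (y := ⟨t, -(t * s), u, w⟩) (g := g)
    (cancel (e := ⟨1, -s, 0, 0⟩) (by simpa [nq, mul_comm] using hD) (by
      rw [conj_id, ← hg]; simp only [mul_assoc])) ⟨_, q.ι_mem hy⟩ G rfl hG
  rw [← hU]
  refine H.inv U _ ⟨?_, ?_⟩
  · refine q.char_one (Nrd K : B →*₀ K).toMonoidHom (w := 1 + ⟨t, -(t * s), u, w⟩)
      (r := ⟨0, 0, q.a * w, u⟩) (fun h => mul_ne_zero q.a.ne_zero hν ?_) (q.aniso H.an fun h => hν ?_)
      (by ext <;> simp <;> ring) ?_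
    · simp only [nq] at h
      linear_combination -h - q.a * e1
    · have h5 := congrArg QuaternionAlgebra.imJ h
      have h6 := congrArg QuaternionAlgebra.imK h
      simp at h5 h6
      rw [h5, h6] at e1
      linear_combination -e1
    · rw [star_add, star_one, mul_add, mul_one, mul_star_nq, hy, add_comm]; rfl
  · refine h2 (a := ![t, -(t * s), u, w]) fun v hv i => ?_
    obtain ⟨e5, e6, e7⟩ := e4 v ((hS v).2 hv)
    fin_cases i
    · simpa using e5
    · have h5 : v.valuation F t ≤ 1 := by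
        have := (v.valuation F).map_add_le (e5.trans (Asa.exp_neg_le_one _)) (map_one _).le
        rwa [sub_add_cancel] at this
      simpa using (mul_le_of_le_one_left' h5).trans
        ((hs v hv).trans (Asa.exp_neg_anti (le_max_right _ _)))
    · simpa using e6
    · simpa using e7

/-- the torus inside `B` -/
def lam : QuadraticAlgebra F (q.a : F) 0 →+* B := q.ι.comp (tor (q.c : F))

theorem lam_apply (z : QuadraticAlgebra F (q.a : F) 0) :
    lam q z = q.i z.re + q.i z.im * q.j := by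
  simp [lam, tor_apply, Quat.ι_mk, Quat.el]

theorem lam_star (z : QuadraticAlgebra F (q.a : F) 0) : lam q (star z) = star (lam q z) := by
  rw [lam, RingHom.comp_apply, tor_star, q.ι_star]; rfl

/-- the filtration of the torus -/
def fil [FiniteDimensional ℚ B] (hM : 2 ≤ M) (O : Subalgebra (ZN M) B) (h : O.toSubmodule.FG) :
    Fil (QuadraticAlgebra F (q.a : F) 0) where
  P j := (dp O.toSubmodule j).toAddSubgroup.comap (lam q).toAddMonoidHom
  one := mem_dp_zero (Λ := O.toSubmodule) (by simp)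
  mul {_ _ x y} hx hy := by
    change lam q (x * y) ∈ dp _ _
    rw [map_mul]; exact mul_mem_dp O hx hy
  anti hkl := AddSubgroup.comap_mono (dp_anti _ hkl)
  qinv {j x} hj hx := by
    obtain ⟨y, hy, h1, h2⟩ := exists_qinv hM h hj (x := lam q x) hx
    have h3 : IsUnit (lam q (1 + x)) := by rw [map_add, map_one]; exact ⟨⟨_, _, h1, h2⟩, rfl⟩
    have h4 : IsUnit (1 + x) := by
      rw [QuadraticAlgebra.isUnit_iff_norm_isUnit, isUnit_iff_ne_zero]
      intro h0
      have := h3.mul h3.star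
      rw [← lam_star, ← map_mul, ← QuadraticAlgebra.algebraMap_norm_eq_mul_star, h0, map_zero,
        map_zero] at this
      exact not_isUnit_zero this
    obtain ⟨w, hw⟩ := h4.exists_right_inv
    refine ⟨w - 1, ?_, by rwa [add_sub_cancel]⟩
    change lam q (w - 1) ∈ dp _ _
    have h5 := congrArg (lam q) hw
    rw [map_mul, map_add, map_one] at h5
    rwa [map_sub, map_one, ← left_inv_eq_right_inv h2 h5, add_sub_cancel_left]

theorem Hyp.near (H : Hyp k K M θ δ m N) (hk : ∀ y : k, q.i (algebraMap k F y) = algebraMap k B y)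
    (hc : ∀ v : Hn.Pl F, (M : 𝓞 F) ∉ v.asIdeal → q.c ∈ Hn.LN (q.a : F) v) :
    ∀ᶠ z in comap (lam q) (nr M (1 : B)), z * star z = 1 →
      ∀ G : unitary B, (G : B) = lam q z → G ∈ N := by
  have := fdQ K B
  have h0 : Tendsto (lam q) (comap (lam q) (nr M (1 : B))) (nr M 1) := tendsto_comap
  have h1 : Tendsto (fun z => star (lam q z)) (comap (lam q) (nr M (1 : B))) (nr M 1) := by
    simpa using nr_lin (starAddEquiv (R := B)).toAddMonoidHom h0
  have h2 : Tendsto (fun z : QuadraticAlgebra F (q.a : F) 0 => 2⁻¹ * (1 + z.re))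
      (comap (lam q) (nr M (1 : B))) (nr M 1) := by
    refine nr_of_inj q.i.toAddMonoidHom q.i.injective ?_
    have h3 := nr_mul (nr_const (q.i 4⁻¹)) (nr_add (nr_const (q.i 2)) (nr_add h0 h1))
    convert h3 using 2 with z
    · rw [← lam_star, ← map_add, lam_apply]
      simp only [QuadraticAlgebra.re_add, QuadraticAlgebra.im_add, QuadraticAlgebra.re_star,
        QuadraticAlgebra.im_star, add_neg_cancel, map_zero, zero_mul, add_zero, ← map_add,
        ← map_mul]
      exact congrArg q.i (by ring)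
    · rw [← map_one q.i, ← map_add, ← map_add, ← map_mul]
      exact congrArg q.i (by norm_num)
  have h4 : Tendsto (fun z : QuadraticAlgebra F (q.a : F) 0 => 2⁻¹ * z.im)
      (comap (lam q) (nr M (1 : B))) (nr M 0) := by
    refine nr_of_inj q.i.toAddMonoidHom q.i.injective ?_
    have h3 := nr_mul (nr_mul (nr_const (q.i (4 * q.a)⁻¹)) (nr_sub h0 h1)) (nr_const q.j)
    convert h3 using 2 with z
    · rw [← lam_star, ← map_sub, lam_apply]
      simp only [QuadraticAlgebra.re_sub, QuadraticAlgebra.im_sub, QuadraticAlgebra.re_star,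
        QuadraticAlgebra.im_star, sub_self, map_zero, zero_mul, add_zero, zero_add, mul_assoc,
        q.jj, ← map_mul]
      exact congrArg q.i (by field_simp; ring)
    · simp
  have h5 := nr_mul h4 ((nr_inverse H.le).comp h2)
  rw [zero_mul] at h5
  filter_upwards [h5.eventually (H.lemQ q hk hc), h2.eventually (ev_isUnit H.le)] with z h6 h7 h8
  have h9 : 1 + z.re ≠ 0 := right_ne_zero_of_mul h7.ne_zero
  have h10 := (unit_iff z).1 h8
  refine h6 (tor _ z) ?_
  ext <;> simp [tor_apply] <;> field_simp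
  · linear_combination h10
  · ring

theorem Hyp.torus [FiniteDimensional ℚ B] (H : Hyp k K M θ δ m N)
    (hk : ∀ y : k, q.i (algebraMap k F y) = algebraMap k B y)
    (hc : ∀ v : Hn.Pl F, (M : 𝓞 F) ∉ v.asIdeal → q.c ∈ Hn.LN (q.a : F) v)
    {O : Subalgebra (ZN M) B} (hO : Lat M O.toSubmodule) {e : ℕ}
    (he : (M : ℚ) ^ e * (2 * ((N.relIndex (SU K B)).factorial : ℚ))⁻¹ ∈ ZN M)
    {z : QuadraticAlgebra F (q.a : F) 0} (hz : z * star z = 1)
    (h : lam q z - 1 ∈ dp O.toSubmodule (2 * e + 1)) (G : unitary B) (hG : (G : B) = lam q z) :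
    G ∈ N := by
  set n := (N.relIndex (SU K B)).factorial with hn
  have hn0 : (n : F) ≠ 0 := Nat.cast_ne_zero.2 (Nat.factorial_ne_zero _)
  obtain ⟨k₁, -, h1⟩ := ((hO.nr_basis 1).comap (lam q)).mem_iff.1 (H.near q hk hc)
  have key := (fil q H.le O hO.fg).root (n := n) (e := e) (k₁ := k₁)
    (c := algebraMap F _ (2 * n : F)⁻¹) (by
      have : (2 * n : QuadraticAlgebra F (q.a : F) 0) = algebraMap F _ (2 * n) := by
        rw [map_mul, map_natCast, map_ofNat]
      rw [this, ← map_mul, inv_mul_cancel₀ (by simpa using hn0), map_one]) (by ext <;> simp)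
    (fun j x hx => by
      obtain ⟨y, hy, h2⟩ := hx
      refine ⟨_, zsmul_mem he hy, ?_⟩
      change _ = lam q (_ * x)
      have h3 : lam q (algebraMap F _ (2 * n : F)⁻¹) = algebraMap ℚ B (2 * n : ℚ)⁻¹ := by
        have : (2 * n : F)⁻¹ = algebraMap ℚ F (2 * n : ℚ)⁻¹ := by simp
        rw [lam_apply, this]
        simp only [QuadraticAlgebra.algebraMap_re, QuadraticAlgebra.algebraMap_im, map_zero,
          zero_mul, add_zero]
        exact RingHom.map_rat_algebraMap _ _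
      rw [map_mul, h3, ← Algebra.smul_def, show lam q x = _ from h2.symm, smul_smul, smul_smul]
      congr 1; ring)
    ((N.toSubmonoid.map (unitary B).subtype).comap (lam q).toMonoidHom)
    (fun g w w' h2 h3 => by
      have h4 : nq (tor (q.c : F) w) ≠ 0 := fun h0 => by
        have := congrArg (fun y => nq (tor (q.c : F) y)) h2
        simp only [map_mul, nq_mul, h0, zero_mul, map_one] at this
        simp [nq] at this
      have h5 := congrArg (tor (q.c : F)) h3
      rw [map_mul, tor_star] at h5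
      have h6 : nq (tor (q.c : F) g) = 1 := by
        have := congrArg nq h5
        rw [nq_mul, nq_star] at this
        exact mul_right_cancel₀ h4 (this.trans (one_mul _).symm)
      have h7 : (⟨_, q.ι_mem h6⟩ : unitary B) ∈ SU K B :=
        q.char_one (Nrd K : B →*₀ K).toMonoidHom (r := ⟨0, 0, 1, 0⟩) (by simp [nq]) h4
          (by ext <;> simp [tor_apply]) h5
      exact ⟨_, (Subgroup.pow_mem_of_relIndex_ne_zero_of_dvd H.idx h7 (n := n)
        fun j h8 h9 => Nat.dvd_factorial h8 h9).1, (map_pow (lam q) g n).symm⟩)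
    (fun x h2 h3 => by
      have h4 : lam q x ∈ unitary B := by
        rw [Unitary.mem_iff, ← lam_star, ← map_mul, ← map_mul, mul_comm, h2, map_one]; simp
      exact ⟨⟨_, h4⟩, h1 (show lam q x - 1 ∈ dp _ _ by
        rw [← map_one (lam q), ← map_sub]; exact h3) h2 _ rfl, rfl⟩)
    hz (show lam q (z - 1) ∈ dp _ _ by rwa [map_sub, map_one])
  obtain ⟨G', h2, h3⟩ := key
  rwa [show G = G' from Subtype.ext (hG.trans h3.symm)]

theorem ct (hB : Aniso B) : Ct.{t} k K B := by
  intro M θ δ h1 h2 h3 h4 h5 h6 h7 m N h8 h9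
  have H : Hyp k K M θ δ m N := ⟨hB, h1, h2, h3, h4, h5, h6, h7, h8, h9⟩
  have := fdQ K B
  obtain ⟨O, hO⟩ := exists_od M B
  obtain ⟨e, he⟩ := exists_pow_mul_mem M (2 * ((N.relIndex (SU K B)).factorial : ℚ))⁻¹
  filter_upwards [hO.ev_nr 1 (2 * e + 1)] with x hx F _ _ _ q hk hc ⟨x₀, x₁, x₂, x₃, h⟩ hu
  have h10 : nq (⟨x₀, x₁, x₂, x₃⟩ : q.H) = 1 := q.nq_eq_one (by rwa [q.ι_mk, ← h])
  by_cases h0 : (⟨0, x₁, x₂, x₃⟩ : q.H) = 0
  · obtain ⟨-, rfl, rfl, rfl⟩ := QuaternionAlgebra.mk.inj h0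
    have h11 : x = lam q ⟨x₀, 0⟩ := by rw [h]; rfl
    exact H.torus q hk hc hO he (z := ⟨x₀, 0⟩) ((unit_iff _).2 (by simpa [nq] using h10))
      (h11 ▸ hx) _ h11
  obtain ⟨e₁, e₂, e₃, h11⟩ := exists_cross q.c.ne_zero h0
  let q' := q.rot _ _ rfl rfl (by ext <;> simp <;> ring) (q.aniso hB h0) (q.aniso hB h11)
  have h12 : x = lam q' ⟨x₀, 1⟩ := by
    rw [lam_apply, h]
    change _ = q.i x₀ + q.i 1 * q.ι _
    simp [Quat.ι_mk, Quat.el, add_assoc]
  refine H.torus q' hk (fun v hv => ?_) hO he (z := ⟨x₀, 1⟩) ?_ (h12 ▸ hx) _ h12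
  · have : CharZero (v.adicCompletion F) := algebraRat.charZero _
    refine (Hn.Loc.mem_LN_iff v _ _).2 (split_rot (n₁ := algebraMap F _ x₁) (n₂ := algebraMap F _ x₂)
      (n₃ := algebraMap F _ x₃) (e₁ := algebraMap F _ e₁) (e₂ := algebraMap F _ e₂)
      (e₃ := algebraMap F _ e₃) (by simp) (by simp) ((Hn.Loc.mem_LN_iff v _ _).1 (hc v hv)) ?_ ?_
      (by simp) (by simp))
    · simp only [← map_pow, ← map_mul, ← map_add, ← map_sub]
      congr 1
      change -nq _ = _
      simp only [nq]; ring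
    · simp only [← map_pow, ← map_mul, ← map_add, ← map_sub]
      congr 1
      change -nq _ = _
      simp only [nq]; ring
  · have h13 : (q'.a : F) = -nq (⟨0, x₁, x₂, x₃⟩ : q.H) := rfl
    rw [unit_iff]
    simp only [nq] at h10 h13 ⊢
    linear_combination h10 - h13

theorem ct2Stmt : Ct2Stmt.{u, v, w, t} := fun _ _ hB => ct hB

end Crest.Agent.T24.Ct2
end
end

-- ▼ part T24/EvnGd_7
section

/-!
# Row 24, even step (helper7): an embedding whose quaternion algebra is split off `M`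
-/

set_option autoImplicit false
set_option linter.unusedSectionVars false

noncomputable section

namespace Crest.Agent.T24.Evn

open Module NumberField Csa Asa Polynomial Filter

universe u v w

namespace G7

theorem exists_M {k : Type*} [Field k] [NumberField k] (x : kˣ) :
    ∃ M : ℕ, M ≠ 0 ∧ ∀ v : Pl k, (M : 𝓞 k) ∉ v.asIdeal → v.valuation k x = 1 := by
  classical
  refine ⟨∏ v ∈ (finite_ne_one x.ne_zero).toFinset, Ideal.absNorm v.asIdeal,
    Finset.prod_ne_zero_iff.2 fun v _ => Ideal.absNorm_eq_zero_iff.not.2 v.ne_bot, fun v hv => ?_⟩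
  by_contra h
  obtain ⟨c, hc⟩ := Finset.dvd_prod_of_mem (fun v : Pl k => Ideal.absNorm v.asIdeal)
    ((finite_ne_one x.ne_zero).mem_toFinset.2 h)
  rw [hc, Nat.cast_mul] at hv
  exact hv (Ideal.mul_mem_right _ _ (Ideal.absNorm_mem _))

theorem notMem_of_dvd {k : Type*} [Field k] {a b : ℕ} (h : a ∣ b) {v : Pl k}
    (hv : (b : 𝓞 k) ∉ v.asIdeal) : (a : 𝓞 k) ∉ v.asIdeal := fun ha => by
  obtain ⟨c, rfl⟩ := h
  rw [Nat.cast_mul] at hv
  exact hv (Ideal.mul_mem_right _ _ ha)

theorem norm_quad {F L : Type*} [Field F] [NumberField F] [Field L] [NumberField L] [Algebra F L]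
    (h2 : finrank F L = 2) {e : L} {r : F} (he : e * e = algebraMap F L r)
    (hL : ∀ x : L, ∃ a b : F, x = algebraMap F L a + algebraMap F L b * e) (a b : F) :
    Algebra.norm F (algebraMap F L a + algebraMap F L b * e) = a ^ 2 - r * b ^ 2 := by
  obtain ⟨σ, h1, -, h3, -⟩ := Ev.R57.exists_sigma h2
  have h4 : σ e * σ e = e * e := by rw [← map_mul, he, σ.commutes]
  have h5 : σ e = -e := (mul_self_eq_mul_self_iff.1 h4).resolve_left fun h => h1 (by
    ext x
    obtain ⟨a, b, rfl⟩ := hL x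
    simp [h])
  apply (algebraMap F L).injective
  rw [h3, map_add, map_mul, σ.commutes, σ.commutes, h5, map_sub, map_mul, map_pow, map_pow, ← he]
  ring

variable {D : Dat.{u, v, w}} (T : Tow D)

theorem conj_aeval (z : T.Cˣ) (th : T.C) (f : D.k[X]) :
    aeval ((z : T.C) * th * (z⁻¹ : T.Cˣ)) f = (z : T.C) * aeval th f * (z⁻¹ : T.Cˣ) :=
  aeval_algHom_apply (MulSemiringAction.toAlgHom D.k _ (ConjAct.toConjAct z)) th f

theorem star_aeval' {th : T.C} (h : star th = th) (f : D.k[X]) : star (aeval th f) = aeval th f := by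
  rw [← aeval_map_algebraMap T.E, star_aeval, h, Polynomial.map_map]
  congr 2
  ext a
  exact T.star_k a

/-- the twisted pair -/
theorem twist {P β γ : D.k[X]} {th s s' : T.C} {κ : D.B} (h : T.HC P th) (hκ : T.Kp th κ β)
    (z : T.Cˣ) (hz : star (z : T.C) * z = s) (h1 : s * th = th * s) (h2 : κ * s = s' * κ)
    (h3 : s' * aeval th β * s = aeval th (β * γ)) :
    T.HC P ((z : T.C) * th * (z⁻¹ : T.Cˣ)) ∧
      T.Kp ((z : T.C) * th * (z⁻¹ : T.Cˣ)) ((z : T.C) * κ * (star (z : T.C) : T.C)) (β * γ) := by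
  have e1 : star (z : T.C) = s * (z⁻¹ : T.Cˣ) := by rw [← hz, Units.mul_inv_cancel_right]
  have e2 : star ((z⁻¹ : T.Cˣ) : T.C) * star (z : T.C) = 1 := by
    rw [← star_mul, Units.mul_inv, star_one]
  have hu : IsUnit ((z : T.C) : D.B) := z.isUnit.map (Cz T.i).val
  have c1 : ∀ c : T.C, (c : D.B) * T.i₀ = T.i₀ * c := fun c => (T.mem_C_iff.1 c.2).eq
  have e3 : (((z⁻¹ : T.Cˣ) : T.C) : D.B) * (z : T.C) = 1 := congrArg Subtype.val z.inv_mul
  have e4 : ((star (z : T.C) : T.C) : D.B) * (z : T.C) = s := congrArg Subtype.val hz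
  have e5 : ((star (z : T.C) : T.C) : D.B) = (s : D.B) * ((z⁻¹ : T.Cˣ) : T.C) :=
    congrArg Subtype.val e1
  have e6 : (s : D.B) * th = th * s := congrArg Subtype.val h1
  refine ⟨⟨?_, by rw [rch_units_conj]; exact h.2⟩, ?_, ?_, ?_, ?_, ?_⟩
  · rw [star_mul, star_mul, h.1]
    have : th * star (z : T.C) = star (z : T.C) * ((z : T.C) * th * (z⁻¹ : T.Cˣ)) := by
      rw [← mul_assoc, ← mul_assoc, hz, h1, e1, mul_assoc]
    rw [this, ← mul_assoc, e2, one_mul]
  · rw [star_mul, star_mul, hκ.skew, Cz.coe_star, star_star]; noncomm_ring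
  · exact (hu.mul hκ.unit).mul hu.star
  · rw [mul_assoc, c1, ← mul_assoc, mul_assoc _ κ, hκ.anti, mul_neg, ← mul_assoc, c1]
    noncomm_ring
  · simp only [MulMemClass.coe_mul]
    rw [e5]
    linear_combination (norm := noncomm_ring)
      (z : T.C) * κ * s * e3 * th * ((z⁻¹ : T.Cˣ) : T.C)
      + (z : T.C) * κ * e6 * ((z⁻¹ : T.Cˣ) : T.C)
      + (z : T.C) * hκ.comm * s * ((z⁻¹ : T.Cˣ) : T.C)
      - (z : T.C) * th * e3 * κ * s * ((z⁻¹ : T.Cˣ) : T.C)
  · rw [← T.coe_aeval, conj_aeval, ← h3]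
    simp only [MulMemClass.coe_mul]
    rw [T.coe_aeval, ← hκ.sq]
    linear_combination (norm := noncomm_ring)
      (z : T.C) * κ * e4 * κ * (star (z : T.C) : T.C)
      + (z : T.C) * h2 * κ * (star (z : T.C) : T.C)
      + (z : T.C) * s' * κ * κ * e5

theorem core [Algebra ℚ D.B] (hA : AdjStmt.{u}) (hT : TwStmt.{u, v, w}) {M : ℕ} (hM : 2 ≤ M)
    (hM2 : 2 ∣ M) {c₀ : D.kˣ} (hv : ∀ v : Pl D.k, (M : 𝓞 D.k) ∉ v.asIdeal →
      v.valuation D.k T.δ = 1 ∧ v.valuation D.k T.r = 1 ∧ v.valuation D.k c₀ = 1)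
    {P β : D.k[X]} {th : T.C} {κ : D.B} (h : T.HC P th) (hκ : T.Kp th κ β)
    (F L : Type u) [Field F] [NumberField F] [Field L] [NumberField L] [Algebra D.k F]
    [Algebra D.k L] [Algebra T.k₁ L] [Algebra F L] [IsScalarTower D.k T.k₁ L]
    [IsScalarTower D.k F L] (l : F) (j : L →ₐ[T.k₁] T.C) (hj : j (algebraMap F L l) = th)
    (hF : ∀ x : F, ∃ f : D.k[X], x = aeval l f)
    (hL : ∀ x : L, ∃ a b : F, x = algebraMap F L a + algebraMap F L b * algebraMap T.k₁ L T.e)
    (h2 : finrank F L = 2) (hd : finrank T.k₁ L = deg T.E T.C)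
    (hn : ∀ b : Fˣ, (b : F) = aeval l β → Hil.nm D.k b / c₀ ∈ Hn.Nr (T.ε : D.k))
    (hs : ∀ b : Fˣ, (b : F) = aeval l β → ∀ w : Pl F, (M : 𝓞 F) ∉ w.asIdeal →
      Hn.io D.k F T.δ ∈ Hn.Sq w → b ∈ Hn.LN (algebraMap D.k F T.ε) w)
    {V : Set D.B} (hV : V ∈ In.nr M (th : D.B)) :
    ∃ (th' : T.C) (κ' : D.B) (β' : D.k[X]), (th' : D.B) ∈ V ∧ T.HC P th' ∧ T.Kp th' κ' β' ∧
      ∃ b : Fˣ, (b : F) = aeval l β' ∧ ∀ w : Pl F, (M : 𝓞 F) ∉ w.asIdeal →
        b ∈ Hn.LN (algebraMap D.k F T.ε) w := by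
  set e := algebraMap T.k₁ L T.e with he
  have ja : ∀ f : D.k[X], j (algebraMap F L (aeval l f)) = aeval th f := fun f => by
    rw [← aeval_algebraMap_apply, ← hj]
    exact (aeval_algHom_apply (j.restrictScalars D.k) _ f).symm
  have je : j e = algebraMap T.E T.C T.e' := j.commutes _
  have ee : e * e = algebraMap F L (algebraMap D.k F T.r) := by
    rw [he, ← map_mul, T.ee, ← IsScalarTower.algebraMap_apply, ← IsScalarTower.algebraMap_apply]
  have ka : ∀ a : F, κ * j (algebraMap F L a) = j (algebraMap F L a) * κ := fun a => by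
    obtain ⟨f, rfl⟩ := hF a
    rw [ja, T.coe_aeval]
    induction f using Polynomial.induction_on' with
    | add p q hp hq => rw [map_add, mul_add, add_mul, hp, hq]
    | monomial n c =>
      rw [aeval_monomial, ← Algebra.smul_def, mul_smul_comm, smul_mul_assoc,
        (Commute.pow_right hκ.comm n).eq]
  have ke : κ * j e = -(j e * κ) := by
    rw [je, Cz.coe_algebraMap, T.anti_iff.1 hκ.anti, T.σ_e', map_neg, neg_mul]
  have hst : ∀ x, star (j x) = j x := fun x => by
    obtain ⟨a, b, rfl⟩ := hL x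
    obtain ⟨f, rfl⟩ := hF a
    obtain ⟨g, rfl⟩ := hF b
    have : star (j e) = j e := by rw [je, star_algebraMap, T.star_e']
    rw [map_add, star_add, map_mul, star_mul, this, ja, ja, star_aeval' T h.1, star_aeval' T h.1,
      ← ja g, ← map_mul, ← map_mul, mul_comm]
  have hb0 : aeval l β ≠ 0 := fun h0 => by
    have := ja β
    rw [h0, map_zero, map_zero] at this
    have h3 := hκ.sq
    rw [← T.coe_aeval, ← this] at h3
    exact (hκ.unit.mul hκ.unit).ne_zero h3
  have hr : ¬ IsSquare (algebraMap D.k F T.r) := fun ⟨x, hx⟩ => by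
    have h3 : algebraMap F L x * algebraMap F L x = e * e := by rw [ee, hx, map_mul]
    have h4 : κ * j e = j e * κ := by
      rcases mul_self_eq_mul_self_iff.1 h3 with h5 | h5
      · rw [← h5]; exact ka x
      · have := ka x
        rw [h5, map_neg] at this
        simpa using this
    have h5 : IsUnit ((j e : T.C) : D.B) := by
      rw [je, Cz.coe_algebraMap]; exact (IsUnit.mk0 _ T.e'_ne).map T.i
    have h6 : (2 : D.K) • ((j e : D.B) * κ) = 0 := by
      rw [two_smul]; exact add_eq_zero_iff_eq_neg.2 (h4.symm.trans ke)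
    exact (h5.mul hκ.unit).ne_zero ((smul_eq_zero.1 h6).resolve_left two_ne_zero)
  obtain ⟨s, s1, s2, s3, s4⟩ := hA D.k T.k₁ F L T.e T.δ T.r c₀ (Units.mk0 _ hb0) M T.ee T.fr₁ h2 hr
    hM hM2 hv (hn _ rfl) (hs _ rfl)
  obtain ⟨z, hz1, hz2⟩ := hT T.dat (algebraMap D.K T.E T.θ) (Hn.io D.k T.k₁ T.δ) T.star_θ'
    (by rw [sq, T.θ_sq]; exact (T.alg_k₁ _).symm) L j hst hd M hM s s3 s1 s2 (algebraMap F L l)
    (Subtype.val ⁻¹' V) (by
      rw [hj]; exact In.nr_map (Cz T.i).val.toRingHom.toAddMonoidHom th hV)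
  rw [hj] at hz2
  obtain ⟨a, b, hab⟩ := hL s
  obtain ⟨γ, hγ⟩ := hF (Algebra.norm F (s : L))
  have hN : (algebraMap F L a - algebraMap F L b * e) * s = algebraMap F L (aeval l γ) := by
    rw [← hγ, hab, norm_quad h2 ee hL, map_sub, map_mul, map_pow, map_pow, ← ee]; ring
  obtain ⟨t1, t2⟩ := twist T (γ := γ) (s' := j (algebraMap F L a - algebraMap F L b * e)) h hκ z hz1
    (by rw [← hj, ← map_mul, ← map_mul, mul_comm]) (by
      rw [hab]
      simp only [map_add, map_sub, map_mul, AddMemClass.coe_add, AddSubgroupClass.coe_sub,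
        MulMemClass.coe_mul]
      linear_combination (norm := noncomm_ring) ka a + ka b * (j e : D.B)
        + (j (algebraMap F L b) : D.B) * ke) (by
      rw [← ja, ← ja, ← map_mul, ← map_mul, map_mul (aeval l), map_mul (algebraMap F L), ← hN]
      congr 1; ring)
  exact ⟨_, _, _, hz2, t1, t2, Units.mk0 _ hb0 * Hil.nm F s, by
    rw [map_mul, ← hγ]; rfl, s4⟩

end G7

open G7 in
theorem gdStmt (hK : KapStmt.{u, v, w}) (hS : SpqStmt.{u, v, w}) (hA : AdjStmt.{u})
    (hT : TwStmt.{u, v, w}) : GdStmt.{u, v, w} := fun D _ T => by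
  obtain ⟨c₀, hc⟩ := hK D T
  obtain ⟨M₀, hM₀, hs⟩ := hS D T
  obtain ⟨M₁, h₁, g₁⟩ := exists_M T.δ
  obtain ⟨M₂, h₂, g₂⟩ := exists_M T.r
  obtain ⟨M₃, h₃, g₃⟩ := exists_M c₀
  refine ⟨2 * (M₀ * (M₁ * M₂ * M₃)), Nat.le_mul_of_pos_right _ (by positivity),
    fun M hM hd P th hP h V hV => ?_⟩
  have hr := (T.HC_iff.1 h).2
  have hm : P.Monic := monic_of_injective (algebraMap D.k T.E).injective (hr ▸ rch_monic T.E th)
  have hP' : Irreducible P := hm.irreducible_of_irreducible_map _ _ hP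
  have hdeg : P.natDegree = deg T.E T.C := by
    rw [← natDegree_map (algebraMap D.k T.E), ← hr, rch_natDegree]
  obtain ⟨κ, β, hκ, hn⟩ := hc P th hP h
  have := Fact.mk hP
  have := Fact.mk hP'
  set Q := P.map (algebraMap D.k T.k₁) with hQ
  let F := AdjoinRoot P
  let L := AdjoinRoot Q
  have fF : finrank D.k F = P.natDegree := (AdjoinRoot.powerBasis hP'.ne_zero).finrank
  have fL : finrank T.k₁ L = P.natDegree :=
    (AdjoinRoot.powerBasis hP.ne_zero).finrank.trans (natDegree_map _)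
  have := (AdjoinRoot.powerBasis hP'.ne_zero).finite
  have := (AdjoinRoot.powerBasis hP.ne_zero).finite
  have : NumberField F := NumberField.of_module_finite D.k F
  have : NumberField L := NumberField.of_module_finite T.k₁ L
  have hl : aeval (AdjoinRoot.root P) P = 0 := AdjoinRoot.aeval_eq P ▸ AdjoinRoot.mk_self
  have hl' : aeval (AdjoinRoot.root Q) P = 0 := by
    rw [← aeval_map_algebraMap T.k₁]; exact AdjoinRoot.aeval_eq Q ▸ AdjoinRoot.mk_self
  let φ : F →ₐ[D.k] L := AdjoinRoot.liftAlgHom P (Algebra.ofId _ _) (AdjoinRoot.root Q) hl'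
  have hφ : φ (AdjoinRoot.root P) = AdjoinRoot.root Q := AdjoinRoot.liftAlgHom_root ..
  let _ : Algebra F L := φ.toAlgebra
  have : IsScalarTower D.k F L := IsScalarTower.of_algebraMap_eq fun x => (φ.commutes x).symm
  have hth : aeval th Q = 0 := by
    rw [hQ, aeval_map_algebraMap, ← aeval_map_algebraMap T.E, ← hr, aeval_rch]
  let j : L →ₐ[T.k₁] T.C := Ideal.Quotient.liftₐ _ (aeval th) fun a ha => by
    obtain ⟨c, rfl⟩ := Ideal.mem_span_singleton.1 ha
    rw [map_mul, hth, zero_mul]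
  have hj : j (algebraMap F L (AdjoinRoot.root P)) = th := by
    rw [show algebraMap F L _ = _ from hφ]
    exact aeval_X th
  have hF : ∀ x : F, ∃ f : D.k[X], x = aeval (AdjoinRoot.root P) f := fun x =>
    AdjoinRoot.induction_on P x fun f => ⟨f, (AdjoinRoot.aeval_eq f).symm⟩
  have hL : ∀ x : L, ∃ a b : F,
      x = algebraMap F L a + algebraMap F L b * algebraMap T.k₁ L T.e := fun x => by
    refine AdjoinRoot.induction_on Q x fun f => ?_
    rw [← AdjoinRoot.aeval_eq]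
    induction f using Polynomial.induction_on' with
    | add p q hp hq =>
      obtain ⟨a, b, h1⟩ := hp
      obtain ⟨c, d, h2⟩ := hq
      exact ⟨a + c, b + d, by rw [map_add, h1, h2, map_add, map_add]; ring⟩
    | monomial n c =>
      obtain ⟨a, b, rfl⟩ := T.k₁_crd c
      refine ⟨algebraMap _ _ a * AdjoinRoot.root P ^ n, algebraMap _ _ b * AdjoinRoot.root P ^ n, ?_⟩
      rw [aeval_monomial, ← show algebraMap F L _ = _ from hφ]
      simp only [map_add, map_mul, map_pow, ← IsScalarTower.algebraMap_apply]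
      ring
  have h2 : finrank F L = 2 := by
    have a1 := finrank_mul_finrank D.k F L
    rw [← finrank_mul_finrank D.k T.k₁ L, T.fr₁, fF, fL, mul_comm] at a1
    exact Nat.eq_of_mul_eq_mul_right (hdeg ▸ deg_pos T.E T.C) a1
  have hd' := (Dvd.intro_left _ rfl).trans hd
  have hd'' := (Dvd.intro_left _ rfl).trans hd'
  obtain ⟨th', κ', β', t1, t2, t3, b, hb, t4⟩ := core T hA hT hM ((Dvd.intro _ rfl).trans hd)
    (c₀ := c₀) (fun v hv =>
      ⟨g₁ v (notMem_of_dvd (((Dvd.intro _ rfl).trans (Dvd.intro _ rfl)).trans hd'') hv),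
        g₂ v (notMem_of_dvd (((Dvd.intro_left _ rfl).trans (Dvd.intro _ rfl)).trans hd'') hv),
        g₃ v (notMem_of_dvd ((Dvd.intro_left _ rfl).trans hd'') hv)⟩)
    h hκ F L (AdjoinRoot.root P) j hj hF hL h2 (fL.trans hdeg) (hn F _ hl fF)
    (fun b hb w hw => hs P th κ β hP'.separable h hκ F _ hl b hb w
      (notMem_of_dvd ((Dvd.intro _ rfl).trans hd') hw)) hV
  refine ⟨th', κ', β', t1, t2, t3, fun F' _ _ _ l hl b' hb' w hw => ?_⟩
  let ψ : F →ₐ[D.k] F' := AdjoinRoot.liftAlgHom P (Algebra.ofId _ _) l hl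
  let _ : Algebra F F' := ψ.toAlgebra
  have e : b' = Hn.io F F' b := Units.ext (by
    change _ = ψ b
    rw [hb, hb', ← aeval_algHom_apply,
      show ψ (AdjoinRoot.root P) = l from AdjoinRoot.liftAlgHom_root ..])
  have := Hil.io_mem_LNP (q := .inl w) (t4 (Hn.un F w) fun hw' => hw (by
    simpa using (Ideal.mem_comap.1 hw')))
  rw [e, ← ψ.commutes]
  exact this

end Crest.Agent.T24.Evn
end
end

-- ▼ part T24/EvnTh_62
section

/-!
# Row 24, central step for even degree (helper62): Eisenstein base points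
-/

set_option autoImplicit false
set_option linter.unusedSectionVars false

noncomputable section

namespace Crest.Agent.T24.Evn

open Module NumberField WithZero Csa Asa Topology Filter Polynomial
open scoped Valued TensorProduct

universe u v w

namespace Th62



section Place
variable {k : Type*} [Field k] [NumberField k] (E : Type*) [Field E] [NumberField E] [Algebra k E]

theorem exists_place {N : ℕ} (hN : N ≠ 0) : ∃ v : Pl k, (N : 𝓞 k) ∉ v.asIdeal ∧
    ∀ (d : 𝓞 k) (x : E), x ^ 2 = algebraMap k E d → ∃ y : 𝓞 k, y ^ 2 - d ∈ v.asIdeal := by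
  obtain ⟨p, ⟨hp, ⟨φ⟩⟩, hN'⟩ : ∃ p ∈ {p : ℕ | p.Prime ∧ Nonempty (𝓞 E →+* ZMod p)}, N < p := by
    by_contra hn
    push Not at hn
    refine (Hgt.Spl12.dv_one E).mono (T := ∅) (Finset.range (N + 1))
      (fun p hp h => h (Finset.mem_range.2 (Nat.lt_succ_of_le (hn p hp)))) ?_
    simp [summable_zero]
  have := Fact.mk hp
  let f := φ.comp (algebraMap (𝓞 k) (𝓞 E))
  have hp0 : (p : 𝓞 k) ∈ RingHom.ker f := by simp [RingHom.mem_ker]
  refine ⟨⟨RingHom.ker f, RingHom.ker_isPrime f, fun h => hp.ne_zero ?_⟩, fun h => ?_,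
    fun d x hx => ?_⟩
  · rw [h, Ideal.mem_bot] at hp0; exact_mod_cast hp0
  · have h1 : ((N : ℕ) : ZMod p) = 0 := by simpa using RingHom.mem_ker.1 h
    exact absurd (Nat.le_of_dvd (Nat.pos_of_ne_zero hN) ((ZMod.natCast_eq_zero_iff _ _).1 h1))
      (not_le.2 hN')
  · have hi : IsIntegral ℤ x := by
      refine IsIntegral.of_pow two_pos ?_
      rw [hx]
      exact (algebraMap (𝓞 k) (𝓞 E) d).isIntegral_coe
    obtain ⟨y, h2⟩ : ∃ y : 𝓞 E, y ^ 2 = algebraMap (𝓞 k) (𝓞 E) d := ⟨⟨x, hi⟩, by ext; exact hx⟩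
    refine ⟨((φ y).val : ℕ), RingHom.mem_ker.2 ?_⟩
    rw [map_sub, map_pow, map_natCast, ZMod.natCast_zmod_val, ← map_pow, h2]
    exact sub_self _

theorem freq : ∃ᶠ v : Pl k in cofinite,
    ∀ (d : 𝓞 k) (x : E), x ^ 2 = algebraMap k E d → ∃ y : 𝓞 k, y ^ 2 - d ∈ v.asIdeal := by
  rw [frequently_cofinite_iff_infinite]
  intro h
  obtain ⟨N, hN, h1⟩ := In.exists_nat_mem h.toFinset
  obtain ⟨v, hv, h2⟩ := exists_place (k := k) E (N := N) (by omega)
  exact hv (h1 v (by simpa using h2))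

theorem sq_ae (δ : kˣ) {x : E} (hx : x ^ 2 = algebraMap k E δ) : ∀ᶠ v : Pl k in cofinite,
    (∀ (d : 𝓞 k) (x : E), x ^ 2 = algebraMap k E d → ∃ y : 𝓞 k, y ^ 2 - d ∈ v.asIdeal) →
      ((minpoly k x).map (algebraMap k (Kv v))).Splits := by
  obtain ⟨c, a, ha⟩ := Hn.Loc.exists_mul_sq_int δ
  have ha0 : a ≠ 0 := by
    rintro rfl
    exact (δ * c ^ 2).ne_zero ha
  have h1 : ∀ᶠ v : Pl k in cofinite, a ∉ v.asIdeal :=
    (Ideal.finite_factors (I := Ideal.span {a}) (by simpa using ha0)).subset fun v hv => by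
      simpa [Ideal.dvd_span_singleton] using hv
  filter_upwards [h1, SplE.nat_ae (k := k) two_ne_zero] with v h1 h2 h3
  have h4 := (Hn.Loc.mem_Sq_iff_int v (Hn.Loc.val_two_eq_one v (by simpa using h2)) ha h1).2
    (h3 a (x * algebraMap k E c) (by rw [← ha, mul_pow, hx]; simp))
  obtain ⟨b, hb⟩ := Hn.Loc.isSquare_of_mem_Sq v ((Hn.Loc.mul_sq_mem_Sq v c).1 h4)
  refine ((Splits.X_sub_C b).mul (Splits.X_add_C b)).of_dvd
    ((monic_X_sub_C b).mul (monic_X_add_C b)).ne_zero ?_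
  have : (X - C b) * (X + C b) = (X ^ 2 - C (δ : k)).map (algebraMap k (Kv v)) := by
    simp only [Polynomial.map_sub, Polynomial.map_pow, map_X, map_C, hb, map_mul]; ring
  rw [this]
  exact Polynomial.map_dvd _ (minpoly.dvd k x (by simp [hx]))

end Place

theorem span_top {E F C n : Type*} [Field E] [Field F] [Ring C] [Algebra E C]
    [Algebra.IsCentral E C] [IsSimpleRing C] [FiniteDimensional E C] [Fintype n] [DecidableEq n]
    [Nonempty n] (f : E →+* F) (φ : C →+* Matrix n n F)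
    (hf : ∀ c, φ (algebraMap E C c) = Matrix.scalar n (f c))
    (h : finrank E C = Fintype.card n ^ 2) : Submodule.span F (Set.range φ) = ⊤ := by
  let _ : Algebra E F := f.toAlgebra
  let φ' : C →ₐ[E] Matrix n n F := { φ with commutes' := hf }
  let q := bcEquiv (L := F) φ' (by rw [finrank_mat, h])
  rw [eq_top_iff]
  rintro x -
  obtain ⟨z, rfl⟩ := q.surjective x
  induction z using TensorProduct.induction_on with
  | zero => simp
  | tmul l b =>
    rw [bcEquiv_tmul]
    exact Submodule.smul_mem _ _ (Submodule.subset_span ⟨b, rfl⟩)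
  | add a b ha hb => rw [map_add]; exact add_mem ha hb

theorem dense_fix {k F C M : Type*} [Field k] [CharZero k] [Field F] [CharZero F] [Algebra k F]
    [TopologicalSpace F] [Ring C] [Algebra k C] [Ring M] [Algebra F M] [Algebra k M]
    [IsScalarTower k F M] [TopologicalSpace M] [IsTopologicalAddGroup M] [ContinuousSMul F M]
    (hd : DenseRange (algebraMap k F)) (ψ : C →ₐ[k] M)
    (hψ : Submodule.span F (Set.range ψ) = ⊤) (γ : C →ₐ[k] C) (hγ : Function.Surjective γ)
    (ρ : C →ₗ[k] C) (hρ : ∀ c, ρ (ρ c) = c) {θ θ' e : C} {a b : F} (hθ : θ * θ' = 1)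
    (hρθ : ∀ c, ρ (θ' * c) = -(θ' * ρ c)) (hγθ : γ θ = θ) (hψθ : ψ θ = algebraMap F M a)
    (hγe : γ e = -e) (hψe : ψ e = algebraMap F M b) (hb : b ≠ 0) :
    Dense ((fun c => (ψ c, ψ (γ c))) '' {c | ρ c = c}) := by
  set S := (fun c => (ψ c, ψ (γ c))) '' {c | ρ c = c} with hS
  let Z : Submodule F (M × M) :=
    { carrier := closure S
      add_mem' := fun hx hy => map_mem_closure₂ continuous_add hx hy (by
        rintro _ ⟨x, hx, rfl⟩ _ ⟨y, hy, rfl⟩
        exact ⟨x + y, by simp [show ρ x = x from hx, show ρ y = y from hy], by simp⟩)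
      zero_mem' := subset_closure ⟨0, by simp, by simp⟩
      smul_mem' := fun r z hz => hd.induction_on (p := fun r => r • z ∈ closure S) r
        (isClosed_closure.preimage (by fun_prop)) fun c =>
          map_mem_closure (continuous_const_smul _) hz (by
            rintro _ ⟨x, hx, rfl⟩
            exact ⟨c • x, by simp [show ρ x = x from hx], by simp⟩) }
  have h1 : ∀ c, (ψ c, ψ (γ c)) ∈ Z := fun c => by
    have m1 : (ψ (c + ρ c), ψ (γ (c + ρ c))) ∈ Z :=
      subset_closure ⟨_, by simp [hρ, add_comm], rfl⟩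
    have m2 : (ψ (θ' * (c - ρ c)), ψ (γ (θ' * (c - ρ c)))) ∈ Z :=
      subset_closure ⟨_, by simp [hρθ, hρ, mul_sub, neg_add_eq_sub], rfl⟩
    have e1 : ∀ x, a • (ψ x, ψ (γ x)) = (ψ (θ * x), ψ (γ (θ * x))) := fun x => by
      simp only [map_mul, hγθ, hψθ, Prod.smul_mk, ← Algebra.smul_def]
    convert Z.smul_mem (2⁻¹ : F) (add_mem m1 (Z.smul_mem a m2)) using 1
    rw [e1, ← mul_assoc, hθ, one_mul]
    simp only [map_add, map_sub, Prod.mk_add_mk, add_add_sub_cancel, ← two_smul F, Prod.smul_mk,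
      smul_smul, inv_mul_cancel₀ (two_ne_zero (α := F)), one_smul]
  have e2 : ∀ c, b⁻¹ • (ψ (e * c), ψ (γ (e * c))) = (ψ c, -ψ (γ c)) := fun c => by
    simp only [map_mul, hγe, map_neg, hψe, neg_mul, ← Algebra.smul_def, Prod.smul_mk, smul_neg,
      smul_smul, inv_mul_cancel₀ hb, one_smul]
  have h2 : ∀ x, (x, 0) ∈ Z := fun x => by
    refine (Submodule.span_le (p := Z.comap (LinearMap.inl F M M))).2 ?_ (hψ ▸ Submodule.mem_top)
    rintro _ ⟨c, rfl⟩
    have := Z.smul_mem (2⁻¹ : F) (add_mem (h1 c) (e2 c ▸ Z.smul_mem b⁻¹ (h1 (e * c))))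
    simpa [← two_smul F, smul_smul] using this
  have h3 : ∀ x, (0, x) ∈ Z := fun x => by
    refine (Submodule.span_le (p := Z.comap (LinearMap.inr F M M))).2 ?_ (hψ ▸ Submodule.mem_top)
    rintro _ ⟨c, rfl⟩
    obtain ⟨c, rfl⟩ := hγ c
    simpa using sub_mem (h1 c) (h2 (ψ c))
  rintro ⟨x, y⟩
  have : (x, y) ∈ Z := by simpa using add_mem (h2 x) (h3 y)
  exact this

theorem continuous_coeff {F n : Type*} [CommRing F] [TopologicalSpace F] [IsTopologicalRing F]
    [Fintype n] [DecidableEq n] (i : ℕ) : Continuous fun Y : Matrix n n F => Y.charpoly.coeff i := by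
  have : (fun Y : Matrix n n F => Y.charpoly.coeff i) = fun Y =>
      MvPolynomial.eval (fun p : n × n => Y p.1 p.2) ((Matrix.charpoly.univ F n).coeff i) :=
    funext fun Y => (Matrix.charpoly.univ_coeff_eval₂Hom n (RingHom.id F)
      (fun p : n × n => Y p.1 p.2) i).symm
  rw [this]
  exact (MvPolynomial.continuous_eval _).comp (by fun_prop)

theorem exists_mat {F : Type*} [Field F] {m : ℕ} {P : F[X]} (hP : P.Monic) (hm : P.natDegree = m) :
    ∃ Y : Matrix (Fin m) (Fin m) F, Y.charpoly = P := by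
  subst hm
  exact ⟨_, (charpoly_leftMulMatrix (AdjoinRoot.powerBasis hP.ne_zero)).trans
    (AdjoinRoot.minpoly_powerBasis_gen_of_monic hP)⟩

theorem exists_eis {k : Type*} [Field k] [NumberField k] (v : Pl k) {m : ℕ} (hm : 0 < m) :
    ∃ Y₀ : Matrix (Fin m) (Fin m) (Kv v), ∀ᶠ Y in 𝓝 Y₀,
      (∀ i < m, Valued.v (Y.charpoly.coeff i) < 1) ∧ Valued.v (Y.charpoly.coeff 0) = exp (-1) := by
  obtain ⟨p, hp⟩ := v.valuedAdicCompletion_surjective k (exp (-1))
  obtain ⟨Y₀, hY⟩ := exists_mat (monic_X_pow_add_C p hm.ne') natDegree_X_pow_add_C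
  have h0 : Valued.v (Y₀.charpoly.coeff 0) = exp (-1) := by
    rw [hY, coeff_add, coeff_X_pow, if_neg hm.ne, coeff_C_zero, zero_add, hp]
  refine ⟨Y₀, ((eventually_all_finite (Set.finite_lt_nat m)).2 fun i hi => ?_).and ?_⟩
  · have h1 : Valued.v (Y₀.charpoly.coeff i) < 1 := by
      rcases eq_or_ne i 0 with rfl | h
      · rw [h0, ← exp_zero, exp_lt_exp]; norm_num
      · rw [hY, coeff_add, coeff_X_pow, if_neg (ne_of_lt hi), coeff_C_of_ne_zero h]; simp
    simp only [← Valued.toNormedField.norm_lt_one_iff] at h1 ⊢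
    exact (continuous_coeff i).norm.continuousAt.eventually_lt continuousAt_const h1
  · rw [← h0]
    exact (continuous_coeff 0).continuousAt.eventually
      (Valued.locally_const (by rw [h0]; exact exp_ne_zero))

section Tow
variable {D : Dat.{u, v, w}} (T : Tow D)

/-- `e` in `E` -/
abbrev e' : T.E := algebraMap T.k₁ T.E T.e
/-- `θ` in `E` -/
abbrev θ' : T.E := algebraMap D.K T.E T.θ

theorem star_e : star (e' T) = e' T := Quad.star_k _

theorem star_θ : star (θ' T) = -θ' T := T.i.injective (by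
  change T.i _ = T.i _
  rw [StarHom.map_star, map_neg, AlgHom.commutes, star_algebraMap, T.star_θ, map_neg])

theorem star_a (a : D.k) : star (algebraMap D.k T.E a) = algebraMap D.k T.E a := by
  rw [IsScalarTower.algebraMap_apply D.k T.k₁ T.E, Quad.star_k]

theorem σ_a (a : D.k) : T.σ (algebraMap D.k T.E a) = algebraMap D.k T.E a := by
  rw [IsScalarTower.algebraMap_apply D.k D.K T.E, AlgEquiv.commutes]

theorem σσ (c : T.E) : T.σ (T.σ c) = c := by
  obtain ⟨a₀, a₁, a₂, a₃, rfl⟩ := T.crd c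
  simp only [map_add, map_mul, σ_a, T.σ_e, AlgEquiv.commutes, map_neg, neg_neg]

theorem fixE {c : T.E} (h1 : star c = c) (h2 : T.σ c = c) : ∃ a, algebraMap D.k T.E a = c := by
  have h3 : T.σ (star c) = c := by rw [h1, h2]
  obtain ⟨a₀, a₁, a₂, a₃, rfl⟩ := T.crd c
  refine ⟨a₀, ?_⟩
  simp only [star_add, star_mul', star_a, star_e, star_θ, map_add, map_mul, σ_a, T.σ_e,
    AlgEquiv.commutes, map_neg] at h1 h2 h3
  linear_combination (1 / 4 : T.E) * (h1 + h2 + h3)

theorem θ_sq : θ' T ^ 2 = algebraMap D.k T.E T.δ := by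
  rw [← map_pow, T.θθ, ← IsScalarTower.algebraMap_apply]

theorem e_sq : e' T ^ 2 = algebraMap D.k T.E T.r := by
  rw [← map_pow, sq, T.ee, ← IsScalarTower.algebraMap_apply]

theorem freq_hom : ∃ᶠ v : Pl D.k in cofinite, Nonempty (T.E →ₐ[D.k] Kv v) := by
  refine ((freq T.E).and_eventually ((sq_ae T.E T.δ (θ_sq T)).and (sq_ae T.E T.r (e_sq T)))).mono ?_
  rintro v ⟨h, h1, h2⟩
  refine IntermediateField.nonempty_algHom_of_adjoin_splits (S := {θ' T, e' T}) ?_ ?_
  · rintro s (rfl | rfl)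
    · exact ⟨Algebra.IsIntegral.isIntegral _, h1 h⟩
    · exact ⟨Algebra.IsIntegral.isIntegral _, h2 h⟩
  · rw [eq_top_iff]
    rintro c -
    obtain ⟨a₀, a₁, a₂, a₃, rfl⟩ := T.crd c
    have m1 := IntermediateField.subset_adjoin D.k ({θ' T, e' T} : Set T.E) (a := θ' T) (by simp)
    have m2 := IntermediateField.subset_adjoin D.k ({θ' T, e' T} : Set T.E) (a := e' T) (by simp)
    have m0 := (IntermediateField.adjoin D.k ({θ' T, e' T} : Set T.E)).algebraMap_mem
    exact add_mem (add_mem (add_mem (m0 _) (mul_mem (m0 _) m1)) (mul_mem (m0 _) m2))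
      (mul_mem (m0 _) (mul_mem m1 m2))

/-- `u` induces `σ` -/
def Sg (u : D.Bˣ) : Prop := ∀ c, (u : D.B) * T.i c = T.i (T.σ c) * u

variable {T} in
theorem Sg.inv {u : D.Bˣ} (h : Sg T u) : Sg T u⁻¹ := fun c => by
  have := h (T.σ c)
  rw [σσ] at this
  rw [Units.inv_mul_eq_iff_eq_mul, ← mul_assoc, this, Units.mul_inv_cancel_right]

variable {T} in
theorem Sg.mem {u : D.Bˣ} (h : Sg T u) (x : T.C) : (u : D.B) * x * (u⁻¹ : D.Bˣ) ∈ Cz T.i :=
  Cz.mem_iff.2 fun c => by
    have h1 := h (T.σ c)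
    rw [σσ] at h1
    rw [← mul_assoc, ← mul_assoc, ← h1, mul_assoc (u : D.B) _ x, Cz.mem_iff.1 x.2, mul_assoc _ _ (T.i c),
      h.inv c]
    simp only [mul_assoc]

variable {T} in
/-- conjugation -/
def Sg.cj {u : D.Bˣ} (h : Sg T u) : T.C →ₐ[D.k] T.C where
  toFun x := ⟨_, h.mem x⟩
  map_one' := Subtype.ext (by simp)
  map_mul' x y := Subtype.ext (by simp [mul_assoc])
  map_zero' := Subtype.ext (by simp)
  map_add' x y := Subtype.ext (by simp [mul_add, add_mul])
  commutes' c := Subtype.ext (by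
    change (u : D.B) * algebraMap D.k D.B c * _ = algebraMap D.k D.B c
    rw [← Algebra.commutes, Units.mul_inv_cancel_right])

variable {T} in
theorem Sg.coe_cj {u : D.Bˣ} (h : Sg T u) (x : T.C) :
    (h.cj x : D.B) = (u : D.B) * x * (u⁻¹ : D.Bˣ) := rfl

variable {T} in
theorem Sg.cj_alg {u : D.Bˣ} (h : Sg T u) (c : T.E) :
    h.cj (algebraMap T.E T.C c) = algebraMap T.E T.C (T.σ c) := Subtype.ext (by
  rw [h.coe_cj, Cz.coe_algebraMap, Cz.coe_algebraMap, h c, Units.mul_inv_cancel_right])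

instance : IsScalarTower D.k T.E T.C := IsScalarTower.of_algebraMap_eq fun c => Subtype.ext (by
  rw [Cz.coe_algebraMap, IsScalarTower.algebraMap_apply D.k D.K T.E, AlgHom.commutes,
    ← IsScalarTower.algebraMap_apply]; rfl)

/-- descent of the reduced polynomial -/
theorem desc {u : D.Bˣ} (h : Sg T u) {th : T.C} (h1 : star th = th)
    (h2 : rch T.E (h.cj th) = rch T.E th) : ∃ P, T.HC P th := by
  have e1 := rch_star T.E th
  have e2 := rch_map (T.σ : T.E →+* T.E) (h.cj : T.C →+* T.C) h.cj_alg rfl th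
  rw [h1] at e1
  have hl : rch T.E th ∈ lifts (algebraMap D.k T.E) := (lifts_iff_coeff_lifts _).2 fun j =>
    fixE T (by
      conv_rhs => rw [e1, coeff_map]
      rfl) (by
      conv_rhs => rw [← h2.symm.trans e2 |>.symm, coeff_map]
      rfl)
  obtain ⟨P, hP⟩ := hl
  exact ⟨P, h1, by rw [Polynomial.map_map, ← IsScalarTower.algebraMap_eq]; exact hP.symm⟩

theorem main (v : Pl D.k) (ι : T.E →ₐ[D.k] Kv v) (hs : Hsm.Spl T.C (deg T.E T.C) (ι : T.E →+* Kv v)) :
    ∃ (u : D.Bˣ) (h : Sg T u) (th : T.C), star th = th ∧ rch T.E (h.cj th) = rch T.E th ∧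
      (∀ i < deg T.E T.C, Valued.v (ι ((rch T.E th).coeff i)) < 1) ∧
      Valued.v (ι ((rch T.E th).coeff 0)) = exp (-1) := by
  obtain ⟨φ, hφ⟩ := hs
  have hm := deg_pos T.E T.C
  have : Nonempty (Fin (deg T.E T.C)) := ⟨⟨0, hm⟩⟩
  have : CharZero (Kv v) := algebraRat.charZero _
  obtain ⟨u, hu⟩ := T.unit_n
  have h : Sg T u := fun c => by rw [hu]; exact T.n_i c
  have su : star (u : D.B) = -u := by rw [hu]; exact T.star_n
  have su' : star ((u⁻¹ : D.Bˣ) : D.B) = -(u⁻¹ : D.Bˣ) := by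
    have := congrArg star u.mul_inv
    rw [star_mul, su, star_one, mul_neg, neg_eq_iff_eq_neg] at this
    rw [← Units.mul_inv_cancel_right (star _) u, this, neg_one_mul]
  let ψ : T.C →ₐ[D.k] Matrix (Fin (deg T.E T.C)) (Fin (deg T.E T.C)) (Kv v) :=
    { φ with
      commutes' := fun c => by
        change φ _ = _
        rw [IsScalarTower.algebraMap_apply D.k T.E T.C, hφ]
        exact congrArg (Matrix.scalar _) (ι.commutes c) }
  let ρ : T.C →ₗ[D.k] T.C := h.inv.cj.toLinearMap ∘ₗ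
    { toFun := star, map_add' := star_add
      map_smul' := fun c x => Subtype.ext (star_ksmul D.k D.K D.B c x) }
  have hρ : ∀ c, (ρ c : D.B) = (u⁻¹ : D.Bˣ) * star (c : D.B) * u := fun c => rfl
  have hθ0 : θ' T ≠ 0 := fun h0 => T.δ.ne_zero (by
    have := θ_sq T
    rwa [h0, zero_pow two_ne_zero, eq_comm, map_eq_zero] at this)
  have he0 : e' T ≠ 0 := fun h0 => T.r.ne_zero (by
    have := e_sq T
    rwa [h0, zero_pow two_ne_zero, eq_comm, map_eq_zero] at this)
  have hd := dense_fix (v.denseRange_algebraMap D.k) ψ (span_top _ φ hφ sp_card) h.cj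
    (fun x => ⟨h.inv.cj x, Subtype.ext (by simp [Sg.coe_cj, mul_assoc])⟩) ρ
    (fun c => Subtype.ext (by simp [hρ, su, su', mul_assoc]))
    (θ := algebraMap T.E T.C (θ' T)) (θ' := algebraMap T.E T.C (θ' T)⁻¹)
    (e := algebraMap T.E T.C (e' T)) (a := ι (θ' T)) (b := ι (e' T))
    (by rw [← map_mul, mul_inv_cancel₀ hθ0, map_one])
    (fun c => by
      change h.inv.cj (star _) = -(_ * h.inv.cj (star _))
      rw [← Algebra.smul_def, star_smul, Algebra.smul_def, map_mul, Sg.cj_alg, star_inv₀, star_θ,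
        map_inv₀, map_neg, AlgEquiv.commutes, inv_neg, map_neg, neg_mul])
    (by rw [Sg.cj_alg, AlgEquiv.commutes]) (hφ _) (by rw [Sg.cj_alg, T.σ_e, map_neg]) (hφ _)
    ((_root_.map_ne_zero ι).2 he0)
  have m1 : ∀ {u : D.Bˣ}, Sg T u → (u : D.B) * u ∈ Cz T.i := fun {u} h => Cz.mem_iff.2 fun c => by
    rw [mul_assoc, h, ← mul_assoc, ← mul_assoc, h, σσ]
  let ν : T.C := ⟨_, m1 h⟩
  let ν' : T.C := ⟨_, m1 h.inv⟩
  have hν : ν' * ν = 1 := Subtype.ext (by simp [ν, ν', mul_assoc])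
  obtain ⟨Y₀, hY⟩ := exists_eis v hm
  let g : Matrix _ _ (Kv v) × Matrix _ _ (Kv v) → Matrix _ _ (Kv v) := fun p => p.2 * ψ ν * p.1
  have hg : Continuous g := (continuous_snd.mul continuous_const).mul continuous_fst
  have e0 : g (1, Y₀ * ψ ν') = Y₀ := by
    simp only [g]; rw [mul_one, mul_assoc, ← map_mul, hν, map_one, mul_one]
  rw [← e0] at hY
  obtain ⟨_, ⟨c, hc, rfl⟩, h1, h2⟩ := hd.inter_nhds_nonempty (hg.continuousAt.eventually hY)
  have hc' : star (c : D.B) = u * c * (u⁻¹ : D.Bˣ) := by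
    conv_rhs => rw [← show ρ c = c from hc, hρ]
    simp [mul_assoc]
  have e1 : (g (ψ c, ψ (h.cj c))).charpoly = (rch T.E (h.cj c * ν * c)).map (ι : T.E →+* Kv v) := by
    rw [← charpoly_eq' _ φ hφ sp_card, map_mul, map_mul]; rfl
  simp only [e1, coeff_map] at h1 h2
  refine ⟨u, h, h.cj c * ν * c, Subtype.ext ?_, ?_, h1, h2⟩
  · simp [ν, Sg.coe_cj, hc', su, su', mul_assoc]
  · rw [mul_assoc, rch_mul_comm (h.cj c)]
    congr 1
    exact Subtype.ext (by simp [ν, Sg.coe_cj, mul_assoc])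

theorem th0 [Algebra ℚ D.B] : T.Th0 := by
  intro M hM W hW
  have := finite_kK D.k D.K
  obtain ⟨v, ⟨ι⟩, hv, hs⟩ := ((freq_hom T).and_eventually ((SplE.nat_ae (k := D.k) (n := M)
    (by omega)).and (SplE.spl_ae D.k (finBasis D.K D.B)))).exists
  obtain ⟨s, hs, -⟩ := hs (ι.comp (IsScalarTower.toAlgHom D.k D.K T.E))
  obtain ⟨u, h, th, h1, h2, h3, h4⟩ := main T v ι
    (In.spl_Cz T.i _ ⟨s.ψ, fun c => by rw [s.compat, hs]; rfl⟩)
  rw [In.nr_zero] at hW
  obtain ⟨j, hj⟩ := ((In.tendsto_pow_smul (N := M) (Ring.inverse (th : D.B))).eventually hW).exists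
  have hM0 : ((M : T.E) ^ j)⁻¹ ≠ 0 := by
    have : (M : T.E) ≠ 0 := Nat.cast_ne_zero.2 (by omega)
    positivity
  have hv1 : Valued.v (ι (M : T.E)) = 1 := by
    rw [map_natCast, ← map_natCast (algebraMap D.k (Kv v)), Hn.Loc.valued_algebraMap]
    simpa using SplE.val_eq_one hv
  have hc : ∀ i, Valued.v (ι ((rch T.E (((M : T.E) ^ j)⁻¹ • th)).coeff i)) =
      Valued.v (ι ((rch T.E th).coeff i)) := fun i => by
    rw [Hsm.rch_smul hM0, coeff_C_mul, comp_C_mul_X_coeff]
    simp only [map_mul, map_pow, map_inv₀, hv1, one_pow, inv_one, one_mul, mul_one]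
  obtain ⟨P, hP⟩ := desc T h (th := ((M : T.E) ^ j)⁻¹ • th) (by simp [h1]) (by
    rw [Algebra.smul_def, map_mul, Sg.cj_alg, ← Algebra.smul_def, ← Algebra.smul_def, map_inv₀,
      map_pow, map_natCast, Hsm.rch_smul hM0, Hsm.rch_smul hM0, h2])
  have e1 : rch T.E (((M : T.E) ^ j)⁻¹ • th) = P.map (algebraMap D.k T.E) := by
    rw [hP.2, Polynomial.map_map, ← IsScalarTower.algebraMap_eq]
  have e2 : ∀ i, v.valuation D.k (P.coeff i) = Valued.v (ι ((rch T.E th).coeff i)) := fun i => by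
    rw [← hc, e1, coeff_map, SplE.val_iota_alg]
  refine ⟨v, hv, ⟨ι⟩, P, _, ⟨?_, fun i hi => ?_, (e2 0).trans h4⟩, hP, ?_⟩
  · exact (algebraMap D.k T.E).injective.monic_map_iff.2 (e1 ▸ rch_monic _ _)
  · rw [e2]
    refine h3 i ?_
    rwa [← rch_natDegree (((M : T.E) ^ j)⁻¹ • th), e1, natDegree_map]
  · have e3 : Ring.inverse (T.i ((M : T.E) ^ j)⁻¹) = T.i ((M : T.E) ^ j) :=
      Opn.inverse_eq (hM0.isUnit.map T.i) (by
        rw [← map_mul, mul_inv_cancel₀ (by simpa using hM0), map_one])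
    rw [Algebra.smul_def, map_pow, map_natCast] at hj
    rw [Cz.coe_smul, Cz.mem_iff.1 th.2, Ring.mul_inverse_rev' (Cz.mem_iff.1 th.2 _).symm, e3,
      map_pow, map_natCast]
    exact hj

end Tow

end Th62


theorem th0Stmt : Th0Stmt.{u, v, w} := fun _ _ T => Th62.th0 T

end Crest.Agent.T24.Evn
end
end

-- ▼ part T24/EvSym_67
section

/-!
# Row 24, even degree (helper67): the symbol lemma of the step `LAM`
-/

set_option autoImplicit false
set_option linter.unusedSectionVars false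

noncomputable section

namespace Crest.Agent.T24.Ev.S67

open Module NumberField IsDedekindDomain Hn Hil
open scoped NumberField

universe u

/-- the norm of a quadratic extension -/
theorem norm_eq {F L : Type*} [Field F] [Field L] [CharZero F] [Algebra F L]
    (hr : finrank F L = 2) (s : L ≃ₐ[F] L) (hs : s ≠ 1) (x : L) :
    algebraMap F L (Algebra.norm F x) = x * s x := by
  classical
  have : FiniteDimensional F L := Module.finite_of_finrank_pos (by omega)
  have : Algebra.IsQuadraticExtension F L := ⟨hr⟩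
  have hc : Fintype.card (L ≃ₐ[F] L) = 2 := by
    rw [← Nat.card_eq_fintype_card, IsGalois.card_aut_eq_finrank, hr]
  have : (Finset.univ : Finset (L ≃ₐ[F] L)) = {1, s} :=
    (Finset.eq_univ_of_card _ (by rw [Finset.card_pair hs.symm, hc])).symm
  rw [Algebra.norm_eq_prod_automorphisms, this, Finset.prod_pair hs.symm]; rfl

section
variable {F L : Type*} [Field F] [NumberField F] [Field L] [NumberField L] [Algebra F L]

theorem nat_mem (M : ℕ) (u : Pl L) : (M : 𝓞 F) ∈ (un F u).asIdeal ↔ (M : 𝓞 L) ∈ u.asIdeal := by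
  change algebraMap (𝓞 F) (𝓞 L) M ∈ u.asIdeal ↔ _
  rw [map_natCast]

theorem un_un {k : Type*} [Field k] [NumberField k] [Algebra k F] [Algebra k L]
    [IsScalarTower k F L] (u : Pl L) : un k (un F u) = un k u := by
  refine HeightOneSpectrum.ext (Ideal.ext fun x => ?_)
  change algebraMap (𝓞 F) (𝓞 L) (algebraMap (𝓞 k) (𝓞 F) x) ∈ u.asIdeal ↔
    algebraMap (𝓞 k) (𝓞 L) x ∈ u.asIdeal
  rw [← IsScalarTower.algebraMap_apply]

theorem io_io {k : Type*} [Field k] [Algebra k F] [Algebra k L] [IsScalarTower k F L] (x : kˣ) :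
    io F L (io k F x) = io k L x :=
  Units.ext (IsScalarTower.algebraMap_apply k F L x).symm

theorem val_two {M : ℕ} (h2 : 2 ∣ M) {v : Pl F} (hv : (M : 𝓞 F) ∉ v.asIdeal) :
    v.valuation F 2 = 1 := by
  obtain ⟨c, rfl⟩ := h2
  have : ((2 : ℕ) : 𝓞 F) ∉ v.asIdeal := fun h => hv (by
    rw [Nat.cast_mul]; exact Ideal.mul_mem_right _ _ h)
  have h := (v.valuation_eq_one_iff_notMem (K := F)).2 this
  simpa [map_ofNat] using h

end

variable {k F k₁ L : Type u} [Field k] [NumberField k] [Field F] [NumberField F] [Field k₁]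
  [NumberField k₁] [Field L] [NumberField L] [Algebra k F] [Algebra k k₁] [Algebra F L]
  [Algebra k₁ L] [Algebra k L] [IsScalarTower k F L] [IsScalarTower k k₁ L]

/-- the sign of the square root determines the place of `k₁` -/
theorem un_eq {h : k₁} (hk : ∀ z : k₁, ∃ a b : k, z = algebraMap k k₁ a + algebraMap k k₁ b * h)
    (s : L ≃ₐ[F] L) (hs : s (algebraMap k₁ L h) = - algebraMap k₁ L h) {v : Pl k}
    (h2 : v.valuation k 2 = 1) {r : k} (hr : v.valuation k r = 1) {u u' : Pl L} (hu : un k u = v)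
    (hu' : un k u' = v) (h1 : u.valuation L (algebraMap k₁ L h - algebraMap k L r) < 1)
    (h1' : u'.valuation L (algebraMap k₁ L h - algebraMap k L r) < 1) : un k₁ u = un k₁ u' := by
  have key : ∀ (z : 𝓞 k₁) (a b : k), (z : k₁) = algebraMap k k₁ a + algebraMap k k₁ b * h →
      ∀ u : Pl L, un k u = v → u.valuation L (algebraMap k₁ L h - algebraMap k L r) < 1 →
      (z ∈ (un k₁ u).asIdeal ↔ v.valuation k (a + b * r) < 1) := by
    intro z a b hz u hu h1
    subst hu
    have e1 : algebraMap k₁ L z = algebraMap k L a + algebraMap k L b * algebraMap k₁ L h := by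
      rw [hz, map_add, map_mul, ← IsScalarTower.algebraMap_apply, ← IsScalarTower.algebraMap_apply]
    have e2 : s (algebraMap k₁ L z) = algebraMap k L a - algebraMap k L b * algebraMap k₁ L h := by
      rw [e1, map_add, map_mul, hs, IsScalarTower.algebraMap_apply k F L,
        IsScalarTower.algebraMap_apply k F L b, s.commutes, s.commutes]; ring
    have i1 : IsIntegral ℤ (algebraMap k₁ L z) := z.isIntegral_coe.algebraMap
    have i2 : IsIntegral ℤ (s (algebraMap k₁ L z)) := i1.map (s.toRingEquiv.toRingHom.toIntAlgHom)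
    have v1 := u.valuation_le_one (K := L) (⟨_, i1⟩ : 𝓞 L)
    have v2 := u.valuation_le_one (K := L) (⟨_, i2⟩ : 𝓞 L)
    change u.valuation L (algebraMap k₁ L z) ≤ 1 at v1
    change u.valuation L (s (algebraMap k₁ L z)) ≤ 1 at v2
    have hr' := (Asa.below_eq_one (k := k) u r).2 hr
    have h2' := (Asa.below_eq_one (k := k) u 2).2 h2
    rw [map_ofNat] at h2'
    have hh : u.valuation L (algebraMap k₁ L h) = 1 := by
      rw [← hr']; exact Valuation.map_eq_of_sub_lt _ (by rwa [hr'])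
    have hb : u.valuation L (algebraMap k L b) ≤ 1 := by
      have := (u.valuation L).map_sub_le v1 v2
      rwa [e2, e1, show ∀ x y : L, x + y - (x - y) = 2 * y from fun x y => by ring, map_mul,
        map_mul, h2', hh, one_mul, mul_one] at this
    have h3 : u.valuation L (algebraMap k₁ L z - algebraMap k L (a + b * r)) < 1 := by
      rw [e1, map_add, map_mul, add_sub_add_left_eq_sub, ← mul_sub, map_mul]
      exact (mul_le_of_le_one_left' hb).trans_lt h1
    rw [← Asa.below_lt_one (k := k) u, ← Hn.Loc.val_int_lt_iff, ← Asa.below_lt_one (k := k₁) u]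
    constructor
    · intro h4
      have := (u.valuation L).map_sub_lt h4 h3
      rwa [sub_sub_cancel] at this
    · intro h4
      have := (u.valuation L).map_add_lt h3 h4
      rwa [sub_add_cancel] at this
  refine HeightOneSpectrum.ext (Ideal.ext fun z => ?_)
  obtain ⟨a, b, hz⟩ := hk z
  rw [key z a b hz u hu h1, key z a b hz u' hu' h1']

/-- a non-split place above `w` with the prescribed sign -/
theorem exists_up {e : kˣ} {h : L} (hh : h ^ 2 = algebraMap k L e) (s : L ≃ₐ[F] L)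
    (hs : s h = -h) (hr : finrank F L = 2) {w : Pl F} {r : k}
    (h1 : (un k w).valuation k (r ^ 2 - e) < 1) (he : io k F e ∈ Sq w) {d : Fˣ} (hd : d ∉ Sq w) :
    ∃ u : Pl L, un F u = w ∧ io F L d ∉ Sq u ∧ u.valuation L (h - algebraMap k L r) < 1 := by
  have h0 : h ≠ 0 := by
    rintro rfl
    exact e.ne_zero ((algebraMap k L).injective (by rw [← hh]; simp))
  have hs1 : s ≠ 1 := by
    rintro rfl
    exact h0 (by simpa [eq_neg_iff_add_eq_zero, ← two_mul] using hs)
  obtain ⟨x, hx⟩ := exists_hil_neg (p := .inl w) hd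
  have : x ∈ LN (io k F e : F) w := by rw [LN_eq_top w _ he]; trivial
  obtain ⟨n, ⟨a, b, hn⟩, q, hq, rfl⟩ := Subgroup.mem_sup.1 this
  rw [hil_mul_left, hil_of_sq_left (p := .inl w) d hq, mul_one] at hx
  have e1 : algebraMap F L (Algebra.norm F (algebraMap F L a + algebraMap F L b * h)) =
      algebraMap F L n := by
    rw [norm_eq hr s hs1, map_add, map_mul, s.commutes, s.commutes, hs, hn, map_sub, map_mul,
      map_pow, map_pow]
    change _ = _ - algebraMap F L (algebraMap k F e) * _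
    rw [← IsScalarTower.algebraMap_apply, ← hh]; ring
  have e2 := (algebraMap F L).injective e1
  have h3 : algebraMap F L a + algebraMap F L b * h ≠ 0 := fun h' => by
    have : FiniteDimensional F L := Module.finite_of_finrank_pos (by omega)
    rw [h', Algebra.norm_zero] at e2
    exact n.ne_zero e2.symm
  obtain ⟨T, hT⟩ := exists_fibre (F := F) (E := L) (.inl w)
  have h4 := nrmStmt F L (.inl w) (Units.mk0 _ h3) d T hT
  rw [show Units.map (Algebra.norm F : L →* F) (Units.mk0 _ h3) = n from Units.ext e2, hx] at h4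
  obtain ⟨Q, hQ, hQ'⟩ : ∃ Q ∈ T, io F L d ∉ SqP Q := by
    by_contra h5
    push Not at h5
    rw [Finset.prod_eq_one fun Q hQ => hil_of_sq_right _ (h5 Q hQ)] at h4
    exact absurd h4 (by decide)
  obtain ⟨u, rfl⟩ : ∃ u, Q = .inl u := by
    rcases Q with u | φ
    exacts [⟨u, rfl⟩, absurd ((hT _).1 hQ) (by simp [unP])]
  have hu : un F u = w := Sum.inl_injective ((hT _).1 hQ)
  have h5 : u.valuation L (h - algebraMap k L r) * u.valuation L (h + algebraMap k L r) < 1 := by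
    rw [← hu, un_un, ← Asa.below_lt_one (k := k) u, map_sub, map_pow, ← hh,
      Valuation.map_sub_swap] at h1
    rwa [← map_mul, show (h - algebraMap k L r) * (h + algebraMap k L r) =
      h ^ 2 - algebraMap k L r ^ 2 by ring]
  by_cases h6 : u.valuation L (h - algebraMap k L r) < 1
  · exact ⟨u, hu, hQ', h6⟩
  obtain ⟨u', hu'⟩ := Loc.exists_conj_place s.toRingEquiv u
  have hu'' : ∀ x, u'.valuation L x = u.valuation L (s x) := hu'
  refine ⟨u', hu ▸ pl_ext fun x => ?_, fun ⟨y, hy⟩ => hQ' ⟨s y, ?_⟩, ?_⟩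
  · rw [← Asa.below_lt_one (k := F) u', ← Asa.below_lt_one (k := F) u, hu'', s.commutes]
  · rw [hu'', hu'', map_sub, map_mul, map_pow, map_one, map_ofNat] at hy
    rwa [show s (io F L d : Lˣ) = (io F L d : Lˣ) from s.commutes (d : F)] at hy
  · rw [hu'', map_sub, hs, IsScalarTower.algebraMap_apply k F L, s.commutes,
      ← IsScalarTower.algebraMap_apply, ← neg_add', Valuation.map_neg]
    by_contra h7
    exact absurd h5 (not_lt.2 (one_le_mul (not_lt.1 h6) (not_lt.1 h7)))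

/-- the same symbols, and local squares wherever the symbol is trivial on a finite set -/
theorem upgrade (a d : Lˣ) (S : Finset (Pl L)) : ∃ s : Lˣ, (∀ Q, hil Q s d = hil Q a d) ∧
    ∀ Q ∈ full S, hil Q a d = 1 → s ∈ SqP Q := by
  classical
  let T := full S ∪ (finite_hil a d).toFinset
  have hT : ∀ Q, Q ∉ T → hil Q a d = 1 := fun Q h => by
    by_contra h'
    exact h (Finset.mem_union_right _ (by simpa using h'))
  have hc : ∀ Q, hil Q (if hil Q a d = 1 then 1 else a) d = hil Q a d := fun Q => by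
    split_ifs with h
    · rw [h, hil_of_sq_left _ (one_mem _)]
    · rfl
  obtain ⟨s, h1, h2⟩ := preStmt L d T (fun Q => if hil Q a d = 1 then 1 else a)
    (by simp only [hc]; exact recStmt L a d T hT)
  refine ⟨s, fun Q => ?_, fun Q hQ h => by simpa [h] using h1 Q (Finset.mem_union_left _ hQ)⟩
  by_cases h : Q ∈ T
  · rw [hil_congr_left (h1 Q h), hc]
  · rw [h2 Q h, hT Q h]

/-- THE SYMBOL LEMMA -/
theorem sym (ε δ : kˣ) (h : k₁) (hh : h ^ 2 = algebraMap k k₁ (ε * δ))
    (hk : ∀ z : k₁, ∃ a b : k, z = algebraMap k k₁ a + algebraMap k k₁ b * h)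
    (s : L ≃ₐ[F] L) (hs : s (algebraMap k₁ L h) = - algebraMap k₁ L h) (hr : finrank F L = 2)
    (β : Fˣ) (M : ℕ) (hM : M ≠ 0) (h2 : 2 ∣ M)
    (hε : ∀ v : Pl k, (M : 𝓞 k) ∉ v.asIdeal → v.valuation k (ε : k) = 1)
    (hδ : ∀ v : Pl k, (M : 𝓞 k) ∉ v.asIdeal → v.valuation k (δ : k) = 1)
    (hc : ∀ v : Pl k, (M : 𝓞 k) ∉ v.asIdeal → hil (.inl v) (nm k β) ε = 1)
    (hB : ∀ w : Pl F, (M : 𝓞 F) ∉ w.asIdeal → io k F δ ∈ Sq w → hil (.inl w) β (io k F ε) = 1) :
    ∃ a : Lˣ, (∀ t : Pc k₁, hil t (nm k₁ a) (io k k₁ δ) = 1) ∧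
      (∀ u : Pl L, (M : 𝓞 L) ∈ u.asIdeal → a ∈ Sq u) ∧ (∀ φ : L →+* ℝ, 0 < φ a) ∧
      ∀ w : Pl F, (M : 𝓞 F) ∉ w.asIdeal → hil (.inl w) (β * nm F a) (io k F ε) = 1 := by
  classical
  have hh' : algebraMap k₁ L h ^ 2 = algebraMap k L (ε * δ : kˣ) := by
    rw [← map_pow, hh, ← IsScalarTower.algebraMap_apply, Units.val_mul]
  -- the bad places
  obtain ⟨Bd, hBd⟩ : ∃ Bd : Finset (Pl F), ∀ w, w ∈ Bd ↔
      (M : 𝓞 F) ∉ w.asIdeal ∧ hil (.inl w) β (io k F ε) = -1 := by
    have := (finite_hil β (io k F ε)).preimage (Sum.inl_injective (β := F →+* ℝ)).injOn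
    have h1 : {w : Pl F | (M : 𝓞 F) ∉ w.asIdeal ∧ hil (.inl w) β (io k F ε) = -1}.Finite :=
      this.subset fun w hw => by simp [hw.2]
    exact ⟨h1.toFinset, fun w => by simp⟩
  have hδ' : ∀ w ∈ Bd, io k F δ ∉ Sq w := fun w hw h' => by
    have := hB w ((hBd w).1 hw).1 h'
    rw [((hBd w).1 hw).2] at this
    exact absurd this (by decide)
  have hsq : ∀ w ∈ Bd, ε * δ ∈ Sq (un k w) := fun w hw => by
    have hv := mt (nat_mem (F := k) M w).1 ((hBd w).1 hw).1
    refine l3Stmt k _ ε δ (val_two h2 hv) (hε _ hv) (hδ _ hv) (fun h' => ?_) fun h' =>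
      hδ' w hw (io_mem_SqP (q := .inl w) h')
    have := hil_of_sq_right (p := .inl w) β (io_mem_SqP (q := .inl w) h')
    rw [((hBd w).1 hw).2] at this
    exact absurd this (by decide)
  have hrt : ∀ v : Pl k, ∃ r : k, (M : 𝓞 k) ∉ v.asIdeal → ε * δ ∈ Sq v →
      v.valuation k r = 1 ∧ v.valuation k (r ^ 2 - (ε * δ : kˣ)) < 1 := fun v => by
    by_cases h' : (M : 𝓞 k) ∉ v.asIdeal ∧ ε * δ ∈ Sq v
    · obtain ⟨hv, y, hy⟩ := h'
      have h4 : v.valuation k 4 = 1 := by
        rw [show (4 : k) = 2 * 2 by norm_num, map_mul, val_two h2 hv, one_mul]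
      have he : v.valuation k ((ε * δ : kˣ) : k) = 1 := by
        rw [Units.val_mul, map_mul, hε v hv, hδ v hv, one_mul]
      rw [h4] at hy
      have h5 := (v.valuation k).map_one_add_of_lt hy
      rw [add_sub_cancel, map_mul, he, one_mul, map_pow] at h5
      have h6 : v.valuation k y = 1 := (pow_eq_one_iff_of_nonneg zero_le two_ne_zero).1 h5
      refine ⟨(ε * δ : kˣ) * y, fun _ _ => ⟨by rw [map_mul, he, h6, one_mul], ?_⟩⟩
      rw [show (((ε * δ : kˣ) : k) * y) ^ 2 - (ε * δ : kˣ) =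
        (ε * δ : kˣ) * (((ε * δ : kˣ) : k) * y ^ 2 - 1) by ring, map_mul, he, one_mul]
      exact hy
    · exact ⟨0, fun a b => absurd ⟨a, b⟩ h'⟩
  choose r hrt using hrt
  have hup : ∀ w : Pl F, ∃ u : Pl L, un F u = w ∧ (w ∈ Bd → io k L δ ∉ Sq u ∧
      u.valuation L (algebraMap k₁ L h - algebraMap k L (r (un k w))) < 1) := fun w => by
    by_cases hw : w ∈ Bd
    · have hv := mt (nat_mem (F := k) M w).1 ((hBd w).1 hw).1
      obtain ⟨u, h1, h3, h4⟩ := exists_up hh' s hs hr (hrt _ hv (hsq w hw)).2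
        (io_mem_SqP (q := .inl w) (hsq w hw)) (hδ' w hw)
      exact ⟨u, h1, fun _ => ⟨io_io (F := F) (L := L) δ ▸ h3, h4⟩⟩
    · obtain ⟨u, hu⟩ := exists_un L w
      exact ⟨u, hu, fun h' => absurd h' hw⟩
  choose U hU hU' using hup
  have hinj : Function.Injective fun w => (Sum.inl (U w) : Pc L) := fun w w' e => by
    rw [← hU w, ← hU w', Sum.inl_injective e]
  -- parity above each place of `k`
  have hpar : ∀ v : Pl k, ∏ _w ∈ Bd.filter (fun w => un k w = v), (-1 : ℤˣ) = 1 := fun v => by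
    by_cases hv : (M : 𝓞 k) ∈ v.asIdeal
    · rw [Finset.filter_false_of_mem, Finset.prod_empty]
      rintro w hw rfl
      exact ((hBd w).1 hw).1 ((nat_mem M w).1 hv)
    obtain ⟨T, hT⟩ := exists_fibre (F := k) (E := F) (.inl v)
    have h1 := nrmStmt k F (.inl v) β ε T hT
    rw [hc v hv] at h1
    refine Eq.trans ?_ h1.symm
    rw [← Finset.prod_image (s := Bd.filter fun w => un k w = v) (g := Sum.inl)
      (f := fun _ : Pc F => (-1 : ℤˣ)) Sum.inl_injective.injOn]
    refine Finset.prod_subset_one_on_sdiff (fun Q hQ => ?_) (fun Q hQ => ?_) fun Q hQ => ?_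
    · obtain ⟨w, hw, rfl⟩ := Finset.mem_image.1 hQ
      exact (hT _).2 (congrArg Sum.inl (Finset.mem_filter.1 hw).2)
    · obtain ⟨h3, h4⟩ := Finset.mem_sdiff.1 hQ
      rcases Q with w | φ
      · have hw : un k w = v := Sum.inl_injective ((hT _).1 h3)
        by_contra h5
        exact h4 (Finset.mem_image_of_mem _ (Finset.mem_filter.2 ⟨(hBd w).2
          ⟨fun h6 => hv (hw ▸ (nat_mem M w).2 h6), (Int.units_eq_one_or _).resolve_left h5⟩, hw⟩))
      · exact absurd ((hT _).1 h3) (by simp [unP])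
    · obtain ⟨w, hw, rfl⟩ := Finset.mem_image.1 hQ
      exact ((hBd w).1 (Finset.mem_filter.1 hw).1).2.symm
  have hev : Even (Bd.image fun w => (Sum.inl (U w) : Pc L)).card := by
    rw [Finset.card_image_of_injective _ hinj]
    have := Finset.prod_fiberwise_of_maps_to (s := Bd) (t := Bd.image (un k)) (g := un k)
      (fun w hw => Finset.mem_image_of_mem _ hw) fun _ => (-1 : ℤˣ)
    rw [Finset.prod_eq_one fun v _ => hpar v, Finset.prod_const] at this
    exact (neg_one_pow_eq_one_iff_even (by decide)).1 this.symm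
  obtain ⟨a₀, ha⟩ := (R7.exists_rm_iff (d := io k L δ) fun p hp => by
    obtain ⟨w, hw, rfl⟩ := Finset.mem_image.1 hp
    exact (hU' w hw).1).2 hev
  have hfin : {u : Pl L | (M : 𝓞 L) ∈ u.asIdeal}.Finite := by
    simpa [Ideal.dvd_span_singleton] using Ideal.finite_factors (I := Ideal.span {(M : 𝓞 L)})
      (by simpa using hM)
  obtain ⟨a, hb, hb'⟩ := upgrade a₀ (io k L δ) hfin.toFinset
  simp only [← hb] at ha hb'
  have ha1 : ∀ Q, (∀ w ∈ Bd, Sum.inl (U w) ≠ Q) → hil Q a (io k L δ) = 1 := fun Q hQ =>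
    (Int.units_eq_one_or _).resolve_right fun h' => by
      obtain ⟨w, hw, e⟩ := Finset.mem_image.1 ((ha Q).1 h')
      exact hQ w hw e
  have hprod : ∀ T : Finset (Pc L), ∏ Q ∈ T, hil Q a (io k L δ) =
      ∏ _w ∈ Bd.filter (fun w => Sum.inl (U w) ∈ T), (-1 : ℤˣ) := fun T => by
    rw [← Finset.prod_image (s := Bd.filter fun w => Sum.inl (U w) ∈ T)
      (g := fun w => (Sum.inl (U w) : Pc L)) (f := fun _ : Pc L => (-1 : ℤˣ)) hinj.injOn]
    refine (Finset.prod_subset_one_on_sdiff (fun Q hQ => ?_) (fun Q hQ => ?_) fun Q hQ => ?_).symm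
    · obtain ⟨w, hw, rfl⟩ := Finset.mem_image.1 hQ
      exact (Finset.mem_filter.1 hw).2
    · obtain ⟨h3, h4⟩ := Finset.mem_sdiff.1 hQ
      refine ha1 Q ?_
      rintro w hw rfl
      exact h4 (Finset.mem_image_of_mem _ (Finset.mem_filter.2 ⟨hw, h3⟩))
    · obtain ⟨w, hw, rfl⟩ := Finset.mem_image.1 hQ
      exact ((ha _).2 (Finset.mem_image_of_mem _ (Finset.mem_filter.1 hw).1)).symm
  refine ⟨a, fun t => ?_, fun u hu => hb' (.inl u) (by simpa using hu) (ha1 _ fun w hw e => ?_),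
    fun φ => hb' (.inr φ) inr_mem_full (ha1 _ fun w _ => by simp), fun w hw => ?_⟩
  · obtain ⟨T, hT⟩ := exists_fibre (F := k₁) (E := L) t
    rw [nrmStmt k₁ L t a _ T hT, io_io, hprod]
    by_cases hne : ∃ w₀ ∈ Bd, Sum.inl (U w₀) ∈ T
    · obtain ⟨w₀, h0, h0'⟩ := hne
      refine Eq.trans ?_ (hpar (un k w₀))
      refine Finset.prod_congr (Finset.filter_congr fun w hw => ?_) fun _ _ => rfl
      rw [hT, ← (hT _).1 h0']
      have e : ∀ w, un k (U w) = un k w := fun w => by rw [← un_un (F := F), hU]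
      refine ⟨fun h3 => ?_, fun h3 => congrArg Sum.inl ?_⟩
      · rw [← e, ← e, ← un_un (F := k₁), ← un_un (F := k₁) (U w₀), Sum.inl_injective h3]
      · have hv := mt (nat_mem (F := k) M w₀).1 ((hBd w₀).1 h0).1
        exact un_eq hk s hs (val_two h2 hv) (hrt _ hv (hsq _ h0)).1 ((e w).trans h3) (e w₀)
          (h3 ▸ (hU' w hw).2) (hU' _ h0).2
    · push Not at hne
      rw [Finset.filter_false_of_mem hne, Finset.prod_empty]
  · obtain rfl := Sum.inl_injective e
    exact ((hBd w).1 hw).1 (hU w ▸ (nat_mem M (U w)).2 hu)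
  · obtain ⟨T, hT⟩ := exists_fibre (F := F) (E := L) (.inl w)
    have h0 : algebraMap k₁ L h ≠ 0 := fun h' => by
      rw [h', zero_pow two_ne_zero, eq_comm, map_eq_zero] at hh'
      exact (ε * δ).ne_zero hh'
    have h3 : ∀ Q : Pc L, hil Q a (io k L ε) = hil Q a (io k L δ) := fun Q => by
      refine hil_congr_right ?_ a
      have : io k L ε / io k L δ = (Units.mk0 _ h0 / io k L δ) ^ 2 := by
        have : Units.mk0 _ h0 ^ 2 = io k L ε * io k L δ := Units.ext (by
          rw [Units.val_pow_eq_pow_val, Units.val_mk0, hh', ← map_mul]; rfl)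
        rw [div_pow, this, sq, mul_div_mul_right_eq_div]
      rw [this]
      exact sq_mem_SqP _ _
    rw [hil_mul_left, nrmStmt F L (.inl w) a _ T hT, io_io, Finset.prod_congr rfl fun Q _ => h3 Q,
      hprod]
    have h4 : ∀ w', Sum.inl (U w') ∈ T ↔ w' = w := fun w' => by
      rw [hT]; simp [unP, hU]
    by_cases h5 : w ∈ Bd
    · rw [show Bd.filter (fun w' => Sum.inl (U w') ∈ T) = {w} from Finset.ext fun w' => by
        rw [Finset.mem_filter, h4, Finset.mem_singleton]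
        exact ⟨fun h => h.2, fun h => ⟨h ▸ h5, h⟩⟩, ((hBd w).1 h5).2]
      simp
    · rw [Finset.filter_false_of_mem fun w' hw' h => h5 ((h4 w').1 h ▸ hw'), Finset.prod_empty,
        mul_one]
      exact (Int.units_eq_one_or _).resolve_right fun h6 => h5 ((hBd w).2 ⟨hw, h6⟩)

end Crest.Agent.T24.Ev.S67
end
end

-- ▼ part T24/EvnAdj_67
section

/-!
# Row 24, even degree (helper67): `AdjStmt`
-/

set_option autoImplicit false

noncomputable section

namespace Crest.Agent.T24.Evn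

open Module NumberField Hn Hil

universe u

theorem A67.coord {k E : Type*} [Field k] [Field E] [Algebra k E] (hr : finrank k E = 2) {e : E}
    (he : ∀ a : k, algebraMap k E a ≠ e) (z : E) :
    ∃ a b : k, z = algebraMap k E a + algebraMap k E b * e := by
  have : FiniteDimensional k E := Module.finite_of_finrank_pos (by omega)
  have h1 : LinearIndependent k ![(1 : E), e] := by
    refine (LinearIndependent.pair_iff' one_ne_zero).2 fun a h => he a ?_
    rw [← h, Algebra.algebraMap_eq_smul_one]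
  have h2 := h1.span_eq_top_of_card_eq_finrank' (by simp [hr])
  obtain ⟨c, hc⟩ := (Submodule.mem_span_range_iff_exists_fun k).1 (h2 ▸ Submodule.mem_top (x := z))
  refine ⟨c 0, c 1, ?_⟩
  rw [← hc, Fin.sum_univ_two, Algebra.smul_def, Algebra.smul_def]; simp

theorem A67.conj {F L : Type*} [Field F] [CharZero F] [Field L] [Algebra F L]
    (hr : finrank F L = 2) {e : L} {r : F} (h : e * e = algebraMap F L r) (hn : ¬ IsSquare r) :
    ∃ s : L ≃ₐ[F] L, s e = -e := by
  have : FiniteDimensional F L := Module.finite_of_finrank_pos (by omega)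
  have : Algebra.IsQuadraticExtension F L := ⟨hr⟩
  by_contra h1
  push Not at h1
  obtain ⟨a, rfl⟩ := (IsGalois.mem_range_algebraMap_iff_fixed (F := F) e).2 fun s => by
    have h2 : s e * s e = e * e := by rw [← map_mul, h, s.commutes]
    exact (mul_self_eq_mul_self_iff.1 h2).resolve_right (h1 s)
  exact hn ⟨a, (algebraMap F L).injective (by rw [← h, map_mul])⟩

theorem adjStmt : AdjStmt.{u} := by
  intro k k₁ F L _ _ _ _ _ _ _ _ _ _ _ _ _ _ _ e δ r c₀ β M he h1 h2 hn hM h2M hu hc hB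
  have he' : algebraMap k₁ L e * algebraMap k₁ L e = algebraMap F L (algebraMap k F r) := by
    rw [← map_mul, he, ← IsScalarTower.algebraMap_apply, ← IsScalarTower.algebraMap_apply]
  obtain ⟨s, hs⟩ := A67.conj h2 he' hn
  have hε : ∀ v : Pl k, (M : 𝓞 k) ∉ v.asIdeal → v.valuation k ((δ * r : kˣ) : k) = 1 :=
    fun v hv => by rw [Units.val_mul, map_mul, (hu v hv).1, (hu v hv).2.1, one_mul]
  have e1 : (algebraMap k k₁ δ * e) ^ 2 = algebraMap k k₁ (((δ * r : kˣ) : k) * δ) := by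
    rw [mul_pow, sq e, he, ← map_pow, ← map_mul, Units.val_mul]; congr 1; ring
  have e2 : ∀ a : k, algebraMap k k₁ a ≠ algebraMap k k₁ δ * e := fun a h =>
    hn ⟨algebraMap k F (a / δ), by
      rw [← map_mul]
      refine congrArg _ ((algebraMap k k₁).injective ?_)
      rw [← he, map_mul, map_div₀, h, mul_div_cancel_left₀ _ (by simp)]⟩
  have e3 : s (algebraMap k₁ L (algebraMap k k₁ δ * e)) =
      -algebraMap k₁ L (algebraMap k k₁ δ * e) := by
    rw [map_mul, map_mul, hs, ← IsScalarTower.algebraMap_apply,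
      IsScalarTower.algebraMap_apply k F L, s.commutes, mul_neg]
  have e4 : ∀ v : Pl k, (M : 𝓞 k) ∉ v.asIdeal → hil (.inl v) (nm k β) (δ * r) = 1 := fun v hv => by
    rw [← div_mul_cancel (nm k β) c₀, hil_mul_left, hil_of_nr hc,
      hil_unit (Ev.S67.val_two h2M hv) (hu v hv).2.2 (hε v hv), one_mul]
  obtain ⟨a, g1, g2, g3, g4⟩ := Ev.S67.sym (δ * r) δ _ e1 (A67.coord h1 e2) s e3
    h2 β M (by omega) h2M hε (fun v hv => (hu v hv).1) e4
    (fun w hw h => (hil_inl (b := io k F (δ * r))).2 (hB w hw h))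
  exact ⟨a, g3, g2, fun v => (hil_inl (b := io k k₁ δ)).1 (g1 (.inl v)),
    fun w hw => (hil_inl (b := io k F (δ * r))).1 (g4 w hw)⟩

end Crest.Agent.T24.Evn
end
end

-- ▼ part T24/EvnKap_42
section

/-!
# Row 24, even step (helper42): the quaternion algebra attached to a hermitian element of `C`
-/

set_option autoImplicit false
set_option linter.unusedSectionVars false

noncomputable section

namespace Crest.Agent.T24.Evn

open Module NumberField Csa Polynomial

universe u v w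

namespace K42

/-- the reduced norm on `k[y]` is the field norm -/
theorem nrd_aeval {k E C F : Type*} [Field k] [Field E] [CharZero E] [Algebra k E] [Ring C]
    [Algebra E C] [Algebra.IsCentral E C] [IsSimpleRing C] [FiniteDimensional E C] [Field F]
    [Algebra k F] {P : k[X]} (hs : P.Separable) {y : C} (hy : rch E y = P.map (algebraMap k E))
    {l : F} (hl : minpoly k l = P) (hF : finrank k F = P.natDegree) (f : k[X]) :
    Nrd E (aeval y (f.map (algebraMap k E))) = algebraMap k E (Algebra.norm k (aeval l f)) := by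
  have hd : P.natDegree = deg E C := by rw [← natDegree_map (algebraMap k E), ← hy, rch_natDegree]
  have hm : P.Monic := monic_of_injective (algebraMap k E).injective (hy ▸ rch_monic E y)
  have : FiniteDimensional k F := Module.finite_of_finrank_pos (by rw [hF, hd]; exact deg_pos E C)
  have : Nonempty (Fin (deg E C)) := ⟨⟨0, deg_pos E C⟩⟩
  let Ω := AlgebraicClosure E
  let e : Basis (Fin (deg E C)) k F := finBasisOfFinrankEq k _ (hF.trans hd)
  let ψ : F →ₐ[k] Matrix (Fin (deg E C)) (Fin (deg E C)) Ω :=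
    (Algebra.ofId k Ω).mapMatrix.comp (Algebra.leftMulMatrix e)
  have h1 : (Algebra.leftMulMatrix e l).charpoly = P := by
    refine eq_of_monic_of_dvd_of_natDegree_le hm (Matrix.charpoly_monic _)
      (hl ▸ minpoly.dvd k l (Algebra.leftMulMatrix_injective e ?_))
      (by rw [Matrix.charpoly_natDegree_eq_dim, Fintype.card_fin, hd])
    rw [← aeval_algHom_apply, Matrix.aeval_self_charpoly, map_zero]
  have h2 : rch Ω (sp E C y) = P.map (algebraMap k Ω) := by
    rw [rch_mat, sp_charpoly, hy, Polynomial.map_map, ← IsScalarTower.algebraMap_eq]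
  have h3 : rch Ω (ψ l) = P.map (algebraMap k Ω) := by
    rw [rch_mat]
    exact (Matrix.charpoly_map _ (algebraMap k Ω)).trans (congrArg _ h1)
  obtain ⟨u, hu⟩ := conj_of_rch_eq (h2 ▸ hs.map.squarefree) (h2.trans h3.symm)
  have h4 : ψ (aeval l f) = u.val * sp E C (aeval y (f.map (algebraMap k E))) * u⁻¹.val := by
    rw [← aeval_algHom_apply, hu, ← aeval_algHom_apply (sp E C), aeval_map_algebraMap]
    exact aeval_algHom_apply ((MulSemiringAction.toAlgHom k _ (ConjAct.toConjAct u))) _ f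
  apply (algebraMap E Ω).injective
  rw [← det_eq (sp E C) sp_card, ← Matrix.det_units_conj u, ← h4, ← IsScalarTower.algebraMap_apply,
    Algebra.norm_eq_matrix_det e]
  exact ((algebraMap k Ω).map_det _).symm

variable {D : Dat.{u, v, w}} (T : Tow D)

theorem star_K (a : D.K) : star (algebraMap D.K T.E a) = algebraMap D.K T.E (star a) :=
  T.i.injective (by
    change T.i _ = T.i _
    rw [StarHom.map_star, T.i.commutes, T.i.commutes, T24.star_algebraMap])

theorem star_k (a : D.k) : star (algebraMap D.k T.E a) = algebraMap D.k T.E a := by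
  rw [IsScalarTower.algebraMap_apply D.k T.k₁ T.E, Quad.star_k]

theorem σ_k (a : D.k) : T.σ (algebraMap D.k T.E a) = algebraMap D.k T.E a := by
  rw [IsScalarTower.algebraMap_apply D.k D.K T.E, T.σ.commutes]

theorem θ_ne : T.θ ≠ 0 := fun h => by
  have := T.θθ
  rw [h, zero_pow two_ne_zero, eq_comm, _root_.map_eq_zero] at this
  exact T.δ.ne_zero this

theorem star_η : star T.η = -T.η := by
  rw [Tow.η, star_mul', star_K, T.star_θ, Quad.star_k, map_neg, neg_mul]

theorem σ_η : T.σ T.η = -T.η := by rw [Tow.η, map_mul, T.σ.commutes, T.σ_e, mul_neg]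

theorem η_sq : T.η * T.η = algebraMap D.k T.E T.ε := by
  rw [Tow.η, mul_mul_mul_comm, ← map_mul, ← map_mul, T.ee, ← sq, T.θθ,
    ← IsScalarTower.algebraMap_apply, ← IsScalarTower.algebraMap_apply, ← map_mul]
  rfl

theorem star_i₀ : star T.i₀ = -T.i₀ := by rw [Tow.i₀, ← StarHom.map_star, star_η, map_neg]

theorem n_i₀ : T.n * T.i₀ = -(T.i₀ * T.n) := by rw [Tow.i₀, T.n_i, σ_η, map_neg, neg_mul]


/-- `E = K + K η` -/
theorem crdK (c : T.E) : ∃ a b : D.K, c = algebraMap _ _ a + algebraMap _ _ b * T.η := by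
  obtain ⟨a₀, a₁, a₂, a₃, rfl⟩ := T.crd c
  refine ⟨algebraMap _ _ a₀ + algebraMap _ _ a₁ * T.θ, algebraMap _ _ a₂ * T.θ⁻¹ +
    algebraMap _ _ a₃, ?_⟩
  have h : algebraMap D.K T.E T.θ ≠ 0 := (_root_.map_ne_zero _).2 (θ_ne T)
  simp only [Tow.η, map_add, map_mul, map_inv₀, ← IsScalarTower.algebraMap_apply]
  field_simp
  ring

/-- the element of `E` fixed by `σ ∘ star` lie in `k (η)` -/
theorem fix₂ {c : T.E} (h : T.σ (star c) = c) :
    ∃ x y : D.k, c = algebraMap _ _ x + algebraMap _ _ y * T.η := by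
  obtain ⟨a₀, a₁, a₂, a₃, hc⟩ := T.crd c
  refine ⟨a₀, a₃, ?_⟩
  have h2 := h
  conv_lhs at h2 => rw [hc]
  simp only [star_add, star_mul', star_k, star_K, T.star_θ, Quad.star_k, map_add, map_mul, map_neg,
    σ_k, T.σ_e, AlgEquiv.commutes] at h2
  rw [Tow.η]
  linear_combination (hc - h2) / 2

/-- the elements of `E` fixed by `σ` and `star` lie in `k` -/
theorem fix₀ {c : T.E} (h : star c = c) (h' : T.σ c = c) : ∃ x : D.k, algebraMap _ _ x = c := by
  obtain ⟨x, y, hc⟩ := fix₂ T (c := c) (by rw [h, h'])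
  refine ⟨x, ?_⟩
  have h2 := h
  conv_lhs at h2 => rw [hc]
  rw [star_add, star_mul', star_k, star_k, star_η] at h2
  linear_combination (h2 - hc) / 2

theorem mem_C {x : D.B} (h : x * T.i₀ = T.i₀ * x) : x ∈ Cz T.i := Cz.mem_iff.2 fun c => by
  obtain ⟨a, b, rfl⟩ := crdK T c
  rw [map_add, map_mul, T.i.commutes, T.i.commutes, add_mul, mul_add, Algebra.commutes,
    mul_assoc, ← mul_assoc x, ← Algebra.commutes b x, mul_assoc]
  exact congrArg (fun z => _ + _ * z) h.symm

theorem comm_i₀ (c : T.C) : (c : D.B) * T.i₀ = T.i₀ * c := (Cz.mem_iff.1 c.2 _).symm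

theorem anti_i {x : D.B} (h : x * T.i₀ = -(T.i₀ * x)) (c : T.E) :
    x * T.i c = T.i (T.σ c) * x := by
  obtain ⟨a, b, rfl⟩ := crdK T c
  simp only [map_add, map_mul, AlgEquiv.commutes, AlgHom.commutes, σ_η, map_neg]
  rw [add_mul, mul_add, Algebra.commutes a x, mul_assoc _ _ x, ← mul_assoc x,
    ← Algebra.commutes b x, mul_assoc, neg_mul]
  exact congrArg (fun z => _ + _ * z) h

/-- conjugation by a unit which anticommutes with `i₀` -/
def cj (g : D.Bˣ) (h : (g : D.B) * T.i₀ = -(T.i₀ * g)) : T.C →+* T.C where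
  toFun c := ⟨g * c * ↑g⁻¹, mem_C T (by
    have h' : ((g⁻¹ : D.Bˣ) : D.B) * T.i₀ = -(T.i₀ * ↑g⁻¹) := by
      rw [Units.inv_mul_eq_iff_eq_mul, mul_neg, ← mul_assoc, h, neg_mul, neg_neg,
        Units.mul_inv_cancel_right]
    rw [mul_assoc, h', mul_neg, ← mul_assoc, mul_assoc _ _ T.i₀, comm_i₀, ← mul_assoc, h]
    noncomm_ring)⟩
  map_one' := Subtype.ext (by simp)
  map_mul' x y := Subtype.ext (by simp [mul_assoc])
  map_zero' := Subtype.ext (by simp)
  map_add' x y := Subtype.ext (by simp [mul_add, add_mul])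

variable {T} in
theorem cj_mul {g : D.Bˣ} (h : (g : D.B) * T.i₀ = -(T.i₀ * g)) (c : T.C) :
    (cj T g h c : D.B) * g = g * c := Units.inv_mul_cancel_right _ _

variable {T} in
theorem cj_eq {g : D.Bˣ} (h : (g : D.B) * T.i₀ = -(T.i₀ * g)) {c c' : T.C}
    (hc : (g : D.B) * c = c' * g) : cj T g h c = c' :=
  Subtype.ext (g.mul_left_inj.1 ((cj_mul h c).trans hc))

variable {T} in
theorem cj_E {g : D.Bˣ} (h : (g : D.B) * T.i₀ = -(T.i₀ * g)) (c : T.E) :
    cj T g h (algebraMap T.E T.C c) = algebraMap T.E T.C ((T.σ : T.E →+* T.E) c) :=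
  cj_eq h (anti_i T h c)

variable {T} in
theorem nrd_cj {g : D.Bˣ} (h : (g : D.B) * T.i₀ = -(T.i₀ * g)) (c : T.C) :
    Nrd T.E (cj T g h c) = T.σ (Nrd T.E c) := Nrd_map (T.σ : T.E →+* T.E) _ (cj_E h) rfl c

variable {T} in
theorem rch_cj {g : D.Bˣ} (h : (g : D.B) * T.i₀ = -(T.i₀ * g)) (c : T.C) :
    rch T.E (cj T g h c) = (rch T.E c).map (T.σ : T.E →+* T.E) :=
  rch_map (T.σ : T.E →+* T.E) _ (cj_E h) rfl c

theorem coe_aeval (th : T.C) (β : D.k[X]) :
    ((aeval th (β.map (algebraMap D.k T.E)) : T.C) : D.B) = aeval (th : D.B) β := by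
  rw [aeval_def, eval₂_map, aeval_def]
  refine (hom_eval₂ β _ (Cz T.i).val.toRingHom th).trans (congrArg (fun f => eval₂ f _ β) ?_)
  ext a
  change T.i (algebraMap D.k T.E a) = _
  rw [IsScalarTower.algebraMap_apply D.k D.K T.E, T.i.commutes, ← IsScalarTower.algebraMap_apply]

variable {T} in
theorem HC.rch {P : D.k[X]} {th : T.C} (h : T.HC P th) :
    rch T.E th = P.map (algebraMap D.k T.E) := by
  rw [h.2, Polynomial.map_map, ← IsScalarTower.algebraMap_eq]

/-- the square of an element which anticommutes with `i₀` -/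
def sqC (x : D.B) (h : x * T.i₀ = -(T.i₀ * x)) : T.C :=
  ⟨x * x, mem_C T (by rw [mul_assoc, h, mul_neg, ← mul_assoc, h]; noncomm_ring)⟩

/-- existence of `κ` and `β`; only separability is used -/
theorem exists_kp {P : D.k[X]} {th : T.C} (hs : P.Separable) (h : T.HC P th) :
    ∃ (κ : D.B) (β : D.k[X]), T.Kp th κ β := by
  have hn : (T.unit_n.unit : D.B) * T.i₀ = -(T.i₀ * T.unit_n.unit) := n_i₀ T
  have hσ : (P.map (algebraMap D.k T.E)).map (T.σ : T.E →+* T.E) = P.map (algebraMap D.k T.E) := by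
    rw [Polynomial.map_map]; congr 1; ext a; exact σ_k T a
  have hsq : Squarefree (rch T.E th) := HC.rch h ▸ hs.map.squarefree
  have h1 : rch T.E (cj T _ hn th) = rch T.E th := by rw [rch_cj, HC.rch h, hσ]
  obtain ⟨u, hu⟩ := conj_of_rch_eq (h1 ▸ hsq) h1
  have hth : star (th : D.B) = th := congrArg Subtype.val h.1
  let W : Submodule D.K D.B :=
    { carrier := {x | x * T.i₀ = -(T.i₀ * x) ∧ x * th = th * x}
      add_mem' := fun {a b} ha hb => ⟨by rw [add_mul, mul_add, ha.1, hb.1, neg_add],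
        by rw [add_mul, mul_add, ha.2, hb.2]⟩
      zero_mem' := by simp
      smul_mem' := fun c x hx => ⟨by rw [smul_mul_assoc, mul_smul_comm, hx.1, smul_neg],
        by rw [smul_mul_assoc, mul_smul_comm, hx.2]⟩ }
  have hW : ∀ x ∈ W, star x ∈ W := fun x hx => by
    have a1 := congrArg star hx.1
    have a2 := congrArg star hx.2
    rw [star_neg, star_mul, star_mul, star_i₀, neg_mul, mul_neg, neg_neg] at a1
    rw [star_mul, star_mul, hth] at a2
    exact ⟨a1.symm, a2.symm⟩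
  have hz : ((u : T.C) : D.B) * T.n ∈ W := by
    refine ⟨by rw [mul_assoc, n_i₀, mul_neg, ← mul_assoc, comm_i₀, mul_assoc], ?_⟩
    have a1 : (th : D.B) * (u : T.C) = (u : T.C) * cj T _ hn th :=
      congrArg Subtype.val (u.eq_mul_inv_iff_mul_eq.1 hu)
    rw [← mul_assoc, a1, mul_assoc, mul_assoc]
    exact congrArg _ (cj_mul hn th).symm
  obtain ⟨x, hx, hx1, hx2⟩ := exists_herm_unit (Quad.ne (k := D.k)) W hW hz
    ((u.isUnit.map (Cz T.i).val).mul T.unit_n)
  have hκ : T.θ • x ∈ W := W.smul_mem _ hx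
  have hκ1 : star (T.θ • x) = -(T.θ • x) := by rw [star_smul, T.star_θ, hx1, neg_smul]
  have hκ2 : IsUnit (T.θ • x) := by
    rw [Algebra.smul_def]; exact ((θ_ne T).isUnit.map _).mul hx2
  generalize T.θ • x = κ at hκ hκ1 hκ2
  have hreg := regular_of_squarefree hsq
  obtain ⟨q, hq, hq'⟩ := exists_aeval_of_commute (z := sqC T κ hκ.1) hreg (Subtype.ext (by
    change (th : D.B) * (κ * κ) = κ * κ * th
    rw [← mul_assoc, ← hκ.2, mul_assoc, ← hκ.2, mul_assoc]))
  have uniq : ∀ f : T.E →+* T.E, aeval th (q.map f) = sqC T κ hκ.1 → ∀ j, f (q.coeff j) = q.coeff j :=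
    fun f hf j => by
    rw [← coeff_map]
    congr 1
    by_contra hne
    have := minpoly.degree_le_of_ne_zero T.E th (sub_ne_zero.2 hne) (by rw [map_sub, hf, ← hq', sub_self])
    rw [degree_eq_natDegree (minpoly.ne_zero (Algebra.IsIntegral.isIntegral th)), hreg] at this
    exact absurd ((degree_sub_le _ _).trans_lt (max_lt (degree_map_le.trans_lt hq) hq)) (not_lt.2 this)
  have hg : (hκ2.unit : D.B) * T.i₀ = -(T.i₀ * hκ2.unit) := hκ.1
  have u1 := uniq (starRingEnd T.E) (by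
    have := star_aeval th q
    rw [h.1, ← hq'] at this
    rw [← this]
    exact Subtype.ext (by change star (κ * κ) = κ * κ; rw [star_mul, hκ1, neg_mul_neg]))
  have u2 := uniq (T.σ : T.E →+* T.E) (by
    have := map_aeval_eq_aeval_map (ψ := cj T _ hg) (φ := (T.σ : T.E →+* T.E))
      (RingHom.ext fun c => (cj_E hg c).symm) q th
    rw [cj_eq hg (c := th) (c' := th) hκ.2, ← hq'] at this
    rw [← this]
    exact cj_eq hg (mul_assoc _ _ _).symm)
  obtain ⟨β, rfl⟩ : ∃ β : D.k[X], β.map (algebraMap D.k T.E) = q :=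
    (mem_lifts _).1 ((lifts_iff_coeff_lifts _).2 fun j => fix₀ T (u1 j) (u2 j))
  exact ⟨κ, β, hκ1, hκ2, hκ.1, hκ.2, (congrArg Subtype.val hq').trans (coe_aeval T th β)⟩

/-- the reduced norm of `n ^ 2` lies in `k` -/
theorem exists_c₀ : ∃ c₀ : D.kˣ, algebraMap D.k T.E c₀ = Nrd T.E (sqC T T.n (n_i₀ T)) := by
  have hn : (T.unit_n.unit : D.B) * T.i₀ = -(T.i₀ * T.unit_n.unit) := n_i₀ T
  obtain ⟨c, hc⟩ := fix₀ T (c := Nrd T.E (sqC T T.n (n_i₀ T))) (by
    rw [← T24.Nrd_star]; congr 1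
    exact Subtype.ext (by change star (T.n * T.n) = T.n * T.n; rw [star_mul, T.star_n, neg_mul_neg]))
    (by rw [← nrd_cj hn, cj_eq hn (c' := sqC T T.n (n_i₀ T)) (mul_assoc _ _ _).symm])
  have hu : IsUnit (sqC T T.n (n_i₀ T)) :=
    isUnit_of_map (K := D.K) (Cz T.i).val.toRingHom Subtype.val_injective (T.unit_n.mul T.unit_n)
  refine ⟨Units.mk0 c fun h0 => (isUnit_iff_Nrd (K := T.E) _).1 hu ?_, hc⟩
  rw [← hc, h0, map_zero]

/-- the reduced norm of `κ ^ 2` -/
theorem nrd_sq {κ : D.B} (h1 : star κ = -κ) (h : κ * T.i₀ = -(T.i₀ * κ)) : ∃ x y : D.k,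
    Nrd T.E (sqC T κ h) =
      algebraMap D.k T.E (x ^ 2 - T.ε * y ^ 2) * Nrd T.E (sqC T T.n (n_i₀ T)) := by
  have hn : (T.unit_n.unit : D.B) * T.i₀ = -(T.i₀ * T.unit_n.unit) := n_i₀ T
  obtain ⟨c, rfl⟩ : ∃ c : T.C, κ = c * T.n := by
    refine ⟨⟨κ * ↑T.unit_n.unit⁻¹, mem_C T (T.unit_n.unit.mul_left_inj.1 ?_)⟩,
      (Units.inv_mul_cancel_right κ T.unit_n.unit).symm⟩
    rw [mul_assoc, ← neg_eq_iff_eq_neg.2 hn, mul_neg, ← mul_assoc, Units.inv_mul_cancel_right,
      mul_assoc, Units.inv_mul_cancel_right, h, neg_neg]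
  have a1 : cj T _ hn (star c) = c := cj_eq hn (by
    rw [star_mul, T.star_n, neg_mul, neg_inj] at h1; exact h1)
  have a2 : sqC T _ h = c * cj T _ hn c * sqC T T.n (n_i₀ T) := Subtype.ext (by
    change (c : D.B) * T.n * (c * T.n) = c * cj T _ hn c * (T.n * T.n)
    rw [mul_assoc, mul_assoc, ← mul_assoc T.n, ← mul_assoc _ T.n T.n]
    exact congrArg (fun z => (c : D.B) * (z * T.n)) (cj_mul hn c).symm)
  obtain ⟨x, y, hxy⟩ := fix₂ T (c := Nrd T.E c) (by rw [← T24.Nrd_star, ← nrd_cj hn, a1])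
  refine ⟨x, y, ?_⟩
  rw [a2, map_mul, map_mul, nrd_cj, hxy, map_add, map_mul, σ_k, σ_k, σ_η, map_sub, map_mul, map_pow,
    map_pow, ← η_sq]
  ring

end K42

open K42 in
theorem kapStmt : KapStmt.{u, v, w} := fun D T => by
  obtain ⟨c₀, hc₀⟩ := exists_c₀ T
  refine ⟨c₀, fun P th hP h => ?_⟩
  have hm : P.Monic := monic_of_injective (algebraMap D.k T.E).injective (HC.rch h ▸ rch_monic T.E th)
  have hP' : Irreducible P := hm.irreducible_of_irreducible_map _ _ hP
  obtain ⟨κ, β, hκ⟩ := exists_kp T hP'.separable h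
  refine ⟨κ, β, hκ, fun F _ _ _ l hl hF b hb => ?_⟩
  obtain ⟨x, y, hxy⟩ := nrd_sq T hκ.skew hκ.anti
  have h1 : sqC T κ hκ.anti = aeval th (β.map (algebraMap D.k T.E)) :=
    Subtype.ext (hκ.sq.trans (coe_aeval T th β).symm)
  rw [h1, nrd_aeval hP'.separable (HC.rch h) (minpoly.eq_of_irreducible_of_monic hP' hl hm).symm hF,
    ← hc₀, ← map_mul, (algebraMap D.k T.E).injective.eq_iff, ← hb] at hxy
  exact ⟨x, y, by rw [Units.val_div_eq_div_val, div_eq_iff c₀.ne_zero]; exact hxy⟩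

end Crest.Agent.T24.Evn
end
end

-- ▼ part T24/EvnSpq_22
section

/-! Row 24, even degree (helper22): the quaternion algebra is split where `δ` is a square. -/

set_option autoImplicit false
set_option linter.unusedSectionVars false
set_option linter.style.haveILetI false

noncomputable section

namespace Crest.Agent.T24.Evn

open Module NumberField Csa Asa Polynomial
open scoped TensorProduct Valued

universe u v w

namespace Q22

/-- a quaternion algebra acting on a plane is split -/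
theorem quat {Ω V : Type*} [Field Ω] [CharZero Ω] [AddCommGroup V] [Module Ω V]
    [FiniteDimensional Ω V] {t i κ : End Ω V} {l ε : Ω} {β : Polynomial Ω} (h0 : t.charpoly.IsRoot l)
    (h1 : t.charpoly.rootMultiplicity l ≤ 2) (ti : i * t = t * i) (tk : κ * t = t * κ)
    (ii : ∀ x, i (i x) = ε • x) (an : κ * i = -(i * κ)) (kk : κ * κ = aeval t β) (hε : ε ≠ 0) :
    ∃ x y, β.eval l = x ^ 2 - ε * y ^ 2 := by
  obtain ⟨x, hx⟩ := ((End.hasEigenvalue_iff_isRoot_charpoly t l).2 h0).exists_hasEigenvector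
  have hW : ∀ {g : End Ω V}, g * t = t * g → g x ∈ t.eigenspace l := fun {g} hg => by
    rw [End.mem_eigenspace_iff, ← End.mul_apply, ← hg, End.mul_apply, hx.apply_eq_smul, map_smul]
  by_cases hl : LinearIndependent Ω ![x, i x]
  · have h2 : Submodule.span Ω (Set.range ![x, i x]) = t.eigenspace l :=
      Submodule.eq_of_le_of_finrank_le (Submodule.span_le.2 (by
        rintro _ ⟨j, rfl⟩
        fin_cases j
        · exact hx.1
        · exact hW ti)) (by
        rw [finrank_span_eq_card hl]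
        exact (LinearMap.finrank_eigenspace_le t l).trans h1)
    obtain ⟨c, hc⟩ := (Submodule.mem_span_range_iff_exists_fun Ω).1 (h2 ▸ hW tk)
    simp only [Fin.sum_univ_two, Matrix.cons_val_zero, Matrix.cons_val_one] at hc
    refine ⟨c 0, c 1, smul_left_injective Ω hx.2 ?_⟩
    have h3 : κ (i x) = -i (κ x) := LinearMap.congr_fun an x
    have h4 : κ (κ x) = β.eval l • x := by
      rw [← End.mul_apply, kk, End.aeval_apply_of_hasEigenvector hx]
    change _ • x = _ • x
    rw [← h4]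
    conv_lhs => rw [← hc, map_add, map_smul, map_smul, h3, ← hc, map_add, map_smul, map_smul, ii]
    module
  · rw [LinearIndependent.pair_iff' hx.2, not_forall] at hl
    obtain ⟨a, ha⟩ := hl
    rw [not_not] at ha
    refine Hil.nm_of_sq hε ⟨a, smul_left_injective Ω hx.2 ?_⟩
    change _ • x = _ • x
    rw [← ii, ← ha, map_smul, ← ha, smul_smul]

/-- `B` splits over every local field prime to `M₀` -/
theorem exists_spl (K B : Type*) [Field K] [NumberField K] [Ring B] [Algebra K B]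
    [Algebra.IsCentral K B] [IsSimpleRing B] [FiniteDimensional K B] :
    ∃ M₀ : ℕ, 2 ≤ M₀ ∧ ∀ (F : Type*) [NontriviallyNormedField F] [IsUltrametricDist F]
      [ProperSpace F] [CharZero F] [Algebra K F], ‖(M₀ : F)‖ = 1 →
      Nonempty (B →ₐ[K] Matrix (Fin (deg K B)) (Fin (deg K B)) F) := by
  let e := finBasis K B
  obtain ⟨g, hg⟩ := Loc.exists_dual e
  choose n hn hn' using SplE.exists_nat (K := K)
  let J := Fin (finrank K B)
  let c : (J × J × J) ⊕ (J × J) → K :=
    Sum.elim (fun p => e.repr (e p.1 * e p.2.1) p.2.2) fun p => e.repr (g p.1) p.2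
  have hp : ∏ j, n (c j) ≠ 0 := Finset.prod_ne_zero_iff.2 fun j _ => hn _
  refine ⟨2 * ∏ j, n (c j), by omega, fun F _ _ _ _ _ hM => ?_⟩
  have hc : ∀ j, ‖algebraMap K F (c j)‖ ≤ 1 := fun j => by
    obtain ⟨m, hm⟩ := (Finset.dvd_prod_of_mem (fun j => n (c j)) (Finset.mem_univ j)).mul_left 2
    have h1 : IsIntegral (NormedField.valuation (K := F)).integer
        (algebraMap K F ((m : K) * ((n (c j) : K) * c j))) :=
      ((((isIntegral_natCast m).mul (hn' (c j)))).map (algebraMap K F).toIntAlgHom).tower_top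
    have h2 : ‖algebraMap K F ((m : K) * ((n (c j) : K) * c j))‖ ≤ 1 := by
      exact_mod_cast (Valuation.integer.integers (NormedField.valuation (K := F))).mem_of_integral h1
    rwa [← mul_assoc, ← Nat.cast_mul, mul_comm m, ← hm, map_mul, norm_mul, map_natCast, hM,
      one_mul] at h2
  let φ : B →ₐ[K] F ⊗[K] B := Algebra.TensorProduct.includeRight
  have hφ : ∀ c, φ (algebraMap K B c) = algebraMap F _ (algebraMap K F c) := fun c =>
    (φ.commutes c).trans (IsScalarTower.algebraMap_apply _ _ _ _)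
  have hr : finrank F (F ⊗[K] B) = finrank K B := Module.finrank_baseChange
  let e' := mapBasis e φ.toRingHom hr
  have he : ∀ i, e' i = φ (e i) := mapBasis_apply _ _ _
  have he' : ∀ x i, e'.repr (φ x) i = algebraMap K F (e.repr x i) :=
    mapBasis_repr e φ.toRingHom hr _ hφ
  have hU : Loc.Unim e' := ⟨fun i j l => by
      rw [he, he, ← map_mul, he']; exact hc (.inl (i, j, l)),
    fun i => φ (g i), fun i l => by rw [he']; exact hc (.inr (i, l)), fun x => by
      have : LinearMap.id = ∑ i, (Trd F ∘ₗ LinearMap.mulRight F (e' i)).smulRight (φ (g i)) :=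
        e'.ext fun l => by
          rw [LinearMap.id_apply, he, LinearMap.sum_apply]
          conv_lhs => rw [hg (e l), map_sum]
          refine Finset.sum_congr rfl fun i _ => ?_
          rw [map_smul, ← algebraMap_smul F, ← Trd_map _ φ.toRingHom hφ hr]
          simp [he]
      simpa using LinearMap.congr_fun this x⟩
  obtain ⟨ψ⟩ := hU.split0 (hr.trans (finrank_eq_deg_sq K B))
  exact ⟨(ψ.restrictScalars K).comp φ⟩

variable {D : Dat.{u, v, w}} (T : Tow D)

theorem i_alg (c : D.k) : T.i (algebraMap D.k T.E c) = algebraMap D.k D.B c := by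
  rw [IsScalarTower.algebraMap_apply D.k D.K T.E, AlgHom.commutes, ← IsScalarTower.algebraMap_apply]

theorem i0_sq : T.i₀ * T.i₀ = algebraMap D.k D.B T.ε := by
  rw [Tow.i₀, ← map_mul, ← i_alg, Tow.η, mul_mul_mul_comm, ← map_mul, ← map_mul, ← sq, T.θθ, T.ee,
    ← IsScalarTower.algebraMap_apply, ← IsScalarTower.algebraMap_apply, ← map_mul]
  rfl

variable {T} in
theorem rch_th {P : D.k[X]} {th : T.C} (h : T.HC P th) :
    rch D.K (th : D.B) = (P ^ 2).map (algebraMap D.k D.K) := by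
  haveI := Cz.finite_field T.i
  let L := AlgebraicClosure D.K
  refine map_injective _ (algebraMap D.K L).injective ?_
  rw [Cz.rch_coe, h.2, Finset.prod_congr rfl (g := fun _ => P.map (algebraMap D.k L)) fun σ _ => ?_,
    Finset.prod_const, Finset.card_univ, AlgHom.card, T.fr, Polynomial.map_map,
    ← IsScalarTower.algebraMap_eq, Polynomial.map_pow]
  rw [Polynomial.map_map, Polynomial.map_map]
  congr 1
  ext c
  simp only [RingHom.comp_apply, ← IsScalarTower.algebraMap_apply, RingHom.coe_coe]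
  rw [IsScalarTower.algebraMap_apply D.k D.K T.E, AlgHom.commutes, ← IsScalarTower.algebraMap_apply]

end Q22

open Q22

theorem spqStmt : SpqStmt.{u, v, w} := fun D T => by
  obtain ⟨M₀, hM, h⟩ := exists_spl D.K D.B
  refine ⟨M₀, hM, fun P th κ β hP hth hκ F _ _ _ l hl b hb w hw hδ => ?_⟩
  haveI := Loc.proper_adic F w
  haveI := Loc.charZero_adic F w
  let Ω := w.adicCompletion F
  have h0 : T.θ ≠ 0 := fun h => by
    have := T.θθ
    rw [h, zero_pow two_ne_zero, eq_comm, _root_.map_eq_zero] at this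
    exact T.δ.ne_zero this
  obtain ⟨ι⟩ := (BC.nonempty_emb_iff D.k D.K Ω h0 T.star_θ (T.θθ.symm.trans (sq _))).2 (by
    rw [IsScalarTower.algebraMap_apply D.k F Ω]
    exact (Hn.Loc.mem_Sq_iff w _).1 hδ)
  letI : Algebra D.K Ω := ι.toRingHom.toAlgebra
  haveI : IsScalarTower D.k D.K Ω := .of_algebraMap_eq fun c => (ι.commutes c).symm
  obtain ⟨ψ⟩ := h Ω (by
    have := (Loc.val_alg w (M₀ : F)).trans (by simpa using SplE.val_eq_one hw)
    rw [map_natCast] at this
    exact le_antisymm (Valued.toNormedField.norm_le_one_iff.2 this.le)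
      (Valued.toNormedField.one_le_norm_iff.2 this.ge))
  let ρ : D.B →ₐ[D.k] End Ω (Fin (deg D.K D.B) → Ω) :=
    (Matrix.toLinAlgEquiv'.toAlgHom.restrictScalars D.k).comp (ψ.restrictScalars D.k)
  haveI : Nonempty (Fin (deg D.K D.B)) := ⟨⟨0, deg_pos _ _⟩⟩
  have hc : (ρ th).charpoly = P.map (algebraMap D.k Ω) ^ 2 := by
    refine (Matrix.charpoly_toLin' (ψ th)).trans ?_
    rw [← rch_mat, ← Polynomial.map_pow, IsScalarTower.algebraMap_eq D.k D.K Ω,
      ← Polynomial.map_map, ← rch_th hth]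
    exact rch_map (algebraMap D.K Ω) ψ.toRingHom (fun c => (ψ.commutes c).trans
      (IsScalarTower.algebraMap_apply _ _ _ _))
      (by rw [finrank_mat, Fintype.card_fin, finrank_eq_deg_sq]) _
  have hr : (P.map (algebraMap D.k Ω)).IsRoot (algebraMap F Ω l) := by
    rw [IsRoot.def, eval_map_algebraMap, aeval_algebraMap_apply, hl, map_zero]
  obtain ⟨x, y, hxy⟩ := quat (t := ρ th) (i := ρ T.i₀) (κ := ρ κ) (l := algebraMap F Ω l)
    (ε := algebraMap D.k Ω T.ε) (β := β.map (algebraMap D.k Ω))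
    (by rw [hc, IsRoot.def, eval_pow, hr.eq_zero, zero_pow two_ne_zero])
    (by
      rw [hc, Hsm.rootMultiplicity_pow' hP.map.ne_zero]
      exact Nat.mul_le_mul_left 2 (rootMultiplicity_le_one_of_separable hP.map _))
    (by rw [← map_mul, ← map_mul, Tow.i₀, Cz.mem_iff.1 th.2]) (by rw [← map_mul, ← map_mul, hκ.comm])
    (fun x => by rw [← End.mul_apply, ← map_mul, i0_sq, AlgHom.commutes, algebraMap_smul]; rfl)
    (by rw [← map_mul, ← map_mul, hκ.anti, map_neg])
    (by rw [← map_mul, hκ.sq, aeval_map_algebraMap, aeval_algHom_apply])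
    ((_root_.map_ne_zero _).2 T.ε.ne_zero)
  refine (Hn.Loc.mem_LN_iff w _ b).2 ⟨x, y, ?_⟩
  rw [← IsScalarTower.algebraMap_apply, ← hxy, hb, eval_map_algebraMap, aeval_algebraMap_apply]

end Crest.Agent.T24.Evn
end
end

-- ▼ part T24/EvnEis_61

/-!
# Row 24, even degree: Eisenstein polynomials are irreducible over every subfield of `k_v` (helper61)
-/

set_option autoImplicit false

noncomputable section

namespace Crest.Agent.T24.Evn

open NumberField IsDedekindDomain WithZero Asa Polynomial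

universe u v

namespace E61

/-- Eisenstein's criterion for a valuation with values in `ℤᵐ⁰` -/
theorem irr {F : Type*} [Field F] (w : Valuation F ℤᵐ⁰) {P : F[X]} (hm : P.Monic) (hd : 0 < P.natDegree)
    (h1 : ∀ i < P.natDegree, w (P.coeff i) < 1) (h0 : w (P.coeff 0) = exp (-1 : ℤ)) : Irreducible P := by
  let O := w.valuationSubring
  have hc : ∀ i, P.coeff i ∈ O := fun i => by
    rcases lt_trichotomy i P.natDegree with h | h | h
    · exact (h1 i h).le
    · rw [h, hm.coeff_natDegree]; exact one_mem _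
    · rw [coeff_eq_zero_of_natDegree_lt h]; exact zero_mem _
  obtain ⟨Q, hQ, hQd, hQm⟩ := lifts_and_natDegree_eq_and_monic
    ((lifts_iff_coeff_lifts (f := algebraMap O F) P).2 fun i => ⟨⟨_, hc i⟩, rfl⟩) hm
  have hco : ∀ i, ((Q.coeff i : O) : F) = P.coeff i := fun i => by
    rw [← hQ, coeff_map]; rfl
  have hmx : ∀ x : O, x ∈ IsLocalRing.maximalIdeal O ↔ w x < 1 := fun x =>
    Valuation.mem_maximalIdeal_iff (v := w)
  have hE : Q.IsEisensteinAt (IsLocalRing.maximalIdeal O) := by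
    refine hQm.isEisensteinAt_of_mem_of_notMem (IsLocalRing.maximalIdeal.isMaximal O).ne_top
      (fun {n} hn => ?_) fun h => ?_
    · rw [hmx, hco]; exact h1 n (hQd ▸ hn)
    · have key : ∀ x ∈ IsLocalRing.maximalIdeal O ^ 2, w (x : F) ≤ exp (-2 : ℤ) := by
        intro x hx
        rw [sq] at hx
        refine Submodule.mul_induction_on hx (fun a ha b hb => ?_) fun a b ha hb => ?_
        · have e : ∀ y : O, y ∈ IsLocalRing.maximalIdeal O → w (y : F) ≤ exp (-1 : ℤ) := fun y hy => by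
            have := (hmx y).1 hy
            rcases eq_or_ne (w (y : F)) 0 with h0 | h0
            · rw [h0]; exact zero_le
            · rw [← exp_log h0] at this ⊢
              rw [← exp_zero, exp_lt_exp] at this
              exact exp_le_exp.2 (by omega)
          rw [show ((a * b : O) : F) = a * b from rfl, map_mul, show (-2 : ℤ) = -1 + -1 by norm_num, exp_add]
          exact mul_le_mul' (e a ha) (e b hb)
        · exact (w.map_add _ _).trans (max_le ha hb)
      have := key _ h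
      rw [hco, h0, exp_le_exp] at this
      omega
  have hI := hE.irreducible (IsLocalRing.maximalIdeal.isMaximal O).isPrime hQm.isPrimitive (hQd ▸ hd)
  rw [← hQ]
  exact (hQm.irreducible_iff_irreducible_map_fraction_map (K := F)).1 hI

/-- irreducible over the completion -/
theorem irr_Kv {k : Type u} [Field k] [NumberField k] {v : Pl k} {P : k[X]} (h : Eis v P)
    (hd : 0 < P.natDegree) : Irreducible (P.map (algebraMap k (Kv v))) := by
  have hv : ∀ x : k, Valued.v (algebraMap k (Kv v) x) = v.valuation k x := fun x =>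
    HeightOneSpectrum.valuedAdicCompletion_eq_valuation' v x
  refine irr (Valued.v : Valuation (Kv v) ℤᵐ⁰) (h.1.map _) (by rwa [natDegree_map]) (fun i hi => ?_) ?_
  · rw [coeff_map, hv]; exact h.2.1 i (by rwa [natDegree_map] at hi)
  · rw [coeff_map, hv]; exact h.2.2

end E61

theorem eisStmt : EisStmt.{u, v} := by
  intro k _ _ v P h hd L _ _ ⟨f⟩
  refine (h.1.map _).irreducible_of_irreducible_map f.toRingHom _ ?_
  rw [Polynomial.map_map, show f.toRingHom.comp (algebraMap k L) = algebraMap k (Kv v) from f.comp_algebraMap]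
  exact E61.irr_Kv h hd

end Crest.Agent.T24.Evn
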