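import Crest.Agent.T24.EmbDef_13
import Crest.Agent.T24.OpnB_6
import Crest.Agent.T24.HilA_56
import Crest.Agent.T24.HsmC_23
import Crest.Agent.T24.Csa4_50

/-! Row 24, embedding module: weak approximation for `U` and the open form (helper56). -/

set_option autoImplicit false
set_option linter.unusedSectionVars false

noncomputable section

namespace Crest.Agent.T24.Emb

open Module Polynomial NumberField IsDedekindDomain WithZero Csa Asa Topology Filter
open scoped NumberField Valued

universe u v w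

namespace W56

theorem minpoly_eq_of_indep {F A : Type*} [Field F] [Ring A] [Algebra F A] {z : A} {P : F[X]}
    (hm : P.Monic) (h0 : aeval z P = 0)
    (hi : LinearIndependent F fun i : Fin P.natDegree => z ^ (i : ℕ)) : minpoly F z = P := by
  refine (minpoly.unique' F z hm h0 fun q hq => ?_).symm
  rw [or_iff_not_imp_right, not_not]
  intro h1
  by_contra hq0
  rw [degree_eq_natDegree hm.ne_zero, ← natDegree_lt_iff_degree_lt hq0] at hq
  rw [aeval_eq_sum_range' hq, Finset.sum_range] at h1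
  exact hq0 (leadingCoeff_eq_zero.1
    (Fintype.linearIndependent_iff.1 hi (fun i => q.coeff i) h1 ⟨_, hq⟩))

/-- the minimal polynomial can be moved a little -/
theorem near_minpoly (F : Type*) {A : Type*} [NontriviallyNormedField F] [CompleteSpace F] [Ring A]
    [Algebra F A] [FiniteDimensional F A] [t : TopologicalSpace A] [IsTopologicalAddGroup A]
    [ContinuousSMul F A] [T2Space A] {a : A} (hs : (minpoly F a).Separable) {V : Set A}
    (hV : V ∈ 𝓝 a) : ∃ ε > 0, ∀ P : F[X], P.Monic → P.natDegree = (minpoly F a).natDegree →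
      (∀ i, ‖P.coeff i - (minpoly F a).coeff i‖ < ε) →
      ∃ z ∈ Algebra.adjoin F {a}, V ∈ 𝓝 z ∧ minpoly F z = P := by
  set n := (minpoly F a).natDegree with hn
  have hU : {z : A | LinearIndependent F fun i : Fin n => z ^ (i : ℕ)} ∈ 𝓝 a := by
    obtain rfl := Opn.top_nrmR F A
    let _ := Opn.nrmR F A
    let _ := Opn.nrmA F A
    exact ((isOpen_setOfPred_linearIndependent (𝕜 := F) (ι := Fin n) (E := A)).preimage
      (continuous_pi fun i => continuous_pow _)).mem_nhds (linearIndependent_pow a)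
  let g : F[X] → Fin (n + 1) → F := fun P i => P.coeff i
  have h := Opn.root_near F n (l := comap g (𝓝 (g (minpoly F a))) ⊓ 𝓟 {P | P.natDegree = n})
    (P := id) (fun i => ?_) (mem_inf_of_right fun P hP => le_of_eq hP) le_rfl
    (tendsto_const_nhds (x := a)) (minpoly.aeval F a)
    (Opn.isUnit_derivative F hs (minpoly.aeval F a)) (inter_mem (interior_mem_nhds.2 hV) hU)
  · rw [eventually_inf_principal, eventually_comap, Metric.eventually_nhds_iff] at h
    obtain ⟨ε, hε, h⟩ := h
    refine ⟨ε, hε, fun P h1 h2 h3 => ?_⟩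
    obtain ⟨z, hz, ⟨h4, h5⟩, h6⟩ := h ((dist_pi_lt_iff hε).2 fun i => by
      rw [dist_eq_norm]; exact h3 i) P rfl h2
    exact ⟨z, hz, mem_interior_iff_mem_nhds.1 h4, minpoly_eq_of_indep h1 h6 (h2 ▸ h5)⟩
  by_cases hi : i < n + 1
  · exact (tendsto_pi_nhds.1 (tendsto_comap (f := g)) ⟨i, hi⟩).mono_left inf_le_left
  refine tendsto_const_nhds.congr' (mem_inf_of_right fun P (h2 : P.natDegree = n) => ?_)
  change _ = P.coeff i
  rw [coeff_eq_zero_of_natDegree_lt (by omega), coeff_eq_zero_of_natDegree_lt (by omega)]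

end W56

open W56

variable (k K B : Type*) [Field k] [NumberField k] [Field K] [NumberField K] [Algebra k K]
  [StarRing K] [Quad k K] [Ring B] [StarRing B] [Algebra K B] [StarModule K B]
  [Algebra.IsCentral K B] [IsSimpleRing B] [FiniteDimensional K B] [Algebra k B]
  [IsScalarTower k K B]

namespace W56

section
variable (F : Type*) [Field F] [Algebra k F]

theorem inc_inj : Function.Injective (BC.inc k K B F) :=
  Algebra.TensorProduct.includeRight_injective (algebraMap k F).injective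

theorem antiL : Opn.AntiL F (starAddEquiv (R := BC k K B F)).toAddMonoidHom :=
  ⟨⟨star_mul, star_star⟩, fun c => by
    change star (algebraMap F (BC k K B F) c) = _
    rw [Algebra.algebraMap_eq_smul_one, BC.star_rsmul, star_one]⟩

theorem commute_inc (c : K) (z : BC k K B F) : Commute (BC.inc k K B F (algebraMap K B c)) z := by
  refine BC.ind z (Commute.zero_right _) (fun r b => Commute.smul_right ?_ r)
    fun x y => Commute.add_right
  exact Commute.map (Algebra.commutes c b) _

theorem crd_symm {ι : Type*} [Fintype ι] [TopologicalSpace F] [IsTopologicalRing F]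
    (e : Basis ι k B) (x : ι → k) : (BC.crd k K B F e).symm (fun i => algebraMap k F (x i)) =
      BC.inc k K B F (∑ i, x i • e i) := by
  change (BC.bas k K B F e).equivFun.symm _ = _
  simp [BC.bas_apply]

variable {k K B F} in
theorem hr {P : k[X]} {th : B} (h : HG K P th) (hs : P.Separable) :
    HR (P.map (algebraMap k F)) (BC.inc k K B F th) := by
  refine ⟨by rw [BC.star_inc, h.1], minpoly_eq_of_indep ?_ ?_ ?_⟩
  · exact ((monic_map_iff (f := algebraMap k K)).1 (h.2 ▸ rch_monic K th)).map _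
  · rw [aeval_map_algebraMap, aeval_algHom_apply, ← aeval_map_algebraMap K, ← h.2, aeval_rch, map_zero]
  · have h1 := linearIndependent_pow (K := K) th
    rw [minpoly_eq_rch_of_separable (h.2 ▸ hs.map), h.2, natDegree_map] at h1
    rw [natDegree_map]
    have h2 := Module.Flat.linearIndependent_one_tmul (S := F) (h1.restrict_scalars' k)
    simp only [← map_pow]
    exact h2

end

variable (F : Type*) [NontriviallyNormedField F] [CompleteSpace F] [Algebra k F]

theorem loc_cay (g : Uc k K B F) {V : Set (Uc k K B F)} (hV : V ∈ 𝓝 g) :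
    ∃ a : BC k K B F, ∃ N ∈ 𝓝 a, ∀ b : B, BC.inc k K B F b ∈ N →
      IsUnit (1 - (2⁻¹ : k) • (b - star b)) ∧ ∀ u : unitary B,
        (u : B) = Opn.cay ((2⁻¹ : k) • (b - star b)) → toU k K B F u ∈ V := by
  have : CharZero F := charZero_of_injective_algebraMap (algebraMap k F).injective
  have := finite_kB k K B
  obtain ⟨θ, h0, hθ⟩ := exists_skew (Quad.ne (k := k) (K := K))
  obtain ⟨V', hV', hVV⟩ := (mem_nhds_subtype _ _ _).1 hV
  obtain ⟨X, hX, h1, h2⟩ := (antiL k K B F).cay_dense two_ne_zero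
    (((Ne.isUnit h0).map (algebraMap K B)).map (BC.inc k K B F)) (commute_inc k K B F θ)
    (by
      change star (BC.inc k K B F (algebraMap K B θ)) = _
      rw [BC.star_inc, T24.star_algebraMap, hθ, map_neg, map_neg]) g.2.1
    (interior_mem_nhds.2 hV')
  let p : BC k K B F → BC k K B F := fun x => (2⁻¹ : F) • (x - star x)
  have hp : Tendsto p (𝓝 X) (𝓝 X) := by
    have e : p X = X := by
      have : star X = -X := hX
      simp only [p, this, sub_neg_eq_add, ← two_smul F X, smul_smul]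
      simp
    have hc : Continuous p := by fun_prop
    simpa only [e] using hc.tendsto X
  refine ⟨X, _, ((hp.const_sub 1).eventually (Opn.ev_isUnit F h1)).and
    (((Opn.cay_continuousAt F h1).tendsto.comp hp) (mem_interior_iff_mem_nhds.1 h2)), fun b hb => ?_⟩
  have e : BC.inc k K B F ((2⁻¹ : k) • (b - star b)) = p (BC.inc k K B F b) := by
    rw [map_smul, map_sub, ← algebraMap_smul F, map_inv₀, map_ofNat]; rfl
  have hU : IsUnit (1 - (2⁻¹ : k) • (b - star b)) :=
    Opn.isUnit_of_map k (BC.inc k K B F).toRingHom (inc_inj k K B F) (by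
      change IsUnit (BC.inc k K B F _)
      rw [map_sub, map_one, e]; exact hb.1)
  refine ⟨hU, fun u hu => hVV ?_⟩
  change BC.inc k K B F u ∈ V'
  rw [hu]
  exact (Opn.map_cay (BC.inc k K B F).toRingHom hU).symm ▸ (show Opn.cay (BC.inc k K B F _) ∈ V' from
    e ▸ hb.2)

variable {k K B} in
theorem loc_near {Q : F[X]} {a : BC k K B F} (h : HR Q a) (hs : Q.Separable) {V : Set (BC k K B F)}
    (hV : V ∈ 𝓝 a) : ∃ ε > 0, ∀ P : F[X], P.Monic → P.natDegree = Q.natDegree →
      (∀ i, ‖P.coeff i - Q.coeff i‖ < ε) → ∃ z, HR P z ∧ V ∈ 𝓝 z := by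
  obtain ⟨h1, rfl⟩ := h
  obtain ⟨ε, hε, H⟩ := near_minpoly F hs hV
  refine ⟨ε, hε, fun P h2 h3 h4 => ?_⟩
  obtain ⟨z, h5, h6, h7⟩ := H P h2 h3 h4
  exact ⟨z, ⟨(antiL k K B F).adj_herm h1 h5, h7⟩, h6⟩

end W56

/-- additive weak approximation in `B` -/
theorem waB (S : Finset (Pl k)) (a : ∀ v : Pl k, BC k K B (Kv v))
    (V : ∀ v : Pl k, Set (BC k K B (Kv v))) (ar : ∀ φ : k →+* ℝ, BC k K B (Rp φ))
    (W : ∀ φ : k →+* ℝ, Set (BC k K B (Rp φ))) (hV : ∀ v ∈ S, V v ∈ 𝓝 (a v))
    (hW : ∀ φ, W φ ∈ 𝓝 (ar φ)) :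
    ∃ b : B, (∀ v ∈ S, BC.inc k K B _ b ∈ V v) ∧ ∀ φ, BC.inc k K B _ b ∈ W φ := by
  have := finite_kB k K B
  let e := finBasis k B
  obtain ⟨x, h1, h2⟩ := Hil.wa S (fun v => BC.crd k K B _ e (a v))
    (fun v => (BC.crd k K B _ e).symm ⁻¹' V v)
    (fun v hv => (BC.crd k K B _ e).symm.continuous.continuousAt.preimage_mem_nhds
      (by simpa using hV v hv))
    (fun φ => BC.crd k K B (Rp φ) e (ar φ)) (fun φ => (BC.crd k K B (Rp φ) e).symm ⁻¹' W φ)
    fun φ => (BC.crd k K B (Rp φ) e).symm.continuous.continuousAt.preimage_mem_nhds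
      (by simpa using hW φ)
  exact ⟨∑ i, x i • e i, fun v hv => crd_symm k K B (Kv v) e x ▸ h1 v hv,
    fun φ => crd_symm k K B (Rp φ) e x ▸ h2 φ⟩

/-- **weak approximation for the unitary group** -/
theorem waU : WaU k K B := by
  classical
  intro S g V gr W hV hW
  obtain ⟨v₀, h₀⟩ := exists_notMem S
  choose a N hN h using fun v : Pl k => loc_cay k K B (Kv v) (g v)
    (V := if v ∈ S then V v else Set.univ) (by
      split_ifs with hv
      exacts [hV v hv, univ_mem])
  choose ar M hM h' using fun φ => loc_cay k K B (Rp φ) (gr φ) (hW φ)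
  obtain ⟨b, h1, h2⟩ := waB k K B (insert v₀ S) a N ar M (fun v _ => hN v) hM
  have hU := (h v₀ b (h1 v₀ (Finset.mem_insert_self _ _))).1
  have hs : star ((2⁻¹ : k) • (b - star b)) = -((2⁻¹ : k) • (b - star b)) := by
    rw [star_ksmul k K B, star_sub, star_star, ← smul_neg, neg_sub]
  have hA : Opn.Anti (starAddEquiv (R := B)).toAddMonoidHom := ⟨star_mul, star_star⟩
  have hu : star (Opn.cay ((2⁻¹ : k) • (b - star b))) * Opn.cay _ = 1 := hA.cay_unitary hs hU
  have := Opn.dedekind' K (A := B)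
  refine ⟨⟨_, hu, mul_eq_one_comm.1 hu⟩, fun v hv => ?_, fun φ => (h' φ b (h2 φ)).2 _ rfl⟩
  simpa only [if_pos hv] using (h v b (h1 v (Finset.mem_insert_of_mem hv))).2
    ⟨_, hu, mul_eq_one_comm.1 hu⟩ rfl


variable {k K B} in
theorem embNear_of (hL : LocEx k K B) (hE : EmbEx k K B) (hM : EmbMod k K B) : EmbNear k K B := by
  classical
  obtain ⟨S₀, hL⟩ := hL
  refine ⟨S₀, fun P₀ al h₀ hs S V W hS hV hW => ?_⟩
  have hd : P₀.natDegree = deg K B := by
    rw [← natDegree_map (algebraMap k K), ← h₀.2, rch_natDegree]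
  choose! ε hε H using fun v (hv : v ∈ S) => loc_near (Kv v) (hr h₀ hs) hs.map (hV v hv)
  choose δ hδ H' using fun φ => loc_near (Rp φ) (hr h₀ hs) hs.map (hW φ)
  choose! m hm using fun v (hv : v ∈ S) => Hsm.exists_exp_norm v (hε v hv)
  obtain ⟨η, hη, hη0⟩ := ((eventually_all.2 fun φ => nhdsWithin_le_nhds (gt_mem_nhds (hδ φ))).and
    (self_mem_nhdsWithin (s := Set.Ioi (0 : ℝ)))).exists
  refine ⟨S.sup m, η, hη0, fun P h1 h2 h3 h4 h5 => ?_⟩
  have e : ∀ {F : Type _} [Field F] (f : k →+* F), (P.map f).natDegree = (P₀.map f).natDegree :=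
    fun f => by rw [natDegree_map, natDegree_map, h3, hd]
  have h6 : ∀ v : Pl k, ∃ z : BC k K B (Kv v), HR (P.map (algebraMap k _)) z ∧
      (v ∈ S → V v ∈ 𝓝 z) := fun v => by
    by_cases hv : v ∈ S
    · obtain ⟨z, h7, h8⟩ := H v hv _ (h1.map _) (e _) fun i => hm v hv _ (by
        rw [coeff_map, coeff_map, ← map_sub]
        exact (v.valuedAdicCompletion_eq_valuation' _).trans_le
          ((h4 v hv i).trans (exp_neg_anti (Finset.le_sup hv))))
      exact ⟨z, h7, fun _ => h8⟩
    · obtain ⟨z, h7⟩ := hL v (fun h => hv (hS h)) (P.map (algebraMap k (Kv v))) (h1.map _) (by rw [natDegree_map, h3])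
        h2.separable.map
      exact ⟨z, h7, fun h => absurd h hv⟩
  choose t h7 h8 using h6
  choose tr h9 h10 using fun φ => H' φ (P.map (algebraMap k _)) (h1.map _)
    (by rw [natDegree_map, natDegree_map, h3, hd]) fun i => by
      rw [coeff_map, coeff_map, ← map_sub]
      exact (h5 φ i).trans (hη φ)
  obtain ⟨th, hth⟩ := hE P h1 h2 h3 (fun v => ⟨_, h7 v⟩) fun φ => ⟨_, h9 φ⟩
  obtain ⟨th', h11, h12, h13, -⟩ := hM P th h2 hth S t V tr W (fun v hv => ⟨h7 v, h8 v hv⟩)
    fun φ => ⟨h9 φ, h10 φ⟩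
  exact ⟨th', h11, fun v hv => (h12 v hv).1, fun φ => (h13 φ).1⟩


end Crest.Agent.T24.Emb
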