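import Crest.Agent.T24.HilA_56
import Crest.Agent.T24.EmbB_13
import Crest.Agent.T24.BcA_98
import Crest.Agent.T24.HilD_56
import Crest.Agent.T24.OpnB_6
import Crest.Agent.T24.EmbDef_13
import Crest.Agent.T24.LanA_73
import Crest.Agent.T24.Csa4_50
import Crest.Agent.T24.EmbW_56

-- ▼ part T24/EmbN_13
section

/-! Row 24, embedding module, part N (helper13): local norms in `k_p ⊗ L`. -/

set_option autoImplicit false
set_option linter.unusedSectionVars false
set_option linter.style.haveILetI false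

noncomputable section

open scoped NumberField TensorProduct Valued
open IsDedekindDomain

namespace Crest.Agent.T24.Emb

open Hn Hil

universe u

section Plc

variable {L : Type*} [Field L] [NumberField L]

theorem norm_int_le {E : Type*} [NormedField E] [IsUltrametricDist E] (j : L →+* E) (a : 𝓞 L) :
    ‖j a‖ ≤ 1 := by
  have h1 : IsIntegral ℤ (j (a : L)) :=
    (NumberField.RingOfIntegers.isIntegral_coe a).map (j.toIntAlgHom)
  have h2 : IsIntegral (NormedField.valuation (K := E)).integer (j (a : L)) := h1.tower_top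
  have h3 := (Valuation.integer.integers (NormedField.valuation (K := E))).mem_of_integral h2
  exact_mod_cast h3

/-- the place defined by an embedding in an ultrametric field -/
theorem exists_place {E : Type*} [NormedField E] [IsUltrametricDist E] (j : L →+* E)
    (a₀ : 𝓞 L) (h0 : a₀ ≠ 0) (h1 : ‖j a₀‖ < 1) :
    ∃ w : Pl L, (∀ a : 𝓞 L, a ∈ w.asIdeal ↔ ‖j a‖ < 1) ∧
      ∀ x : L, w.valuation L x < 1 → ‖j x‖ < 1 := by
  let I : Ideal (𝓞 L) :=
    { carrier := {a | ‖j a‖ < 1}
      add_mem' := fun {a b} ha hb => by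
        change ‖j ((a + b : 𝓞 L) : L)‖ < 1
        rw [NumberField.RingOfIntegers.coe_eq_algebraMap, map_add, map_add]
        exact (IsUltrametricDist.norm_add_le_max _ _).trans_lt (max_lt ha hb)
      zero_mem' := by simp
      smul_mem' := fun c a ha => by
        change ‖j ((c * a : 𝓞 L) : L)‖ < 1
        rw [NumberField.RingOfIntegers.coe_eq_algebraMap, map_mul, map_mul, norm_mul]
        exact mul_lt_one_of_nonneg_of_lt_one_right (norm_int_le j c) (norm_nonneg _) ha }
  have hI : ∀ a : 𝓞 L, a ∈ I ↔ ‖j a‖ < 1 := fun a => Iff.rfl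
  have hp : I.IsPrime := ⟨fun h => by
      have : (1 : 𝓞 L) ∈ I := h ▸ Submodule.mem_top
      simpa using (hI 1).1 this, fun {a b} h => by
      by_contra hn
      rw [not_or, hI, hI, not_lt, not_lt] at hn
      have := (hI _).1 h
      rw [NumberField.RingOfIntegers.coe_eq_algebraMap, map_mul, map_mul, norm_mul] at this
      exact absurd (one_le_mul_of_one_le_of_one_le hn.1 hn.2) (not_le.2 this)⟩
  let w : Pl L := ⟨I, hp, fun h => h0 (by
    have : a₀ ∈ I := (hI _).2 h1
    rwa [h] at this)⟩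
  refine ⟨w, hI, fun x hx => ?_⟩
  obtain ⟨n, d, hnd⟩ := w.exists_primeCompl_mul_eq_of_integer x hx.le
  have hd : w.valuation L (algebraMap (𝓞 L) L d) = 1 := w.valuation_eq_one_iff_notMem.2 d.2
  have hn : n ∈ I := by
    refine (w.valuation_lt_one_iff_mem (K := L) n).1 ?_
    change w.valuation L (algebraMap (𝓞 L) L n) < 1
    rwa [← hnd, map_mul, hd, mul_one]
  have hd' : 1 ≤ ‖j (algebraMap (𝓞 L) L d)‖ := not_lt.1 d.2
  have hn' : ‖j (algebraMap (𝓞 L) L n)‖ < 1 := hn
  rw [← hnd, map_mul, norm_mul] at hn'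
  exact lt_of_le_of_lt (le_mul_of_one_le_right (norm_nonneg _) hd') hn'

theorem sq_of_place {E : Type*} [NormedField E] [IsUltrametricDist E] [CompleteSpace E]
    (j : L →+* E) {w : Pl L} (hw : ∀ x : L, w.valuation L x < 1 → ‖j x‖ < 1) {s : Lˣ}
    (hs : s ∈ Sq w) : IsSquare (j s) := by
  obtain ⟨y, hy⟩ := hs
  have h4 : w.valuation L 4 ≠ 0 := by simp
  have h1 : w.valuation L ((s * y ^ 2 - 1) / 4) < 1 := by
    rwa [map_div₀, div_lt_one₀ (zero_lt_iff.2 h4)]
  obtain ⟨t, ht⟩ := Hn.Loc.exists_sq_add (hw _ h1)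
  have hy0 : y ≠ 0 := by
    rintro rfl
    have := Hn.Loc.val_four_le w
    simp only [ne_eq, OfNat.ofNat_ne_zero, not_false_eq_true, zero_pow, mul_zero, zero_sub,
      Valuation.map_neg, map_one] at hy
    exact absurd this (not_le.2 hy)
  have : CharZero E := j.charZero_iff j.injective |>.1 inferInstance
  have hy1 : j y ≠ 0 := (map_ne_zero j).2 hy0
  refine ⟨(1 + 2 * t) / j y, ?_⟩
  simp only [map_div₀, map_sub, map_mul, map_pow, map_one, map_ofNat] at ht
  field_simp
  linear_combination -4 * ht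

end Plc

variable {k : Type u} [Field k] [NumberField k]

/-- every finite extension of `R` containing `L` lies over a place of `L` above `p`, or is
quadratically closed -/
def Up (p : Pc k) (R : Type*) [Field R] [Algebra k R] : Prop :=
  ∀ (L : Type u) [Field L] [NumberField L] [Algebra k L] (m : Ideal (R ⊗[k] L)), m.IsMaximal →
    ∀ s : Lˣ, (∀ Q : Pc L, unP k Q = p → s ∈ SqP Q) →
      IsSquare (Ideal.Quotient.mk m (1 ⊗ₜ (s : L)))

theorem sq_fin (v : Pl k) {L : Type*} [Field L] [NumberField L] [Algebra k L] {E : Type*} [Field E]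
    [Algebra (v.adicCompletion k) E] [FiniteDimensional (v.adicCompletion k) E] (j : L →+* E)
    (hj : ∀ c : k, j (algebraMap k L c) = algebraMap (v.adicCompletion k) E (algebraMap k _ c))
    (s : Lˣ) (hs : ∀ Q : Pc L, unP k Q = .inl v → s ∈ SqP Q) : IsSquare (j s) := by
  letI := spectralNorm.normedField (v.adicCompletion k) E
  haveI : IsUltrametricDist E := IsUltrametricDist.isUltrametricDist_of_isNonarchimedean_norm
    isNonarchimedean_spectralNorm
  haveI : CompleteSpace E := spectralNorm.completeSpace (v.adicCompletion k) E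
  have key : ∀ a : 𝓞 k, ‖j (algebraMap (𝓞 k) (𝓞 L) a : L)‖ < 1 ↔ a ∈ v.asIdeal := fun a => by
    have e : ((algebraMap (𝓞 k) (𝓞 L) a : 𝓞 L) : L) = algebraMap k L a := rfl
    rw [e, hj]
    change spectralNorm _ _ _ < 1 ↔ _
    rw [spectralNorm_extends]
    exact NumberField.FinitePlace.norm_lt_one_iff_mem k v a
  obtain ⟨a, ha, ha0⟩ := Submodule.exists_mem_ne_zero_of_ne_bot v.ne_bot
  obtain ⟨w, hw, hw'⟩ := exists_place j (algebraMap (𝓞 k) (𝓞 L) a)
    ((map_ne_zero_iff _ (FaithfulSMul.algebraMap_injective _ _)).2 ha0) ((key a).2 ha)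
  refine sq_of_place j hw' (hs (.inl w) (congrArg Sum.inl ?_))
  ext b
  rw [← key, ← hw]
  rfl

theorem sq_real (φ : k →+* ℝ) {L : Type*} [Field L] [NumberField L] [Algebra k L] {E : Type*}
    [Field E] [Algebra ℝ E] [FiniteDimensional ℝ E] (j : L →+* E)
    (hj : ∀ c : k, j (algebraMap k L c) = algebraMap ℝ E (φ c))
    (s : Lˣ) (hs : ∀ Q : Pc L, unP k Q = .inr φ → s ∈ SqP Q) : IsSquare (j s) := by
  rcases Real.nonempty_algEquiv_or E with ⟨⟨e⟩⟩ | ⟨⟨e⟩⟩
  · have := hs (.inr ((e : E →+* ℝ).comp j)) (congrArg Sum.inr (RingHom.ext fun c => by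
      simp [hj]))
    have h := ((pos_iff_sq _ s).1 this).map e.symm
    simpa using h
  · obtain ⟨z, hz⟩ := IsAlgClosed.exists_eq_mul_self (e (j s))
    exact ⟨e.symm z, by rw [← map_mul, ← hz]; simp⟩

theorem up_inl (v : Pl k) : Up (.inl v) (v.adicCompletion k) := fun L _ _ _ m _ s hs => by
  letI := Ideal.Quotient.field m
  exact sq_fin v ((Ideal.Quotient.mk m).comp
    (Algebra.TensorProduct.includeRight (R := k) (A := v.adicCompletion k) (B := L) : L →+* _))
    (fun c => by
      change Ideal.Quotient.mk m _ = Ideal.Quotient.mk m _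
      congr 1
      simp [Algebra.TensorProduct.algebraMap_apply])
    s hs

theorem up_inr (φ : k →+* ℝ) : letI := φ.toAlgebra; Up (.inr φ) ℝ := by
  letI := φ.toAlgebra
  intro L _ _ _ m _ s hs
  letI := Ideal.Quotient.field m
  exact sq_real φ ((Ideal.Quotient.mk m).comp
    (Algebra.TensorProduct.includeRight (R := k) (A := ℝ) (B := L) : L →+* _))
    (fun c => by
      change Ideal.Quotient.mk m _ = Ideal.Quotient.mk m _
      congr 1
      simp [Algebra.TensorProduct.algebraMap_apply]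
      rfl)
    s hs

theorem Up.sq {p : Pc k} {R : Type*} [Field R] [Algebra k R] (h : Up p R) {L : Type u} [Field L]
    [NumberField L] [Algebra k L] {s : Lˣ} (hs : ∀ Q : Pc L, unP k Q = p → s ∈ SqP Q) :
    IsSquare ((1 : R) ⊗ₜ[k] (s : L)) := by
  haveI : Algebra.FormallyUnramified k L := Algebra.FormallyUnramified.of_isSeparable k L
  haveI : IsReduced (R ⊗[k] L) := Algebra.FormallyUnramified.isReduced_of_field R _
  haveI : IsArtinianRing (R ⊗[k] L) := IsArtinianRing.of_finite R _
  choose z hz using fun m : MaximalSpectrum (R ⊗[k] L) => h L m.asIdeal m.isMaximal s hs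
  refine ⟨(IsArtinianRing.equivPi _).symm z, (IsArtinianRing.equivPi _).injective ?_⟩
  rw [map_mul, AlgEquiv.apply_symm_apply]
  exact funext hz

theorem finite_unP {L : Type*} [Field L] [NumberField L] [Algebra k L] (p : Pc k) :
    {Q : Pc L | unP k Q = p}.Finite := by
  refine Set.finite_preimage_inl_and_inr.1 ⟨?_, Set.toFinite _⟩
  rcases p with v | φ
  · exact (finite_un L {v}).subset fun w hw => Finset.mem_singleton.2 (Sum.inl_injective hw)
  · exact Set.finite_empty.subset fun w hw => Sum.inl_ne_inr hw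

/-- local norms at all places above `p` are norms in `k_p ⊗ L` -/
theorem Up.nm {p : Pc k} {R : Type*} [Field R] [Algebra k R] (h : Up p R) {L : Type u} [Field L]
    [NumberField L] [Algebra k L] {d : L} {q : Lˣ} (hq : ∀ Q : Pc L, unP k Q = p → q ∈ LNP d Q) :
    ∃ x y : R ⊗[k] L, (1 : R) ⊗ₜ[k] (q : L) = x ^ 2 - (1 : R) ⊗ₜ[k] d * y ^ 2 := by
  obtain ⟨n, ⟨x, y, hn⟩, h1⟩ := wa_nr d (finite_unP (L := L) p).toFinset (fun _ => q) fun Q hQ =>
    hq Q (by simpa using hQ)
  obtain ⟨z, hz⟩ := h.sq (s := q / n) fun Q hQ => by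
    simpa using inv_mem (h1 Q (by simpa using hQ))
  let j : L →+* R ⊗[k] L := Algebra.TensorProduct.includeRight (R := k) (A := R) (B := L)
  refine ⟨j x * z, j y * z, ?_⟩
  have e : (q : L) = n * (q / n : Lˣ) := by rw [← Units.val_mul, mul_div_cancel]
  change j q = _ - j d * _
  change j _ = _ at hz
  rw [e, map_mul, hz, hn, map_sub, map_mul, map_pow, map_pow]
  ring

end Crest.Agent.T24.Emb
end
end

-- ▼ part T24/EmbC_13
section

/-! Row 24, embedding module, part C (helper13): the local-global principle. -/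

set_option autoImplicit false
set_option linter.unusedSectionVars false
set_option linter.style.haveILetI false

noncomputable section

namespace Crest.Agent.T24.Emb

open Module Polynomial Csa Topology Filter NumberField
open Hil (Pc SqP LNP hil unP Lc nm)
open Asa (Pl below)
open scoped TensorProduct Valued

universe u v w

theorem comm_of_adj {A : Type*} [Ring A] {H H' y y' : A} (hu : IsUnit H) (h : y' * H = H * y)
    (h' : y' * H' = H' * y) : Commute (Ring.inverse H * H') y := by
  refine hu.mul_left_cancel ?_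
  rw [mul_assoc, Ring.mul_inverse_cancel_left _ _ hu, ← mul_assoc, ← h, mul_assoc,
    Ring.mul_inverse_cancel_left _ _ hu, h']

theorem ctr_comm {k R B : Type*} [Field k] [Field R] [Algebra k R] [Ring B] [Algebra k B]
    (l : R →ₗ[k] k) {z : R ⊗[k] B} {y : B} (h : z * 1 ⊗ₜ y = 1 ⊗ₜ y * z) :
    ctr B l z * y = y * ctr B l z := by
  have h1 := ctr_mul l z 1 y
  have h2 := ctr_mul l z y 1
  rw [← Algebra.TensorProduct.one_def, one_mul, one_mul] at h1
  rw [← Algebra.TensorProduct.one_def, mul_one, mul_one] at h2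
  rw [← h1, ← h2, h]

variable {k : Type u} {K B : Type*} [Field k] [NumberField k] [Field K] [NumberField K]
  [Algebra k K] [StarRing K] [Quad k K] [Ring B] [StarRing B] [Algebra K B] [StarModule K B]
  [Algebra.IsCentral K B] [IsSimpleRing B] [FiniteDimensional K B] [Algebra k B]
  [IsScalarTower k K B]

theorem up_rp (φ : k →+* ℝ) : Up (.inr φ) (Rp φ) := up_inr φ

theorem lc_rp (φ : k →+* ℝ) : Lc (.inr φ) (algebraMap k (Rp φ)) := Hil.lc_inr φ

variable (k K B) in
/-- a maximal subfield fixed by the twisted involution -/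
structure Fr (L : Type u) [Field L] [Algebra k L] where
  /-- skew scalar -/
  θ : K
  /-- its square -/
  δ : kˣ
  hθ : star θ = -θ
  hδ : θ ^ 2 = algebraMap k K δ
  /-- the embedding -/
  j : L →ₐ[k] B
  /-- the generator -/
  a : L
  /-- the twist -/
  h : Bˣ
  hh : star (h : B) = h
  /-- its norm -/
  ν : kˣ
  hν : Nrd K (h : B) = algebraMap k K ν
  adj : ∀ l, star (j l) * h = h * j l
  cen : ∀ x, x * j a = j a * x → ∃ l l', x = j l + algebraMap K B θ * j l'
  nrd : ∀ l, Nrd K (j l) = algebraMap k K (Algebra.norm k l)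

namespace Fr

variable {L : Type u} [Field L] [NumberField L] [Algebra k L] (F : Fr k K B L)

theorem θ_ne : F.θ ≠ 0 := fun h => by
  have := F.hδ
  rw [h, zero_pow two_ne_zero, eq_comm, _root_.map_eq_zero] at this
  exact F.δ.ne_zero this

theorem herm (l : L) : star ((F.h : B) * F.j l) = F.h * F.j l := by rw [star_mul, F.hh, F.adj]

theorem unit (c : Lˣ) : IsUnit ((F.h : B) * F.j c) := F.h.isUnit.mul (c.isUnit.map F.j)

section Alg

variable (R : Type*) [Field R] [Algebra k R]

/-- the local embedding -/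
def jR : R ⊗[k] L →ₐ[R] BC k K B R := Algebra.TensorProduct.map (AlgHom.id R R) F.j

/-- the skew scalar -/
def t : BC k K B R := BC.inc k K B R (algebraMap K B F.θ)

/-- local data -/
def LD (x : BC k K B R) (c : L) : Prop :=
  ∃ z : BC k K B R, z * BC.inc k K B R (F.j F.a) = x * z ∧ star z * z = BC.inc k K B R (F.h * F.j c)

variable {R}

theorem jR_tmul (r : R) (l : L) : F.jR R (r ⊗ₜ l) = r • BC.inc k K B R (F.j l) := BC.tm_eq r _

theorem jR_one (l : L) : F.jR R (1 ⊗ₜ l) = BC.inc k K B R (F.j l) := rfl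

theorem t_comm (x : BC k K B R) : F.t R * x = x * F.t R := inc_comm _ _

theorem star_t : star (F.t R) = -F.t R := by
  rw [t, BC.star_inc, star_algebraMap, F.hθ, map_neg, map_neg]

theorem t_sq : F.t R * F.t R = F.jR R (1 ⊗ₜ algebraMap k L F.δ) := by
  rw [jR_one, t, ← map_mul, ← map_mul, ← sq, F.hδ, AlgHom.commutes,
    ← IsScalarTower.algebraMap_apply]


theorem adjR (x : R ⊗[k] L) :
    star (F.jR R x) * BC.inc k K B R F.h = BC.inc k K B R F.h * F.jR R x := by
  induction x with
  | zero => simp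
  | tmul r l => rw [jR_tmul, BC.star_rsmul, BC.star_inc, smul_mul_assoc, mul_smul_comm, ← map_mul,
      ← map_mul, F.adj]
  | add x y hx hy => rw [map_add, star_add, add_mul, mul_add, hx, hy]

theorem cenR {z : BC k K B R} (hz : z * BC.inc k K B R (F.j F.a) = BC.inc k K B R (F.j F.a) * z) :
    ∃ x x', z = F.jR R x + F.t R * F.jR R x' := by
  obtain ⟨s, c, l, e⟩ := exists_sum_ctr (K := k) (L := R) (B := B) z
  choose a b h using fun i => F.cen (ctr B (l i) z) (ctr_comm (l i) hz)
  refine ⟨∑ i ∈ s, c i ⊗ₜ a i, ∑ i ∈ s, c i ⊗ₜ b i, e.trans ?_⟩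
  rw [map_sum, map_sum, Finset.mul_sum, ← Finset.sum_add_distrib]
  refine Finset.sum_congr rfl fun i _ => (BC.tm_eq (K := K) (c i) _).trans ?_
  rw [h i, jR_tmul, jR_tmul, map_add, map_mul, smul_add, mul_smul_comm, t]

theorem adj_of_conj {x z : BC k K B R} (hx : star x = x)
    (hz : z * BC.inc k K B R (F.j F.a) = x * z) :
    star (BC.inc k K B R (F.j F.a)) * (star z * z) = star z * z * BC.inc k K B R (F.j F.a) := by
  rw [mul_assoc, hz, ← mul_assoc, ← mul_assoc, ← star_mul, hz, star_mul, hx]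

theorem exists_jR {x z : BC k K B R} (hx : star x = x)
    (hz : z * BC.inc k K B R (F.j F.a) = x * z) :
    ∃ s, star z * z = BC.inc k K B R F.h * F.jR R s := by
  have : CharZero R := charZero_of_injective_algebraMap (algebraMap k R).injective
  have hu := F.h.isUnit.map (BC.inc k K B R)
  have h0 : star (BC.inc k K B R F.h) = BC.inc k K B R F.h := by rw [BC.star_inc, F.hh]
  obtain ⟨a, b, e⟩ := F.cenR (comm_of_adj hu (F.adjR (1 ⊗ₜ F.a)) (F.adj_of_conj hx hz))
  replace e := congrArg (BC.inc k K B R F.h * ·) e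
  simp only [Ring.mul_inverse_cancel_left _ _ hu, mul_add] at e
  have e' := congrArg star e
  rw [star_mul, star_star, star_add, star_mul, star_mul, star_mul, h0, star_t, adjR,
    mul_neg, neg_mul, ← t_comm, mul_assoc, adjR, ← mul_assoc, t_comm, mul_assoc] at e'
  refine ⟨a, smul_right_injective _ (two_ne_zero' R) ?_⟩
  simp only [two_smul]
  nth_rw 1 [e]
  rw [e']
  abel

theorem LD.nm {p : Pc k} [TopologicalSpace R] (hp : Lc p (algebraMap k R)) {x : BC k K B R} {c : Lˣ}
    (h : F.LD R x c) : hil p (F.ν * nm k c) F.δ = 1 := by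
  obtain ⟨z, -, hz⟩ := h
  have h1 := congrArg (BC.nrdK k K B R) hz
  obtain ⟨a, b, e⟩ := BC.exists_coordE k K R F.θ_ne F.hθ (BC.nrdK k K B R z)
  rw [map_mul, BC.nrdK_star, BC.nrdK_inc, map_mul, F.hν, F.nrd, ← map_mul, AlgHom.commutes, e,
    star_add, BC.star_algebraMap, BC.star_rsmul, BC.star_inc, F.hθ, map_neg] at h1
  have h2 : BC.inc k K K R F.θ * BC.inc k K K R F.θ =
      algebraMap R (BC k K K R) (algebraMap k R F.δ) := by
    rw [← map_mul, ← sq, F.hδ, AlgHom.commutes, IsScalarTower.algebraMap_apply k R]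
  have : Nontrivial (BC k K K R) := (BC.inc_injective k K K R).nontrivial
  refine Hil.hil_eq_one.2 ((hp.nm _ _).2 ⟨a, b, (algebraMap R (BC k K K R)).injective ?_⟩)
  rw [← IsScalarTower.algebraMap_apply]
  refine h1.symm.trans ?_
  simp only [Algebra.smul_def, map_sub, map_mul, map_pow, ← h2]
  ring

theorem LD.mul {p : Pc k} (hp : Up p R) {x : BC k K B R} {c s : Lˣ} (h : F.LD R x c)
    (hs : ∀ Q : Pc L, unP k Q = p → s / c ∈ LNP (algebraMap k L F.δ) Q) : F.LD R x s := by
  obtain ⟨z, h1, h2⟩ := h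
  obtain ⟨a, b, e⟩ := hp.nm hs
  have hc : ∀ x y, F.jR R x * F.jR R y = F.jR R y * F.jR R x := fun x y => by
    rw [← map_mul, mul_comm, map_mul]
  refine ⟨z * (F.jR R a + F.t R * F.jR R b), ?_, ?_⟩
  · rw [← mul_assoc, ← h1, mul_assoc, mul_assoc, ← jR_one, add_mul, mul_add (F.jR R _), mul_assoc,
      hc a, hc b, ← mul_assoc (F.t R), t_comm, mul_assoc]
  · have e2 : (1 : R) ⊗ₜ[k] (s : L) = 1 ⊗ₜ[k] (c : L) * (a * a - 1 ⊗ₜ algebraMap k L F.δ * (b * b)) := by
      rw [← sq, ← sq, ← e, Algebra.TensorProduct.tmul_mul_tmul, mul_one, ← Units.val_mul,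
        mul_div_cancel]
    rw [star_mul, mul_assoc, ← mul_assoc (star z), h2, map_mul, map_mul, ← jR_one, ← jR_one,
      ← mul_assoc, ← mul_assoc, star_add, star_mul, star_t, add_mul, adjR, mul_neg, neg_mul,
      ← t_comm, mul_assoc (F.t R), adjR, ← mul_assoc (F.t R), t_comm, mul_assoc _ (F.t R),
      ← mul_neg, ← mul_add, mul_assoc, mul_assoc, e2]
    congr 1
    simp only [map_mul, map_sub, ← t_sq]
    generalize hu : F.jR R a = u
    generalize hv : F.jR R b = v
    generalize hw : F.jR R (1 ⊗ₜ (c : L)) = w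
    have c1 : Commute u v := hu ▸ hv ▸ hc _ _
    have c2 : Commute u w := hu ▸ hw ▸ hc _ _
    have c3 : Commute v w := hv ▸ hw ▸ hc _ _
    have c4 : ∀ y, Commute (F.t R) y := F.t_comm
    rw [← mul_assoc, ((c2.add_left ((c4 w).mul_left c3).neg_left)).eq, mul_assoc]
    congr 1
    simp only [add_mul, mul_add, neg_mul, mul_assoc]
    rw [← c1.eq, ← mul_assoc u, ← (c4 u).eq, ← mul_assoc v, ← (c4 v).eq]
    simp only [mul_assoc]
    abel

theorem LD.uc {x : BC k K B R} {s : L} (h : F.LD R x s) {z : Bˣ}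
    (hz : (F.h : B) * F.j s = star (z : B) * z) :
    UC (BC.inc k K B R (z * F.j F.a * ↑z⁻¹)) x := by
  obtain ⟨Z, h1, h2⟩ := h
  have := Opn.dedekind' R (A := BC k K B R)
  have h3 : star (Z * BC.inc k K B R ↑z⁻¹) * (Z * BC.inc k K B R ↑z⁻¹) = 1 := by
    rw [star_mul, mul_assoc, ← mul_assoc (star Z), h2, hz, BC.star_inc, ← map_mul, ← map_mul,
      mul_assoc, Units.mul_inv, mul_one, ← star_mul, Units.mul_inv, star_one, map_one]
  refine ⟨⟨_, h3, mul_eq_one_symm h3⟩, ?_⟩
  change Z * _ * _ = x * (Z * _)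
  rw [← mul_assoc x, ← h1, mul_assoc Z, mul_assoc Z, ← map_mul, ← map_mul]
  simp [mul_assoc]

end Alg

theorem exists_LD {R : Type*} [NontriviallyNormedField R] [CompleteSpace R] [Algebra k R]
    (hR : DenseRange (algebraMap k R)) {x z : BC k K B R} (hx : star x = x) (hu : IsUnit z)
    (hz : z * BC.inc k K B R (F.j F.a) = x * z) : ∃ c : Lˣ, F.LD R x c := by
  have : CharZero R := charZero_of_injective_algebraMap (algebraMap k R).injective
  have : FiniteDimensional k L := Module.Finite.of_restrictScalars_finite ℚ k L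
  have : Nontrivial (BC k K B R) := (BC.inc_injective k K B R).nontrivial
  obtain ⟨s, hs⟩ := F.exists_jR hx hz
  have hA : Opn.AntiL R (Lan.stA (BC k K B R)) := ⟨⟨star_mul, star_star⟩, BC.star_algebraMap⟩
  have hH : IsUnit (star z * z) := hu.star.mul hu
  have h1 := hA.cong_near two_ne_zero hH (ε := 1) Commute.one_left (by simp) univ_mem
  let e := finBasis k L
  let g : (Fin (finrank k L) → R) → BC k K B R := fun r =>
    BC.inc k K B R F.h * ∑ i, r i • BC.inc k K B R (F.j (e i))
  have hg : Continuous g := by fun_prop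
  have h2 : g ((Algebra.TensorProduct.basis R e).repr s) = star z * z := by
    rw [hs]
    conv_rhs => rw [← (Algebra.TensorProduct.basis R e).sum_repr s]
    simp only [g, map_sum, map_smul, Algebra.TensorProduct.basis_apply, jR_one]
  obtain ⟨c, hc⟩ := (DenseRange.piMap fun _ : Fin (finrank k L) => hR).mem_nhds
    (hg.continuousAt.preimage_mem_nhds ((congrArg 𝓝 h2).le h1))
  have h3 : g (Pi.map (fun _ => algebraMap k R) c) = BC.inc k K B R (F.h * F.j (∑ i, c i • e i)) := by
    simp only [g, map_sum, map_mul, map_smul, Pi.map_apply, algebraMap_smul]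
  rw [Set.mem_preimage, h3] at hc
  obtain ⟨n, hn, -, hnu, -, h4⟩ := hc (by rw [one_mul, Lan.stA_apply, BC.star_inc, F.herm])
  rw [Lan.stA_apply] at h4
  have h5 : ∑ i, c i • e i ≠ 0 := fun h => by
    rw [h, map_zero, mul_zero, map_zero] at h4
    exact ((hnu.star.mul hH).mul hnu).ne_zero h4
  have h6 := comm_of_adj hH (F.adj_of_conj hx hz)
    (H' := BC.inc k K B R (F.h * F.j (∑ i, c i • e i))) (by
      rw [BC.star_inc, ← map_mul, ← map_mul, ← mul_assoc, F.adj, mul_assoc, mul_assoc, ← map_mul,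
        mul_comm F.a, map_mul F.j])
  have h7 : Commute n (BC.inc k K B R (F.j F.a)) :=
    Algebra.commute_of_mem_adjoin_singleton_of_commute hn h6.symm |>.symm
  refine ⟨Units.mk0 _ h5, z * n, ?_, ?_⟩
  · rw [mul_assoc, h7.eq, ← mul_assoc, hz, mul_assoc]
  · rw [Units.val_mk0, ← h4, star_mul]
    simp only [mul_assoc]

/-- the global step -/
theorem core (S : Finset (Pl k)) (x : ∀ v : Pl k, BC k K B (Kv v))
    (xr : ∀ φ : k →+* ℝ, BC k K B (Rp φ)) (c : Pc k → Lˣ) (hc : ∀ v ∉ S, c (.inl v) = 1)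
    (hv : ∀ v, F.LD _ (x v) (c (.inl v))) (hφ : ∀ φ, F.LD _ (xr φ) (c (.inr φ))) :
    ∃ z : Bˣ, star (z * F.j F.a * ↑z⁻¹) = z * F.j F.a * ↑z⁻¹ ∧
      (∀ v, UC (BC.inc k K B _ (z * F.j F.a * ↑z⁻¹)) (x v)) ∧
      ∀ φ, UC (BC.inc k K B _ (z * F.j F.a * ↑z⁻¹)) (xr φ) := by
  classical
  choose T hT using fun p => Hil.exists_fibre (F := k) (E := L) p
  have h1 : ∀ p, hil p (F.ν * nm k (c p)) F.δ = 1 := by
    rintro (v | φ)
    exacts [(hv v).nm F (Hil.lc_inl v), (hφ φ).nm F (lc_rp φ)]
  have h0 : ∀ p, p ∉ Hil.full S → c p = 1 := by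
    rintro (v | φ) h
    exacts [hc v (by simpa using h), absurd Hil.inr_mem_full h]
  have h2 : ∏ Q ∈ (Hil.full S).biUnion T, hil Q (c (unP k Q)) (Hn.io k L F.δ) = 1 := by
    rw [Finset.prod_biUnion fun p _ q _ hpq => Finset.disjoint_left.2 fun Q h h' =>
      hpq (((hT p Q).1 h).symm.trans ((hT q Q).1 h')),
      ← Hil.recStmt k F.ν F.δ (Hil.full S) fun p hp => by simpa [h0 p hp] using h1 p]
    refine Finset.prod_congr rfl fun p _ => ?_
    rw [Finset.prod_congr rfl fun Q hQ => by rw [(hT p Q).1 hQ], ← Hil.nrmStmt k L p _ _ _ (hT p)]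
    have := h1 p
    rw [Hil.hil_mul_left, mul_eq_one_iff_inv_eq, Int.units_inv_eq_self] at this
    exact this.symm
  obtain ⟨s, hs, hs'⟩ := Hil.preStmt L _ _ _ h2
  have h3 : ∀ Q : Pc L, s / c (unP k Q) ∈ LNP (algebraMap k L F.δ) Q := fun Q => by
    by_cases h : unP k Q ∈ Hil.full S
    · exact Subgroup.mem_sup_right (hs Q (Finset.mem_biUnion.2 ⟨_, h, (hT _ _).2 rfl⟩))
    · rw [h0 _ h, div_one]
      refine (Hil.hil_eq_one (b := Hn.io k L F.δ)).1 (hs' Q fun h' => h ?_)
      obtain ⟨p, hp, hQ⟩ := Finset.mem_biUnion.1 h'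
      rwa [(hT p Q).1 hQ]
  have h3' : ∀ p (Q : Pc L), unP k Q = p → s / c p ∈ LNP (algebraMap k L F.δ) Q := by
    rintro _ Q rfl; exact h3 Q
  have hv' : ∀ v, F.LD (Kv v) (x v) s := fun v =>
    LD.mul (c := c (.inl v)) F (up_inl v) (hv v) (h3' (.inl v))
  have hφ' : ∀ φ, F.LD (Rp φ) (xr φ) s := fun φ =>
    LD.mul (c := c (.inr φ)) F (up_rp φ) (hφ φ) (h3' (.inr φ))
  obtain ⟨z, hz⟩ := Lan.landherr (k := k) K (F.herm s) (F.unit s)
    (fun v => (hv' v).imp fun _ h => h.2.symm) fun φ => (hφ' φ).imp fun _ h => h.2.symm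
  have := Opn.dedekind' K (A := B)
  obtain ⟨z, rfl⟩ : IsUnit z := isUnit_of_mul_isUnit_right (hz ▸ F.unit s)
  refine ⟨z, ?_, fun v => (hv' v).uc F hz, fun φ => (hφ' φ).uc F hz⟩
  have h4 : star (F.j F.a) * (star (z : B) * z) = star (z : B) * z * F.j F.a := by
    rw [← hz, ← mul_assoc, F.adj, mul_assoc, mul_assoc, ← map_mul, mul_comm, map_mul]
  rw [star_mul, star_mul, Units.eq_mul_inv_iff_mul_eq, mul_assoc, mul_assoc, h4, mul_assoc,
    ← mul_assoc, ← star_mul, Units.mul_inv, star_one, one_mul]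

end Fr

theorem HG.natDegree {P : k[X]} {y : B} (hy : rch K y = P.map (algebraMap k K)) :
    P.natDegree = deg K B := by
  rw [← natDegree_map (algebraMap k K), ← hy, rch_natDegree]

theorem HG.monic {P : k[X]} {y : B} (hy : rch K y = P.map (algebraMap k K)) : P.Monic :=
  monic_of_injective (algebraMap k K).injective (hy ▸ rch_monic K y)

include K in
theorem adj_aeval {y h : B} (hy : star y * h = h * y) (f : k[X]) :
    star (aeval y f) * h = h * aeval y f :=
  Opn.AntiL.adj (F := k) (τ := Lan.stA B) ⟨⟨star_mul, star_star⟩, fun c => by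
    rw [Lan.stA_apply, Algebra.algebraMap_eq_smul_one, star_ksmul k K B, star_one]⟩ hy
    (aeval_mem_adjoin_singleton k y)

theorem nrd_aeval {P : k[X]} [hP : Fact (Irreducible P)] {y : B}
    (hy : rch K y = P.map (algebraMap k K)) (f : k[X]) :
    Nrd K (aeval y f) = algebraMap k K (Algebra.norm k (AdjoinRoot.mk P f)) := by
  let pb := AdjoinRoot.powerBasis hP.out.ne_zero
  have := pb.finite
  have : Nonempty (Fin (deg K B)) := ⟨⟨0, deg_pos K B⟩⟩
  let Ω := AlgebraicClosure K
  let e : Basis (Fin (deg K B)) k (AdjoinRoot P) :=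
    finBasisOfFinrankEq k _ (pb.finrank.trans (HG.natDegree hy))
  let ψ : AdjoinRoot P →ₐ[k] Matrix (Fin (deg K B)) (Fin (deg K B)) Ω :=
    (Algebra.ofId k Ω).mapMatrix.comp (Algebra.leftMulMatrix e)
  have h1 : (Algebra.leftMulMatrix e (AdjoinRoot.root P)).charpoly = P := by
    refine eq_of_monic_of_dvd_of_natDegree_le (HG.monic hy) (Matrix.charpoly_monic _)
      (AdjoinRoot.mk_eq_zero.1 (Algebra.leftMulMatrix_injective e ?_))
      (by rw [Matrix.charpoly_natDegree_eq_dim, Fintype.card_fin, HG.natDegree hy])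
    rw [← AdjoinRoot.aeval_eq, ← aeval_algHom_apply, Matrix.aeval_self_charpoly, map_zero]
  have h2 : rch Ω (sp K B y) = P.map (algebraMap k Ω) := by
    rw [rch_mat, sp_charpoly, hy, Polynomial.map_map, ← IsScalarTower.algebraMap_eq]
  have h3 : rch Ω (ψ (AdjoinRoot.root P)) = P.map (algebraMap k Ω) := by
    rw [rch_mat]
    exact (Matrix.charpoly_map _ (algebraMap k Ω)).trans (congrArg _ h1)
  obtain ⟨u, hu⟩ := conj_of_rch_eq (h2 ▸ hP.out.separable.map.squarefree) (h2.trans h3.symm)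
  have h4 : ψ (AdjoinRoot.mk P f) = u.val * sp K B (aeval y f) * u⁻¹.val := by
    rw [← AdjoinRoot.aeval_eq, ← aeval_algHom_apply, hu]
    exact (aeval_algHom_apply ((MulSemiringAction.toAlgHom k _ (ConjAct.toConjAct u))) _ f).trans
      (congrArg (fun z => u.val * z * u⁻¹.val)
        (aeval_algHom_apply ((sp K B).restrictScalars k) y f))
  apply (algebraMap K Ω).injective
  rw [← det_eq (sp K B) sp_card, ← Matrix.det_units_conj u, ← h4, ← IsScalarTower.algebraMap_apply,
    Algebra.norm_eq_matrix_det e]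
  exact ((algebraMap k Ω).map_det _).symm

theorem exists_fr {P : k[X]} [hP : Fact (Irreducible P)] {y : B}
    (hy : rch K y = P.map (algebraMap k K)) (h : Bˣ) (hh : star (h : B) = h)
    (ha : star y * h = h * y) : ∃ F : Fr k K B (AdjoinRoot P), F.j F.a = y ∧ F.h = h := by
  obtain ⟨θ, δ, hθ, hδ⟩ := Lan.exists_theta Quad.fr (sig_ne k K)
  have hfix : ∀ c : K, star c = c → ∃ a : k, algebraMap k K a = c := fun c =>
    exists_of_star_eq Quad.fr Quad.star_k (Quad.ne (k := k))
  obtain ⟨ν, hν⟩ := hfix (Nrd K (h : B)) (by rw [← T24.Nrd_star, hh])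
  have hν0 : ν ≠ 0 := fun h0 => (isUnit_iff_Nrd (K := K) _).1 h.isUnit (by rw [← hν, h0, map_zero])
  have hθ0 : θ ≠ 0 := fun h => by
    rw [h, zero_pow two_ne_zero, eq_comm, _root_.map_eq_zero] at hδ
    exact δ.ne_zero hδ
  let j : AdjoinRoot P →ₐ[k] B := Ideal.Quotient.liftₐ _ (aeval y) fun q hq => by
    obtain ⟨c, rfl⟩ := Ideal.mem_span_singleton.1 hq
    rw [map_mul, ← aeval_map_algebraMap K y P, ← hy, aeval_rch, zero_mul]
  have hj : ∀ f, j (AdjoinRoot.mk P f) = aeval y f := fun _ => rfl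
  have hy' : j (AdjoinRoot.root P) = y := (hj X).trans (aeval_X y)
  refine ⟨⟨θ, δ, hθ, hδ, j, AdjoinRoot.root P, h, hh, Units.mk0 ν hν0, hν.symm, fun l => ?_,
    fun x hx => ?_, fun l => ?_⟩, hy', rfl⟩
  · obtain ⟨f, rfl⟩ := AdjoinRoot.mk_surjective l
    exact adj_aeval (K := K) ha f
  · rw [hy'] at hx
    obtain ⟨q, -, rfl⟩ := exists_aeval_of_commute
      (regular_of_squarefree (hy ▸ hP.out.separable.map.squarefree)) hx.symm
    clear hx
    induction q using Polynomial.induction_on' with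
    | add p q hp hq =>
      obtain ⟨a, b, h1⟩ := hp
      obtain ⟨a', b', h2⟩ := hq
      exact ⟨a + a', b + b', by rw [map_add, h1, h2, map_add, map_add, mul_add]; abel⟩
    | monomial n c =>
      obtain ⟨a, b, rfl⟩ := exists_coord (k := k) Quad.fr Quad.star_k hθ0 hθ c
      refine ⟨AdjoinRoot.mk P (monomial n a), AdjoinRoot.mk P (monomial n b), ?_⟩
      simp only [hj, aeval_monomial, map_add, map_mul, mul_comm _ θ, mul_assoc,
        ← IsScalarTower.algebraMap_apply]
  · obtain ⟨f, rfl⟩ := AdjoinRoot.mk_surjective l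
    exact nrd_aeval hy f

theorem numberField_root (P : k[X]) [hP : Fact (Irreducible P)] : NumberField (AdjoinRoot P) :=
  have := (AdjoinRoot.powerBasis hP.out.ne_zero).finite
  NumberField.of_module_finite k _

theorem HG.conj {P : k[X]} {y : B} (hy : rch K y = P.map (algebraMap k K)) {z : Bˣ}
    (h : star (z * y * ↑z⁻¹) = z * y * ↑z⁻¹) : HG K P (z * y * ↑z⁻¹) :=
  ⟨h, by rw [rch_units_conj, hy]⟩

section UC
variable {R : Type*} [CommRing R] [Algebra k R] {x y z : BC k K B R}

theorem UC.refl (x : BC k K B R) : UC x x := ⟨1, by simp⟩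

theorem UC.symm (h : UC x y) : UC y x := by
  obtain ⟨u, hu⟩ := h
  refine ⟨star u, ?_⟩
  rw [Unitary.coe_star, ← mul_one (star (u : BC k K B R) * y), ← u.2.2, ← mul_assoc, mul_assoc _ y,
    ← hu, ← mul_assoc, u.2.1, one_mul]

theorem UC.trans (h : UC x y) (h' : UC y z) : UC x z := by
  obtain ⟨u, hu⟩ := h
  obtain ⟨v, hv⟩ := h'
  exact ⟨v * u, by rw [Submonoid.coe_mul, mul_assoc, hu, ← mul_assoc, hv, mul_assoc]⟩

theorem UC.glob (g : unitary B) (b : B) :
    UC (BC.inc k K B R b) (BC.inc k K B R (g * b * star (g : B))) :=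
  ⟨toU k K B R g, by rw [coe_toU, ← map_mul, ← map_mul, mul_assoc, g.2.1, mul_one]⟩

theorem UC.nhds [TopologicalSpace R] [IsTopologicalRing R] {u : Uc k K B R}
    (h : (u : BC k K B R) * x = y * u) {V : Set (BC k K B R)} (hV : V ∈ 𝓝 y) :
    {g : Uc k K B R | (g : BC k K B R) * x * star (g : BC k K B R) ∈ V} ∈ 𝓝 u := by
  have hc : Continuous fun g : Uc k K B R => (g : BC k K B R) * x * star (g : BC k K B R) := by
    fun_prop
  exact hc.continuousAt.preimage_mem_nhds (by rwa [h, mul_assoc, u.2.2, mul_one])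

end UC

theorem dense_rp (φ : k →+* ℝ) : DenseRange (algebraMap k (Rp φ)) := Lan.dense_real φ

theorem embMod_of (hW : WaU k K B) : EmbMod k K B := by
  classical
  intro P th hP hth S t V tr W hS hr
  have := Fact.mk hP
  have := numberField_root P
  obtain ⟨F, hF, hF1⟩ := exists_fr hth.2 1 (star_one B) (by simp [hth.1])
  have h1 : ∀ v : Pl k, ∃ c : (AdjoinRoot P)ˣ, (v ∉ S → c = 1) ∧
      F.LD (Kv v) (if v ∈ S then t v else BC.inc k K B _ th) c := fun v => by
    by_cases hv : v ∈ S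
    · obtain ⟨z, hz, hc⟩ := (hS v hv).1.conj hP.separable hth.2
      obtain ⟨c, hc⟩ := F.exists_LD (v.denseRange_algebraMap k) (hS v hv).1.1 hz (hF ▸ hc)
      exact ⟨c, fun h => absurd hv h, by rwa [if_pos hv]⟩
    · exact ⟨1, fun _ => rfl, 1, by simp [hv, hF], by simp [hF1]⟩
  have h2 : ∀ φ : k →+* ℝ, ∃ c : (AdjoinRoot P)ˣ, F.LD (Rp φ) (tr φ) c := fun φ => by
    obtain ⟨z, hz, hc⟩ := (hr φ).1.conj hP.separable hth.2
    exact F.exists_LD (dense_rp φ) (hr φ).1.1 hz (hF ▸ hc)
  choose c hc hc' using h1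
  choose c' hc'' using h2
  obtain ⟨z, hz, hv, hφ⟩ := F.core S _ tr (Sum.elim c c') hc hc' hc''
  rw [hF] at hz hv hφ
  choose u hu using id hv
  choose u' hu' using id hφ
  obtain ⟨g, hg, hg'⟩ := hW S u _ u' _
    (fun v hv => UC.nhds (hu v) (V := V v) (by rw [if_pos hv]; exact (hS v hv).2))
    fun φ => UC.nhds (hu' φ) (hr φ).2
  refine ⟨g * (z * th * ↑z⁻¹) * star (g : B), ⟨?_, ?_⟩, fun v h => ⟨?_, ?_⟩, fun φ => ⟨?_, ?_⟩,
    fun v h => ?_⟩
  · rw [star_mul, star_mul, hz, star_star, mul_assoc (g : B)]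
  · rw [rch_conj g.2.1, rch_units_conj, hth.2]
  · simpa using hg v h
  · simpa only [if_pos h] using (UC.glob g _).symm.trans (hv v)
  · simpa using hg' φ
  · exact (UC.glob g _).symm.trans (hφ φ)
  · simpa only [if_neg h] using (UC.glob g _).symm.trans (hv v)

theorem HR.rch_up {P : k[X]} (hd : P.natDegree = deg K B) {R : Type*} [Field R] [Algebra k R]
    {t : BC k K B R} (h : HR (P.map (algebraMap k R)) t) (E : Type*) [Field E] [Algebra k E]
    [Algebra K E] [IsScalarTower k K E] (f : R →ₐ[k] E) :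
    ∃ z : E ⊗[K] B, rch E z = (P.map (algebraMap k K)).map (algebraMap K E) := by
  letI : Algebra R E := f.toRingHom.toAlgebra
  haveI : IsScalarTower k R E := .of_algebraMap_eq fun c => (f.commutes c).symm
  refine ⟨_, ((h.map (E := E)).rch_pr (by rw [natDegree_map, natDegree_map, hd])).trans ?_⟩
  rw [Polynomial.map_map, Polynomial.map_map, ← IsScalarTower.algebraMap_eq,
    ← IsScalarTower.algebraMap_eq]

theorem embEx_of (hA : LocAe k K B) : EmbEx k K B := by
  classical
  intro P hm hP hd hv hr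
  have := Fact.mk hP
  have := numberField_root P
  choose t ht using hv
  choose tr htr using hr
  obtain ⟨y, -, hy⟩ := Hsm.interp_loc (finrank_eq_deg_sq K B) (hm.map (algebraMap k K))
    (by rw [natDegree_map, hd]) hP.separable.map
    (fun w => Or.inr ((ht (below k w)).rch_up hd _ (Hsm.cmap k w))) fun ρ => by
      letI : Algebra K (Rp (ρ.comp (algebraMap k K))) := RingHom.toAlgebra (S := Rp _) ρ
      haveI : IsScalarTower k K (Rp (ρ.comp (algebraMap k K))) := .of_algebraMap_eq fun _ => rfl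
      obtain ⟨z, hz⟩ := (htr (ρ.comp (algebraMap k K))).rch_up hd _ (AlgHom.id k _)
      refine or_iff_not_imp_right.2 fun h => ?_
      obtain ⟨a, ha⟩ := not_forall_not.1 h
      exact (Hsm.spl_of_root (y := z) (f := RingHom.id _)
        (by rw [finrank_baseChange, finrank_eq_deg_sq K B]) (hz ▸ hP.separable.map.map) (a := a)
        (by rw [hz, Polynomial.map_id]; exact ha)).of_bc
  obtain ⟨g, hg⟩ := conj_of_rch_eq (x := y) (y := star y) (hy ▸ hP.separable.map.squarefree) (by
    rw [T24.rch_star, hy, Polynomial.map_map]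
    congr 1
    ext c
    exact (Quad.star_k c).symm)
  let W : Submodule K B :=
    { carrier := {h | star y * h = h * y}
      add_mem' := fun ha hb => by
        simp only [Set.mem_ofPred_eq] at *; rw [mul_add, add_mul, ha, hb]
      zero_mem' := by simp
      smul_mem' := fun c h ha => by
        simp only [Set.mem_ofPred_eq] at *; rw [mul_smul_comm, smul_mul_assoc, ha] }
  obtain ⟨_, hW, hh, h, rfl⟩ := exists_herm_unit (Quad.ne (k := k) (K := K)) W
    (fun h ha => by
      have := congrArg star (show star y * h = h * y from ha)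
      rw [star_mul, star_mul, star_star] at this
      exact this.symm) (z := g) (show star y * g = g * y by rw [hg]; simp) g.isUnit
  obtain ⟨F, hF, hF1⟩ := exists_fr hy h hh hW
  have hfin := hA h hh h.isUnit
  rw [eventually_cofinite] at hfin
  have h1 : ∀ v : Pl k, ∃ (x : BC k K B (Kv v)) (c : (AdjoinRoot P)ˣ),
      (v ∉ hfin.toFinset → c = 1) ∧ F.LD (Kv v) x c := fun v => by
    by_cases hv : v ∈ hfin.toFinset
    · obtain ⟨z, hz, hc⟩ := (ht v).conj hP.separable hy
      obtain ⟨c, hc⟩ := F.exists_LD (v.denseRange_algebraMap k) (ht v).1 hz (hF ▸ hc)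
      exact ⟨_, c, fun h => absurd hv h, hc⟩
    · obtain ⟨Z, hZ⟩ : ∃ Z : BC k K B (Kv v), BC.inc k K B _ h = star Z * Z := by simpa using hv
      have := Opn.dedekind' (Kv v) (A := BC k K B (Kv v))
      obtain ⟨Z, rfl⟩ : IsUnit Z := isUnit_of_mul_isUnit_right (hZ ▸ h.isUnit.map _)
      exact ⟨Z.val * BC.inc k K B _ y * Z⁻¹.val, 1, fun _ => rfl, Z, by simp [hF], by simp [hF1, hZ]⟩
  have h2 : ∀ φ : k →+* ℝ, ∃ c : (AdjoinRoot P)ˣ, F.LD (Rp φ) (tr φ) c := fun φ => by
    obtain ⟨z, hz, hc⟩ := (htr φ).conj hP.separable hy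
    exact F.exists_LD (dense_rp φ) (htr φ).1 hz (hF ▸ hc)
  choose x c hc hc' using h1
  choose c' hc'' using h2
  obtain ⟨z, hz, -⟩ := F.core _ x tr (Sum.elim c c') hc hc' hc''
  rw [hF] at hz
  exact ⟨_, HG.conj hy hz⟩

end Crest.Agent.T24.Emb
end
end

-- ▼ part T24/EmbA_16
section

/-! Row 24, embedding module (helper16): a hermitian unit is a local norm at almost all places. -/

set_option autoImplicit false
set_option linter.unusedSectionVars false
set_option linter.style.haveILetI false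

noncomputable section

namespace Crest.Agent.T24.Emb

open Module Polynomial NumberField IsDedekindDomain Csa
open scoped NumberField TensorProduct

universe u v w

namespace A16

variable {k : Type u} [Field k] [NumberField k]

/-- the roots of `g` in the extensions of `k_v` are norms -/
def Rt (δ : k) (g : k[X]) (v : Asa.Pl k) : Prop :=
  ∀ (E : Type u) [Field E] [Algebra k E] [Algebra (Kv v) E] [IsScalarTower k (Kv v) E] (l : E),
    aeval l g = 0 → ∃ x y : E, l = x ^ 2 - algebraMap k E δ * y ^ 2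

theorem root_ne {E : Type*} [Field E] [Algebra k E] {g : k[X]} (h0 : g.eval 0 ≠ 0) {l : E}
    (hl : aeval l g = 0) : l ≠ 0 := by
  rintro rfl
  rw [← map_zero (algebraMap k E), aeval_algebraMap_apply, coe_aeval_eq_eval, map_zero,
    map_eq_zero] at hl
  exact h0 hl

theorem rt_irr {δ : k} (hδ : δ ≠ 0) {g : k[X]} (hg : Irreducible g) (h0 : g.eval 0 ≠ 0) :
    ∀ᶠ v in Filter.cofinite, Rt δ g v := by
  haveI := Fact.mk hg
  haveI : Module.Finite k (AdjoinRoot g) := (AdjoinRoot.powerBasis hg.ne_zero).finite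
  haveI : NumberField (AdjoinRoot g) := NumberField.of_module_finite k _
  have hl : AdjoinRoot.root g ≠ 0 :=
    root_ne h0 (by rw [AdjoinRoot.aeval_eq, AdjoinRoot.mk_self])
  have hd : algebraMap k (AdjoinRoot g) δ ≠ 0 := (_root_.map_ne_zero _).2 hδ
  have hf := ((Hil.finite_hil (Units.mk0 _ hl) (Units.mk0 _ hd)).image (Hil.unP k)).preimage
    (Sum.inl_injective.injOn)
  filter_upwards [hf.compl_mem_cofinite] with v hv E _ _ _ _ l hl'
  obtain ⟨x, y, hxy⟩ := (up_inl v).nm (d := algebraMap k (AdjoinRoot g) δ) (q := Units.mk0 _ hl)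
    fun Q hQ => by
      by_contra hn
      refine hv ⟨Q, ?_, hQ⟩
      rw [Set.mem_ofPred_eq, Hil.hil, Units.val_mk0, if_neg hn]
      decide
  let ψ : AdjoinRoot g →ₐ[k] E := AdjoinRoot.liftAlgHom g (Algebra.ofId k E) l hl'
  let φ : Kv v ⊗[k] AdjoinRoot g →ₐ[k] E :=
    Algebra.TensorProduct.lift (IsScalarTower.toAlgHom k _ E) ψ fun _ _ => Commute.all _ _
  refine ⟨φ x, φ y, ?_⟩
  have h1 := congrArg φ hxy
  have h2 : ∀ a, φ (1 ⊗ₜ a) = ψ a := fun a => by
    simp only [φ, Algebra.TensorProduct.lift_tmul, map_one, one_mul]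
  rw [map_sub, map_mul, map_pow, map_pow, h2, h2, AlgHom.commutes, Units.val_mk0] at h1
  rw [← h1]
  exact (AdjoinRoot.liftAlgHom_root _ _ _ _).symm

theorem rt_all {δ : k} (hδ : δ ≠ 0) (f : k[X]) (h0 : f.eval 0 ≠ 0) :
    ∀ᶠ v in Filter.cofinite, Rt δ f v := by
  induction f using WfDvdMonoid.induction_on_irreducible with
  | zero => simp at h0
  | unit u hu => exact .of_forall fun v E _ _ _ _ l hl => absurd hl (hu.map (aeval l)).ne_zero
  | mul a i ha hi ih =>
    rw [eval_mul, mul_ne_zero_iff] at h0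
    filter_upwards [rt_irr hδ hi h0.1, ih h0.2] with v h1 h2 E _ _ _ _ l hl
    rw [map_mul, mul_eq_zero] at hl
    exact hl.elim (h1 E l) (h2 E l)

theorem poly {δ : k} {f : k[X]} (hf : f.Monic) (h0 : f.eval 0 ≠ 0) {v : Asa.Pl k} (h : Rt δ f v) :
    ∃ p q : (Kv v)[X], f.map (algebraMap k _) ∣ X - (p ^ 2 - C (algebraMap k _ δ) * q ^ 2) := by
  set g := f.map (algebraMap k (Kv v)) with hg
  haveI : CharZero (Kv v) := algebraRat.charZero _
  have : Module.Finite (Kv v) (AdjoinRoot g) := (hf.map _).finite_adjoinRoot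
  obtain ⟨x, y, hxy⟩ := Lan.norm_of_residue (k := Kv v)
    (algebraMap (Kv v) (AdjoinRoot g) (algebraMap k _ δ)) (AdjoinRoot.root g) fun m hm => by
      let _ : Field (AdjoinRoot g ⧸ m) := Ideal.Quotient.field m
      have hr : aeval (Ideal.Quotient.mkₐ (Kv v) m (AdjoinRoot.root g)) f = 0 := by
        rw [← aeval_map_algebraMap (Kv v), aeval_algHom_apply, AdjoinRoot.aeval_eq,
          AdjoinRoot.mk_self, map_zero]
      obtain ⟨x, y, hxy⟩ := h (AdjoinRoot g ⧸ m) _ hr
      obtain ⟨x, rfl⟩ := Ideal.Quotient.mk_surjective x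
      obtain ⟨y, rfl⟩ := Ideal.Quotient.mk_surjective y
      refine ⟨fun h => root_ne h0 hr (Ideal.Quotient.eq_zero_iff_mem.mpr h), x, y,
        Ideal.Quotient.eq.mp ?_⟩
      rw [map_sub, map_mul, map_pow, map_pow]
      exact hxy
  obtain ⟨p, rfl⟩ := AdjoinRoot.mk_surjective x
  obtain ⟨q, rfl⟩ := AdjoinRoot.mk_surjective y
  refine ⟨p, q, AdjoinRoot.mk_eq_mk.mp ?_⟩
  rw [map_sub, map_mul, map_pow, map_pow, AdjoinRoot.mk_X, AdjoinRoot.mk_C]
  exact hxy

variable {K B : Type*} [Field K] [Algebra k K] [StarRing K] [Quad k K] [Ring B] [StarRing B]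
  [Algebra K B] [StarModule K B] [Algebra k B] [IsScalarTower k K B]
  {R : Type*} [CommRing R] [Algebra k R]

theorem star_aeval {x : BC k K B R} (hx : star x = x) (p : R[X]) : star (aeval x p) = aeval x p := by
  induction p using Polynomial.induction_on' with
  | add p q hp hq => rw [map_add, star_add, hp, hq]
  | monomial n c => rw [aeval_monomial, ← Algebra.smul_def, BC.star_rsmul, star_pow, hx]

theorem central (θ : K) (y : BC k K B R) :
    y * BC.inc k K B R (algebraMap K B θ) = BC.inc k K B R (algebraMap K B θ) * y := by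
  refine BC.ind y (by simp) (fun r b => ?_) fun x y hx hy => by rw [add_mul, mul_add, hx, hy]
  rw [smul_mul_assoc, mul_smul_comm, ← map_mul, ← map_mul, Algebra.commutes]

end A16

open A16

theorem locAe (k : Type u) (K B : Type*) [Field k] [NumberField k] [Field K] [NumberField K]
    [Algebra k K] [StarRing K] [Quad k K] [Ring B] [StarRing B] [Algebra K B] [StarModule K B]
    [Algebra.IsCentral K B] [IsSimpleRing B] [FiniteDimensional K B] [Algebra k B]
    [IsScalarTower k K B] : LocAe k K B := by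
  intro h hh hu
  haveI := finite_kB k K B
  obtain ⟨θ, hθ0, hθ⟩ := exists_skew (Quad.ne (k := k) (K := K))
  obtain ⟨δ, hδ⟩ := exists_of_star_eq (Quad.fr (k := k) (K := K)) Quad.star_k (Quad.ne (k := k))
    (c := θ ^ 2) (by rw [star_pow, hθ, neg_sq])
  have hδ0 : δ ≠ 0 := fun h0 => pow_ne_zero 2 hθ0 (by rw [← hδ, h0, map_zero])
  have hi : IsIntegral k h := IsIntegral.of_finite k h
  have h0 : (minpoly k h).eval 0 ≠ 0 := fun h0 => by
    obtain ⟨g, hg⟩ := X_dvd_iff.2 ((coeff_zero_eq_eval_zero _).trans h0)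
    have h1 := minpoly.aeval k h
    rw [hg, map_mul, aeval_X, hu.mul_right_eq_zero] at h1
    have hg0 : g ≠ 0 := fun h2 => minpoly.ne_zero hi (by rw [hg, h2, mul_zero])
    have h2 := natDegree_le_of_dvd (minpoly.dvd k h h1) hg0
    rw [hg, natDegree_X_mul hg0] at h2
    omega
  filter_upwards [rt_all hδ0 _ h0] with v hv
  obtain ⟨p, q, c, hc⟩ := poly (minpoly.monic hi) h0 hv
  set x := BC.inc k K B (Kv v) h with hx
  set T := BC.inc k K B (Kv v) (algebraMap K B θ) with hT
  have hsx : star x = x := by rw [hx, BC.star_inc, hh]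
  have hsT : star T = -T := by rw [hT, BC.star_inc, star_algebraMap, hθ, map_neg, map_neg]
  have hTT : T * T = algebraMap (Kv v) _ (algebraMap k (Kv v) δ) := by
    rw [hT, ← map_mul, ← map_mul, ← sq, ← hδ, ← IsScalarTower.algebraMap_apply, AlgHom.commutes,
      ← IsScalarTower.algebraMap_apply]
  have hm : aeval x (minpoly k h) = 0 := by rw [hx, aeval_algHom_apply, minpoly.aeval, map_zero]
  have h1 := congrArg (aeval x) hc
  rw [map_mul, aeval_map_algebraMap, hm, zero_mul,
    map_sub, aeval_X, sub_eq_zero, map_sub, map_mul, map_pow, map_pow, aeval_C, ← hTT] at h1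
  have h2 : aeval x q * aeval x p = aeval x p * aeval x q := by rw [← map_mul, mul_comm, map_mul]
  have h3 : ∀ y, y * T = T * y := central θ
  refine ⟨aeval x p + T * aeval x q, ?_⟩
  rw [star_add, star_mul, hsT, star_aeval hsx, star_aeval hsx, mul_neg, h3]
  set P := aeval x p
  set Q := aeval x q
  have h4 : P * (T * Q) = T * Q * P := by rw [← mul_assoc, h3, mul_assoc, ← h2, mul_assoc]
  have h5 : T * Q * (T * Q) = T * T * Q ^ 2 := by
    rw [mul_assoc, ← mul_assoc Q, h3, sq]; simp only [mul_assoc]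
  rw [h1, add_mul, mul_add, mul_add, neg_mul, neg_mul, h4, h5, sq P]
  abel


end Crest.Agent.T24.Emb
end
end

-- ▼ part T24/Emb_13

/-! Row 24, embedding module (helper13): the unconditional statements. -/

set_option autoImplicit false

namespace Crest.Agent.T24.Emb

universe u v w

section
variable (k : Type u) (K B : Type*) [Field k] [NumberField k] [Field K] [NumberField K]
  [Algebra k K] [StarRing K] [Quad k K] [Ring B] [StarRing B] [Algebra K B] [StarModule K B]
  [Algebra.IsCentral K B] [IsSimpleRing B] [FiniteDimensional K B] [Algebra k B]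
  [IsScalarTower k K B]

theorem embMod : EmbMod k K B := embMod_of (waU k K B)

theorem embEx : EmbEx k K B := embEx_of (locAe k K B)

theorem embNear' (h : LocEx k K B) : EmbNear k K B := embNear_of h (embEx k K B) (embMod k K B)

end



end Crest.Agent.T24.Emb
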