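import Crest.Agent.T24.Csa4_50

/-! An involution of a matrix ring over a division ring is the adjoint of a diagonal hermitian
form. -/

set_option autoImplicit false

noncomputable section

namespace Crest.Agent.T24.Csa

open Module Matrix

universe u v

section Orth

variable {D : Type u} [DivisionRing D] [StarRing D] [CharZero D]

/-- orthogonal bases of (possibly degenerate) hermitian forms -/
theorem exists_orth (θ : D) (h0 : θ ≠ 0) (hθ : star θ = -θ) (hc : ∀ a, θ * a = a * θ) (n : ℕ) :
    ∀ (V : Type v) [AddCommGroup V] [Module D V] [Module.Finite D V] (h : V → V → D),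
      (∀ x y z, h (x + y) z = h x z + h y z) → (∀ (a : D) x y, h (a • x) y = a * h x y) →
      (∀ x y, star (h x y) = h y x) → finrank D V = n →
      ∃ b : Basis (Fin n) D V, ∀ i j, i ≠ j → h (b i) (b j) = 0 := by
  induction n with
  | zero =>
    intro V _ _ _ h _ _ _ hn
    exact ⟨Module.finBasisOfFinrankEq D V hn, fun i => i.elim0⟩
  | succ n ih =>
    intro V _ _ _ h ha hs hy hn
    by_cases hv : ∀ x, h x x = 0
    · refine ⟨Module.finBasisOfFinrankEq D V hn, fun i j _ => ?_⟩
      have ha' : ∀ x y z, h x (y + z) = h x y + h x z := fun x y z => by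
        rw [← hy, ha, star_add, hy, hy]
      have e : ∀ x y, h x y + h y x = 0 := fun x y => by
        have := hv (x + y)
        rwa [ha, ha', ha', hv, hv, zero_add, add_zero] at this
      generalize Module.finBasisOfFinrankEq D V hn i = x
      generalize Module.finBasisOfFinrankEq D V hn j = y
      have e1 := e (θ • x) y
      rw [← hy (θ • x) y, hs, star_mul, hθ, hy, mul_neg, ← hc, ← sub_eq_add_neg, ← mul_sub] at e1
      have e2 := sub_eq_zero.1 ((mul_eq_zero.1 e1).resolve_left h0)
      have e3 := e x y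
      rw [← e2, ← two_mul] at e3
      exact (mul_eq_zero.1 e3).resolve_left two_ne_zero
    · push Not at hv
      obtain ⟨v, hv⟩ := hv
      let l : V →ₗ[D] D :=
        { toFun := fun x => h x v, map_add' := fun x y => ha x y v, map_smul' := fun a x => hs a x v }
      have hl : LinearMap.range l = ⊤ := LinearMap.range_eq_top.2 fun a =>
        ⟨(a * (h v v)⁻¹) • v, by
          change h _ v = a
          rw [hs, inv_mul_cancel_right₀ hv]⟩
      have hW : finrank D (LinearMap.ker l) = n := by
        have := l.finrank_range_add_finrank_ker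
        rw [hl, finrank_top, Module.finrank_self, hn] at this
        omega
      obtain ⟨b, hb⟩ := ih (LinearMap.ker l) (fun x y => h x y) (fun x y z => ha _ _ _)
        (fun a x y => hs _ _ _) (fun x y => hy _ _) hW
      refine ⟨Basis.mkFinCons v b (fun c x hx hcx => ?_) fun z => ⟨-(h z v * (h v v)⁻¹), ?_⟩, ?_⟩
      · have := congrArg l hcx
        rw [map_add, map_smul, LinearMap.mem_ker.1 hx, add_zero, map_zero] at this
        exact (mul_eq_zero.1 this).resolve_right hv
      · rw [LinearMap.mem_ker, map_add, map_smul]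
        change h z v + -(h z v * (h v v)⁻¹) * h v v = 0
        rw [neg_mul, inv_mul_cancel_right₀ hv, add_neg_cancel]
      · intro i j hij
        rw [Basis.coe_mkFinCons]
        induction i using Fin.cases with
        | zero =>
          induction j using Fin.cases with
          | zero => exact absurd rfl hij
          | succ j =>
            simp only [Fin.cons_zero, Fin.cons_succ, Function.comp_apply]
            rw [← hy, star_eq_zero]; exact (b j).2
        | succ i =>
          induction j using Fin.cases with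
          | zero => exact (b i).2
          | succ j => exact hb i j fun h => hij (congrArg _ h)

variable {m : Type} [Fintype m] [DecidableEq m]

/-- diagonalisation of hermitian matrices -/
theorem exists_diag (θ : D) (h0 : θ ≠ 0) (hθ : star θ = -θ) (hc : ∀ a, θ * a = a * θ)
    {H : Matrix m m D} (hH : Hᴴ = H) :
    ∃ (P : (Matrix m m D)ˣ) (a : m → D), (P : Matrix m m D)ᴴ * H * P = diagonal a := by
  obtain ⟨b₀, hb⟩ := exists_orth θ h0 hθ hc (Fintype.card m) (m → D)
    (fun x y => ∑ k, ∑ l, x k * H k l * star (y l))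
    (fun x y z => by simp [add_mul, Finset.sum_add_distrib])
    (fun a x y => by simp [Finset.mul_sum, mul_assoc])
    (fun x y => by
      rw [Finset.sum_comm]
      simp only [star_sum, star_mul, star_star, mul_assoc]
      refine Finset.sum_congr rfl fun k _ => Finset.sum_congr rfl fun l _ => ?_
      rw [← conjTranspose_apply, hH]) (Module.finrank_fintype_fun_eq_card D)
  let b := b₀.reindex (Fintype.equivFin m).symm
  let R : Matrix m m D := Matrix.of fun i k => b i k
  let Q : Matrix m m D := Matrix.of fun i j => b.repr (Pi.single i 1) j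
  have h1 : Q * R = 1 := by
    ext i k
    have := congrFun (b.sum_repr (Pi.single i 1)) k
    simpa [Q, R, mul_apply, one_apply, Pi.single_apply, eq_comm] using this
  have h2 : R * Q = 1 := by
    ext i k
    have e : b i = ∑ j, b i j • (Pi.single j 1 : m → D) := by
      ext l; simp [Pi.single_apply]
    have := congrArg (fun x => b.repr x k) e
    simp only [map_sum, map_smul, Basis.repr_self, Finsupp.coe_finsetSum, Finset.sum_apply,
      Finsupp.smul_apply, smul_eq_mul, Finsupp.single_apply] at this
    rw [one_apply, this]; rfl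
  refine ⟨⟨Rᴴ, Qᴴ, by rw [← conjTranspose_mul, h1, conjTranspose_one],
    by rw [← conjTranspose_mul, h2, conjTranspose_one]⟩, fun i => (R * H * Rᴴ) i i, ?_⟩
  ext i j
  rw [conjTranspose_conjTranspose]
  by_cases hij : i = j
  · subst hij; simp
  · rw [diagonal_apply_ne _ hij, ← hb (Fintype.equivFin m i) (Fintype.equivFin m j)
      fun h => hij ((Fintype.equivFin m).injective h), Finset.sum_comm]
    simp [mul_apply, R, b, Finset.sum_mul]

end Orth

section Mat

variable {K D : Type*} [Field K] [StarRing K] [DivisionRing D] [Algebra K D]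
  [FiniteDimensional K D] {m : Type*} [Fintype m] [DecidableEq m] [Nonempty m]

/-- An involution `τ` of `M_m(D)` is the adjoint of a hermitian form. -/
theorem exists_star_mat (hne : ∃ c : K, star c ≠ c) (τ : Matrix m m D →+ Matrix m m D)
    (hm : ∀ x y, τ (x * y) = τ y * τ x) (hi : ∀ x, τ (τ x) = x)
    (hc : ∀ (c : K) x, τ (c • x) = star c • τ x) :
    ∃ (_ : StarRing D) (_ : StarModule K D) (H : Matrix m m D), Hᴴ = H ∧ IsUnit H ∧
      ∀ x, H * τ x = xᴴ * H := by
  obtain ⟨θ, h0, hθ⟩ := exists_skew hne
  let o : m := Classical.arbitrary m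
  let ι : D → Matrix m m D := fun d => single o o d
  have ιm : ∀ a b, ι a * ι b = ι (a * b) := fun a b => single_mul_single_same _ _ _ _ _
  have ιp : ∀ x : Matrix m m D, ι 1 * x * ι 1 = ι (x o o) := fun x => by
    simp [ι, single_mul_mul_single]
  have τ0 : ∀ x, τ x = 0 → x = 0 := fun x h => by rw [← hi x, h, map_zero]
  -- a nonzero hermitian element of `τ(e) B e`
  obtain ⟨u, hu0, huτ, hue⟩ : ∃ u : Matrix m m D, u ≠ 0 ∧ τ u = u ∧ u * ι 1 = u := by
    obtain ⟨i, j, hij⟩ : ∃ i j, τ (ι 1) i j ≠ 0 := by
      by_contra h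
      push Not at h
      have := congrFun (congrFun (τ0 _ (Matrix.ext h)) o) o
      simp [ι] at this
    let w := τ (ι 1) * single j o 1 * ι 1
    have hw : w ≠ 0 := fun h => hij (by simpa [w, ι] using congrFun (congrFun h i) o)
    have hw1 : w * ι 1 = w := by simp only [w, mul_assoc, ιm, mul_one]
    have hw2 : τ w * ι 1 = τ w := by simp only [w, hm, hi, mul_assoc, ιm, mul_one]
    by_cases h : w + τ w = 0
    · refine ⟨θ • w, smul_ne_zero h0 hw, ?_, by rw [smul_mul_assoc, hw1]⟩
      rw [hc, hθ, eq_neg_of_add_eq_zero_right h, neg_smul, smul_neg, neg_neg]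
    · exact ⟨w + τ w, h, by rw [map_add, hi, add_comm], by rw [add_mul, hw1, hw2]⟩
  have heu : τ (ι 1) * u = u := by rw [← huτ, ← hm, hue]
  obtain ⟨a, hau, hea⟩ : ∃ a : Matrix m m D, a * u = ι 1 ∧ ι 1 * a = a := by
    obtain ⟨i, hi'⟩ : ∃ i, u i o ≠ 0 := by
      by_contra h
      push Not at h
      apply hu0
      rw [← hue]
      ext p q
      simp [ι, mul_apply, single_apply, ite_and, h]
    refine ⟨single o i (u i o)⁻¹, ?_, by simp [ι]⟩
    rw [← hue, ← mul_assoc, single_mul_mul_single]
    simp [ι, hi']
  have hua : u * a * τ (ι 1) = τ (ι 1) := by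
    have h1 : ι 1 * (τ a * u) * ι 1 = ι ((τ a * u) o o) := ιp _
    have h2 : u * τ a * u = u := by
      rw [← huτ, ← hm, ← hm, hau, hue]
    have h3 : u * ι ((τ a * u) o o) = u * ι 1 := by
      rw [← h1, ← mul_assoc, ← mul_assoc, hue, ← mul_assoc, h2, hue]
    have h4 := congrArg (a * ·) h3
    simp only [← mul_assoc, hau, ιm, one_mul] at h4
    rw [h4, mul_assoc, mul_assoc, hue] at h1
    have h5 := congrArg τ h1
    rwa [hm, hm, huτ, hi] at h5
  have key : ∀ w, w * ι 1 = w → τ (ι 1) * w = w → u * ι ((a * w) o o) = w := fun w h1 h2 => by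
    rw [← ιp, ← mul_assoc, ← mul_assoc, hue, mul_assoc u, mul_assoc a, h1, ← h2, ← mul_assoc a,
      ← mul_assoc, ← mul_assoc, hua]
  have inj : ∀ c d, u * ι c = u * ι d → c = d := fun c d h => by
    have := congrArg (fun x => (a * x) o o) h
    simpa only [← mul_assoc, hau, ιm, one_mul, ι, single_apply_same] using this
  let s : D → D := fun d => (a * (τ (ι d) * u)) o o
  have hs : ∀ d, u * ι (s d) = τ (ι d) * u := fun d =>
    key _ (by rw [mul_assoc, hue]) (by rw [← mul_assoc, ← hm, ιm, mul_one])
  have ιa : ∀ c d, ι (c + d) = ι c + ι d := fun c d => single_add _ _ _ _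
  let S : StarRing D :=
    { star := s
      star_involutive := fun d => inj _ _ (by
        have := congrArg τ (hs d)
        rw [hm, hm, hi, huτ] at this
        rw [hs, this])
      star_mul := fun c d => inj _ _ (by
        change u * ι (s (c * d)) = u * ι (s d * s c)
        rw [hs, ← ιm, hm, ← ιm, ← mul_assoc, hs, mul_assoc, mul_assoc, hs])
      star_add := fun c d => inj _ _ (by
        change u * ι (s (c + d)) = u * ι (s c + s d)
        rw [hs, ιa, ιa, map_add, add_mul, mul_add, hs, hs]) }
  have ιs : ∀ (c : K) d, ι (c • d) = c • ι d := fun c d => (smul_single _ _ _ _).symm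
  let E : m → Matrix m m D := fun i => single i o 1
  let H : Matrix m m D := Matrix.of fun i j => (a * (τ (E i) * E j)) o o
  have hH : ∀ i j, u * ι (H i j) = τ (E i) * E j := fun i j =>
    key _ (by simp [ι, E, mul_assoc]) (by rw [← mul_assoc, ← hm]; simp [ι, E])
  have ιsum : ∀ f : m → D, ι (∑ k, f k) = ∑ k, ι (f k) := fun f =>
    map_sum (singleAddMonoidHom o o) f _
  have col : ∀ (x : Matrix m m D) (j : m), x * E j = ∑ k, E k * ι (x k j) := by
    intro x j
    ext p q
    simp [ι, E, Matrix.sum_apply, mul_apply, single_apply, ite_and]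
  have main : ∀ x, H * τ x = xᴴ * H := by
    intro x
    ext i j
    refine inj _ _ ?_
    simp only [mul_apply, ιsum, Finset.mul_sum, ← ιm, ← mul_assoc, hH, conjTranspose_apply]
    have e1 : ∑ k, τ (E i) * E k * ι (τ x k j) = τ (E i) * τ x * E j := by
      rw [mul_assoc, col, Finset.mul_sum]; simp only [mul_assoc]
    have e2 : ∀ k, u * ι (star (x k i)) * ι (H k j) = τ (E k * ι (x k i)) * E j := fun k => by
      change u * ι (s _) * _ = _
      rw [hs, mul_assoc, hH, hm, mul_assoc]
    rw [e1, ← hm, col x, map_sum, Finset.sum_mul]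
    exact Finset.sum_congr rfl fun k _ => (e2 k).symm
  refine ⟨S, ⟨fun c d => inj _ _ ?_⟩, H, ?_, ?_, main⟩
  · change u * ι (s (c • d)) = u * ι (star c • s d)
    rw [hs, ιs, ιs, hc, mul_smul_comm, hs, smul_mul_assoc]
  · ext i j
    refine inj _ _ ?_
    change u * ι (s (H j i)) = _
    rw [hs, hH, ← huτ, ← hm, hH, hm, hi]
  · let I : TwoSidedIdeal (Matrix m m D) := TwoSidedIdeal.mk' {y | H * y = 0} (by simp)
      (fun {x y} hx hy => by
        simp only [Set.mem_ofPred_eq] at *; rw [mul_add, hx, hy, add_zero])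
      (fun {x} hx => by simp only [Set.mem_ofPred_eq] at *; rw [mul_neg, hx, neg_zero])
      (fun {x y} hy => by
        simp only [Set.mem_ofPred_eq] at *
        rw [← hi x, ← mul_assoc, main, mul_assoc, hy, mul_zero])
      (fun {x y} hx => by simp only [Set.mem_ofPred_eq] at *; rw [← mul_assoc, hx, zero_mul])
    rw [← Algebra.lmul_isUnit_iff (R := K), LinearMap.isUnit_iff_ker_eq_bot, eq_bot_iff]
    intro y hy
    by_contra hy0
    have h1 := (TwoSidedIdeal.mem_mk' _ _ _ _ _ _ _).1
      (IsSimpleRing.one_mem_of_ne_zero_mem I hy0 ((TwoSidedIdeal.mem_mk' _ _ _ _ _ _ _).2 hy))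
    rw [Set.mem_ofPred_eq, mul_one] at h1
    have h2 : τ (E o) = 0 := by
      ext p j
      have := congrFun (congrFun (hH o j) p) o
      simpa [h1, ι, E] using this.symm
    have := congrFun (congrFun (τ0 _ h2) o) o
    simp [E] at this

end Mat

section Wed

variable {K : Type*} {B : Type v} [Field K] [CharZero K] [StarRing K] [Ring B] [StarRing B]
  [Algebra K B] [StarModule K B]

/-- Transport of `star` along `B ≃ M_m(D)`, diagonal form. -/
theorem exists_star_of_equiv (hne : ∃ c : K, star c ≠ c) {D : Type u} [DivisionRing D]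
    [Algebra K D] [FiniteDimensional K D] {m : Type} [Fintype m] [DecidableEq m] [Nonempty m]
    (e₀ : B ≃ₐ[K] Matrix m m D) :
    ∃ (_ : StarRing D) (_ : StarModule K D) (e : B ≃ₐ[K] Matrix m m D) (a : m → D),
      (∀ i, a i ≠ 0 ∧ star (a i) = a i) ∧
        ∀ x, diagonal a * e (star x) = (e x)ᴴ * diagonal a := by
  obtain ⟨S, M, H, h1, h2, h3⟩ := exists_star_mat (D := D) (m := m) hne
    (AddMonoidHom.mk' (fun x => e₀ (star (e₀.symm x))) fun x y => by simp)
    (fun x y => by simp) (fun x => by simp) (fun c x => by simp)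
  obtain ⟨θ, h0, hθ⟩ := exists_skew hne
  have : CharZero D := charZero_of_injective_algebraMap (algebraMap K D).injective
  obtain ⟨P, a, hP⟩ := exists_diag (algebraMap K D θ) ((_root_.map_ne_zero _).2 h0)
    (by rw [star_algebraMap, hθ, map_neg]) (Algebra.commutes θ) h1
  have hd : (diagonal a)ᴴ = diagonal a := by
    rw [← hP, conjTranspose_mul, conjTranspose_mul, conjTranspose_conjTranspose, h1, mul_assoc]
  have hu : IsUnit (diagonal a) := hP ▸ (P.isUnit.star.mul h2).mul P.isUnit
  refine ⟨S, M, e₀.trans (MulSemiringAction.toAlgEquiv K _ (ConjAct.toConjAct P⁻¹)), a,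
    fun i => ⟨?_, ?_⟩, fun x => ?_⟩
  · intro h
    obtain ⟨y, hy⟩ := hu.exists_right_inv
    simpa [h] using congrFun (congrFun hy i) i
  · simpa using congrFun (congrFun hd i) i
  · have h4 : H * e₀ (star x) = (e₀ x)ᴴ * H := by simpa using h3 (e₀ x)
    have h5 : ∀ y, (e₀.trans (MulSemiringAction.toAlgEquiv K _ (ConjAct.toConjAct P⁻¹))) y =
        (P⁻¹ : (Matrix m m D)ˣ) * e₀ y * P := fun y => rfl
    rw [h5, h5, ← hP, conjTranspose_mul, conjTranspose_mul]
    have h6 : ((P⁻¹ : (Matrix m m D)ˣ) : Matrix m m D)ᴴ * (P : Matrix m m D)ᴴ = 1 := by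
      rw [← conjTranspose_mul, P.mul_inv, conjTranspose_one]
    simp only [mul_assoc, P.mul_inv_cancel_left]
    rw [← mul_assoc _ (P : Matrix m m D)ᴴ, h6, one_mul, ← mul_assoc H, h4, mul_assoc]


variable {D : Type u} [DivisionRing D] [StarRing D] [Algebra K D] {m : Type*} [Fintype m]
  [DecidableEq m] {e : B ≃ₐ[K] Matrix m m D} {H : Matrix m m D}


omit [CharZero K] [StarRing K] [StarModule K B] in
/-- `star` is anisotropic iff the form is. -/
theorem aniso_iff [Nonempty m] (hH : IsUnit H) (he : ∀ x, H * e (star x) = (e x)ᴴ * H) :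
    (∀ x : B, star x * x = 0 → x = 0) ↔ ∀ v : m → D, star v ⬝ᵥ H *ᵥ v = 0 → v = 0 := by
  have key : ∀ x : B, star x * x = 0 ↔ (e x)ᴴ * H * e x = 0 := fun x => by
    rw [← he, mul_assoc, ← map_mul, hH.mul_right_eq_zero, map_eq_zero_iff e e.injective]
  constructor
  · intro h v hv
    have := h (e.symm (Matrix.of fun i _ => v i)) (by
      rw [key, e.apply_symm_apply]
      ext i j
      rw [mul_assoc, Matrix.zero_apply, ← hv]; rfl)
    rw [map_eq_zero_iff e.symm e.symm.injective] at this
    funext i
    exact congrFun (congrFun this i) (Classical.arbitrary m)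
  · intro h x hx
    rw [key] at hx
    apply e.injective
    ext i j
    have := h (fun i => e x i j) (by
      have := congrFun (congrFun hx j) j
      rw [mul_assoc] at this
      exact this)
    rw [map_zero]
    exact congrFun this i

end Wed

end Crest.Agent.T24.Csa
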