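import Crest.Agent.T24.LocC_59
import Crest.Agent.T24.WgWang_25
import Crest.Agent.T24.LocM_59
import Crest.Agent.T24.LocI_53
import Crest.Agent.T24.BcB_98
import Crest.Agent.T24.HilC_56
import Crest.Agent.T24.WallB_86
import Crest.Agent.T24.Csa6_50

-- ▼ part T24/LocS_59
section

/-!
# Row 24 (helper59): `SK₁ = 1` over local fields; normal subgroups of `SL_m(D)`
-/

set_option autoImplicit false

namespace Crest.Agent.T24.Loc

open Finset Module Csa

theorem nm_eq_norm (F : Type*) [NontriviallyNormedField F] [ProperSpace F] {D : Type*} [NormedDivisionRing D]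
    [NormedAlgebra F D] [FiniteDimensional F D] (x : D) : nm F x = ‖x‖ := by
  obtain ⟨C, hC, h⟩ := nm_cmp F (finBasis F D)
  obtain ⟨C', hC', h'⟩ := (finBasis F D).equivFunL.symm.toContinuousLinearMap.bound
  have key : ∀ x : D, x ≠ 0 → ‖x‖ ≤ nm F x := fun x hx => by
    have h0 : 0 < nm F x := (nm_nonneg F x).lt_of_ne fun h => hx ((nm_eq_zero F).1 h.symm)
    by_contra h1
    obtain ⟨n, hn⟩ := pow_unbounded_of_one_lt (C' * C) ((one_lt_div h0).2 (not_le.1 h1))
    rw [div_pow, lt_div_iff₀ (pow_pos h0 n), ← nm_pow, ← norm_pow, mul_assoc] at hn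
    refine absurd hn (not_lt.2 (le_trans ?_ (mul_le_mul_of_nonneg_left (h _).2 hC'.le)))
    simpa using h' ((finBasis F D).equivFun (x ^ n))
  by_cases hx : x = 0
  · rw [hx, norm_zero, nm_eq_zero]
  refine le_antisymm ?_ (key x hx)
  have h1 := mul_le_mul_of_nonneg_left (key _ (inv_ne_zero hx)) (nm_nonneg F x)
  rwa [← nm_mul, mul_inv_cancel₀ hx, nm_one, norm_inv, ← div_eq_mul_inv, div_le_one (norm_pos_iff.2 hx)] at h1

namespace Cyc
variable {F : Type*} [NontriviallyNormedField F] {D : Type*} [NormedDivisionRing D] [NormedAlgebra F D]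
  {π ζ : D} {M r : ℕ} [FiniteDimensional F D] (h : Cyc F π ζ M r) [IsUltrametricDist D]
  [Algebra.IsCentral F D] [ProperSpace F]
include h

omit [Algebra.IsCentral F D] in
/-- every unit is `w [ζ, a]` with `w` in the unramified subfield -/
theorem exists_comm {x : D} (hx : ‖x‖ = 1) :
    ∃ w a : D, Commute w ζ ∧ ‖a - 1‖ < 1 ∧ x * a * ζ = w * ζ * a := by
  have := FiniteDimensional.proper F D
  have hS : IsCompact ((Metric.sphere (0 : D) 1 ×ˢ Metric.closedBall (1 : D) ‖π‖) ∩ {p | Commute p.1 ζ}) :=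
    ((isCompact_sphere _ _).prod (isCompact_closedBall _ _)).inter_right
      (isClosed_eq (by fun_prop) (by fun_prop))
  obtain ⟨i₀, h0⟩ := h.gen x hx
  have h1 : (ζ ^ i₀, (1 : D)) ∈ (Metric.sphere (0 : D) 1 ×ˢ Metric.closedBall (1 : D) ‖π‖) ∩
      {p | Commute p.1 ζ} := ⟨⟨by simp [h.norm_z], by simp⟩, (Commute.refl ζ).pow_left _⟩
  obtain ⟨⟨w, a⟩, ⟨⟨hw, ha⟩, hc⟩, hm⟩ := hS.exists_isMinOn ⟨_, h1⟩
    (f := fun p => ‖x * p.2 * ζ - p.1 * ζ * p.2‖) (by fun_prop)
  simp only [mem_sphere_iff_norm, sub_zero, mem_closedBall_iff_norm, Set.mem_ofPred_eq] at hw ha hc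
  have ha1 := ha.trans_lt h.lt
  refine ⟨w, a, hc, ha1, sub_eq_zero.1 (by_contra fun hy => ?_)⟩
  set y := x * a * ζ - w * ζ * a with hy'
  have hm' : ∀ w' a' : D, ‖w'‖ = 1 → ‖a' - 1‖ ≤ ‖π‖ → Commute w' ζ → ‖y‖ ≤ ‖x * a' * ζ - w' * ζ * a'‖ :=
    fun w' a' h1 h2 h3 => hm (a := (w', a')) ⟨⟨by simpa using h1, mem_closedBall_iff_norm.2 h2⟩, h3⟩
  have hy1 : ‖y‖ < 1 := (hm h1).trans_lt (by simpa [← sub_mul, h.norm_z] using h0)
  obtain ⟨k, hk⟩ := h.val_nat hy hy1.le
  rw [← norm_pow] at hk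
  obtain ⟨i, hi⟩ := h.approx (pow_ne_zero k h.ne) hk
  have hp : 0 < ‖π ^ k‖ := hk ▸ norm_pos_iff.2 hy
  by_cases hn : h.n ∣ k
  · refine absurd (hm' (w + ζ ^ i * π ^ k * ζ⁻¹) a ?_ ha (hc.add_left ((((Commute.refl ζ).pow_left i).mul_left
      (h.comm_iff.2 hn)).mul_left (Commute.refl ζ).inv_left₀))) (not_le.2 ?_)
    · rw [← hw]
      refine norm_eq_of_lt ?_
      rwa [add_sub_cancel_left, norm_mul, norm_mul, norm_inv, h.norm_z, h.norm_zp, ← hk, hw, inv_one, one_mul,
        mul_one]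
    · rw [show x * a * ζ - (w + ζ ^ i * π ^ k * ζ⁻¹) * ζ * a = y - ζ ^ i * π ^ k - ζ ^ i * π ^ k * (a - 1) by
        rw [add_mul, inv_mul_cancel_right₀ h.z_ne, hy']; noncomm_ring, hk]
      refine norm_sub_lt_of hi ?_
      rw [norm_mul, norm_mul, h.norm_zp, one_mul]
      exact mul_lt_of_lt_one_right hp ha1
  · have hu : ‖ζ ^ r ^ k - ζ‖ = 1 := by simpa using h.norm_zp_sub (j := 1) (by simpa using mt h.zp_eq_iff.1 hn)
    set u := ζ ^ r ^ k - ζ with hu'
    have hu0 : u ≠ 0 := norm_ne_zero_iff.1 (by rw [hu]; exact one_ne_zero)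
    have hw0 : w ≠ 0 := norm_ne_zero_iff.1 (by rw [hw]; exact one_ne_zero)
    set β := w⁻¹ * ζ ^ i * u⁻¹ with hβ
    have hβ1 : ‖β‖ = 1 := by simp [hβ, hw, hu, h.norm_z]
    have hβ2 : Commute β ζ := (hc.inv_left₀.mul_left ((Commute.refl ζ).pow_left i)).mul_left
      (((Commute.refl ζ).pow_left _).sub_left (Commute.refl ζ)).inv_left₀
    have hβ3 : w * β * u = ζ ^ i := by rw [hβ, ← mul_assoc, inv_mul_cancel_right₀ hu0, mul_inv_cancel_left₀ hw0]
    have hxw : ‖x - w‖ < 1 := by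
      rw [← mul_one ‖x - w‖, ← h.norm_z, ← norm_mul, h.norm_z,
        show (x - w) * ζ = y - x * (a - 1) * ζ + w * ζ * (a - 1) by rw [hy']; noncomm_ring]
      exact norm_add_lt_of (norm_sub_lt_of hy1 (by simpa [hx, h.norm_z] using ha1))
        (by simpa [hw, h.norm_z] using ha1)
    refine absurd (hm' w (a - β * π ^ k) hw ?_ hc) (not_le.2 ?_)
    · rw [sub_right_comm]
      exact norm_sub_le_of ha (h.le _ (by rwa [norm_mul, hβ1, one_mul, ← hk]))
    · rw [show x * (a - β * π ^ k) * ζ - w * ζ * (a - β * π ^ k) =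
          y - ζ ^ i * π ^ k - (x - w) * (β * ζ ^ r ^ k * π ^ k) by
        rw [← hβ3, hu', hy', mul_sub, sub_mul, mul_assoc x (β * _), mul_assoc β, h.conj_pow, mul_sub (w * ζ),
          mul_assoc w ζ (β * _), ← mul_assoc ζ β, ← hβ2.eq]; noncomm_ring, hk]
      refine norm_sub_lt_of hi ?_
      rw [norm_mul, norm_mul, norm_mul, hβ1, h.norm_zp, one_mul, one_mul]
      exact mul_lt_of_lt_one_left hp hxw

variable [CharZero F] [IsUltrametricDist F]

omit [IsUltrametricDist D] [IsUltrametricDist F] in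
theorem norm_Nrd (x : D) : ‖Nrd F x‖ = ‖x‖ ^ h.n := by rw [← nm_pow_deg, nm_eq_norm, h.deg_eq]

omit [IsUltrametricDist F] in
/-- an element of reduced norm one is a product of two commutators -/
theorem exists_comm₂ {x : D} (hx : Nrd F x = 1) :
    ∃ a b : D, a ≠ 0 ∧ b ≠ 0 ∧ x = (b * π * b⁻¹ * π⁻¹) * (ζ * a * ζ⁻¹ * a⁻¹) := by
  have h1 : ‖x‖ = 1 := (pow_eq_one_iff_of_nonneg (norm_nonneg _) h.n_pos.ne').1 (by
    rw [← h.norm_Nrd, hx, norm_one])
  obtain ⟨w, a, h2, h3, h4⟩ := h.exists_comm h1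
  have ha : a ≠ 0 := fun h0 => by simp [h0] at h3
  have h5 := congrArg (Nrd F) h4
  rw [map_mul, map_mul, map_mul, map_mul, hx, one_mul, mul_assoc, mul_comm, eq_comm, mul_eq_right₀
    (mul_ne_zero ((map_ne_zero _).2 h.z_ne) ((map_ne_zero _).2 ha))] at h5
  have := h.galois
  obtain ⟨b, hb, h6, -⟩ := Wg.h90_pos (σ := h.sig) (u := ⟨w, h.mem_WW.2 h2⟩) (fun _ => h.zpowers_eq ▸ trivial)
    ((h.Nrd_W _).symm.trans h5) (fun _ => False) fun _ => False.elim
  have hb0 : (b : D) ≠ 0 := by simpa using hb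
  have h7 : w * (π * b * π⁻¹) = b := congrArg Subtype.val h6
  refine ⟨a, b, ha, hb0, ?_⟩
  rw [show (b : D) * π * (b : D)⁻¹ * π⁻¹ = w by
    nth_rw 1 [← h7]; simp [mul_assoc, h.ne, hb0], ← mul_assoc, ← mul_assoc, ← mul_assoc, ← h4,
    mul_inv_cancel_right₀ h.z_ne, mul_inv_cancel_right₀ ha]

end Cyc

section sk
variable (F : Type*) [NontriviallyNormedField F] [ProperSpace F] [IsUltrametricDist F] [CharZero F]

theorem sk_div (D : Type*) [DivisionRing D] [Algebra F D] [FiniteDimensional F D] [Algebra.IsCentral F D] :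
    Wg.SK F D := fun x hx => by
  let := ndr F D
  let := nalg F D
  have := ultra F D
  obtain ⟨π, ζ, M, r, h⟩ := exists_cyc (F := F) (D := D)
  obtain ⟨a, b, ha, hb, h1⟩ := h.exists_comm₂ hx
  have : x = Units.mk0 b hb * Units.mk0 π h.ne * (Units.mk0 b hb)⁻¹ * (Units.mk0 π h.ne)⁻¹ *
      (Units.mk0 ζ h.z_ne * Units.mk0 a ha * (Units.mk0 ζ h.z_ne)⁻¹ * (Units.mk0 a ha)⁻¹) :=
    Units.ext (by simpa using h1)
  rw [this]
  simp only [map_mul, map_inv, mul_inv_cancel_comm, mul_inv_cancel, mul_one]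

/-- **`SK₁ = 1` over a local field** -/
theorem sk_local (B : Type*) [Ring B] [Algebra F B] [Algebra.IsCentral F B] [IsSimpleRing B]
    [FiniteDimensional F B] : Wg.SK F B := by
  obtain ⟨r, e, D, _, _, _, _, hr, -, -, -, ⟨φ⟩⟩ := Hsm.exists_wedderburn F B (finrank_eq_deg_sq F B)
  have : NeZero r := ⟨hr.ne'⟩
  exact Wg.SK.of_matrix φ (sk_div F D)

end sk

section sl
open Wg
variable {D ι : Type*} [DivisionRing D] [Fintype ι] [DecidableEq ι]

theorem eq_top_of_tv {H : Subgroup (Matrix ι ι D)ˣ} (h1 : ∀ {i j : ι} (h : i ≠ j) (c : D), tv h c ∈ H)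
    (h2 : ∀ (i : ι) (d : Dˣ), dg i d ∈ H) (u : (Matrix ι ι D)ˣ) : u ∈ H := by
  have hli : LinearIndependent D (u : Matrix ι ι D).row := by
    rw [Fintype.linearIndependent_iff]
    intro g hg
    have h1 : Matrix.vecMul g (u : Matrix ι ι D) = 0 := by
      rw [Matrix.vecMul_eq_sum]; exact hg
    have h3 := congrArg (fun v => Matrix.vecMul v (↑u⁻¹ : Matrix ι ι D)) h1
    simp only [Matrix.vecMul_vecMul, Units.mul_inv, Matrix.vecMul_one, Matrix.zero_vecMul] at h3
    exact congrFun h3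
  obtain ⟨v, hv, hd⟩ := connect (D := D) (P := fun M : ι → ι → D => ∃ v : (Matrix ι ι D)ˣ,
      (v : Matrix ι ι D) = Matrix.of M ∧ v ∈ H)
    (by
      rintro M i j c hij ⟨v, hv, hd⟩
      exact ⟨tv hij c * v, by rw [Units.val_mul, hv, tv_mul], H.mul_mem (h1 _ _) hd⟩)
    (by
      rintro M i c hc ⟨v, hv, hd⟩
      exact ⟨dg i (Units.mk0 c hc) * v, by rw [Units.val_mul, hv, dg_mul]; rfl, H.mul_mem (h2 _ _) hd⟩)
    (M := Matrix.of.symm (1 : Matrix ι ι D)) ⟨1, rfl, H.one_mem⟩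
    (by
      rw [← (Pi.basisFun D ι).span_eq]
      congr 2
      funext i j
      simp [Matrix.one_apply, Pi.single_apply, eq_comm]) hli
  exact (Units.ext hv : v = u) ▸ hd

theorem dg_tv (k : ι) (d : Dˣ) {i j : ι} (h : i ≠ j) (c : D) : dg k d * tv h c * (dg k d)⁻¹ =
    tv h ((Pi.mulSingle k (d : D) : ι → D) i * c * (Pi.mulSingle k (↑d⁻¹ : D) : ι → D) j) := by
  rw [← map_inv]
  refine Units.ext ?_
  change _ * (1 + _) * _ = 1 + _
  rw [mul_add, add_mul, mul_one, ← Units.val_mul, ← map_mul, mul_inv_cancel, map_one, Units.val_one, dg_val, dg_val]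
  congr 1
  ext s t
  rw [Matrix.mul_diagonal, Matrix.diagonal_mul, Matrix.single_apply, Matrix.single_apply]
  split_ifs with h1
  · rw [h1.1, h1.2]
  · simp

/-- the elementary group -/
def El (ι D : Type*) [DivisionRing D] [Fintype ι] [DecidableEq ι] : Subgroup (Matrix ι ι D)ˣ :=
  Subgroup.closure {g | ∃ (i j : ι) (h : i ≠ j) (c : D), g = tv h c}

theorem tv_El {i j : ι} (h : i ≠ j) (c : D) : tv h c ∈ El ι D := Subgroup.subset_closure ⟨i, j, h, c, rfl⟩

instance : (El ι D).Normal := by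
  have key : ∀ (k : ι) (d : Dˣ), ∀ x ∈ El ι D, dg k d * x * (dg k d)⁻¹ ∈ El ι D := fun k d =>
    (Subgroup.closure_le ((El ι D).comap (MulAut.conj (dg k d)).toMonoidHom)).2 fun _ ⟨i, j, h, c, hg⟩ => by
      change dg k d * _ * _ ∈ El ι D
      rw [hg, dg_tv]; exact tv_El _ _
  refine Subgroup.normalizer_eq_top_iff.1 (eq_top_iff.2 fun u _ => eq_top_of_tv
    (fun h c => Subgroup.le_normalizer (tv_El h c)) (fun k d x => ⟨key k d x, fun hx => ?_⟩) u)
  simpa [mul_assoc] using key k d⁻¹ _ hx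

theorem commutator_le_El [Nontrivial ι] : commutator (Matrix ι ι D)ˣ ≤ El ι D := by
  let f := QuotientGroup.mk' (El ι D)
  have h1 : ∀ {i j : ι} (h : i ≠ j) (c : D), f (tv h c) = 1 := fun h c => (QuotientGroup.eq_one_iff _).2 (tv_El h c)
  have h2 : ∀ (i j : ι) (d : Dˣ), f (dg i d) = f (dg j d) := fun i j d => by
    by_cases h : i = j
    · rw [h]
    have h' : j ≠ i := Ne.symm h
    have : dg i d * (tv h 1 * (tv h' (-1) * tv h 1)) = tv h 1 * (tv h' (-1) * (tv h 1 * dg j d)) := by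
      refine ext_of fun N => ?_
      simp only [Units.val_mul, Matrix.mul_assoc, tv_mul, dg_mul]
      refine congrArg _ (funext fun k => ?_)
      by_cases hk : k = i
      · subst hk
        simp [T_ne h', T_ne h, Sc_ne h]
      · by_cases hj : k = j
        · subst hj
          simp [T_ne h', Sc_ne h, Sc_ne h']
        · simp only [T_ne hk, Sc_ne hk, T_ne hj, Sc_ne hj]
    simpa only [map_mul, h1, one_mul, mul_one] using congrArg f this
  have h3 : ∀ u, (∀ (i : ι) (d : Dˣ), f u * f (dg i d) = f (dg i d) * f u) → ∀ v, f u * f v = f v * f u :=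
    fun u hu v => Subgroup.mem_centralizer_singleton_iff.1 (eq_top_of_tv
      (H := (Subgroup.centralizer {f u}).comap f) (fun h c => by simp [h1])
      (fun i d => Subgroup.mem_centralizer_singleton_iff.2 (hu i d).symm) v) |>.symm
  have h4 : ∀ (i : ι) (d : Dˣ) v, f (dg i d) * f v = f v * f (dg i d) := fun i d => h3 _ fun j c => by
    obtain ⟨k, hk⟩ := exists_ne i
    rw [h2 j k, ← map_mul, ← map_mul]
    refine congrArg f (Units.ext ?_)
    simp only [Units.val_mul, dg_val, Matrix.diagonal_mul_diagonal]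
    exact congrArg _ (Pi.mulSingle_commute (f := fun _ => D) hk.symm d c).eq
  rw [commutator_def, Subgroup.commutator_le]
  intro u _ v _
  rw [← QuotientGroup.eq_one_iff, ← QuotientGroup.mk'_apply, map_commutatorElement, commutatorElement_eq_one_iff_mul_comm]
  exact h3 u (fun i d => (h4 i d u).symm) v

variable {F : Type*} [Field F] [CharZero F] {A : Type*} [Ring A] [Algebra F A] [Algebra.IsCentral F A]
  [IsSimpleRing A] [FiniteDimensional F A]

/-- normal subgroups of `SL₁(A)`, `A` not a division algebra -/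
theorem sl_le_of_normal (hA : ∃ x : A, x ≠ 0 ∧ ¬ IsUnit x) (hS : SK F A) {N : Subgroup Aˣ}
    (hN : ∀ g : Aˣ, Nrd F (g : A) = 1 → ∀ x ∈ N, g * x * g⁻¹ ∈ N)
    (h0 : ∀ x : A, x * x = 0 → ∃ a : F, a ≠ 0 ∧ ∀ u : Aˣ, (u : A) = 1 + a ^ 2 • x → u ∈ N)
    {u : Aˣ} (hu : Nrd F (u : A) = 1) : u ∈ N := by
  obtain ⟨r, e, D, _, _, _, _, hr, -, -, -, ⟨φ⟩⟩ := Hsm.exists_wedderburn F A (finrank_eq_deg_sq F A)
  have : NeZero r := ⟨hr.ne'⟩
  have : Nontrivial (Fin r) := Fin.nontrivial_iff_two_le.2 (by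
    by_contra h1
    obtain rfl : r = 1 := by omega
    obtain ⟨x, h2, h3⟩ := hA
    let q := φ.toRingEquiv.trans (Matrix.uniqueRingEquiv (m := Fin 1) (A := D))
    exact h3 (by simpa using (Ne.isUnit (show q x ≠ 0 by simpa using h2)).map q.symm))
  let g : (Matrix (Fin r) (Fin r) D)ˣ ≃* Aˣ := Units.mapEquiv φ.symm.toMulEquiv
  have h1 : El (Fin r) D ≤ N.comap g.toMonoidHom := (Subgroup.closure_le _).2 fun _ ⟨i, j, h, c, hg⟩ => by
    obtain ⟨a, ha, h2⟩ := h0 (φ.symm (Matrix.single i j c)) (by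
      rw [← map_mul, Matrix.single_mul_single_of_ne _ _ _ _ h.symm, map_zero])
    let d : Dˣ := Units.mk0 (algebraMap F D a⁻¹) (by simpa using ha)
    have h3 := hN (g (dg i d * dg j d⁻¹)) (by
      change Nrd F (φ.symm _) = 1
      rw [Nrd_equiv, Units.val_mul, map_mul, Wg.Nrd_dg, Wg.Nrd_dg, ← map_mul, Units.mul_inv, map_one])
      (g (tv h (a ^ 2 • c))) (h2 _ (by
        change φ.symm (1 + _) = _
        rw [map_add, map_one, ← map_smul, Matrix.smul_single]))
    rw [← map_inv, ← map_mul, ← map_mul, mul_inv_rev, mul_assoc (dg i d), ← mul_assoc, mul_assoc (dg i d), dg_tv,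
      dg_tv] at h3
    rw [Pi.mulSingle_eq_same, Pi.mulSingle_eq_same, Pi.mulSingle_eq_of_ne h, Pi.mulSingle_eq_of_ne h.symm, inv_inv,
      one_mul, mul_one, Units.val_mk0, ← Algebra.commutes, ← Algebra.smul_def, ← Algebra.smul_def, smul_smul,
      smul_smul, show a⁻¹ * a⁻¹ * a ^ 2 = 1 by field_simp, one_smul] at h3
    exact hg ▸ h3
  have h2 : g.symm u ∈ commutator _ := by
    rw [← Abelianization.ker_of, MonoidHom.mem_ker]
    exact (of_map g.symm.toMonoidHom ((hS u hu).trans (map_one _).symm)).trans (by simp)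
  simpa using h1 (commutator_le_El h2)

end sl

end Crest.Agent.T24.Loc
end

-- ▼ part T24/LocL_59

/-!
# Row 24 (helper59): local almost simplicity at the finite places outside `T`
-/

set_option autoImplicit false

namespace Crest.Agent.T24.Loc

open Finset Module Csa Asa NumberField IsDedekindDomain Filter WithZero Topology
open scoped Valued TensorProduct Matrix

section herm
variable {k : Type*} [Field k] [NumberField k] (v : Pl k) (δ : k)

/-- local norms (and zero) -/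
def Nm (c : Kv v) : Prop := ∃ x y : Kv v, c = x ^ 2 - algebraMap k _ δ * y ^ 2

variable {v δ}

theorem Nm.mul {a b : Kv v} (ha : Nm v δ a) (hb : Nm v δ b) : Nm v δ (a * b) := by
  obtain ⟨x, y, rfl⟩ := ha
  obtain ⟨z, t, rfl⟩ := hb
  exact ⟨x * z + algebraMap k _ δ * y * t, x * t + y * z, by ring⟩

theorem nm_sq (a : Kv v) : Nm v δ (a ^ 2) := ⟨a, 0, by simp⟩

theorem Nm.of_mul_sq {a s : Kv v} (hs : s ≠ 0) (h : Nm v δ (a * s ^ 2)) : Nm v δ a := by
  simpa [hs] using h.mul (nm_sq s⁻¹)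

/-- the local norm group has index at most two -/
theorem nm_mul_of_not (hδ : δ ≠ 0) {a b : Kv v} (ha : ¬ Nm v δ a) (hb : ¬ Nm v δ b) : Nm v δ (a * b) := by
  have key : ∀ {a : Kv v}, ¬ Nm v δ a → ∃ (c : kˣ) (s : Kv v), s ≠ 0 ∧ algebraMap k _ (c : k) = a * s ^ 2 ∧
      c ∉ Hn.LN δ v := fun {a} ha => by
    have h0 : a ≠ 0 := fun h => ha ⟨0, 0, by simp [h]⟩
    obtain ⟨c, s, hs⟩ := (Hil.lc_inl v).exists_sq (v.denseRange_algebraMap k) h0
    rw [div_eq_iff h0, ← sq, mul_comm] at hs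
    have h1 : s ≠ 0 := fun h => by simp [h] at hs
    exact ⟨c, s, h1, hs, fun h => ha (.of_mul_sq h1 (hs ▸ (Hn.Loc.mem_LN_iff v δ c).1 h))⟩
  obtain ⟨c, s, h1, h2, h3⟩ := key ha
  obtain ⟨c', s', h1', h2', h3'⟩ := key hb
  have h4 := Hn.index_LN v (Units.mk0 δ hδ) fun h => h3 (by
    have := Hn.LN_eq_top v _ h
    rw [Units.val_mk0] at this
    exact this ▸ trivial)
  have h5 := (Hn.Loc.mem_LN_iff v δ _).1 ((Subgroup.mul_mem_iff_of_index_two h4).2 (iff_of_false h3 h3'))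
  rw [Units.val_mul, map_mul, h2, h2', mul_mul_mul_comm, ← mul_pow] at h5
  exact .of_mul_sq (mul_ne_zero h1 h1') h5

theorem neg_one_nm (h : ∀ a b, Nm v δ a → Nm v δ b → Nm v δ (a + b)) : Nm v δ (-1) := by
  have h1 : ∀ n : ℕ, Nm v δ n := fun n => by
    induction n with
    | zero => exact ⟨0, 0, by simp⟩
    | succ n ih => rw [Nat.cast_succ]; exact h _ _ ih ⟨1, 0, by simp⟩
  let p := Ideal.absNorm v.asIdeal
  have hp : ‖(p : Kv v)‖ < 1 := by
    rw [Valued.toNormedField.norm_lt_one_iff, ← map_natCast (algebraMap k (Kv v)), val_alg]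
    simpa using (v.valuation_lt_one_iff_mem (K := k) p).2 (Ideal.absNorm_mem _)
  have h2 := (tendsto_pow_atTop_nhds_zero_of_norm_lt_one hp).const_sub 1
  rw [sub_zero] at h2
  obtain ⟨n, ⟨s, hs⟩, hn⟩ := ((h2.eventually (Hil.lc_inl v).op).and (eventually_ge_atTop 1)).exists
  have h3 : 2 ≤ p ^ n := (HeightOneSpectrum.one_lt_absNorm v).trans_le (Nat.le_self_pow (by omega) p)
  convert h _ _ (nm_sq s) (h1 (p ^ n - 2)) using 1
  rw [sq, ← hs, Nat.cast_sub h3]
  push_cast
  ring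

/-- hermitian forms in three variables over a local field are isotropic -/
theorem herm_iso (hδ : δ ≠ 0) (a : Fin 3 → Kv v) :
    ∃ n : Fin 3 → Kv v, n ≠ 0 ∧ (∀ i, Nm v δ (n i)) ∧ ∑ i, a i * n i = 0 := by
  have z : Nm v δ 0 := ⟨0, 0, by simp⟩
  by_cases h0 : ∀ i, a i ≠ 0
  swap
  · push Not at h0
    obtain ⟨i, hi⟩ := h0
    refine ⟨Pi.single i 1, by simp, fun j => ?_, by simp [Pi.single_apply, hi]⟩
    rw [Pi.single_apply]
    split_ifs
    exacts [⟨1, 0, by simp⟩, z]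
  have k2 : ∀ i, a i ^ 2 ≠ 0 := fun i => pow_ne_zero 2 (h0 i)
  by_cases h1 : Nm v δ (-(a 0 * a 1))
  · exact ⟨![_, a 0 ^ 2, 0], fun h => k2 0 (congrFun h 1), fun i => by fin_cases i; exacts [h1, nm_sq _, z],
      by simp [Fin.sum_univ_three]; ring⟩
  by_cases h2 : Nm v δ (-(a 0 * a 2))
  · exact ⟨![_, 0, a 0 ^ 2], fun h => k2 0 (congrFun h 2), fun i => by fin_cases i; exacts [h2, z, nm_sq _],
      by simp [Fin.sum_univ_three]; ring⟩
  by_cases h3 : Nm v δ (-(a 1 * a 2))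
  · exact ⟨![0, _, a 1 ^ 2], fun h => k2 1 (congrFun h 2), fun i => by fin_cases i; exacts [z, h3, nm_sq _],
      by simp [Fin.sum_univ_three]; ring⟩
  have h4 : Nm v δ (a 1 * a 2) := .of_mul_sq (h0 0) (by convert nm_mul_of_not hδ h1 h2 using 1; ring)
  have h5 : Nm v δ (a 0 * a 2) := .of_mul_sq (h0 1) (by convert nm_mul_of_not hδ h1 h3 using 1; ring)
  have h6 : Nm v δ (a 0 * a 1) := .of_mul_sq (h0 2) (by convert nm_mul_of_not hδ h2 h3 using 1; ring)
  have h7 : ¬ Nm v δ (-1) := fun h => h1 (by simpa using h.mul h6)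
  have h8 := mt neg_one_nm h7
  push Not at h8
  obtain ⟨x, y, hx, hy, h9⟩ := h8
  refine ⟨![x * (a 1 * a 2), y * (a 0 * a 2), -1 * (x + y) * (a 0 * a 1)], fun h => ?_, fun i => ?_, ?_⟩
  · exact mul_ne_zero (mul_ne_zero (by simp) fun h' : x + y = 0 => h9 (h' ▸ z)) (mul_ne_zero (h0 0) (h0 1))
      (congrFun h 2)
  · fin_cases i
    exacts [hx.mul h4, hy.mul h5, (nm_mul_of_not hδ h7 h9).mul h6]
  · simp [Fin.sum_univ_three]; ring

end herm

section quad
variable (F : Type*) {E A : Type*} [Field E] [StarRing E] [Ring A] [StarRing A] [Algebra E A] [StarModule E A]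
  [Algebra.IsCentral E A] [IsSimpleRing A] [FiniteDimensional E A]

/-- a central simple algebra with an involution of the second kind over a local field is split -/
theorem split_of_quad [NontriviallyNormedField F] [ProperSpace F] [IsUltrametricDist F] [CharZero E] [Algebra F E]
    [Quad F E] : Nonempty (A ≃ₐ[E] Matrix (Fin (deg E A)) (Fin (deg E A)) E) := by
  have := finite_kK F E
  let := ndr F E
  let := nalg F E
  have := ultra F E
  let : NontriviallyNormedField E :=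
    { ‹Field E›, ndr F E with
      non_trivial := by
        obtain ⟨c, hc⟩ := NontriviallyNormedField.non_trivial (α := F)
        exact ⟨algebraMap F E c, by rwa [norm_algebraMap']⟩ }
  have := FiniteDimensional.proper F E
  exact Inv2.split (s := starRingEnd E) (τ := (starAddEquiv (R := A)).toAddMonoidHom) (finrank_eq_deg_sq E A)
    ⟨star_mul, star_star, fun c => (algebraMap_star_comm c).symm⟩
    (sig F E).toLinearMap.continuous_of_finiteDimensional (Quad.ne (k := F))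

omit [Algebra.IsCentral E A] [IsSimpleRing A] [FiniteDimensional E A] in
theorem iso_of_quad [Field F] [CharZero E] [Algebra F E] [Quad F E] {D : Type*} [DivisionRing D] [Algebra E D]
    [FiniteDimensional E D] (hD : Function.Surjective (algebraMap E D)) {n : ℕ}
    (ψ : A ≃ₐ[E] Matrix (Fin (n + 3)) (Fin (n + 3)) D)
    (h : ∀ r : Fin 3 → F, ∃ z : Fin 3 → E, z ≠ 0 ∧ ∑ i, algebraMap F E (r i) * (star (z i) * z i) = 0) :
    ∃ b : A, b ≠ 0 ∧ star b * b = 0 := by
  obtain ⟨_, _, e, a, h1, h2⟩ := exists_star_of_equiv (Quad.ne (k := F)) ψ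
  have h3 : ∀ i, ∃ r : F, algebraMap E D (algebraMap F E r) = a i := fun i => by
    obtain ⟨c, hc⟩ := hD (a i)
    obtain ⟨r, hr⟩ := exists_of_star_eq (Quad.fr (k := F) (K := E)) Quad.star_k (Quad.ne (k := F)) (c := c)
      ((algebraMap E D).injective (by rw [algebraMap_star_comm, hc, (h1 i).2]))
    exact ⟨r, hr ▸ hc⟩
  choose r hr using h3
  obtain ⟨z, h4, h5⟩ := h ![r 0, r (.succ 0), r (.succ (.succ 0))]
  by_contra h6
  push Not at h6
  have hu : IsUnit (Matrix.diagonal a) := 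
    (Pi.isUnit_iff.2 fun i => (h1 i).1.isUnit).map (Matrix.diagonalRingHom _ D)
  have h7 := (aniso_iff hu h2).1 (fun x hx => by_contra fun h0 => h6 x h0 hx)
    (Fin.cons (algebraMap E D (z 0)) (Fin.cons (algebraMap E D (z 1)) (Fin.cons (algebraMap E D (z 2)) 0))) (by
      rw [Fin.sum_univ_three] at h5
      rw [dotProduct, Fin.sum_univ_succ, Fin.sum_univ_succ, Fin.sum_univ_succ]
      simp only [Matrix.mulVec_diagonal, Pi.star_apply, Fin.cons_zero, Fin.cons_succ, Pi.zero_apply, mul_zero,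
        sum_const_zero, add_zero]
      rw [← hr, ← hr, ← hr]
      simp only [← algebraMap_star_comm, ← map_mul, ← map_add]
      rw [← map_zero (algebraMap E D), ← h5]
      congr 1
      simp only [Matrix.cons_val_zero, Matrix.cons_val_one, Matrix.cons_val]
      ring)
  refine h4 (funext fun i => (map_eq_zero (algebraMap E D)).1 ?_)
  fin_cases i
  exacts [congrFun h7 0, congrFun h7 (.succ 0), congrFun h7 (.succ (.succ 0))]

end quad

variable {k K B : Type*} [Field k] [NumberField k] [Field K] [NumberField K] [Algebra k K]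
  [StarRing K] [Quad k K] [Ring B] [StarRing B] [Algebra K B] [StarModule K B]
  [Algebra.IsCentral K B] [IsSimpleRing B] [FiniteDimensional K B] [Algebra k B] [IsScalarTower k K B]
  {v : Pl k}

section nonsplit
variable (K B v) [IsEmpty (K →ₐ[k] Kv v)]

/-- at a non-split place the algebra is a matrix algebra -/
theorem bc_mat : Nonempty (BC k K B (Kv v) ≃ₐ[BC k K K (Kv v)]
    Matrix (Fin (deg K B)) (Fin (deg K B)) (BC k K K (Kv v))) := by
  have := proper_adic k v
  exact BC.deg_E k K (Kv v) B ▸ split_of_quad (Kv v)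

/-- at a non-split place the involution is isotropic -/
theorem bc_iso (hd : 3 ≤ deg K B) : ∃ b : BC k K B (Kv v), b ≠ 0 ∧ star b * b = 0 := by
  obtain ⟨ψ⟩ := bc_mat K B v
  obtain ⟨n, hn⟩ := Nat.exists_eq_add_of_le' hd
  rw [hn] at ψ
  refine iso_of_quad (Kv v) (fun c => ⟨c, rfl⟩) ψ fun r => ?_
  obtain ⟨θ, δ, h0, hθ, hδ⟩ := BC.exists_delta k K
  obtain ⟨m, h1, h2, h3⟩ := herm_iso (δ := δ) (fun h => by simp [h, h0] at hδ) r
  choose x y h2 using h2
  have h4 : ∀ i, star (algebraMap (Kv v) _ (x i) + y i • BC.inc k K K (Kv v) θ) *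
      (algebraMap (Kv v) _ (x i) + y i • BC.inc k K K (Kv v) θ) = algebraMap (Kv v) _ (m i) := fun i => by
    have : BC.inc k K K (Kv v) θ * BC.inc k K K (Kv v) θ = algebraMap (Kv v) _ (algebraMap k (Kv v) δ) := by
      rw [← map_mul, ← hδ, AlgHom.commutes, IsScalarTower.algebraMap_apply k (Kv v) (BC k K K (Kv v))]
    rw [star_add, BC.star_algebraMap, BC.star_rsmul, BC.star_inc, hθ, map_neg, h2, map_sub, map_mul, ← this]
    simp only [Algebra.smul_def, map_pow]
    ring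
  refine ⟨fun i => algebraMap (Kv v) _ (x i) + y i • BC.inc k K K (Kv v) θ, fun h => h1 (funext fun i => ?_),
    by simp only [h4, ← map_mul, ← map_sum, h3, map_zero]⟩
  have := h4 i
  rw [show algebraMap (Kv v) _ (x i) + y i • BC.inc k K K (Kv v) θ = 0 from congrFun h i, mul_zero] at this
  exact (map_eq_zero _).1 this.symm

end nonsplit

omit [StarRing K] [Quad k K] [StarRing B] [StarModule K B] [IsScalarTower k K B] in
/-- a split model which is a division algebra gives a place of `T` -/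
theorem ultra_of_div {C : Type*} [Ring C] [Algebra k C] [Algebra (Kv v) C] [Algebra.IsCentral (Kv v) C]
    [FiniteDimensional (Kv v) C] [Nontrivial C] (s : SM k K B (Kv v) C) (h : ∀ x : C, x ≠ 0 → IsUnit x) {w : Pl K}
    (hw : ∀ x, w.valuation K x = Valued.v (s.ι x)) : Ultra B w := fun x y => by
  have := proper_adic k v
  have := charZero_adic k v
  let : DivisionRing C := DivisionRing.ofIsUnitOrEqZero fun z => or_iff_not_imp_right.2 (h z)
  have h1 : ∀ x, ‖s.ι (Nrd K x)‖ = nm (Kv v) (s.ψ x) ^ deg (Kv v) C := fun x => by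
    rw [nm_pow_deg]; exact congrArg _ (Nrd_map (s.ι : K →+* Kv v) s.ψ.toRingHom s.compat s.fr x).symm
  simp only [val, hw, le_max_iff, ← Valued.toNormedField.norm_le_iff, h1,
    pow_le_pow_iff_left₀ (nm_nonneg _ _) (nm_nonneg _ _) (deg_pos (Kv v) C).ne', map_add]
  exact le_max_iff.1 (nm_add _ _ _)

theorem exists_mem_open {H : Subgroup (SUc k K B (Kv v))} (hH : IsOpen (H : Set (SUc k K B (Kv v))))
    {y : BC k K B (Kv v)} (h1 : star y = -y) (h2 : y * y = 0)
    (h3 : ∀ t : Kv v, BC.nrdK k K B (Kv v) (1 + t • y) = 1) :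
    ∃ a : Kv v, a ≠ 0 ∧ ∃ g ∈ H, ((g : Uc k K B (Kv v)) : BC k K B (Kv v)) = 1 + a ^ 2 • y := by
  let g : Kv v → SUc k K B (Kv v) := fun t => ⟨⟨1 + t ^ 2 • y, by
    simp [Unitary.mem_iff, h1, mul_add, add_mul, h2]⟩, (BC.mem_SUc_iff _).2 (h3 _)⟩
  have hg : Continuous g := Continuous.subtype_mk (Continuous.subtype_mk (by fun_prop) _) _
  have h4 : g 0 = 1 := Subtype.ext (Subtype.ext (by simp [g]))
  obtain ⟨a, ha, h5⟩ := (((hg.continuousAt (x := 0)).eventually (hH.mem_nhds (h4 ▸ H.one_mem))).filter_mono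
    (nhdsWithin_le_nhds (s := {0}ᶜ))).and self_mem_nhdsWithin |>.exists
  exact ⟨a, h5, g a, ha, rfl⟩

/-- **local almost simplicity** at the finite places outside `T` -/
theorem locG_fin (hd : 3 ≤ deg K B) (hv : v ∉ Tk k K B) (H : Subgroup (SUc k K B (Kv v)))
    (hH : IsOpen (H : Set (SUc k K B (Kv v)))) (hn : H.Normal) : H = ⊤ := by
  have := proper_adic k v
  have := charZero_adic k v
  refine eq_top_iff.2 fun u _ => ?_
  rcases isEmpty_or_nonempty (K →ₐ[k] Kv v) with h | ⟨⟨i⟩⟩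
  · obtain ⟨ψ⟩ := bc_mat K B v
    have : Nonempty (Fin (deg K B)) := ⟨⟨0, by omega⟩⟩
    have hθ := exists_skew (Quad.ne (k := Kv v) (K := BC k K K (Kv v)))
    obtain ⟨y, h0, h1, h2⟩ := Wall.exists_skew_nil _ hθ (bc_iso K B v hd)
    obtain ⟨a, ha, g, hg, h3⟩ := exists_mem_open hH h1 h2 fun t => by
      rw [← BC.Nrd_E]; exact Wall.Nrd_of_sq (by simp [h2])
    obtain ⟨b, hb⟩ : ∃ b, y * b ≠ b * y := not_forall.1 fun h4 => by
      obtain ⟨c, rfl⟩ := (Algebra.IsCentral.mem_center_iff (BC k K K (Kv v))).1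
        (Subalgebra.mem_center_iff.2 fun b => (h4 b).symm)
      rw [← map_mul, map_eq_zero, mul_self_eq_zero] at h2
      exact h0 (by rw [h2, map_zero])
    obtain ⟨u', h4, h5⟩ := Wall.su_le_of_normal ψ hθ (Wall.sukAll_self _) (bc_iso K B v hd)
      (N := H.map (SUc k K B (Kv v)).subtype) (x := g) (b := b) (by
        rintro g hg _ ⟨x, hx, rfl⟩
        exact ⟨_, hn.conj_mem x hx ⟨g, (BC.mem_SUc_E g).2 hg⟩, rfl⟩) ⟨g, hg, rfl⟩ (by
        rw [h3, add_mul, mul_add, one_mul, mul_one, smul_mul_assoc, mul_smul_comm, Ne, add_right_inj]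
        exact fun h => hb (smul_right_injective _ (pow_ne_zero 2 ha) h)) ((BC.mem_SUc_E u).1 u.2)
    exact (Subtype.ext h5 : u' = u) ▸ h4
  · let := i.toRingHom.toAlgebra
    have : IsScalarTower k K (Kv v) := .of_algebraMap_eq fun c => (i.commutes c).symm
    have := isSimpleRing_tensor (K := K) (A := Kv v) (B := B)
    have := isCentral_tensor (K := K) (F := Kv v) (A := Kv v) (B := B)
    let s := SM.taut k K B (Kv v)
    obtain ⟨w, h1, h2, h3⟩ := place_of_hom i
    obtain ⟨u', h4, h5⟩ := sl_le_of_normal (F := Kv v) (A := Kv v ⊗[K] B)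
      (by
        by_contra h4
        push Not at h4
        exact hv ⟨w, ⟨h2, ultra_of_div s h4 h3⟩, h1⟩) (sk_local _ _)
      (N := H.map (s.uEquiv.toMonoidHom.comp (SUc k K B (Kv v)).subtype)) (u := s.uEquiv u) (by
        rintro g hg _ ⟨x, hx, rfl⟩
        obtain ⟨g, rfl⟩ := s.uEquiv.surjective g
        exact ⟨_, hn.conj_mem x hx ⟨g, (s.mem_SUc_iff g).2 hg⟩, by simp⟩) (fun x hx => by
        have h4 : star (s.mk' x (-x)) = -s.mk' x (-x) := s.ext' (by simp) (by simp)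
        have h5 : s.mk' x (-x) * s.mk' x (-x) = 0 := s.ext' (by simp [hx]) (by simp [-SM.hat_star_mk', h4, hx])
        obtain ⟨a, ha, g, hg, h6⟩ := exists_mem_open hH h4 h5 fun t => (BC.mem_SUc_iff ⟨_, by
          simp [Unitary.mem_iff, h4, mul_add, add_mul, h5]⟩).1 ((s.mem_SUc_iff _).2
            (Wall.Nrd_of_sq (by simp [hx])))
        exact ⟨a, ha, fun u hu => ⟨g, hg, Units.ext (by
          change s.hat _ = _
          rw [hu, Subgroup.subtype_apply, h6]; simp)⟩⟩) ((s.mem_SUc_iff _).1 u.2)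
    exact (Subtype.ext (s.uEquiv.injective h5) : u' = u) ▸ h4

universe u v' w

/-- the archimedean half of `LocGStmt` -/
def LocInfStmt : Prop := ∀ D : Dat.{u, v', w}, 3 ≤ deg D.K D.B →
  ∀ H : Subgroup (SUc D.k D.K D.B (Inf D.k)), IsOpen (H : Set (SUc D.k D.K D.B (Inf D.k))) → H = ⊤

theorem locGStmt_of (h : LocInfStmt.{u, v', w}) : LocGStmt.{u, v', w} :=
  fun D hd => ⟨h D hd, fun _ hv => locG_fin hd hv⟩

end Crest.Agent.T24.Loc
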