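import Crest.Agent.T24.LanF_73
import Crest.Agent.T24.LocL_59
import Crest.Agent.T24.EvDef_47
import Crest.Agent.T24.Emb_13
import Crest.Agent.T24.InNear_23
import Crest.Agent.T24.EvA_20

-- ▼ part T24/LanG_73
section

/-!
# Row 24 (helper73): hermitian units are classified by the discriminant and the signatures
-/

set_option autoImplicit false
set_option linter.unusedSectionVars false

noncomputable section

open NumberField IsDedekindDomain Module
open Crest.Agent.T24.Asa Crest.Agent.T24.Csa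

namespace Crest.Agent.T24.Lan

variable {k K B : Type*} [Field k] [NumberField k] [Field K] [NumberField K]
  [Algebra k K] [StarRing K] [Quad k K] [Ring B] [StarRing B] [Algebra K B] [StarModule K B]
  [Algebra k B] [IsScalarTower k K B] [FiniteDimensional K B] [Algebra.IsCentral K B]
  [IsSimpleRing B]

/-- local classification at a non-split place -/
theorem cong_nonsplit (v : Pl k) [IsEmpty (K →ₐ[k] Kv v)] {h h' : BC k K B (Kv v)}
    (hh : star h = h) (hh' : star h' = h') (hu : IsUnit h) {z : BC k K K (Kv v)} (hz : z ≠ 0)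
    (hN : BC.nrdK k K B _ h' = BC.nrdK k K B _ h * (star z * z)) :
    ∃ Z : (BC k K B (Kv v))ˣ, h' = star (Z : BC k K B (Kv v)) * h * Z :=
  (Loc.bc_mat K B v).elim fun e => cong_nonsplit_of v e hh hh' hu hz hN

/-- local classification at any finite place: the ratio of the norms is `s² - δ t²` -/
theorem cong_loc (v : Pl k) {θ : K} {δ : k} (hθ : star θ = -θ)
    (hδ : algebraMap k K δ = θ * θ) {h h' : BC k K B (Kv v)} (hh : star h = h)
    (hh' : star h' = h') (hu : IsUnit h) {c : Kv v} (hc0 : c ≠ 0)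
    (hc : Nm (algebraMap k (Kv v) δ) c)
    (hN : BC.nrdK k K B _ h' = BC.nrdK k K B _ h * algebraMap _ _ c) :
    ∃ Z : BC k K B (Kv v), h' = star Z * h * Z := by
  rcases isEmpty_or_nonempty (K →ₐ[k] Kv v) with he | ⟨⟨ι⟩⟩
  · obtain ⟨z, hz⟩ := nm_norm (E := BC k K K (Kv v)) (θ := BC.inc k K K _ θ)
      (by rw [BC.star_inc, hθ, map_neg]) (by
        rw [← map_mul, ← hδ, AlgHom.commutes, ← IsScalarTower.algebraMap_apply]) hc
    obtain ⟨Z, hZ⟩ := cong_nonsplit v hh hh' hu (z := z)
      (by rintro rfl; exact hc0 (by simpa using hz.symm)) (by rw [hN, hz])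
    exact ⟨Z, hZ⟩
  · exact cong_split ι hh hh' hu

/-- global hermitian units whose norms differ by a local norm are locally congruent -/
theorem loc₂ (v : Pl k) {θ : K} {δ : k} (hθ : star θ = -θ)
    (hδ : algebraMap k K δ = θ * θ) {g h : B} (hg : star g = g) (hh : star h = h) (hu : IsUnit g)
    {c : kˣ} (hc : c ∈ Hn.LN δ v) (hN : Nrd K h = Nrd K g * algebraMap k K c) :
    ∃ Z : BC k K B (Kv v), BC.inc k K B _ h = star Z * BC.inc k K B _ g * Z :=
  cong_loc v hθ hδ (by rw [BC.star_inc, hg]) (by rw [BC.star_inc, hh]) (hu.map _)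
    (c := algebraMap k _ (c : k)) (by simp) ((Hn.Loc.mem_LN_iff v δ c).mp hc) (by
      rw [BC.nrdK_inc, BC.nrdK_inc, hN, map_mul, AlgHom.commutes, ← IsScalarTower.algebraMap_apply])

/-- **LOC**: a hermitian unit whose norm is a local norm is locally `star Z * Z` -/
theorem loc (v : Pl k) {θ : K} {δ : k} (hθ : star θ = -θ)
    (hδ : algebraMap k K δ = θ * θ) {h : B} (hh : star h = h) {c : kˣ} (hc : c ∈ Hn.LN δ v)
    (hN : Nrd K h = algebraMap k K c) :
    ∃ Z : BC k K B (Kv v), BC.inc k K B _ h = star Z * Z := by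
  simpa using loc₂ v hθ hδ (star_one B) hh isUnit_one hc (by rw [hN, map_one, one_mul])


theorem landherr_nrd {θ : K} {δ : k} (hθ : star θ = -θ)
    (hδ : algebraMap k K δ = θ * θ) {h : B} (hh : star h = h) (hu : IsUnit h) {c : kˣ}
    (hc : ∀ v : Pl k, c ∈ Hn.LN δ v) (hN : Nrd K h = algebraMap k K c) (hreal : ∀ φ : k →+* ℝ,
      ∃ Z : BC k K B (Emb.Rp φ), BC.inc k K B _ h = star Z * Z) : ∃ z : B, h = star z * z :=
  landherr K hh hu (fun v => loc v hθ hδ hh (hc v) hN) hreal


end Crest.Agent.T24.Lan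
end
end

-- ▼ part T24/EvnTw_13

/-! Row 24, even degree (helper13): twisting an embedding by a locally trivial class. -/

set_option autoImplicit false
set_option linter.unusedSectionVars false

noncomputable section

namespace Crest.Agent.T24.Evn

open Module NumberField WithZero Csa Asa Topology Filter Polynomial
open scoped TensorProduct Valued

universe u v w

namespace Tw13

variable {k : Type u} {K B : Type*} [Field k] [NumberField k] [Field K] [NumberField K]
  [Algebra k K] [StarRing K] [Quad k K] [Ring B] [StarRing B] [Algebra K B] [StarModule K B]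
  [Algebra.IsCentral K B] [IsSimpleRing B] [FiniteDimensional K B] [Algebra k B]
  [IsScalarTower k K B]

variable (k K) in
/-- an `M`-adic neighbourhood contains a box of local neighbourhoods -/
theorem nr_box [Algebra ℚ B] {M : ℕ} (hM : M ≠ 0) {a : B} {V : Set B} (hV : V ∈ In.nr M a) :
    ∃ W : ∀ v : Pl k, Set (BC k K B (Kv v)), (∀ v, W v ∈ 𝓝 (BC.inc k K B _ a)) ∧
      ∀ x, (∀ v : Pl k, (M : 𝓞 k) ∈ v.asIdeal → BC.inc k K B _ x ∈ W v) → x ∈ V := by
  obtain ⟨m, -, hm⟩ := (In.N23.basis_val (Ev.eb k K B) hM a).mem_iff.1 hV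
  refine ⟨fun v => {X | ∀ i, Valued.v (BC.crd k K B _ (Ev.eb k K B) (X - BC.inc k K B _ a) i) ≤
    exp (-(m : ℤ))}, fun v => eventually_all.2 fun i => ?_, fun x hx => hm fun v hv i => ?_⟩
  · have hc : Continuous fun X : BC k K B (Kv v) =>
        BC.crd k K B _ (Ev.eb k K B) (X - BC.inc k K B _ a) i := by fun_prop
    exact hc.continuousAt.preimage_mem_nhds ((Ev.isOpen_val v m).mem_nhds (by simp))
  · have := hx v hv i
    rw [← map_sub] at this
    exact (Hn.Loc.valued_algebraMap v _).symm.trans_le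
      ((congrArg Valued.v (BC.repr_inc k K B _ (Ev.eb k K B) (x - a) i)).symm.trans_le this)

/-- a hermitian element has a reduced polynomial over `k` -/
theorem exists_hg {y : B} (hy : star y = y) : ∃ P : k[X], Emb.HG K P y := by
  obtain ⟨P, hP⟩ : rch K y ∈ lifts (algebraMap k K) := (lifts_iff_coeff_lifts _).2 fun n =>
    exists_of_star_eq Quad.fr Quad.star_k (Quad.ne (k := k)) (by
      have := congrArg (fun p => p.coeff n) (T24.rch_star K y)
      simp only [hy, coeff_map] at this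
      exact this.symm)
  exact ⟨P, hy, hP.symm⟩

variable {L : Type*} [Field L] [Algebra k L]

theorem hg_gen (j : L →ₐ[k] B) (hj : ∀ x, star (j x) = j x) {a : L}
    (ha : (minpoly k a).natDegree = deg K B) : Emb.HG K (minpoly k a) (j a) := by
  obtain ⟨P, hP⟩ := exists_hg (k := k) (K := K) (hj a)
  have h0 : aeval a P = 0 := j.toRingHom.injective (by
    change j _ = j 0
    rw [← aeval_algHom_apply, ← aeval_map_algebraMap K, ← hP.2, aeval_rch, map_zero])
  have hi : IsIntegral k a := ⟨P, Emb.HG.monic hP.2, h0⟩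
  rwa [eq_of_monic_of_dvd_of_natDegree_le (minpoly.monic hi) (Emb.HG.monic hP.2)
    (minpoly.dvd _ _ h0) (by rw [ha, Emb.HG.natDegree hP.2])] at hP

/-- the reduced norm on a hermitian maximal subfield -/
theorem nrd_j [FiniteDimensional k L] (j : L →ₐ[k] B) (hj : ∀ x, star (j x) = j x)
    (hd : finrank k L = deg K B) (s : L) : Nrd K (j s) = algebraMap k K (Algebra.norm k s) := by
  let pb := Field.powerBasisOfFiniteOfSeparable k L
  have h := hg_gen (K := K) j hj (a := pb.gen) (by rw [pb.natDegree_minpoly, ← pb.finrank, hd])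
  have := Fact.mk (minpoly.irreducible pb.isIntegral_gen)
  obtain ⟨f, rfl⟩ := pb.exists_eq_aeval' s
  rw [← aeval_algHom_apply, Emb.nrd_aeval h.2, ← Algebra.norm_eq_of_algEquiv
    (AdjoinRoot.equiv' (minpoly k pb.gen) pb (by simp) (minpoly.aeval _ _))]
  congr 2

variable {R : Type*} [Field R] [Algebra k R]

theorem loc_sq (j : L →ₐ[k] B) (hj : ∀ x, star (j x) = j x) {s : L}
    (hs : IsSquare ((1 : R) ⊗ₜ[k] s)) : ∃ y : BC k K B R, star y = y ∧
      BC.inc k K B R (j s) = y * y ∧ ∀ x, y * BC.inc k K B R (j x) = BC.inc k K B R (j x) * y := by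
  obtain ⟨y, hy⟩ := hs
  let J : R ⊗[k] L →ₐ[R] BC k K B R := Algebra.TensorProduct.map (AlgHom.id R R) j
  have h1 : ∀ l, J (1 ⊗ₜ l) = BC.inc k K B R (j l) := fun _ => rfl
  refine ⟨J y, ?_, by rw [← h1, hy, map_mul], fun x => by rw [← h1, ← map_mul, mul_comm, map_mul]⟩
  clear hy
  induction y with
  | zero => simp
  | tmul r l => rw [show J (r ⊗ₜ l) = r • BC.inc k K B R (j l) from BC.tm_eq r _, BC.star_rsmul,
      BC.star_inc, hj]
  | add x y hx hy => rw [map_add, star_add, hx, hy]

end Tw13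

open Tw13 in
theorem tw (k : Type u) (K B : Type*) [Field k] [NumberField k] [Field K] [NumberField K]
    [Algebra k K] [StarRing K] [Quad k K] [Ring B] [StarRing B] [Algebra K B] [StarModule K B]
    [Algebra.IsCentral K B] [IsSimpleRing B] [FiniteDimensional K B] [Algebra k B]
    [IsScalarTower k K B] [Algebra ℚ B] : Tw k K B := by
  classical
  intro θ δ hθ hδ L _ _ _ j hj hd M hM s h1 h2 h3 x V hV
  have h0 : M ≠ 0 := by omega
  have hu : IsUnit (j s) := s.isUnit.map j
  obtain ⟨z, hz⟩ := Lan.landherr_nrd (k := k) hθ (hδ.symm.trans (sq θ)) (hj s) hu h1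
    (nrd_j j hj hd s) fun φ => by
      obtain ⟨y, e1, e2, -⟩ := loc_sq (K := K) j hj ((Emb.up_rp φ).sq (s := s) (by
        rintro (Q | ψ) hQ
        exacts [absurd hQ Sum.inl_ne_inr, h2 ψ]))
      exact ⟨y, by rw [e1, e2]⟩
  have := Opn.dedekind' K (A := B)
  obtain ⟨z, rfl⟩ : IsUnit z := isUnit_of_mul_isUnit_right (hz ▸ hu)
  obtain ⟨W, hW, hb⟩ := nr_box k K h0 hV
  have h4 : ∀ v : Pl k, ∃ g : Uc k K B (Kv v), (M : 𝓞 k) ∈ v.asIdeal →
      (g : BC k K B (Kv v)) * BC.inc k K B _ (z * j x * ↑z⁻¹) =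
        BC.inc k K B (Kv v) (j x) * (g : BC k K B (Kv v)) := by
    intro v
    by_cases hv : (M : 𝓞 k) ∈ v.asIdeal
    swap
    · exact ⟨1, fun h => absurd h hv⟩
    obtain ⟨y, e1, e2, e3⟩ := loc_sq (K := K) j hj ((Emb.up_inl v).sq (s := s) (by
      rintro (Q | ψ) hQ
      · obtain rfl := Sum.inl_injective hQ
        exact h3 Q (by simpa using (Ideal.mem_comap.1 hv : algebraMap (𝓞 k) (𝓞 L) M ∈ Q.asIdeal))
      · exact absurd hQ Sum.inr_ne_inl))
    have := Opn.dedekind' (Kv v) (A := BC k K B (Kv v))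
    have e4 : star (y * BC.inc k K B _ ↑z⁻¹) * (y * BC.inc k K B _ ↑z⁻¹) = 1 := by
      rw [star_mul, e1, mul_assoc, ← mul_assoc y, ← e2, BC.star_inc, ← map_mul, ← map_mul, hz,
        mul_assoc, z.mul_inv, mul_one, ← star_mul, z.mul_inv, star_one, map_one]
    refine ⟨⟨_, e4, mul_eq_one_comm.1 e4⟩, fun _ => ?_⟩
    change y * _ * _ = _ * (y * _)
    rw [mul_assoc, ← map_mul, ← mul_assoc, ← mul_assoc, z.inv_mul, one_mul, map_mul, ← mul_assoc,
      e3, mul_assoc]
  choose g hg using h4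
  obtain ⟨u, hu, -⟩ := Emb.waU k K B (In.N23.finite_N (K := k) h0).toFinset g _ (fun _ => 1)
    (fun _ => Set.univ) (fun v hv => Emb.UC.nhds (hg v (by simpa using hv)) (hW v))
    fun _ => univ_mem
  refine ⟨Unitary.toUnits u * z, ?_, hb _ fun v hv => ?_⟩
  · change star ((u : B) * z) * ((u : B) * z) = _
    rw [hz, star_mul, mul_assoc, ← mul_assoc (star (u : B)), u.2.1, one_mul]
  · have e : ((Unitary.toUnits u)⁻¹ : Bˣ) = star (u : B) := rfl
    have e' : (Unitary.toUnits u : Bˣ) = (u : B) := rfl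
    simpa only [mul_assoc, Set.mem_ofPred_eq, coe_toU, BC.star_inc, ← map_mul, mul_inv_rev,
      Units.val_mul, e, e'] using hu v (by simpa using hv)

theorem twStmt : TwStmt.{u, v, w} := fun D _ => tw D.k D.K D.B

end Crest.Agent.T24.Evn
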