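import Crest.Agent.T24.EvDec_21
import Crest.Agent.T24.Ct2Def_10

/-!
# Row 24, even step (helper21): words of the bridge to the quaternion step
-/

set_option autoImplicit false
set_option linter.unusedSectionVars false

noncomputable section

namespace Crest.Agent.T24.Ev

open Module NumberField WithZero Csa Asa Topology Filter Polynomial

universe u v w t

section Words
variable (k : Type u) (K B : Type*) [Field k] [NumberField k] [Field K] [NumberField K] [Algebra k K]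
  [StarRing K] [Quad k K] [Ring B] [StarRing B] [Algebra K B] [StarModule K B]
  [Algebra.IsCentral K B] [IsSimpleRing B] [FiniteDimensional K B] [Algebra k B]
  [IsScalarTower k K B]

variable {B} in
/-- the conclusion of the quaternion step for `N`, for a cofinal family of sets `S` -/
def CtC (N : Subgroup (unitary B)) : Prop := ∀ S₁ : Finset (Pl k), ∃ S, S₁ ⊆ S ∧
  ∀ᶠ x in nb k K B S 1, ∀ u : unitary B, (u : B) = x → InQ S x → u ∈ N

/-- the quaternion step, cofinal form -/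
def Ct2C : Prop := ∀ (m : ℕ) (N : Subgroup (unitary B)), N ≤ SU K B → N.relIndex (SU K B) ≠ 0 →
  GUInv K N → (∀ u : unitary B, ∀ g ∈ SUm K B m, u * g * u⁻¹ * g⁻¹ ∈ N) → CtC k K N

/-- the decomposition, cofinal form -/
def DecC : Prop := ∀ (ε : kˣ) (i n : B), E0 ε i n → ∀ N : Subgroup (unitary B), NC K N →
  CtC k K N → ∃ m : ℕ, ∀ g ∈ SUm K B m, ∀ S, ∀ W ∈ nb k K B S 1,
    ∃ y ∈ SU K B, (y : B) ∈ W ∧ Commute (y : B) i ∧ g * y⁻¹ ∈ N

variable {k K B}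


theorem decC (h1 : E1 k K B) (h2 : E2 k K B) : DecC k K B := by
  classical
  intro ε i n h N hN h3
  obtain ⟨S₁, h1⟩ := h1 ε i n h
  obtain ⟨m, S₂, h2⟩ := h2 ε i n h N hN
  obtain ⟨S₄, h4⟩ := h.exists_inQ K
  refine ⟨m, fun g hg S W hW => ?_⟩
  obtain ⟨S', hS', h3⟩ := h3 (S ∪ S₁ ∪ S₂ ∪ S₄)
  have s0 : S ⊆ S' := fun v hv => hS' (by simp [hv])
  have s1 : S₁ ⊆ S' := fun v hv => hS' (by simp [hv])
  have s2 : S₂ ⊆ S' := fun v hv => hS' (by simp [hv])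
  have s4 : S₄ ⊆ S' := fun v hv => hS' (by simp [hv])
  have hu : ∀ᶠ s in nbk k S' 0, ∀ u : unitary B, (u : B) = uu (ε : k) i s → u ∈ N :=
    ((tendsto_uu K (ε : k) i S').eventually h3).mono fun s hs u hu => hs u hu (h4 S' s4 s)
  obtain ⟨γ, hγ, hg1, hg2, hg3, hg4⟩ := h2 S' s2 hu g hg _
    (h1 S' s1 _ (inter_mem (nb_anti s0 1 hW) h3))
  obtain ⟨x, y, hxy, hx, hy, hxu, hxQ, hyi⟩ := hg2 γ.2.1 hg3 hg4
  let x' : unitary B := ⟨x, hxu, Lan.mul_eq_one_symm (eb k K B) hxu⟩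
  have hx' : x' ∈ N := hx.2 x' rfl hxQ
  have hy' : ((x'⁻¹ * γ : unitary B) : B) = y := by
    change star x * (γ : B) = y
    rw [hxy, ← mul_assoc, hxu, one_mul]
  refine ⟨x'⁻¹ * γ, mul_mem (inv_mem (hN.le hx')) hγ, hy' ▸ hy.1, hy' ▸ hyi, ?_⟩
  have := mul_mem (hN.nrm γ hγ _ (inv_mem hg1)) hx'
  convert this using 1
  group

end Words

def Ct2CStmt : Prop := ∀ D : Dat.{u, v, w}, Aniso D.B → Ct2C D.k D.K D.B
def DecCStmt : Prop := ∀ D : Dat.{u, v, w}, 3 ≤ deg D.K D.B → Aniso D.B → DecC D.k D.K D.B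

theorem decCStmt (h1 : E1Stmt.{u, v, w}) (h2 : E2Stmt.{u, v, w}) : DecCStmt.{u, v, w} :=
  fun D hd ha => decC (h1 D ha) (h2 D hd ha)

/-- the corner algebra `e B e` -/
def CorStmt : Prop := ∀ (D : Dat.{u, v, w}) (e : D.B), e * e = e → star e = e → e ≠ 0 →
  ∃ (C : Type w) (_ : Ring C) (_ : StarRing C) (_ : Algebra D.K C) (_ : StarModule D.K C)
    (_ : Algebra.IsCentral D.K C) (_ : IsSimpleRing C) (_ : FiniteDimensional D.K C)
    (ι : C →ₗ[D.K] D.B), Function.Injective ι ∧ ι 1 = e ∧ (∀ x y, ι (x * y) = ι x * ι y) ∧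
      (∀ x, ι (star x) = star (ι x)) ∧ (∀ b, ∃ x, ι x = e * b * e) ∧
      ∀ x, Nrd D.K (1 - e + ι x) = Nrd D.K x

/-- a quaternion subalgebra which is split off `M` kills the anisotropic places off `M` -/
def TtStmt : Prop := ∀ (D : Dat.{u, v, w}) (F : Type t) [Field F] [NumberField F]
  (q : Ct2.Quat F D.B) (M : ℕ), 2 ∣ M →
  (∀ v : Hn.Pl F, (M : 𝓞 F) ∉ v.asIdeal → q.c ∈ Hn.LN (q.a : F) v) →
  ∀ w ∈ TT D.K D.B, (M : 𝓞 D.K) ∈ w.asIdeal

end Crest.Agent.T24.Ev
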