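import Crest.Agent.T24.EvDef_20
import Crest.Agent.T24.EvA_20

-- ▼ part T24/EvU_21
section

/-!
# Row 24, even step (helper21): the curve `uu`
-/

set_option autoImplicit false
set_option linter.unusedSectionVars false

noncomputable section

namespace Crest.Agent.T24.Ev

open Module NumberField WithZero Csa Asa Topology Filter Polynomial

section U
variable {k : Type*} {B : Type*} [Field k] [Ring B] [Algebra k B]

theorem plus_mul_minus {ε : k} {i : B} (h : i * i = algebraMap k B ε) (s : k) :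
    (1 + s • i) * (1 - s • i) = (1 - ε * s ^ 2) • (1 : B) := by
  have h1 : (s • i) * (s • i) = (ε * s ^ 2) • (1 : B) := by
    rw [smul_mul_smul_comm, h, Algebra.algebraMap_eq_smul_one, smul_smul]; congr 1; ring
  rw [sub_smul, ← h1, one_smul]; generalize s • i = x; noncomm_ring

theorem minus_mul_plus {ε : k} {i : B} (h : i * i = algebraMap k B ε) (s : k) :
    (1 - s • i) * (1 + s • i) = (1 - ε * s ^ 2) • (1 : B) := by
  rw [← plus_mul_minus h s]; generalize s • i = x; noncomm_ring

@[simp] theorem uu_zero (ε : k) (i : B) : uu ε i 0 = 1 := by simp [uu]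

/-- the coordinates of `uu` -/
theorem uu_eq {ε : k} {i : B} (h : i * i = algebraMap k B ε) (s : k) :
    uu ε i s = ((1 - ε * s ^ 2)⁻¹ * (1 + ε * s ^ 2)) • (1 : B) +
      ((1 - ε * s ^ 2)⁻¹ * (2 * s)) • i := by
  have h1 : (s • i) * (s • i) = (ε * s ^ 2) • (1 : B) := by
    rw [smul_mul_smul_comm, h, Algebra.algebraMap_eq_smul_one, smul_smul]; congr 1; ring
  have h2 : (1 + s • i) * (1 + s • i) = (1 + ε * s ^ 2) • (1 : B) + (2 * s) • i := by
    rw [add_smul, ← h1, one_smul, two_mul, add_smul]; generalize s • i = x; noncomm_ring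
  rw [uu, h2, smul_add, smul_smul, smul_smul]


theorem uu_mul_minus {ε : k} {i : B} (h : i * i = algebraMap k B ε) {s : k}
    (hs : 1 - ε * s ^ 2 ≠ 0) : uu ε i s * (1 - s • i) = 1 + s • i := by
  rw [uu, smul_mul_assoc, mul_assoc, plus_mul_minus h, mul_smul_comm, mul_one, smul_smul,
    inv_mul_cancel₀ hs, one_smul]

theorem uu_neg (ε : k) (i : B) (s : k) :
    uu ε i (-s) = (1 - ε * s ^ 2)⁻¹ • ((1 - s • i) * (1 - s • i)) := by
  rw [uu, neg_sq, neg_smul, ← sub_eq_add_neg]

theorem uu_mul_neg {ε : k} {i : B} (h : i * i = algebraMap k B ε) {s : k}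
    (hs : 1 - ε * s ^ 2 ≠ 0) : uu ε i s * uu ε i (-s) = 1 := by
  rw [uu_neg, mul_smul_comm, ← mul_assoc, uu_mul_minus h hs, plus_mul_minus h, smul_smul,
    inv_mul_cancel₀ hs, one_smul]

theorem uu_neg_mul {ε : k} {i : B} (h : i * i = algebraMap k B ε) {s : k}
    (hs : 1 - ε * s ^ 2 ≠ 0) : uu ε i (-s) * uu ε i s = 1 := by
  have := uu_mul_neg h (s := -s) (by rwa [neg_sq])
  rwa [neg_neg] at this

theorem one_sub_ne_of {ε : k} (h : ¬ IsSquare ε) (s : k) : 1 - ε * s ^ 2 ≠ 0 := fun h0 => by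
  have hs : s ≠ 0 := by rintro rfl; simp at h0
  exact h ⟨s⁻¹, by field_simp; linear_combination -h0⟩

theorem isUnit_minus {ε : k} {i : B} (h : i * i = algebraMap k B ε) {s : k}
    (hs : 1 - ε * s ^ 2 ≠ 0) : IsUnit (1 - s • i) :=
  ⟨⟨1 - s • i, (1 - ε * s ^ 2)⁻¹ • (1 + s • i),
    by rw [mul_smul_comm, minus_mul_plus h, smul_smul, inv_mul_cancel₀ hs, one_smul],
    by rw [smul_mul_assoc, plus_mul_minus h, smul_smul, inv_mul_cancel₀ hs, one_smul]⟩, rfl⟩


theorem conj_plus {i n : B} (h : n * i = -(i * n)) (s : k) :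
    n * (1 + s • i) = (1 - s • i) * n := by
  rw [mul_add, sub_mul, mul_smul_comm, smul_mul_assoc, h, smul_neg, mul_one, one_mul,
    sub_eq_add_neg]


end U

section Words
variable {k : Type*} (K : Type*) {B : Type*} [Field k] [NumberField k] [Field K] [NumberField K]
  [Algebra k K] [StarRing K] [Quad k K] [Ring B] [StarRing B] [Algebra K B] [StarModule K B]
  [Algebra.IsCentral K B] [IsSimpleRing B] [FiniteDimensional K B] [Algebra k B]
  [IsScalarTower k K B]

include K in
theorem star_kB (c : k) : star (algebraMap k B c) = algebraMap k B c := by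
  rw [Algebra.algebraMap_eq_smul_one, star_ksmul k K B, star_one]

include K in
theorem not_isSquare {ε : k} {i : B} (hε : ε ≠ 0) (h1 : star i = -i)
    (h2 : i * i = algebraMap k B ε) (ha : Aniso B) : ¬ IsSquare ε := by
  rintro ⟨r, hr⟩
  have h3 : algebraMap k B r + i = 0 := ha _ (by
    rw [star_add, star_kB K, h1, add_mul, mul_add, mul_add, neg_mul, neg_mul, h2, hr, map_mul,
      Algebra.commutes r i]; abel)
  have h4 : i = algebraMap k B (-r) := by rw [map_neg]; exact eq_neg_of_add_eq_zero_right h3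
  rw [h4, star_kB K, ← map_neg] at h1
  have h5 : -r = - -r := (algebraMap k B).injective h1
  exact hε (by rw [hr, show r = 0 by linear_combination (-1 / 2 : k) * h5, mul_zero])

variable {ε : kˣ} {i n : B}

include K in
theorem E0.not_isSquare (h : E0 ε i n) (ha : Aniso B) : ¬ IsSquare (ε : k) :=
  Ev.not_isSquare K ε.ne_zero h.skew h.sq ha

include K in
theorem E0.den_ne (h : E0 ε i n) (ha : Aniso B) (s : k) : 1 - (ε : k) * s ^ 2 ≠ 0 :=
  one_sub_ne_of (h.not_isSquare K ha) s

include K in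
theorem star_plus (h : star i = -i) (s : k) : star (1 + s • i) = 1 - s • i := by
  rw [star_add, star_one, star_ksmul k K B, h, smul_neg, sub_eq_add_neg]

include K in
theorem star_uu (e : k) (h : star i = -i) (s : k) : star (uu e i s) = uu e i (-s) := by
  rw [uu_neg, uu, star_ksmul k K B, star_mul, star_plus K h]

include K in
theorem E0.uu_unitary (h : E0 ε i n) (ha : Aniso B) (s : k) : uu (ε : k) i s ∈ unitary B := by
  rw [Unitary.mem_iff, star_uu K _ h.skew]
  exact ⟨uu_neg_mul h.sq (h.den_ne K ha s), uu_mul_neg h.sq (h.den_ne K ha s)⟩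

theorem E0.Nrd_plus (h : E0 ε i n) (s : k) : Nrd K (1 + s • i) = Nrd K (1 - s • i) := by
  have h1 := congrArg (Nrd K) (conj_plus h.anti s)
  rw [map_mul, map_mul, mul_comm] at h1
  exact mul_right_cancel₀ ((isUnit_iff_Nrd (K := K) n).1 h.unit) h1

theorem E0.Nrd_uu (h : E0 ε i n) (ha : Aniso B) (s : k) : Nrd K (uu (ε : k) i s) = 1 := by
  have h1 := congrArg (Nrd K) (uu_mul_minus h.sq (h.den_ne K ha s))
  rw [map_mul, h.Nrd_plus K] at h1
  exact mul_right_cancel₀ ((isUnit_iff_Nrd (K := K) _).1 (isUnit_minus h.sq (h.den_ne K ha s)))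
    (h1.trans (one_mul _).symm)

/-- the curve in the unitary group -/
def E0.uU (h : E0 ε i n) (ha : Aniso B) (s : k) : unitary B := ⟨uu (ε : k) i s, h.uu_unitary K ha s⟩

@[simp] theorem E0.coe_uU (h : E0 ε i n) (ha : Aniso B) (s : k) :
    (h.uU K ha s : B) = uu (ε : k) i s := rfl

theorem E0.uU_mem_SU (h : E0 ε i n) (ha : Aniso B) (s : k) : h.uU K ha s ∈ SU K B :=
  h.Nrd_uu K ha s

theorem E0.mem_SU (h : E0 ε i n) (ha : Aniso B) (s : k) (u : unitary B)
    (hu : (u : B) = uu (ε : k) i s) : u ∈ SU K B := by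
  rw [T24.mem_SU, hu]; exact h.Nrd_uu K ha s

theorem E0.uU_neg (h : E0 ε i n) (ha : Aniso B) (s : k) : h.uU K ha (-s) = (h.uU K ha s)⁻¹ :=
  Subtype.ext (star_uu K _ h.skew s).symm


end Words

end Crest.Agent.T24.Ev
end
end

-- ▼ part T24/EvDec_21

/-!
# Row 24, even step (helper21): the decomposition from `E1` and `E2`
-/

set_option autoImplicit false
set_option linter.unusedSectionVars false

noncomputable section

namespace Crest.Agent.T24.Ev

open Module NumberField WithZero Csa Asa Topology Filter Polynomial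

universe u v w

namespace D21

section Root
variable {k L Γ : Type*} [Field k] [Field L] [Algebra k L] [LinearOrderedCommGroupWithZero Γ]
  (w : Valuation L Γ)

theorem val_aeval_le {P : k[X]} {l : L} (hc : ∀ j, w (algebraMap k L (P.coeff j)) ≤ 1)
    (hl : w l ≤ 1) : w (aeval l P) ≤ 1 := by
  rw [aeval_eq_sum_range]
  refine w.map_sum_le fun j _ => ?_
  rw [Algebra.smul_def, map_mul, map_pow]
  exact mul_le_one' (hc j) (pow_le_one' hl j)

theorem val_root_le {P : k[X]} (hP : P.Monic) {l : L} (h : aeval l P = 0)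
    (hc : ∀ j, w (algebraMap k L (P.coeff j)) ≤ 1) : w l ≤ 1 := by
  by_contra hl
  rw [not_le] at hl
  rw [hP.as_sum, map_add, map_pow, aeval_X, map_sum] at h
  have h1 : w (∑ j ∈ Finset.range P.natDegree, aeval l (C (P.coeff j) * X ^ j)) <
      w l ^ P.natDegree := by
    refine w.map_sum_lt (pow_ne_zero _ (zero_lt_one.trans hl).ne') fun j hj => ?_
    rw [map_mul, aeval_C, map_pow, aeval_X, map_mul, map_pow]
    exact (mul_le_of_le_one_left' (hc j)).trans_lt (pow_lt_pow_right₀ hl (Finset.mem_range.1 hj))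
  rw [← neg_eq_iff_add_eq_zero.2 h, w.map_neg, map_pow] at h1
  exact lt_irrefl _ h1

theorem val_root {P : k[X]} (hP : P.Monic) {l : L} (h : aeval l P = 0)
    (hc : ∀ j, w (algebraMap k L (P.coeff j)) ≤ 1) (h0 : w (algebraMap k L (P.coeff 0)) = 1) :
    w l = 1 := by
  have h1 := val_root_le w hP h hc
  have h2 : w (aeval l P.divX) ≤ 1 := val_aeval_le w (fun j => by rw [coeff_divX]; exact hc _) h1
  rw [← P.divX_mul_X_add, map_add, map_mul, aeval_X, aeval_C] at h
  rw [← neg_eq_iff_add_eq_zero.2 h, w.map_neg, map_mul] at h0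
  exact le_antisymm h1 (h0.symm.le.trans (mul_le_of_le_one_left' h2))

end Root

theorem coeff_zero_ne {k B : Type*} [Field k] [Ring B] [Algebra k B] [Nontrivial B] {x : B}
    (hi : IsIntegral k x) (hx : IsUnit x) : (minpoly k x).coeff 0 ≠ 0 := fun h0 => by
  have h1 := (minpoly k x).divX_mul_X_add
  rw [h0, C_0, add_zero] at h1
  have h2 := minpoly.aeval k x
  rw [← h1, map_mul, aeval_X, hx.mul_left_eq_zero] at h2
  have h3 : (minpoly k x).divX ≠ 0 := fun h => minpoly.ne_zero hi (by rw [← h1, h, zero_mul])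
  exact absurd (minpoly.degree_le_of_ne_zero k x h3 h2)
    (not_le.2 (degree_divX_lt (minpoly.ne_zero hi)))

end D21

section Words
variable {k : Type u} (K : Type*) {B : Type*} [Field k] [NumberField k] [Field K] [NumberField K]
  [Algebra k K] [StarRing K] [Quad k K] [Ring B] [StarRing B] [Algebra K B] [StarModule K B]
  [Algebra.IsCentral K B] [IsSimpleRing B] [FiniteDimensional K B] [Algebra k B]
  [IsScalarTower k K B]

include K in
/-- `(ε, ω)` is split off a finite set -/
theorem exists_qspl (ε : kˣ) {ω : B} (hω : IsUnit ω) :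
    ∃ S₀ : Finset (Pl k), ∀ S, S₀ ⊆ S → QSpl S (ε : k) ω X := by
  haveI := finite_kB k K B
  have hi : IsIntegral k ω := Algebra.IsIntegral.isIntegral ω
  have h1 : ∀ᶠ v : Pl k in cofinite, v.valuation k 2 = 1 ∧ v.valuation k (ε : k) = 1 ∧
      v.valuation k ((minpoly k ω).coeff 0) = 1 ∧
      ∀ j ∈ (minpoly k ω).support, v.valuation k ((minpoly k ω).coeff j) ≤ 1 :=
    (eventually_cofinite.2 (finite_ne_one two_ne_zero)).and
      ((eventually_cofinite.2 (finite_ne_one ε.ne_zero)).and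
        ((eventually_cofinite.2 (finite_ne_one (D21.coeff_zero_ne hi hω))).and
          ((Finset.eventually_all _).2 fun j _ => eventually_cofinite.2 (finite_not_le _))))
  refine ⟨(eventually_cofinite.1 h1).toFinset, fun S hS L _ _ _ l hl w hw b hb => ?_⟩
  have h2 := not_not.1 fun h => hw (hS ((Set.Finite.mem_toFinset _).2 h))
  obtain ⟨h3, h4, h5, h6⟩ := h2
  have h7 : w.valuation L l = 1 := D21.val_root _ (minpoly.monic hi) hl (fun j => by
    by_cases hj : j ∈ (minpoly k ω).support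
    · exact (below_le_one w _).2 (h6 j hj)
    · rw [notMem_support_iff.1 hj]; simp) ((below_eq_one w _).2 h5)
  refine (Hn.l5Stmt L w (Units.map (algebraMap k L : k →* L) ε) b).2 ?_
    ((below_eq_one w _).2 h4) (by rw [hb, aeval_X, h7])
  rw [← map_ofNat (algebraMap k L) 2]
  exact (below_eq_one w _).2 h3

variable {ε : kˣ} {i n : B}

include K in
theorem E0.exists_inQ (h : E0 ε i n) :
    ∃ S₀ : Finset (Pl k), ∀ S, S₀ ⊆ S → ∀ s : k, InQ S (uu (ε : k) i s) := by
  obtain ⟨S₀, h0⟩ := exists_qspl K ε (h.unit.mul h.unit)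
  refine ⟨S₀, fun S hS s => ⟨ε, i, n, n * n, X, C ((1 - ε * s ^ 2)⁻¹ * (1 + ε * s ^ 2)),
    C ((1 - ε * s ^ 2)⁻¹ * (2 * s)), 0, 0, by rw [star_mul, h.nskew, neg_mul_neg], h.skew, h.nskew,
    h.sq, (aeval_X _).symm, h.unit, h.anti, ?_, (Commute.refl n).mul_left (Commute.refl n), ?_,
    h0 S hS⟩⟩
  · change n * n * i = i * (n * n)
    rw [mul_assoc, h.anti, mul_neg, ← mul_assoc, h.anti, neg_mul, neg_neg, mul_assoc]
  · rw [uu_eq h.sq, aeval_C, aeval_C, map_zero, zero_mul, zero_mul, add_zero, add_zero,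
      ← Algebra.smul_def, Algebra.algebraMap_eq_smul_one]

/-- the curve is continuous at `0` -/
theorem tendsto_uu (e : k) (i : B) (S : Finset (Pl k)) :
    Tendsto (uu e i) (nbk k S 0) (nb k K B S 1) := by
  have h1 := nbk_inv (nbk_sub (nbk_const (S := S) (l := nbk k S 0) 1)
    (nbk_mul (nbk_const e) (nbk_pow tendsto_id 2))) (by simp)
  have h2 := nb_add (K := K) (nb_const (S := S) (l := nbk k S 0) (1 : B))
    (nb_smul tendsto_id (nb_const i))
  have h3 := nb_smul h1 (nb_mul h2 h2)
  rw [← uu_zero e i]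
  exact h3


end Words


end Crest.Agent.T24.Ev
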