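import Crest.Agent.T24.LanD_73

/-!
# Row 24, central step for even degree (helper20): words and leaves of the decomposition
-/

set_option autoImplicit false
set_option linter.unusedSectionVars false

noncomputable section

namespace Crest.Agent.T24.Ev

open Module NumberField WithZero Csa Asa Topology Filter Polynomial

universe u v w

section Words
variable (k : Type u) (K B : Type*) [Field k] [NumberField k] [Field K] [NumberField K] [Algebra k K]
  [StarRing K] [Quad k K] [Ring B] [StarRing B] [Algebra K B] [StarModule K B]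
  [Algebra.IsCentral K B] [IsSimpleRing B] [FiniteDimensional K B] [Algebra k B]
  [IsScalarTower k K B]

/-- `k_∞ × ∏_{v ∈ S} k_v` -/
abbrev RS (S : Finset (Pl k)) : Type _ := Inf k × ((v : S) → Kv v.1)

/-- `B_∞ × ∏_{v ∈ S} B_v` -/
abbrev AS (S : Finset (Pl k)) : Type _ := BC k K B (Inf k) × ((v : S) → BC k K B (Kv v.1))

instance (S : Finset (Pl k)) : IsTopologicalRing (RS k S) := inferInstance
instance (S : Finset (Pl k)) : IsTopologicalRing (AS k K B S) := inferInstance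
instance (S : Finset (Pl k)) : ContinuousStar (AS k K B S) := inferInstance

/-- the diagonal embedding -/
def jA (S : Finset (Pl k)) : B →ₐ[k] AS k K B S :=
  (BC.inc k K B (Inf k)).prod (AlgHom.pi fun v : S => BC.inc k K B (Kv v.1))

/-- near `b` at `S` and at infinity -/
def nb (S : Finset (Pl k)) (b : B) : Filter B := comap (jA k K B S) (𝓝 (jA k K B S b))

/-- near `a` at `S` and at infinity -/
def nbk (S : Finset (Pl k)) (a : k) : Filter k :=
  comap (algebraMap k (RS k S)) (𝓝 (algebraMap k (RS k S) a))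

variable {k B} in
/-- the quaternion algebra `(ε, β (ω))` over `k[ω]` is split off `S` -/
def QSpl (S : Finset (Pl k)) (ε : k) (ω : B) (β : k[X]) : Prop :=
  ∀ (L : Type u) [Field L] [NumberField L] [Algebra k L] (l : L), aeval l (minpoly k ω) = 0 →
    ∀ w : Pl L, below k w ∉ S → ∀ b : Lˣ, (b : L) = aeval l β → b ∈ Hn.LN (algebraMap k L ε) w

variable {k B} in
/-- `x` lies in a quaternion algebra `k[ω]⟨i, κ⟩` on which `star` is the canonical involution
and which is split off `S` -/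
def InQ (S : Finset (Pl k)) (x : B) : Prop :=
  ∃ (ε : kˣ) (i κ ω : B) (β a b c d : k[X]), star ω = ω ∧ star i = -i ∧ star κ = -κ ∧
    i * i = algebraMap k B ε ∧ κ * κ = aeval ω β ∧ IsUnit κ ∧ κ * i = -(i * κ) ∧ Commute ω i ∧
    Commute ω κ ∧ x = aeval ω a + aeval ω b * i + aeval ω c * κ + aeval ω d * (i * κ) ∧
    QSpl S ε ω β

variable {B} in
/-- the conclusion of the quaternion step for `N` -/
def CtN (N : Subgroup (unitary B)) : Prop := ∃ S₀ : Finset (Pl k), ∀ S, S₀ ⊆ S →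
  ∀ᶠ x in nb k K B S 1, ∀ u : unitary B, (u : B) = x → InQ S x → u ∈ N

/-- the quaternion step -/
def Ct2 : Prop := ∀ (m : ℕ) (N : Subgroup (unitary B)), N ≤ SU K B → N.relIndex (SU K B) ≠ 0 →
  GUInv K N → (∀ u : unitary B, ∀ g ∈ SUm K B m, u * g * u⁻¹ * g⁻¹ ∈ N) → CtN k K N

variable {k B} in
/-- the data of the even step -/
structure E0 (ε : kˣ) (i n : B) : Prop where
  skew : star i = -i
  sq : i * i = algebraMap k B ε
  nskew : star n = -n
  unit : IsUnit n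
  anti : n * i = -(i * n)


variable {k B} in
/-- `2 ε` times the part commuting with `i` -/
def pl (ε : k) (i γ : B) : B := ε • γ + i * γ * i

variable {k B} in
/-- `2 ε` times the part anticommuting with `i` -/
def mi (ε : k) (i γ : B) : B := ε • γ - i * γ * i

/-- the standard basis -/
def eb : Basis (Fin (finrank k B)) k B := haveI := finite_kB k K B; finBasis k B

variable {k B} in
/-- good at `v` -/
def Good (ε : k) (i : B) (v : Pl k) (γ : B) : Prop := Lan.In (eb k K B) v γ ∧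
  v.valuation k (Algebra.norm k (pl ε i γ)) = 1 ∧ v.valuation k (Algebra.norm k (mi ε i γ)) = 1

/-- weak approximation in the norm torsors, uniformly -/
def Tor : Prop := ∀ (ε : k) (i : B), i * i = algebraMap k B ε → ε ≠ 0 → ∀ S, ∀ W ∈ nb k K B S 1,
  ∀ᶠ ω in nb k K B S 1, Commute ω i → ∀ p q : k[X], ω = aeval ω (p ^ 2 - C ε * q ^ 2) →
    ∃ p' q' : k[X], ω = aeval ω (p' ^ 2 - C ε * q' ^ 2) ∧ aeval ω p' + aeval ω q' * i ∈ W

/-- good elements decompose -/
def E1 : Prop := ∀ (ε : kˣ) (i n : B), E0 ε i n → ∃ S₀ : Finset (Pl k), ∀ S, S₀ ⊆ S →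
  ∀ W ∈ nb k K B S 1, ∀ᶠ γ in nb k K B S 1, star γ * γ = 1 → IsUnit (mi (ε : k) i γ) →
    (∀ v ∉ S, ε ∉ Hn.Sq v → Good K (ε : k) i v γ) →
    ∃ x y : B, γ = x * y ∧ x ∈ W ∧ y ∈ W ∧ star x * x = 1 ∧ InQ S x ∧ Commute y i

variable {k B} in
/-- the curve `(1 + s i) / (1 - s i)` -/
def uu (ε : k) (i : B) (s : k) : B := (1 - ε * s ^ 2)⁻¹ • ((1 + s • i) * (1 + s • i))

/-- every coset of `N` contains good elements -/
def E2 : Prop := ∀ (ε : kˣ) (i n : B), E0 ε i n → ∀ N : Subgroup (unitary B), NC K N →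
  ∃ (m : ℕ) (S₀ : Finset (Pl k)), ∀ S, S₀ ⊆ S →
    (∀ᶠ s in nbk k S 0, ∀ u : unitary B, (u : B) = uu (ε : k) i s → u ∈ N) →
    ∀ g ∈ SUm K B m, ∀ W ∈ nb k K B S 1, ∃ γ ∈ SU K B, g⁻¹ * γ ∈ N ∧ (γ : B) ∈ W ∧
      IsUnit (mi (ε : k) i γ) ∧ ∀ v ∉ S, ε ∉ Hn.Sq v → Good K (ε : k) i v γ

/-- weak approximation for a non-central normal subgroup, with global targets -/
def WaN : Prop := ∀ N : Subgroup (unitary B), NC K N → ∃ m : ℕ, ∀ (S : Finset (Pl k))
  (t₀ : unitary B) (t : Pl k → unitary B), t₀ ∈ SU K B → (∀ v, t v ∈ SU K B) →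
  (∀ v ∈ S, v ∈ Tk k K B → t v ∈ SUm K B m) →
  ∀ U ∈ 𝓝 ((BC.inc k K B (Inf k) (t₀ : B), fun v : S => BC.inc k K B (Kv v.1) (t v : B)) :
    AS k K B S), ∃ n ∈ N, jA k K B S (n : B) ∈ U

variable {k B} in
/-- the numerator of the curve -/
def crv (i : B) {r : ℕ} (c : Fin r → k) (n : Fin r → B) (s : k) : B :=
  (List.ofFn fun j => star (n j) * ((1 + (c j * s) • i) * (1 + (c j * s) • i)) * n j).prod

/-- codimension two -/
def Cop : Prop := ∀ (ε : kˣ) (i : B), i * i = algebraMap k B ε → ¬ IsSquare (ε : k) →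
  ∀ G : B, Algebra.norm k (pl (ε : k) i G) ≠ 0 → ∀ (r : ℕ) (c : Fin r → k),
  (∀ j l, c j + c l ≠ 0) → ∀ v₂ : Pl k, ε ∈ Hn.Sq v₂ → ∃ U ∈ 𝓝 (1 : BC k K B (Kv v₂)),
    ∀ n : Fin r → B, (∀ j, BC.inc k K B (Kv v₂) (n j) ∈ U) → ∀ᶠ v in cofinite, ε ∉ Hn.Sq v →
      ∀ s : k, v.valuation k s ≤ 1 →
        v.valuation k (Algebra.norm k (pl (ε : k) i (G * crv i c n s))) = 1

end Words

def Ct2Stmt : Prop := ∀ D : Dat.{u, v, w}, 3 ≤ deg D.K D.B → Aniso D.B → Ct2 D.k D.K D.B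
def TorStmt : Prop := ∀ D : Dat.{u, v, w}, Tor D.k D.K D.B
def WaNStmt : Prop := ∀ D : Dat.{u, v, w}, 3 ≤ deg D.K D.B → Aniso D.B → WaN D.k D.K D.B
def CopStmt : Prop := ∀ D : Dat.{u, v, w}, Cop D.k D.K D.B
def E1Stmt : Prop := ∀ D : Dat.{u, v, w}, Aniso D.B → E1 D.k D.K D.B
def E2Stmt : Prop := ∀ D : Dat.{u, v, w}, 3 ≤ deg D.K D.B → Aniso D.B → E2 D.k D.K D.B

end Crest.Agent.T24.Ev
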