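import Mathlib

-- ▼ part T24/KazA_16
section

/-!
# Row 24: angles between subspaces, fixed vectors of isometric representations (helper16)
-/

set_option autoImplicit false

namespace Crest.Agent.T24.Kaz

open Finset
open scoped RealInnerProductSpace

variable {V : Type*} [NormedAddCommGroup V] [InnerProductSpace ℝ V]

/-! ## Angles -/

/-- the cosine of the angle between `U` and `W` (modulo `U ⊓ W`) is at most `c` -/
def Ang (U W : Submodule ℝ V) (c : ℝ) : Prop :=
  ∀ a ∈ U, ∀ b ∈ W, (∀ u ∈ U, u ∈ W → ⟪u, a⟫ = 0) → ⟪a, b⟫ ≤ c * ‖a‖ * ‖b‖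

/-- the component orthogonal to `U` -/
noncomputable def Q (U : Submodule ℝ V) [U.HasOrthogonalProjection] : V →L[ℝ] V :=
  ContinuousLinearMap.id ℝ V - U.starProjection

theorem Q_apply (U : Submodule ℝ V) [U.HasOrthogonalProjection] (v : V) :
    Q U v = v - U.starProjection v := rfl

theorem Q_inner (U : Submodule ℝ V) [U.HasOrthogonalProjection] (v : V) {w : V} (hw : w ∈ U) :
    ⟪Q U v, w⟫ = 0 := U.starProjection_inner_eq_zero v w hw

theorem Q_of_mem {U : Submodule ℝ V} [U.HasOrthogonalProjection] {v : V} (h : v ∈ U) : Q U v = 0 := by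
  rw [Q_apply, Submodule.starProjection_eq_self_iff.2 h, sub_self]

theorem mem_of_Q {U : Submodule ℝ V} [U.HasOrthogonalProjection] {v : V} (h : Q U v = 0) : v ∈ U :=
  Submodule.starProjection_eq_self_iff.1 (sub_eq_zero.1 h).symm

theorem Q_inner_Q (U : Submodule ℝ V) [U.HasOrthogonalProjection] (u v : V) :
    ⟪Q U u, v⟫ = ⟪Q U u, Q U v⟫ := by
  rw [Q_apply U v, inner_sub_right, Q_inner U u (U.starProjection_apply_mem v), sub_zero]

theorem P_inner (U : Submodule ℝ V) [U.HasOrthogonalProjection] (v : V) {w : V} (hw : w ∈ U) :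
    ⟪U.starProjection v, w⟫ = ⟪v, w⟫ := by
  have := Q_inner U v hw
  rw [Q_apply, inner_sub_left] at this
  linarith

theorem norm_Q_sq (U : Submodule ℝ V) [U.HasOrthogonalProjection] (v : V) :
    ‖Q U v‖ ^ 2 = ‖v‖ ^ 2 - ‖U.starProjection v‖ ^ 2 := by
  have h := P_inner U v (U.starProjection_apply_mem v)
  rw [Q_apply, norm_sub_sq_real, ← h, real_inner_self_eq_norm_sq]
  ring

theorem norm_Q_le (U : Submodule ℝ V) [U.HasOrthogonalProjection] (v : V) : ‖Q U v‖ ≤ ‖v‖ := by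
  refine (pow_le_pow_iff_left₀ (norm_nonneg _) (norm_nonneg _) two_ne_zero).1 ?_
  rw [norm_Q_sq]
  exact sub_le_self _ (sq_nonneg _)

theorem Ang.symm {U W : Submodule ℝ V} [(U ⊓ W).HasOrthogonalProjection] {c : ℝ} (h : Ang U W c)
    (h0 : 0 ≤ c) : Ang W U c := fun b hb a ha hb' => by
  have hm := (U ⊓ W).starProjection_apply_mem a
  have h1 := h (Q (U ⊓ W) a) (U.sub_mem ha hm.1) b hb fun u hu hu' => by
    rw [real_inner_comm]; exact Q_inner _ a ⟨hu, hu'⟩
  rw [Q_apply, inner_sub_left, hb' _ hm.2 hm.1, sub_zero, ← Q_apply] at h1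
  rw [real_inner_comm, mul_right_comm]
  exact h1.trans (by gcongr; exact norm_Q_le _ _)


/-- the angle between the orthogonal complements, in the form used below -/
theorem Ang.Q_ge {U W : Submodule ℝ V} [U.HasOrthogonalProjection] [W.HasOrthogonalProjection]
    [(U ⊓ W).HasOrthogonalProjection] {c : ℝ} (h : Ang U W c) (h0 : 0 ≤ c) (h1 : c ≤ 1) (v : V) :
    -(c / 2 * (‖Q U v‖ ^ 2 + ‖Q W v‖ ^ 2)) ≤ ⟪Q U v, Q W v⟫ := by
  have hm := (U ⊓ W).starProjection_apply_mem v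
  set v₀ := (U ⊓ W).starProjection v with hv₀
  have ha : U.starProjection v - v₀ ∈ U := U.sub_mem (U.starProjection_apply_mem v) hm.1
  have hb : W.starProjection v - v₀ ∈ W := W.sub_mem (W.starProjection_apply_mem v) hm.2
  have hab := h _ ha _ hb fun u hu hu' => by
    rw [real_inner_comm, inner_sub_left, P_inner U v hu, P_inner (U ⊓ W) v ⟨hu, hu'⟩, sub_self]
  have hx := Q_inner U v ha
  have hy := Q_inner W v hb
  have e1 : Q U v = (v - v₀) - (U.starProjection v - v₀) := by rw [Q_apply]; abel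
  have e2 : Q W v = (v - v₀) - (W.starProjection v - v₀) := by rw [Q_apply]; abel
  rw [e1] at hx ⊢
  rw [e2] at hy ⊢
  generalize U.starProjection v - v₀ = a at *
  generalize W.starProjection v - v₀ = b at *
  generalize v - v₀ = t at *
  have key : 0 ≤ ‖(1 + c) • t - (a + b)‖ ^ 2 := sq_nonneg _
  rw [norm_sub_sq_real, norm_add_sq_real, norm_smul, mul_pow, Real.norm_eq_abs, sq_abs,
    real_inner_smul_left, inner_add_right] at key
  rw [inner_sub_left, real_inner_self_eq_norm_sq] at hx hy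
  rw [norm_sub_sq_real, norm_sub_sq_real, inner_sub_left, inner_sub_right, inner_sub_right,
    real_inner_self_eq_norm_sq, real_inner_comm t a]
  have h2 : ⟪a, b⟫ ≤ c / 2 * (‖a‖ ^ 2 + ‖b‖ ^ 2) := by
    nlinarith [mul_nonneg h0 (sq_nonneg (‖a‖ - ‖b‖))]
  have h3 : ⟪t, a⟫ = ‖a‖ ^ 2 := by linarith
  have h4 : ⟪t, b⟫ = ‖b‖ ^ 2 := by linarith
  rw [h3, h4] at key ⊢
  have h5 := mul_nonneg (sub_nonneg.2 h1) (sub_nonneg.2 h2)
  have h6 : 0 < 1 + c := by linarith
  by_contra h7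
  nlinarith [mul_pos h6 (sub_pos.2 (not_le.1 h7))]

/-- spectral gap for a family of subspaces with small angles -/
theorem gap [CompleteSpace V] {ι : Type*} [Fintype ι] [DecidableEq ι] (U : ι → Submodule ℝ V)
    [∀ i, (U i).HasOrthogonalProjection] [(⨅ i, U i).HasOrthogonalProjection] (c : ι → ι → ℝ) {l : ℝ}
    (hs : ∀ i j, c i j = c j i) (hl : ∀ i, ∑ j ∈ univ.erase i, c i j ≤ 1 - l)
    (hQ : ∀ i j, i ≠ j → ∀ v, -(c i j / 2 * (‖Q (U i) v‖ ^ 2 + ‖Q (U j) v‖ ^ 2)) ≤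
      ⟪Q (U i) v, Q (U j) v⟫) (h0 : 0 ≤ l) (v : V) :
    l * ‖Q (⨅ i, U i) v‖ ^ 2 ≤ ∑ i, ‖Q (U i) v‖ ^ 2 := by
  set D : V →L[ℝ] V := ∑ i, Q (U i) with hD
  have hD' : ∀ u, D u = ∑ i, Q (U i) u := fun u => by simp [hD]
  have h1 : ∀ u, l * ∑ i, ‖Q (U i) u‖ ^ 2 ≤ ‖D u‖ ^ 2 := fun u => by
    rw [← real_inner_self_eq_norm_sq, hD', sum_inner]
    have h2 : ∀ i, ‖Q (U i) u‖ ^ 2 - ∑ j ∈ univ.erase i,
        c i j / 2 * (‖Q (U i) u‖ ^ 2 + ‖Q (U j) u‖ ^ 2) ≤ ⟪Q (U i) u, ∑ j, Q (U j) u⟫ := fun i => by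
      rw [inner_sum, ← add_sum_erase _ _ (mem_univ i), real_inner_self_eq_norm_sq, sub_eq_add_neg,
        ← sum_neg_distrib]
      exact add_le_add le_rfl (sum_le_sum fun j hj => hQ i j (ne_of_mem_erase hj).symm u)
    refine le_trans ?_ (sum_le_sum fun i _ => h2 i)
    have h3 : ∑ i, ∑ j ∈ univ.erase i, c i j / 2 * ‖Q (U j) u‖ ^ 2 =
        ∑ i, ∑ j ∈ univ.erase i, c i j / 2 * ‖Q (U i) u‖ ^ 2 := by
      rw [sum_comm' (t' := univ) (s' := fun j => univ.erase j) (by simp [eq_comm])]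
      exact sum_congr rfl fun i _ => sum_congr rfl fun j _ => by rw [hs]
    simp only [mul_add, sum_add_distrib, sum_sub_distrib]
    rw [h3, ← sum_add_distrib, ← sum_sub_distrib, mul_sum]
    refine sum_le_sum fun i _ => ?_
    rw [← sum_mul, ← sum_div]
    nlinarith [mul_le_mul_of_nonneg_right (hl i) (sq_nonneg ‖Q (U i) u‖)]
  have h4 : ∀ u t, ⟪D u, t⟫ = ∑ i, ⟪Q (U i) u, Q (U i) t⟫ := fun u t => by
    rw [hD', sum_inner]; exact sum_congr rfl fun i _ => Q_inner_Q _ _ _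
  have h5 : ∀ t ∈ (D.range : Submodule ℝ V).topologicalClosure,
      l * ‖t‖ ^ 2 ≤ ∑ i, ‖Q (U i) t‖ ^ 2 := fun t ht => by
    refine closure_minimal (t := {t | l * ‖t‖ ^ 2 ≤ ∑ i, ‖Q (U i) t‖ ^ 2}) ?_
      (isClosed_le (by fun_prop) (by fun_prop)) ht
    rintro _ ⟨u, rfl⟩
    have h6 : ‖D u‖ ^ 2 ≤ ∑ i, ‖Q (U i) u‖ * ‖Q (U i) (D u)‖ := by
      rw [← real_inner_self_eq_norm_sq, h4]
      exact sum_le_sum fun i _ => real_inner_le_norm _ _
    have h7 := sum_mul_sq_le_sq_mul_sq univ (fun i => ‖Q (U i) u‖) fun i => ‖Q (U i) (D u)‖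
    have h8 := pow_le_pow_left₀ (sq_nonneg _) h6 2
    have h9 : 0 ≤ ∑ i, ‖Q (U i) (D u)‖ ^ 2 := sum_nonneg fun _ _ => sq_nonneg _
    show l * ‖D u‖ ^ 2 ≤ ∑ i, ‖Q (U i) (D u)‖ ^ 2
    rcases (sq_nonneg ‖D u‖).eq_or_lt with h | h
    · rw [← h, mul_zero]; exact h9
    · refine le_of_mul_le_mul_left ?_ h
      nlinarith [mul_le_mul_of_nonneg_left (h8.trans h7) h0, mul_le_mul_of_nonneg_right (h1 u) h9]
  have h6 : Q (⨅ i, U i) v ∈ (D.range : Submodule ℝ V).topologicalClosure := by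
    rw [← Submodule.orthogonal_orthogonal_eq_closure, Submodule.mem_orthogonal]
    intro t ht
    rw [real_inner_comm]
    refine Q_inner _ v ((Submodule.mem_iInf _).2 fun i => mem_of_Q ?_)
    have h7 := (Submodule.mem_orthogonal _ _).1 ht (D t) ⟨t, rfl⟩
    rw [h4, sum_eq_zero_iff_of_nonneg fun _ _ => real_inner_self_nonneg] at h7
    exact inner_self_eq_zero.1 (h7 i (mem_univ i))
  refine (h5 _ h6).trans (le_of_eq (sum_congr rfl fun i _ => ?_))
  rw [Q_apply (⨅ i, U i), map_sub, Q_of_mem ((Submodule.mem_iInf _).1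
    ((⨅ i, U i).starProjection_apply_mem v) i), sub_zero]

/-! ## Fixed vectors -/

variable {G : Type*} [Group G] (π : G →* (V ≃ₗᵢ[ℝ] V))

theorem pi_mul (g h : G) (v : V) : π (g * h) v = π g (π h v) := by rw [map_mul]; rfl

theorem pi_inner (g : G) (u v : V) : ⟪π g u, π g v⟫ = ⟪u, v⟫ := (π g).inner_map_map u v

/-- vectors fixed by `H` -/
def Fix (H : Subgroup G) : Submodule ℝ V where
  carrier := {v | ∀ g ∈ H, π g v = v}
  add_mem' ha hb g hg := by rw [map_add, ha g hg, hb g hg]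
  zero_mem' g _ := map_zero _
  smul_mem' c v hv g hg := by rw [map_smul, hv g hg]

theorem isClosed_Fix (H : Subgroup G) : IsClosed (Fix π H : Set V) := by
  have : (Fix π H : Set V) = ⋂ g ∈ H, {v | π g v = v} := by ext; simp [Fix]
  rw [this]
  exact isClosed_biInter fun g _ => isClosed_eq (π g).continuous continuous_id

variable [CompleteSpace V]

theorem hop {U : Submodule ℝ V} (h : IsClosed (U : Set V)) : U.HasOrthogonalProjection :=
  haveI := h.completeSpace_coe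
  inferInstance

instance (H : Subgroup G) : (Fix π H).HasOrthogonalProjection := hop (isClosed_Fix π H)

instance (H H' : Subgroup G) : (Fix π H ⊓ Fix π H').HasOrthogonalProjection :=
  hop ((isClosed_Fix π H).inter (isClosed_Fix π H'))

instance {ι : Type*} (H : ι → Subgroup G) : (⨅ i, Fix π (H i)).HasOrthogonalProjection :=
  hop (by rw [Submodule.coe_iInf]; exact isClosed_iInter fun i => isClosed_Fix π (H i))

/-- the projection on the fixed vectors lies in the closed convex hull of the orbit -/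
theorem hull (H : Subgroup G) {C : Set V} (hc : IsClosed C) (hv : Convex ℝ C) {v : V}
    (h : ∀ g ∈ H, π g v ∈ C) : (Fix π H).starProjection v ∈ C := by
  set P := (Fix π H).starProjection with hP
  have hPg : ∀ g ∈ H, ∀ u, P (π g u) = P u := fun g hg u => by
    refine Submodule.eq_starProjection_of_mem_of_inner_eq_zero ((Fix π H).starProjection_apply_mem u)
      fun w hw => ?_
    rw [inner_sub_left, P_inner _ u hw, ← pi_inner π g u w, hw g hg, sub_self]
  set C' : Set V := {u | P u = P v} ∩ ⋂ g ∈ H, π g ⁻¹' C with hC'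
  have c1 : IsClosed C' := (isClosed_eq P.continuous continuous_const).inter
    (isClosed_biInter fun g _ => hc.preimage (π g).continuous)
  have c2 : Convex ℝ C' := ((convex_singleton (P v)).linear_preimage P.toLinearMap).inter
    (convex_iInter₂ fun g _ => hv.linear_preimage (π g).toLinearEquiv.toLinearMap)
  obtain ⟨u, hu, hmin⟩ := exists_norm_eq_iInf_of_complete_convex (K := C')
    ⟨v, rfl, Set.mem_iInter₂.2 h⟩ c1.isComplete c2 0
  rw [norm_eq_iInf_iff_real_inner_le_zero c2 hu] at hmin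
  have hfix : u ∈ Fix π H := fun g hg => by
    have h1 := hmin (π g u) ⟨(hPg g hg u).trans hu.1, Set.mem_iInter₂.2 fun g' hg' => by
      have := Set.mem_iInter₂.1 hu.2 (g' * g) (H.mul_mem hg' hg)
      rwa [Set.mem_preimage, pi_mul] at this⟩
    rw [zero_sub, inner_neg_left, inner_sub_right, real_inner_self_eq_norm_sq] at h1
    have h2 := norm_sub_sq_real (π g u) u
    rw [(π g).norm_map, real_inner_comm] at h2
    exact sub_eq_zero.1 (norm_eq_zero.1 (pow_eq_zero_iff two_ne_zero |>.1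
      (le_antisymm (by linarith) (sq_nonneg _))))
  have h3 : P v = u := hu.1.symm.trans (Submodule.starProjection_eq_self_iff.2 hfix)
  rw [h3]
  simpa using Set.mem_iInter₂.1 hu.2 1 H.one_mem

theorem norm_Q_Fix_le (H : Subgroup G) {v : V} {ε : ℝ} (h : ∀ g ∈ H, ‖π g v - v‖ ≤ ε) :
    ‖Q (Fix π H) v‖ ≤ ε := by
  have := hull π H (C := Metric.closedBall v ε) Metric.isClosed_closedBall (convex_closedBall v ε)
    (v := v) fun g hg => by rw [mem_closedBall_iff_norm]; exact h g hg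
  rwa [mem_closedBall_iff_norm'] at this

theorem orth {A B : Subgroup G} {a b : V} (h : ∀ y ∈ B, π y a ∈ Fix π A)
    (h0 : ∀ u ∈ Fix π A, u ∈ Fix π B → ⟪u, a⟫ = 0) (hb : b ∈ Fix π B) : ⟪a, b⟫ = 0 := by
  have h1 := (Fix π B).starProjection_apply_mem a
  have h2 := h0 _ (hull π B (isClosed_Fix π A) (Fix π A).convex h) h1
  rw [real_inner_comm, ← P_inner _ a h1, inner_self_eq_zero] at h2
  rw [← P_inner _ a hb, h2, inner_zero_left]

/-- commuting subgroups -/
theorem ang_comm {A B : Subgroup G} (h : ∀ x ∈ A, ∀ y ∈ B, x * y = y * x) :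
    Ang (Fix π A) (Fix π B) 0 := fun a ha b hb h0 => by
  rw [orth π (fun y hy x hx => by rw [← pi_mul, h x hx y hy, pi_mul, ha x hx]) h0 hb]
  simp

/-- Heisenberg groups -/
theorem ang_heis {A B Z : Subgroup G} {κ : Type*} [Fintype κ] [Nontrivial κ] (y : κ → G)
    (hA : ∀ z ∈ Z, ∀ x ∈ A, x * z = z * x)
    (hAB : ∀ x ∈ A, ∀ y ∈ B, ∃ z ∈ Z, x * y = y * x * z) (hy : ∀ k, y k ∈ B)
    (hz : ∀ k l, k ≠ l → ∀ z ∈ Z, ∃ x ∈ A, x * ((y k)⁻¹ * y l) = (y k)⁻¹ * y l * x * z) :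
    Ang (Fix π A) (Fix π B) (1 / √(Fintype.card κ)) := fun a ha b hb h0 => by
  classical
  have hm := (Fix π Z).starProjection_apply_mem a
  have h1 : (Fix π Z).starProjection a ∈ Fix π A := hull π Z (isClosed_Fix π A) (Fix π A).convex
    fun z hz x hx => by rw [← pi_mul, hA z hz x hx, pi_mul, ha x hx]
  have h2 : ⟪(Fix π Z).starProjection a, b⟫ = 0 := by
    refine orth π (A := A) (fun y hy x hx => ?_) (fun u hu hu' => ?_) hb
    · obtain ⟨z, hz, e⟩ := hAB x hx y hy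
      rw [← pi_mul, e, pi_mul, pi_mul, hm z hz, h1 x hx]
    · rw [real_inner_comm, P_inner _ a, real_inner_comm, h0 u hu hu']
      intro z hz'
      obtain ⟨k, l, hkl⟩ := exists_pair_ne κ
      obtain ⟨x, hx, e⟩ := hz k l hkl z hz'
      have hy' := B.mul_mem (B.inv_mem (hy k)) (hy l)
      apply (π ((y k)⁻¹ * y l * x)).injective
      rw [← pi_mul, ← e, pi_mul, pi_mul _ _ x, hu' _ hy', hu x hx, hu' _ hy']
  have ha' : Q (Fix π Z) a ∈ Fix π A := (Fix π A).sub_mem ha h1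
  have hP : (Fix π Z).starProjection (Q (Fix π Z) a) = 0 := by
    rw [Q_apply, map_sub, Submodule.starProjection_eq_self_iff.2 hm, sub_self]
  have hn : ‖Q (Fix π Z) a‖ ≤ ‖a‖ := norm_Q_le _ _
  have e : ⟪a, b⟫ = ⟪Q (Fix π Z) a, b⟫ := by rw [Q_apply, inner_sub_left, h2, sub_zero]
  rw [e]
  generalize Q (Fix π Z) a = a' at *
  have h3 : ∀ k l, k ≠ l → ⟪π (y k) a', π (y l) a'⟫ = 0 := fun k l hkl => by
    have h4 := hull π Z (C := {u | ⟪π (y k) a', π (y l) u⟫ = ⟪π (y k) a', π (y l) a'⟫})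
      (isClosed_eq (by fun_prop) continuous_const)
      ((convex_singleton _).linear_preimage
        ((innerSL ℝ (π (y k) a')).toLinearMap ∘ₗ (π (y l)).toLinearEquiv.toLinearMap))
      (v := a') fun z hz' => by
        obtain ⟨x, hx, e⟩ := hz k l hkl z hz'
        have h5 : ∀ u, ⟪π (y k) a', π (y l) u⟫ = ⟪a', π ((y k)⁻¹ * y l) u⟫ := fun u => by
          rw [← pi_inner π (y k) a', ← pi_mul, mul_inv_cancel_left]
        show ⟪_, _⟫ = ⟪_, _⟫
        rw [h5, h5]
        conv_lhs => rw [← ha' x hx, ← pi_mul π z, ← hA z hz' x hx, ← pi_mul, ← mul_assoc, ← e, pi_mul,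
          pi_inner]
    rw [hP] at h4
    simpa using h4.symm
  have h4 : ‖∑ k, π (y k) a'‖ ^ 2 = Fintype.card κ * ‖a'‖ ^ 2 := by
    rw [← real_inner_self_eq_norm_sq, sum_inner, ← card_univ, ← nsmul_eq_mul, ← sum_const]
    refine sum_congr rfl fun k _ => ?_
    rw [inner_sum, sum_eq_single k (fun l _ h => h3 k l h.symm) (by simp), pi_inner,
      real_inner_self_eq_norm_sq]
  have h5 : ⟪∑ k, π (y k) a', b⟫ = Fintype.card κ * ⟪a', b⟫ := by
    rw [sum_inner, ← card_univ, ← nsmul_eq_mul, ← sum_const]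
    exact sum_congr rfl fun k _ => by rw [← pi_inner π (y k) a' b, hb _ (hy k)]
  have hc : (0 : ℝ) < Fintype.card κ := Nat.cast_pos.2 Fintype.card_pos
  have hs := Real.sqrt_pos.2 hc
  have h6 : ‖∑ k, π (y k) a'‖ = √(Fintype.card κ) * ‖a'‖ := by
    rw [← Real.sqrt_sq (norm_nonneg (∑ k, π (y k) a')), h4, Real.sqrt_mul hc.le,
      Real.sqrt_sq (norm_nonneg _)]
  have h7 := real_inner_le_norm (∑ k, π (y k) a') b
  rw [h5, h6] at h7
  have h8 : √(Fintype.card κ : ℝ) * ⟪a', b⟫ ≤ ‖a'‖ * ‖b‖ := by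
    refine le_of_mul_le_mul_left ?_ hs
    rw [← mul_assoc, Real.mul_self_sqrt hc.le, ← mul_assoc]
    exact h7
  rw [mul_assoc, one_div, ← div_eq_inv_mul, le_div_iff₀' hs]
  exact h8.trans (mul_le_mul_of_nonneg_right hn (norm_nonneg _))

end Crest.Agent.T24.Kaz
end

-- ▼ part T24/Kaz_16

/-!
# Row 24: property (T) and the Hecke bound for `SL_d (F)`, `d ≥ 3`, purely algebraically (helper16)
-/

set_option autoImplicit false

namespace Crest.Agent.T24.Kaz

open Finset Matrix Matrix.SpecialLinearGroup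
open scoped RealInnerProductSpace

variable {ι F : Type*} [Fintype ι] [DecidableEq ι] [Field F]

/-- elementary matrices -/
def X (i j : ι) (s : F) : SpecialLinearGroup ι F :=
  if h : i ≠ j then SpecialLinearGroup.transvection h s else 1

theorem X_eq {i j : ι} (h : i ≠ j) (s : F) : X i j s = SpecialLinearGroup.transvection h s := dif_pos h

theorem X_coe {i j : ι} (h : i ≠ j) (s : F) : (X i j s : Matrix ι ι F) = 1 + single i j s := by
  rw [X_eq h]; rfl

theorem X_add (i j : ι) (s t : F) : X i j (s + t) = X i j s * X i j t := by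
  unfold X
  split_ifs with h
  · exact transvection_add h s t
  · simp

theorem X_zero (i j : ι) : X i j (0 : F) = 1 := by
  unfold X
  split_ifs with h
  · exact transvection_coeff_zero h
  · rfl

theorem X_neg (i j : ι) (s : F) : (X i j s)⁻¹ = X i j (-s) :=
  inv_eq_of_mul_eq_one_right (by rw [← X_add, add_neg_cancel, X_zero])

theorem X_comm {i j k l : ι} (h1 : i ≠ j) (h2 : k ≠ l) (h3 : j ≠ k) (h4 : l ≠ i) (s t : F) :
    X i j s * X k l t = X k l t * X i j s := by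
  apply Subtype.ext
  simp only [Matrix.SpecialLinearGroup.coe_mul, X_coe h1, X_coe h2, mul_add, add_mul, one_mul, mul_one,
    single_mul_single_of_ne _ _ _ _ h3, single_mul_single_of_ne _ _ _ _ h4]
  abel

theorem X_heis {i j k : ι} (h1 : i ≠ j) (h2 : j ≠ k) (h3 : i ≠ k) (s t : F) :
    X i j s * X j k t = X j k t * X i j s * X i k (s * t) := by
  apply Subtype.ext
  simp only [Matrix.SpecialLinearGroup.coe_mul, X_coe h1, X_coe h2, X_coe h3, mul_add, add_mul, one_mul,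
    mul_one, single_mul_single_of_ne _ _ _ _ h3.symm, single_mul_single_of_ne _ _ _ _ h1.symm,
    single_mul_single_same, zero_mul]
  abel

theorem diag2n_eq {i j : ι} (h : i ≠ j) {a : F} (ha : a ≠ 0) :
    diag2n h a ha = X i j a * X j i (-a⁻¹) * X i j (a - 1) * X j i 1 * X i j (-1) := by
  apply Subtype.ext
  simp only [Matrix.SpecialLinearGroup.coe_mul, X_coe h, X_coe h.symm, mul_add, add_mul, one_mul,
    mul_one, single_mul_single_of_ne _ _ _ _ h, single_mul_single_of_ne _ _ _ _ h.symm,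
    single_mul_single_same, zero_mul, diag2n_coe]
  ext k l
  by_cases h1 : i = k <;> by_cases h2 : j = k <;> by_cases h3 : i = l <;> by_cases h4 : j = l <;>
    simp_all [diagonal_apply, one_apply, eq_comm]
  all_goals (field_simp; ring)

theorem eq_top_of_X [Nontrivial ι] {H : Subgroup (SpecialLinearGroup ι F)}
    (h : ∀ i j, i ≠ j → ∀ s : F, X i j s ∈ H) (g : SpecialLinearGroup ι F) : g ∈ H :=
  diagonal_transvection_induction' (· ∈ H) g
    (fun i j hij c hc => by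
      rw [diag2n_eq]
      exact H.mul_mem (H.mul_mem (H.mul_mem (H.mul_mem (h _ _ hij _) (h _ _ hij.symm _))
        (h _ _ hij _)) (h _ _ hij.symm _)) (h _ _ hij _))
    (fun i j hij a => X_eq hij a ▸ h i j hij a) fun _ _ => H.mul_mem

/-- the root subgroup `X_{ij} (a O)` -/
def R (O : Subring F) (i j : ι) (a : F) : Subgroup (SpecialLinearGroup ι F) where
  carrier := {g | ∃ o ∈ O, g = X i j (a * o)}
  one_mem' := ⟨0, O.zero_mem, by rw [mul_zero, X_zero]⟩
  mul_mem' := by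
    rintro _ _ ⟨o, ho, rfl⟩ ⟨o', ho', rfl⟩
    exact ⟨o + o', O.add_mem ho ho', by rw [mul_add, X_add]⟩
  inv_mem' := by
    rintro _ ⟨o, ho, rfl⟩
    exact ⟨-o, O.neg_mem ho, by rw [X_neg, mul_neg]⟩

theorem R_comp {O : Subring F} {H : Subgroup (SpecialLinearGroup ι F)} {i j k : ι} (h1 : i ≠ j)
    (h2 : j ≠ k) (h3 : i ≠ k) {a b : F} (ha : R O i j a ≤ H) (hb : R O j k b ≤ H) :
    R O i k (a * b) ≤ H := by
  rintro _ ⟨o, ho, rfl⟩
  have h4 := ha ⟨o, ho, rfl⟩
  have h5 := hb ⟨1, O.one_mem, rfl⟩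
  have h6 := H.mul_mem h4 h5
  rw [X_heis h1 h2 h3, H.mul_mem_cancel_left (H.mul_mem h5 h4)] at h6
  convert h6 using 2
  ring

/-- `O` a subring with `F = ⋃ pⁿ O`, and a family of elements of `O` with unit differences -/
structure Dat (O : Subring F) (p : F) {κ : Type*} (t : κ → F) : Prop where
  mem : ∀ k, t k ∈ O
  unit : ∀ k l, k ≠ l → ∃ u ∈ O, u * (t l - t k) = 1
  all : ∀ x : F, ∃ n : ℕ, ∃ o ∈ O, x = p ^ n * o

theorem exists_third (h : 3 ≤ Fintype.card ι) (i j : ι) : ∃ k, k ≠ i ∧ k ≠ j := by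
  by_contra h1
  have h2 : (univ : Finset ι) ⊆ {i, j} := fun k _ => by
    rw [mem_insert, mem_singleton]
    by_contra h3
    exact h1 ⟨k, not_or.1 h3⟩
  have := (card_le_card h2).trans card_le_two
  rw [card_univ] at this
  omega

theorem exists_cyc (h : 3 ≤ Fintype.card ι) {i j : ι} (hij : i ≠ j) :
    ∃ (n : ℕ) (e : Fin (n + 3) ≃ ι), e 0 = i ∧ e (0 + 1) = j := by
  obtain ⟨n, hn⟩ := Nat.exists_eq_add_of_le' h
  obtain ⟨e₀⟩ : Nonempty (Fin (n + 3) ≃ ι) := ⟨(Fintype.equivFinOfCardEq hn).symm⟩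
  set e₁ := e₀.trans (Equiv.swap (e₀ 0) i) with he₁
  have h1 : e₁ 0 = i := by simp [he₁]
  refine ⟨n, e₁.trans (Equiv.swap (e₁ 1) j), ?_, by simp⟩
  rw [Equiv.trans_apply, h1, Equiv.swap_apply_of_ne_of_ne _ hij]
  rw [← h1]
  exact e₁.injective.ne zero_ne_one

theorem ne_one' {n : ℕ} (i : Fin (n + 3)) : i ≠ i + 1 := by simp

theorem ne_two' {n : ℕ} (i : Fin (n + 3)) : i ≠ i + 1 + 1 := by
  rw [add_assoc, Ne, left_eq_add, Fin.ext_iff, Fin.val_add]
  simp [Nat.mod_eq_of_lt]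

/-- the cyclic root subgroups generate -/
theorem gen {O : Subring F} {p : F} (hall : ∀ x : F, ∃ n : ℕ, ∃ o ∈ O, x = p ^ n * o) {n : ℕ}
    (e : Fin (n + 3) ≃ ι) {H : Subgroup (SpecialLinearGroup ι F)}
    (h1 : ∀ i, R O (e i) (e (i + 1)) 1 ≤ H) (hp : R O (e 0) (e (0 + 1)) p ≤ H)
    (g : SpecialLinearGroup ι F) : g ∈ H := by
  have hc : 3 ≤ Fintype.card ι := by rw [← Fintype.card_congr e, Fintype.card_fin]; omega
  have h2 : ∀ i k : Fin (n + 3), k ≠ 0 → R O (e i) (e (i + k)) 1 ≤ H := fun i k => by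
    refine Fin.induction (by simp) (fun k ih hk => ?_) k
    rw [← Fin.coeSucc_eq_succ] at hk ⊢
    by_cases h0 : k.castSucc = 0
    · rw [h0, zero_add]; exact h1 i
    · have := R_comp (e.injective.ne (by simpa using h0)) (e.injective.ne (ne_one' _))
        (e.injective.ne (by rwa [add_assoc, Ne, left_eq_add])) (ih h0) (h1 _)
      rwa [mul_one, add_assoc] at this
  have h3 : ∀ i j, i ≠ j → R O i j 1 ≤ H := fun i j hij => by
    have := h2 (e.symm i) (e.symm j - e.symm i) (sub_ne_zero.2 (e.symm.injective.ne hij.symm))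
    simpa using this
  have h01 : e 0 ≠ e (0 + 1) := e.injective.ne (ne_one' _)
  have h4 : ∀ j, e 0 ≠ j → R O (e 0) j p ≤ H := fun j hj => by
    by_cases h : e (0 + 1) = j
    · exact h ▸ hp
    · simpa using R_comp h01 h hj hp (h3 _ _ h)
  have h5 : ∀ i j, i ≠ j → e 0 ≠ j → R O i j p ≤ H := fun i j hij hj => by
    by_cases h : i = e 0
    · exact h ▸ h4 j hj
    · simpa using R_comp h hj hij (h3 _ _ h) (h4 j hj)
  have h6 : ∀ i j, i ≠ j → R O i j p ≤ H := fun i j hij => by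
    by_cases h : e 0 = j
    · obtain ⟨k, k1, k2⟩ := exists_third hc i j
      simpa using R_comp k1.symm k2 hij (h5 i k k1.symm (h ▸ k2.symm)) (h3 _ _ k2)
    · exact h5 i j hij h
  have h7 : ∀ (m : ℕ) i j, i ≠ j → R O i j (p ^ m) ≤ H := fun m => by
    induction m with
    | zero => simpa using h3
    | succ m ih =>
      intro i j hij
      obtain ⟨k, k1, k2⟩ := exists_third hc i j
      rw [pow_succ]
      exact R_comp k1.symm k2 hij (ih _ _ k1.symm) (h6 _ _ k2)
  have : Nontrivial ι := ⟨_, _, h01⟩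
  refine eq_top_of_X (fun i j hij s => ?_) g
  obtain ⟨m, o, ho, rfl⟩ := hall s
  exact h7 m i j hij ⟨o, ho, rfl⟩

variable {V : Type*} [NormedAddCommGroup V] [InnerProductSpace ℝ V] [CompleteSpace V]
  (π : SpecialLinearGroup ι F →* (V ≃ₗᵢ[ℝ] V)) {O : Subring F} {p : F} {κ : Type*} [Fintype κ]
  {t : κ → F}

theorem ang_R [Nontrivial κ] (h : Dat O p t) {i j k : ι} (h1 : i ≠ j) (h2 : j ≠ k) (h3 : i ≠ k)
    (a b : F) : Ang (Fix π (R O i j a)) (Fix π (R O j k b)) (1 / √(Fintype.card κ)) := by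
  refine ang_heis π (Z := R O i k (a * b)) (fun l => X j k (b * t l)) ?_ ?_
    (fun l => ⟨_, h.mem l, rfl⟩) ?_
  · rintro _ ⟨o, -, rfl⟩ _ ⟨o', -, rfl⟩
    exact X_comm h1 h3 h1.symm h3.symm _ _
  · rintro _ ⟨o, ho, rfl⟩ _ ⟨o', ho', rfl⟩
    exact ⟨_, ⟨o * o', O.mul_mem ho ho', rfl⟩, by rw [X_heis h1 h2 h3]; congr 2; ring⟩
  · rintro l m hlm _ ⟨o, ho, rfl⟩
    obtain ⟨u, hu, e⟩ := h.unit l m hlm
    refine ⟨_, ⟨o * u, O.mul_mem ho hu, rfl⟩, ?_⟩
    rw [X_neg, ← X_add, X_heis h1 h2 h3]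
    congr 2
    linear_combination a * b * o * e

/-- the angle matrix of the cycle -/
noncomputable def cm (c : ℝ) {n : ℕ} (i j : Fin (n + 3)) : ℝ := if j = i + 1 ∨ i = j + 1 then c else 0

theorem sum_cm {c : ℝ} (hc : 0 ≤ c) {n : ℕ} (i : Fin (n + 3)) :
    ∑ j ∈ univ.erase i, cm c i j ≤ 2 * c := by
  calc _ ≤ ∑ j, ((if j = i + 1 then c else 0) + if j = i - 1 then c else 0) := by
        refine le_trans (sum_le_sum fun j _ => ?_) (sum_le_sum_of_subset_of_nonneg (subset_univ _)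
          fun j _ _ => add_nonneg (by split_ifs <;> simp [hc]) (by split_ifs <;> simp [hc]))
        simp only [cm, eq_sub_iff_add_eq, eq_comm (a := i)]
        split_ifs <;> simp_all
    _ = 2 * c := by simp [sum_add_distrib, two_mul]

theorem ang_cyc [Nontrivial κ] (h : Dat O p t) {n : ℕ} (e : Fin (n + 3) ≃ ι) (a : Fin (n + 3) → F)
    {i j : Fin (n + 3)} : Ang (Fix π (R O (e i) (e (i + 1)) (a i)))
      (Fix π (R O (e j) (e (j + 1)) (a j))) (cm (1 / √(Fintype.card κ)) i j) ∨ i = j := by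
  have h1 := fun i => e.injective.ne (ne_one' i)
  have h2 := fun i => e.injective.ne (ne_two' i)
  left
  unfold cm
  split_ifs with h0
  · rcases h0 with rfl | rfl
    · exact ang_R π h (h1 _) (h1 _) (h2 _) _ _
    · exact (ang_R π h (h1 _) (h1 _) (h2 _) _ _).symm (by positivity)
  · refine ang_comm π ?_
    rintro _ ⟨o, -, rfl⟩ _ ⟨o', -, rfl⟩
    exact X_comm (h1 _) (h1 _) (e.injective.ne fun h => h0 (Or.inl h.symm))
      (e.injective.ne fun h => h0 (Or.inr h.symm)) _ _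

theorem sqrt_le (hκ : 5 ≤ Fintype.card κ) : 1 / √(Fintype.card κ : ℝ) ≤ 9 / 20 := by
  have h1 : (5 : ℝ) ≤ Fintype.card κ := by exact_mod_cast hκ
  have h2 : 20 / 9 ≤ √(Fintype.card κ : ℝ) := Real.le_sqrt_of_sq_le (by linarith)
  rw [div_le_iff₀ (by linarith)]
  linarith

theorem gap_cyc (h : Dat O p t) (hκ : 5 ≤ Fintype.card κ) {n : ℕ} (e : Fin (n + 3) ≃ ι)
    (a : Fin (n + 3) → F) (h1 : ∀ i, ∃ o ∈ O, a i * o = 1) (h0 : a 0 = p) (v : V) :
    ‖Q (Fix π ⊤) v‖ ^ 2 ≤ 10 * ∑ i, ‖Q (Fix π (R O (e i) (e (i + 1)) (a i))) v‖ ^ 2 := by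
  have : Nontrivial κ := Fintype.one_lt_card_iff_nontrivial.1 (by omega)
  have hc := sqrt_le hκ
  have hc0 : 0 ≤ 1 / √(Fintype.card κ : ℝ) := by positivity
  have h2 := gap (fun i => Fix π (R O (e i) (e (i + 1)) (a i))) (cm (1 / √(Fintype.card κ)))
    (l := 1 / 10) (fun i j => by simp only [cm, or_comm])
    (fun i => (sum_cm hc0 i).trans (by linarith))
    (fun i j hij => ((ang_cyc π h e a).resolve_right hij).Q_ge
      (by unfold cm; split_ifs <;> simp) (by unfold cm; split_ifs <;> linarith))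
    (by norm_num) v
  have h3 : (⨅ i, Fix π (R O (e i) (e (i + 1)) (a i))) = Fix π ⊤ := by
    refine le_antisymm (fun w hw g _ => ?_) (le_iInf fun i w hw g _ => hw g trivial)
    rw [Submodule.mem_iInf] at hw
    let H : Subgroup (SpecialLinearGroup ι F) :=
      { carrier := {g | π g w = w}
        one_mem' := by simp
        mul_mem' := fun {x y} hx hy => by
          show π (x * y) w = w
          rw [pi_mul, hy, hx]
        inv_mem' := fun {x} hx => by
          show π x⁻¹ w = w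
          conv_lhs => rw [← hx, ← pi_mul, inv_mul_cancel, map_one]
          rfl }
    refine gen (H := H) h.all e (fun i => ?_) (h0 ▸ hw 0) g
    rintro _ ⟨o, ho, rfl⟩
    obtain ⟨o', ho', e'⟩ := h1 i
    exact hw i _ ⟨o' * o, O.mul_mem ho' ho, by rw [← mul_assoc, e']⟩
  simp only [h3] at h2
  linarith

/-- KAZHDAN: almost invariant vectors are close to invariant vectors -/
theorem kazhdan (h : Dat O p t) (hp : ∃ o ∈ O, p * o = 1) (hκ : 5 ≤ Fintype.card κ)
    (hι : 3 ≤ Fintype.card ι) {v : V} {ε : ℝ}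
    (hv : ∀ (i j : ι) (hij : i ≠ j), ∀ o ∈ O,
      ‖π (SpecialLinearGroup.transvection hij (p * o)) v - v‖ ≤ ε) :
    ∃ w, (∀ g, π g w = w) ∧ ‖v - w‖ ^ 2 ≤ 10 * Fintype.card ι * ε ^ 2 := by
  have : Nontrivial ι := Fintype.one_lt_card_iff_nontrivial.1 (by omega)
  obtain ⟨i, j, hij⟩ := exists_pair_ne ι
  obtain ⟨n, e, -⟩ := exists_cyc hι hij
  refine ⟨_, fun g => (Fix π ⊤).starProjection_apply_mem v g trivial,
    (gap_cyc π h hκ e (fun _ => p) (fun _ => hp) rfl v).trans ?_⟩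
  rw [mul_assoc, ← Fintype.card_congr e, ← nsmul_eq_mul, ← card_univ, ← sum_const]
  refine mul_le_mul_of_nonneg_left (sum_le_sum fun i _ => pow_le_pow_left₀ (norm_nonneg _)
    (norm_Q_Fix_le π _ ?_) 2) (by norm_num)
  rintro _ ⟨o, ho, rfl⟩
  rw [X_eq (e.injective.ne (ne_one' i))]
  exact hv _ _ _ o ho


/-! ## Real or complex Hilbert spaces -/

section rc
variable {𝕜 E : Type*} [RCLike 𝕜] [NormedAddCommGroup E] [InnerProductSpace 𝕜 E]

/-- the underlying real representation -/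
noncomputable def toReal {G : Type*} [Group G] (ρ : G →* (E ≃ₗᵢ[𝕜] E)) :
    letI := InnerProductSpace.rclikeToReal 𝕜 E
    G →* (E ≃ₗᵢ[ℝ] E) :=
  letI := InnerProductSpace.rclikeToReal 𝕜 E
  { toFun := fun g =>
      { toFun := ρ g
        invFun := (ρ g).symm
        map_add' := map_add _
        map_smul' := fun c v => map_smul (ρ g) (c : 𝕜) v
        left_inv := (ρ g).symm_apply_apply
        right_inv := (ρ g).apply_symm_apply
        norm_map' := (ρ g).norm_map }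
    map_one' := by ext v; simp
    map_mul' := fun g h => by ext v; simp }

variable [CompleteSpace E] (ρ : SpecialLinearGroup ι F →* (E ≃ₗᵢ[𝕜] E))

theorem kazhdan_rc (h : Dat O p t) (hp : ∃ o ∈ O, p * o = 1) (hκ : 5 ≤ Fintype.card κ)
    (hι : 3 ≤ Fintype.card ι) {v : E} {ε : ℝ}
    (hv : ∀ (i j : ι) (hij : i ≠ j), ∀ o ∈ O,
      ‖ρ (SpecialLinearGroup.transvection hij (p * o)) v - v‖ ≤ ε) :
    ∃ w, (∀ g, ρ g w = w) ∧ ‖v - w‖ ^ 2 ≤ 10 * Fintype.card ι * ε ^ 2 :=
  letI := InnerProductSpace.rclikeToReal 𝕜 E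
  kazhdan (toReal ρ) h hp hκ hι hv


end rc

/-! ## Valuation rings -/

section val
variable {Γ : Type*} [LinearOrderedCommGroupWithZero Γ] (v : Valuation F Γ)




end val

end Crest.Agent.T24.Kaz
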