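import Crest.Agent.T24.NstDef_39

-- ▼ part T24/NstCt_39
section

/-!
# Row 24, NST: the contraction argument (`CtStmt`).
-/

set_option autoImplicit false

namespace Crest.Agent.T24.Nst

open Topology Filter MeasureTheory Set
open scoped ENNReal

universe u v

namespace Ct39

/-- diagonal subsequence -/
lemma diag {α : Type*} [MeasurableSpace α] (ν : Measure α) (ψ : ℕ → ℕ → α → ℝ≥0∞)
    (hm : ∀ k n, Measurable (ψ k n))
    (h : ∀ k, Tendsto (fun n => ∫⁻ x, ψ k n x ∂ν) atTop (𝓝 0)) :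
    ∃ n : ℕ → ℕ, ∀ᵐ x ∂ν, ∀ k, Tendsto (fun j => ψ k (n j) x) atTop (𝓝 0) := by
  have h1 : ∀ j : ℕ, ∃ n, ∀ k ∈ Finset.range (j + 1), ∫⁻ x, ψ k n x ∂ν ≤ 2⁻¹ ^ j := fun j => by
    refine Eventually.exists (f := atTop) ((eventually_all_finset _).2 fun k _ => ?_)
    exact (h k).eventually (ge_mem_nhds (ENNReal.pow_pos (by simp) j))
  choose n hn using h1
  refine ⟨n, ae_all_iff.2 fun k => ?_⟩
  have h2 : ∫⁻ x, ∑' j, ψ k (n (j + k)) x ∂ν ≠ ∞ := by
    rw [lintegral_tsum fun j => (hm _ _).aemeasurable]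
    refine ne_top_of_le_ne_top (b := ∑' j : ℕ, (2⁻¹ : ℝ≥0∞) ^ j) (by simp) ?_
    refine ENNReal.tsum_le_tsum fun j => (hn _ k (by simp)).trans ?_
    exact pow_le_pow_right_of_le_one' (by simp) (by omega)
  filter_upwards [ae_lt_top (Measurable.tsum fun j => hm _ _) h2] with x hx
  exact (tendsto_add_atTop_iff_nat k).1 (ENNReal.tendsto_atTop_zero_of_tsum_ne_top hx.ne)

lemma enorm_sub_le {α : Type*} {f : α → ℝ} {M : ℝ} (hM : ∀ x, |f x| ≤ M) (x y : α) :
    ‖f x - f y‖ₑ ≤ ENNReal.ofReal (2 * M) := by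
  rw [← ofReal_norm]
  refine ENNReal.ofReal_le_ofReal ?_
  rw [Real.norm_eq_abs]
  linarith [abs_sub (f x) (f y), hM x, hM y]

lemma integrableOn_bdd {α : Type*} [MeasurableSpace α] {ν : Measure α} {f : α → ℝ} {M : ℝ}
    {s : Set α} (hs : ν s ≠ ∞) (hf : Measurable f) (hM : ∀ x, |f x| ≤ M) : IntegrableOn f s ν :=
  Measure.integrableOn_of_bounded hs hf.aestronglyMeasurable (M := M) (ae_of_all _ hM)

variable {G₁ : Type u} {G₂ : Type v} [Group G₁] [TopologicalSpace G₁] [IsTopologicalGroup G₁]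
  [LocallyCompactSpace G₁] [SecondCountableTopology G₁] [T2Space G₁] [MeasurableSpace G₁]
  [BorelSpace G₁] [Group G₂] [TopologicalSpace G₂] [IsTopologicalGroup G₂]
  [LocallyCompactSpace G₂] [SecondCountableTopology G₂] [T2Space G₂] [MeasurableSpace G₂]
  [BorelSpace G₂] (μ₁ : Measure G₁) (μ₂ : Measure G₂) [μ₁.IsHaarMeasure] [μ₂.IsHaarMeasure]

/-- the error term -/
noncomputable def err (f : G₁ × G₂ → ℝ) (a : G₁) (x ω : G₁ × G₂) : ℝ≥0∞ :=
  ‖f (x * (a, 1) * ω) - f (x * (1, ω.2))‖ₑ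

omit [LocallyCompactSpace G₁] [T2Space G₁] [LocallyCompactSpace G₂] [T2Space G₂] in
lemma err_meas {f : G₁ × G₂ → ℝ} (hf : Measurable f) (a : G₁) :
    Measurable (Function.uncurry (err f a)) := by
  have h1 : Measurable fun p : (G₁ × G₂) × (G₁ × G₂) => p.1 * (a, 1) * p.2 :=
    Continuous.measurable (by fun_prop)
  have h2 : Measurable fun p : (G₁ × G₂) × (G₁ × G₂) => p.1 * (1, p.2.2) :=
    Continuous.measurable (by fun_prop)
  exact ((hf.comp h1).sub (hf.comp h2)).enorm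

/-- step A: the mean error tends to zero -/
lemma stepA (hC : ContStmt.{max u v}) [(μ₁.prod μ₂).IsMulRightInvariant] {B : Subgroup G₁}
    {a : ℕ → G₁} {D : Set G₁} (hD : Contr B a D) {f : G₁ × G₂ → ℝ} {M : ℝ} (hf : Measurable f)
    (hM : ∀ x, |f x| ≤ M) (hB : ∀ b ∈ B, ∀ᵐ x ∂(μ₁.prod μ₂), f (x * (b, 1)) = f x)
    {K : Set (G₁ × G₂)} (hK : IsCompact K) :
    Tendsto (fun n => ∫⁻ x in K, ∫⁻ ω in K ∩ D ×ˢ univ, err f (a n) x ω ∂(μ₁.prod μ₂)
      ∂(μ₁.prod μ₂)) atTop (𝓝 0) := by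
  set μ := μ₁.prod μ₂
  have hA : MeasurableSet (K ∩ D ×ˢ (univ : Set G₂)) :=
    hK.measurableSet.inter (hD.1.measurableSet.prod .univ)
  have hfin : μ (K ∩ D ×ˢ univ) ≠ ∞ := ne_top_of_le_ne_top hK.measure_lt_top.ne
    (measure_mono inter_subset_left)
  simp_rw [fun n => lintegral_lintegral_swap (μ := μ.restrict K)
    (ν := μ.restrict (K ∩ D ×ˢ univ)) (err_meas hf (a n)).aemeasurable]
  have := tendsto_lintegral_of_dominated_convergence (μ := μ.restrict (K ∩ D ×ˢ univ))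
    (F := fun n ω => ∫⁻ x in K, err f (a n) x ω ∂μ) (f := fun _ => 0)
    (fun _ => ENNReal.ofReal (2 * M) * μ K)
    (fun n => (err_meas hf (a n)).lintegral_prod_left) (fun n => ae_of_all _ fun ω => ?_) ?_ ?_
  · simpa using this
  · calc ∫⁻ x in K, err f (a n) x ω ∂μ ≤ ∫⁻ _ in K, ENNReal.ofReal (2 * M) ∂μ :=
          lintegral_mono fun x => enorm_sub_le hM _ _
      _ = _ := by simp
  · simp only [lintegral_const, MeasurableSet.univ, Measure.restrict_apply, univ_inter]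
    exact ENNReal.mul_ne_top (ENNReal.mul_ne_top ENNReal.ofReal_ne_top hK.measure_lt_top.ne) hfin
  · filter_upwards [ae_restrict_mem hA] with ω hω
    obtain ⟨b, hb, hl⟩ := hD.2.2 ω.1 hω.2.1
    have h1 := (hC (G₁ × G₂) μ (fun x => f (x * (1, ω.2))) M K
      (hf.comp (measurable_mul_const _)) (fun _ => hM _) hK).2 inferInstance
    have h2 : Tendsto (fun n => ((a n * ω.1 * b n, 1) : G₁ × G₂)) atTop (𝓝 1) :=
      hl.prodMk_nhds tendsto_const_nhds
    refine (h1.comp h2).congr fun n => lintegral_congr_ae (ae_restrict_of_ae ?_)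
    filter_upwards [(measurePreserving_mul_right μ ((a n, 1) * ω)).quasiMeasurePreserving.ae
      (hB _ (hb n))] with x hx
    have e : x * (a n * ω.1 * b n, 1) * (1, ω.2) = x * ((a n, 1) * ω) * (b n, 1) := by
      ext <;> simp [mul_assoc]
    simp only [err]
    rw [e, hx, mul_assoc x]

/-- step B: at a good point the smoothed slice is invariant -/
lemma stepB (hC : ContStmt.{v}) {Γ N : Subgroup (G₁ × G₂)} {C : Set (G₁ × G₂)} (hCc : IsCompact C)
    (hΓ : ∀ x, ∃ γ ∈ Γ, γ⁻¹ * x ∈ C) (hN : ∀ γ ∈ Γ, ∀ n ∈ N, γ * n * γ⁻¹ ∈ N) {D : Set G₁}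
    (hDo : IsOpen D) (hDd : Dense D) {f : G₁ × G₂ → ℝ} {M : ℝ} (hf : Measurable f)
    (hM : ∀ x, |f x| ≤ M) (hfN : ∀ n ∈ N, ∀ x, f (n * x) = f x) {U₂ : Set G₂} (hU : IsCompact U₂)
    (a : ℕ → G₁) (x : G₁ × G₂)
    (hx : ∀ K, IsCompact K → Tendsto (fun j => ∫⁻ ω in K ∩ D ×ˢ univ, err f (a j) x ω
      ∂(μ₁.prod μ₂)) atTop (𝓝 0)) {n : G₁ × G₂} (hn : n ∈ N) (z : G₂) :
    ∫ y in U₂, f (x.1, n.2 * z * y) ∂μ₂ = ∫ y in U₂, f (x.1, z * y) ∂μ₂ := by
  set μ := μ₁.prod μ₂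
  set P : G₂ → ℝ := fun z => ∫ y in U₂, f (x.1, z * y) ∂μ₂ with hP
  have hfx : Measurable fun z : G₂ => f (x.1, z) := hf.comp measurable_prodMk_left
  have hPc : Continuous P := (hC G₂ μ₂ (fun z => f (x.1, z)) M U₂ hfx (fun _ => hM _) hU).1
  choose γ' hγ' hc' using fun j => hΓ (x * (a j, 1))
  obtain ⟨c, -, φ, hφ, hlim⟩ := hCc.tendsto_subseq hc'
  set γ : ℕ → G₁ × G₂ := fun j => γ' (φ j)
  set cc : ℕ → G₁ × G₂ := fun j => (γ j)⁻¹ * (x * (a (φ j), 1)) with hcc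
  replace hlim : Tendsto cc atTop (𝓝 c) := hlim
  have hγ2 : ∀ j, (γ j).2 = x.2 * (cc j).2⁻¹ := fun j => by simp [hcc]
  set g := x.2 * c.2⁻¹
  have hg : Tendsto (fun j => (γ j).2) atTop (𝓝 g) := by
    simp only [hγ2]
    exact (((continuous_snd.tendsto c).comp hlim).inv).const_mul _
  -- the estimate for one translate
  have B0 : ∀ (W : Set G₁) (h : G₁ × G₂), IsCompact W →
      (∀ᶠ j in atTop, ∀ w ∈ W, (cc j).1⁻¹ * h.1 * w ∈ D) →
      Tendsto (fun j => ∫⁻ y in W ×ˢ U₂, ‖f (γ j * h * y) - f (x.1, (γ j).2 * h.2 * y.2)‖ₑ ∂μ)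
        atTop (𝓝 0) := by
    intro W h hW hev
    have hK : IsCompact ((fun p : (G₁ × G₂) × (G₁ × G₂) => p.1⁻¹ * h * p.2) '' C ×ˢ (W ×ˢ U₂)) :=
      (hCc.prod (hW.prod hU)).image (by fun_prop)
    refine tendsto_of_tendsto_of_tendsto_of_le_of_le' tendsto_const_nhds
      ((hx _ hK).comp hφ.tendsto_atTop) (Eventually.of_forall fun _ => zero_le) ?_
    filter_upwards [hev] with j hj
    simp only [Function.comp_apply]
    refine le_of_le_of_eq ?_ ((measurePreserving_mul_left μ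
      ((cc j)⁻¹ * h)).setLIntegral_comp_preimage_emb (measurableEmbedding_mulLeft _) _ _)
    refine (le_of_eq ?_).trans (lintegral_mono_set (s := W ×ˢ U₂) fun y hy => ?_)
    · refine lintegral_congr fun y => ?_
      have e1 : x * (a (φ j), 1) * ((cc j)⁻¹ * h * y) = γ j * h * y := by
        simp only [hcc]; group
      have e2 : x * (1, ((cc j)⁻¹ * h * y).2) = (x.1, (γ j).2 * h.2 * y.2) := by
        ext <;> simp [hγ2, mul_assoc]
      simp only [err, e1, e2]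
    · exact ⟨⟨(cc j, y), ⟨hc' _, hy⟩, rfl⟩, hj _ hy.1, trivial⟩
  have B1 : ∀ m ∈ N, ∀ z, P (g * m.2 * z) = P (g * z) := by
    intro m hm z
    have d1 : Dense ((fun w => c.1⁻¹ * w) ⁻¹' D) :=
      hDd.preimage (Homeomorph.mulLeft c.1⁻¹).isOpenMap
    obtain ⟨w₀, hw1, hw2⟩ : (((fun w => c.1⁻¹ * m.1 * w) ⁻¹' D) ∩
        ((fun w => c.1⁻¹ * w) ⁻¹' D)).Nonempty :=
      d1.inter_open_nonempty _ (hDo.preimage (by fun_prop))
        (hDd.preimage (Homeomorph.mulLeft (c.1⁻¹ * m.1)).isOpenMap).nonempty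
    have hop : {p : G₁ × G₁ | p.1⁻¹ * m.1 * p.2 ∈ D ∧ p.1⁻¹ * p.2 ∈ D} ∈ 𝓝 (c.1, w₀) :=
      IsOpen.mem_nhds ((hDo.preimage (by fun_prop)).inter (hDo.preimage (by fun_prop)))
        ⟨hw1, hw2⟩
    obtain ⟨V, hV, W', hW', hVW⟩ := mem_nhds_prod_iff.1 hop
    obtain ⟨W, hWn, hWW, hW⟩ := local_compact_nhds hW'
    have hev : ∀ᶠ j in atTop, (cc j).1 ∈ V := ((continuous_fst.tendsto c).comp hlim) hV
    have t1 := B0 W (m * (1, z)) hW (hev.mono fun j hj w hw => by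
      simpa using (hVW (mk_mem_prod hj (hWW hw))).1)
    have t2 := B0 W (1, z) hW (hev.mono fun j hj w hw => by
      simpa using (hVW (mk_mem_prod hj (hWW hw))).2)
    have hW0 : μ₁ W ≠ 0 := (Measure.measure_pos_of_mem_nhds μ₁ hWn).ne'
    have t3 : Tendsto (fun j => μ₁ W * ‖P ((γ j).2 * m.2 * z) - P ((γ j).2 * z)‖ₑ) atTop (𝓝 0) := by
      refine tendsto_of_tendsto_of_tendsto_of_le_of_le tendsto_const_nhds
        (by simpa using t1.add t2) (fun _ => zero_le) fun j => ?_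
      have m1 : ∀ s : G₂, Measurable fun y => f (x.1, s * y) := fun s =>
        hfx.comp (measurable_const_mul s)
      have i1 : ∀ s : G₂, IntegrableOn (fun y => f (x.1, s * y)) U₂ μ₂ := fun s =>
        integrableOn_bdd hU.measure_lt_top.ne (m1 s) fun _ => hM _
      calc μ₁ W * ‖P ((γ j).2 * m.2 * z) - P ((γ j).2 * z)‖ₑ
          ≤ μ₁ W * ∫⁻ y in U₂, ‖f (x.1, (γ j).2 * m.2 * z * y) - f (x.1, (γ j).2 * z * y)‖ₑ ∂μ₂ := by
            gcongr
            rw [hP]; beta_reduce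
            rw [← integral_sub (i1 _) (i1 _)]
            exact enorm_integral_le_lintegral_enorm _
        _ = ∫⁻ y in W ×ˢ U₂,
            ‖f (x.1, (γ j).2 * m.2 * z * y.2) - f (x.1, (γ j).2 * z * y.2)‖ₑ ∂μ := by
            have m2 : Measurable fun y : G₁ × G₂ =>
                ‖f (x.1, (γ j).2 * m.2 * z * y.2) - f (x.1, (γ j).2 * z * y.2)‖ₑ :=
              ((m1 _).sub (m1 _)).enorm.comp measurable_snd
            rw [← Measure.prod_restrict, lintegral_prod _ m2.aemeasurable]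
            simp [mul_comm]
        _ ≤ ∫⁻ y in W ×ˢ U₂, (‖f (γ j * (m * (1, z)) * y) - f (x.1, (γ j).2 * (m.2 * z) * y.2)‖ₑ +
            ‖f (γ j * (1, z) * y) - f (x.1, (γ j).2 * z * y.2)‖ₑ) ∂μ := by
            refine lintegral_mono fun y => ?_
            have e : f (γ j * (m * (1, z)) * y) = f (γ j * (1, z) * y) := by
              rw [← hfN _ (hN _ (hγ' (φ j)) m hm) (γ j * (1, z) * y)]
              congr 1; simp only [γ]; group
            rw [e, ← mul_assoc (γ j).2, enorm_sub_rev (f (γ j * (1, z) * y))]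
            simp only [← edist_eq_enorm_sub]
            exact edist_triangle _ _ _
        _ = _ := lintegral_add_right _ (((hf.comp (measurable_const_mul _)).sub
            ((m1 _).comp measurable_snd)).enorm)
    have t4 : Tendsto (fun j => μ₁ W * ‖P ((γ j).2 * m.2 * z) - P ((γ j).2 * z)‖ₑ) atTop
        (𝓝 (μ₁ W * ‖P (g * m.2 * z) - P (g * z)‖ₑ)) :=
      ENNReal.Tendsto.const_mul (((hPc.tendsto _).comp ((hg.mul_const _).mul_const _)).sub
        ((hPc.tendsto _).comp (hg.mul_const _))).enorm (Or.inr hW.measure_lt_top.ne)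
    have := tendsto_nhds_unique t4 t3
    simpa [hW0, sub_eq_zero] using this
  have t5 : Tendsto (fun j => P (g * ((γ j)⁻¹ * n * γ j).2 * (g⁻¹ * z))) atTop
      (𝓝 (P (g * (g⁻¹ * n.2 * g) * (g⁻¹ * z)))) :=
    (hPc.tendsto _).comp ((((hg.inv.mul_const _).mul hg).const_mul _).mul_const _)
  have t6 : ∀ j, P (g * ((γ j)⁻¹ * n * γ j).2 * (g⁻¹ * z)) = P (g * (g⁻¹ * z)) := fun j =>
    B1 _ (by simpa using hN _ (Γ.inv_mem (hγ' (φ j))) n hn) _
  simp only [t6] at t5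
  have := tendsto_nhds_unique t5 tendsto_const_nhds
  rw [show g * (g⁻¹ * n.2 * g) * (g⁻¹ * z) = n.2 * z by group, mul_inv_cancel_left] at this
  exact this

end Ct39

open Ct39 in
theorem ctStmt (hC : ContStmt.{max u v}) (hC₂ : ContStmt.{v}) : CtStmt.{u, v} := by
  intro G₁ G₂ _ _ _ _ _ _ _ _ _ _ _ _ _ _ _ _ μ₁ μ₂ _ _ _ Γ N B a D f M U₁ U₂ ⟨C, hCc, hΓ⟩ hN hD hf hM
    hfN hB hU₁ hU₂ n hn x
  set μ := μ₁.prod μ₂
  let K := CompactExhaustion.choice (G₁ × G₂)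
  obtain ⟨s, hs⟩ := diag μ (fun k j => (K k).indicator fun x =>
      ∫⁻ ω in K k ∩ D ×ˢ univ, err f (a j) x ω ∂μ)
    (fun k j => (err_meas hf (a j)).lintegral_prod_right.indicator (K.isCompact k).measurableSet)
    fun k => by
      simp_rw [lintegral_indicator (K.isCompact k).measurableSet]
      exact stepA μ₁ μ₂ hC hD hf hM hB (K.isCompact k)
  have h1 : ∀ᵐ y ∂μ, ∀ z, ∫ t in U₂, f (y.1, n.2 * z * t) ∂μ₂ = ∫ t in U₂, f (y.1, z * t) ∂μ₂ := by
    filter_upwards [hs] with y hy z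
    refine stepB μ₁ μ₂ hC₂ hCc hΓ hN hD.1 hD.2.1 hf hM hfN hU₂ (fun j => a (s j)) y
      (fun L hL => ?_) hn z
    obtain ⟨k, hk⟩ := K.exists_superset_of_isCompact (hL.insert y)
    have := hy k
    simp only [indicator_of_mem (hk (mem_insert y L))] at this
    exact tendsto_of_tendsto_of_tendsto_of_le_of_le tendsto_const_nhds this (fun _ => zero_le)
      fun j => lintegral_mono_set (inter_subset_inter_left _ ((subset_insert _ _).trans hk))
  have h2 : ∀ᵐ y ∂μ₁, ∀ z, ∫ t in U₂, f (y, n.2 * z * t) ∂μ₂ = ∫ t in U₂, f (y, z * t) ∂μ₂ := by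
    filter_upwards [Measure.ae_ae_of_ae_prod h1] with y hy
    exact hy.exists.choose_spec
  have hfin : μ (U₁ ×ˢ U₂) ≠ ∞ := (hU₁.prod hU₂).measure_lt_top.ne
  have i1 : ∀ g : G₁ × G₂, IntegrableOn (fun y => f (g * y)) (U₁ ×ˢ U₂) μ := fun g =>
    integrableOn_bdd hfin (hf.comp (measurable_const_mul g)) fun _ => hM _
  rw [setIntegral_prod _ (i1 _), setIntegral_prod _ (i1 _)]
  refine integral_congr_ae (ae_restrict_of_ae ?_)
  filter_upwards [(measurePreserving_mul_left μ₁ x.1).quasiMeasurePreserving.ae h2] with y hy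
  have := hy x.2
  simpa [Prod.mul_def] using this

end Crest.Agent.T24.Nst
end

-- ▼ part T24/NstAm_39

/-!
# Row 24, NST: the amenable half and the assembly from the leaves.
-/

set_option autoImplicit false

namespace Crest.Agent.T24.Nst

open Topology Filter MeasureTheory Set
open scoped ENNReal

universe u v w

open Ct39 in
theorem amStmt (hF : FdStmt.{max u v}) (hC : ContStmt.{max u v}) (hE : EndStmt.{u, v})
    (hX : FixStmt.{max u v}) (hT : CtStmt.{u, v}) : AmStmt.{u, v, w} := by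
  intro G₁ G₂ _ _ _ _ _ _ _ _ _ _ _ _ Γ N Q _ κ hκ hker hS ⟨B, a, D, hB, hD⟩ ⟨k, s, f, M, ε, hε, hM, hf⟩
  borelize G₁ G₂
  let μ₁ : Measure G₁ := Measure.haar
  let μ₂ : Measure G₂ := Measure.haar
  set μ := μ₁.prod μ₂
  obtain ⟨hcount, -, ⟨c, hc⟩, huni⟩ := hF (G₁ × G₂) Γ hS.lat
  have := huni μ
  have : Countable N := (Subgroup.inclusion_injective hS.le).countable
  choose σ hσ using fun i => hκ (s i)
  have : Group.IsSolvable (B.map (MonoidHom.inl G₁ G₂)) :=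
    Group.isSolvable_of_surjective (f := (MonoidHom.inl G₁ G₂).subgroupMap B)
      (MonoidHom.subgroupMap_surjective _ _)
  have hcm : ∀ g : Γ → ℝ, Measurable fun x => g (c x) := fun g t _ => by
    have : (fun x => g (c x)) ⁻¹' t = ⋃ γ : {γ // g γ ∈ t}, {x | c x = γ} := by
      ext x; simp
    rw [this]
    exact .iUnion fun γ => hc.meas _
  obtain ⟨F, hFm, hFM, hFN, hFε, hFB⟩ := hX (G₁ × G₂) μ N (B.map (MonoidHom.inl G₁ G₂)) k
    (fun i => σ i) (fun i x => f i (κ (c x))) M ε (fun i => hcm fun γ => f i (κ γ))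
    (fun i x => hM _ _)
    (fun i n hn x => by
      have := hc.equiv ⟨n, hS.le hn⟩ x
      simp only at this
      simp only [this, map_mul, (hker ⟨n, hS.le hn⟩).2 hn, one_mul])
    (fun x => by simpa only [hc.equiv, map_mul, hσ] using hf (κ (c x)))
  obtain ⟨U₁, hU₁, hU₁n⟩ := exists_compact_mem_nhds (1 : G₁)
  obtain ⟨U₂, hU₂, hU₂n⟩ := exists_compact_mem_nhds (1 : G₂)
  have hU := hU₁.prod hU₂
  have hUpos : 0 < μ.real (U₁ ×ˢ U₂) := ENNReal.toReal_pos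
    (Measure.measure_pos_of_mem_nhds μ (prod_mem_nhds hU₁n hU₂n)).ne' hU.measure_lt_top.ne
  obtain ⟨H, hHn, hHf, hH⟩ := hE G₁ G₂ N hS.dense hS.fin
  let p : Fin k → G₁ × G₂ → ℝ := fun i x => ∫ y in U₁ ×ˢ U₂, F i (x * y) ∂μ
  have hp : ∀ i, ∀ h ∈ H, ∀ x, p i (h * x) = p i x := fun i =>
    hH (p i) (hC _ μ (F i) M _ (hFm i) (hFM i) hU).1
      (fun n hn x => by simp only [p, mul_assoc, hFN i n hn])
      (Or.inr fun n hn x => hT G₁ G₂ μ₁ μ₂ Γ N B a D (F i) M U₁ U₂ hS.lat.cocpt hS.nrm hD (hFm i)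
        (hFM i) (hFN i) (fun b hb => hFB i _ ⟨b, hb, rfl⟩) hU₁ hU₂ n hn x)
  have i1 : ∀ i (g : G₁ × G₂), IntegrableOn (fun y => F i (g * y)) (U₁ ×ˢ U₂) μ := fun i g =>
    integrableOn_bdd hU.measure_lt_top.ne ((hFm i).comp (measurable_const_mul g)) fun _ => hFM i _
  have hpε : ∀ x, ε * μ.real (U₁ ×ˢ U₂) ≤ ∑ i, (p i (σ i * x) - p i x) := fun x => by
    have e : ∑ i, (p i (σ i * x) - p i x) =
        ∫ y in U₁ ×ˢ U₂, ∑ i, (F i (σ i * x * y) - F i (x * y)) ∂μ := by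
      refine Eq.trans ?_ (integral_finsetSum _ fun i _ => (i1 i _).sub (i1 i _)).symm
      exact Finset.sum_congr rfl fun i _ => (integral_sub (i1 i _) (i1 i _)).symm
    rw [e, mul_comm, ← smul_eq_mul, ← setIntegral_const]
    refine integral_mono_ae (integrableOn_const hU.measure_lt_top.ne)
      (integrable_finsetSum _ fun i _ => (i1 i _).sub (i1 i _)) (ae_restrict_of_ae ?_)
    filter_upwards [(measurePreserving_mul_left μ x).quasiMeasurePreserving.ae hFε] with y hy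
    simpa only [mul_assoc] using hy
  -- sum over the finite quotient
  have : Fintype ((G₁ × G₂) ⧸ H) := Fintype.ofFinite _
  have hq : ∀ i (x y : G₁ × G₂), (x : (G₁ × G₂) ⧸ H) = y → p i x = p i y := fun i x y h => by
    have h1 : y * x⁻¹ ∈ H := by
      simpa [mul_assoc] using hHn.conj_mem _ (QuotientGroup.eq.1 h) x
    rw [← hp i _ h1 x, inv_mul_cancel_right]
  have hsum : ∀ i, ∑ q : (G₁ × G₂) ⧸ H, p i (σ i * q.out) = ∑ q : (G₁ × G₂) ⧸ H, p i q.out :=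
    fun i => Fintype.sum_equiv (Equiv.mulLeft ((σ i : G₁ × G₂) : (G₁ × G₂) ⧸ H)) _ _ fun q =>
      hq i _ _ (by simp)
  have h0 : ∑ q : (G₁ × G₂) ⧸ H, ∑ i, (p i (σ i * q.out) - p i q.out) = 0 := by
    rw [Finset.sum_comm]
    exact Finset.sum_eq_zero fun i _ => by rw [Finset.sum_sub_distrib, hsum, sub_self]
  have h1 : 0 < ∑ q : (G₁ × G₂) ⧸ H, ∑ i, (p i (σ i * q.out) - p i q.out) :=
    Finset.sum_pos (fun q _ => (mul_pos hε hUpos).trans_le (hpε _)) Finset.univ_nonempty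
  exact h1.ne' h0

/-- the normal subgroup theorem for an abstract first factor -/
theorem nst_gen (hA : AmStmt.{u, v, w}) (hH : HbStmt.{w}) (hT : ThStmt.{u, v, w})
    (G₁ : Type u) (G₂ : Type v) [Group G₁] [TopologicalSpace G₁] [IsTopologicalGroup G₁]
    [LocallyCompactSpace G₁] [SecondCountableTopology G₁] [T2Space G₁] [Group G₂]
    [TopologicalSpace G₂] [IsTopologicalGroup G₂] [LocallyCompactSpace G₂]
    [SecondCountableTopology G₂] [T2Space G₂] (Γ : Type w) [Group Γ] (ι₁ : Γ →* G₁) (ι₂ : Γ →* G₂)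
    (N : Subgroup Γ) [hN : N.Normal] (hK : Kaz.{u, max u v} G₁) (hC : Ctr G₁)
    (hd : ∃ U₁ ∈ 𝓝 (1 : G₁), ∃ U₂ ∈ 𝓝 (1 : G₂), ∀ γ, ι₁ γ ∈ U₁ → ι₂ γ ∈ U₂ → γ = 1)
    (hc : ∃ C₁ C₂, IsCompact C₁ ∧ IsCompact C₂ ∧
      ∀ x₁ x₂, ∃ γ, (ι₁ γ)⁻¹ * x₁ ∈ C₁ ∧ (ι₂ γ)⁻¹ * x₂ ∈ C₂)
    (h1 : Dense (ι₁ '' (N : Set Γ))) (h2 : (N.map ι₂).topologicalClosure.FiniteIndex) :
    N.FiniteIndex := by
  obtain ⟨U₁, hU₁, U₂, hU₂, hU⟩ := hd
  obtain ⟨C₁, C₂, hC₁, hC₂, hCC⟩ := hc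
  set ι := ι₁.prod ι₂ with hι
  have hinj : Function.Injective ι := (injective_iff_map_eq_one ι).2 fun γ h => by
    have h' := Prod.ext_iff.1 h
    exact hU γ (by rw [show ι₁ γ = 1 from h'.1]; exact mem_of_mem_nhds hU₁)
      (by rw [show ι₂ γ = 1 from h'.2]; exact mem_of_mem_nhds hU₂)
  let e := MonoidHom.ofInjective hinj
  let κ : ι.range →* Γ ⧸ N := (QuotientGroup.mk' N).comp e.symm.toMonoidHom
  have hκ : Function.Surjective κ := (QuotientGroup.mk'_surjective N).comp e.symm.surjective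
  have hker : ∀ γ : ι.range, κ γ = 1 ↔ (γ : G₁ × G₂) ∈ N.map ι := fun γ => by
    obtain ⟨γ, rfl⟩ := e.surjective γ
    have : ((e γ : ι.range) : G₁ × G₂) = ι γ := rfl
    rw [this, Subgroup.mem_map_iff_mem hinj]
    simp [κ]
  have hS : Setup ι.range (N.map ι) := by
    refine ⟨⟨⟨U₁ ×ˢ U₂, prod_mem_nhds hU₁ hU₂, ?_⟩, C₁ ×ˢ C₂, hC₁.prod hC₂, fun x => ?_⟩,
      N.map_le_range ι, ?_, ?_, ?_⟩
    · rintro _ ⟨γ, rfl⟩ h
      rw [hU γ h.1 h.2, map_one]
    · obtain ⟨γ, hγ⟩ := hCC x.1 x.2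
      exact ⟨ι γ, ⟨γ, rfl⟩, hγ⟩
    · rintro _ ⟨γ, rfl⟩ _ ⟨n, hn, rfl⟩
      exact ⟨_, hN.conj_mem n hn γ, by simp⟩
    · rw [Subgroup.coe_map, image_image]
      exact h1
    · rw [Subgroup.map_map]
      exact h2
  have := hT G₁ G₂ _ _ _ κ hκ hker hS hK (hH _ (hA G₁ G₂ _ _ _ κ hκ hker hS hC))
  exact Subgroup.finiteIndex_of_finite_quotient

section SL

variable {F : Type u} [Field F] [TopologicalSpace F] {n : Type} [Fintype n] [DecidableEq n]

lemma sl_closedEmbedding [IsTopologicalRing F] [T2Space F] :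
    IsClosedEmbedding ((↑) : Matrix.SpecialLinearGroup n F → Matrix n n F) :=
  (isClosed_eq (continuous_id.matrix_det) continuous_const :
    IsClosed {A : Matrix n n F | A.det = 1}).isClosedEmbedding_subtypeVal

lemma sl_lc [IsTopologicalRing F] [T2Space F] [LocallyCompactSpace F] :
    LocallyCompactSpace (Matrix.SpecialLinearGroup n F) :=
  haveI : LocallyCompactSpace (Matrix n n F) := inferInstanceAs (LocallyCompactSpace (n → n → F))
  sl_closedEmbedding.locallyCompactSpace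

lemma sl_sc [SecondCountableTopology F] :
    SecondCountableTopology (Matrix.SpecialLinearGroup n F) :=
  haveI : SecondCountableTopology (Matrix n n F) :=
    inferInstanceAs (SecondCountableTopology (n → n → F))
  TopologicalSpace.Subtype.secondCountableTopology {A : Matrix n n F | A.det = 1}

lemma sl_t2 [T2Space F] : T2Space (Matrix.SpecialLinearGroup n F) :=
  inferInstanceAs (T2Space {A : Matrix n n F // A.det = 1})

end SL

theorem nst_of (hK : KazStmt.{u, max u v}) (hC : CtrStmt.{u}) (hA : AmStmt.{u, v, w})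
    (hH : HbStmt.{w}) (hT : ThStmt.{u, v, w}) : NstStmt.{u, v, w} := by
  intro F _ _ _ _ _ _ O π d G₂ _ _ _ _ _ _ Γ _ ι₁ ι₂ N hL hd hN h1 h2 h3 h4
  have := sl_lc (F := F) (n := Fin d)
  have := sl_sc (F := F) (n := Fin d)
  have := sl_t2 (F := F) (n := Fin d)
  exact nst_gen hA hH hT _ G₂ Γ ι₁ ι₂ N (hK F O π d hL hd) (hC F π d hL.ne hL.tend (by omega))
    h1 h2 h3 h4

end Crest.Agent.T24.Nst
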