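import Crest.Agent.T24.NstDef_39
import Crest.Agent.T24.Kaz_16
import Crest.Agent.T24.NstAm_39
import Crest.Agent.T24.NstFd_29
import Crest.Agent.T24.DefS_26

-- ▼ part T24/NstTh_5
section

/-!
# Row 24, module NST: the (T) half (helper5)

`L²(N \ G)` is realised on a strict fundamental domain `{x | P x = x}` of `N`.
-/

set_option autoImplicit false

namespace Crest.Agent.T24.Nst

open Topology Filter MeasureTheory Crest.Agent.N111
open scoped ENNReal

universe u v w

namespace Th5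

section sel
variable {G : Type*} [Group G] [MeasurableSpace G] {N : Subgroup G} {P : G → G}

/-- the fundamental domain of a selector -/
def dom (P : G → G) : Set G := {x | P x = x}

/-- a measurable choice of a point in each orbit `N x` -/
structure Sel (N : Subgroup G) (P : G → G) : Prop where
  meas : Measurable P
  mdom : MeasurableSet (dom P)
  inv : ∀ n ∈ N, ∀ x, P (n * x) = P x
  ex : ∀ x, ∃ n ∈ N, P x = n * x

variable [MeasurableMul G] (μ : Measure G)

namespace Sel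

theorem fd (h : Sel N P) (g : G) : IsFundamentalDomain N ((fun x => x * g) ⁻¹' dom P) μ := by
  refine IsFundamentalDomain.mk' (measurable_mul_const g h.mdom).nullMeasurableSet fun x => ?_
  obtain ⟨n, hn, e⟩ := h.ex (x * g)
  refine ⟨⟨n, hn⟩, ?_, fun m hm => Subtype.ext ?_⟩
  · change P (n * x * g) = n * x * g
    rw [mul_assoc, h.inv n hn, e]
  · change P ((m : G) * x * g) = m * x * g at hm
    rw [mul_assoc, h.inv m m.2, e] at hm
    exact (mul_right_cancel hm).symm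

theorem fd1 (h : Sel N P) : IsFundamentalDomain N (dom P) μ := by simpa using h.fd μ 1

omit [MeasurableMul G] in
theorem comp_mul (h : Sel N P) (x g : G) : P (P x * g) = P (x * g) := by
  obtain ⟨n, hn, e⟩ := h.ex x
  rw [e, mul_assoc, h.inv n hn]

variable [Countable N] [μ.IsMulLeftInvariant]

theorem ae_of_dom (h : Sel N P) {p : G → Prop} (hp : ∀ n ∈ N, ∀ x, p (n * x) ↔ p x)
    (ha : ∀ᵐ x ∂μ.restrict (dom P), p x) : ∀ᵐ x ∂μ, p x := by
  rw [ae_iff] at ha ⊢
  rw [Measure.restrict_apply' h.mdom] at ha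
  refine (h.fd1 μ).measure_zero_of_invariant _ (fun n => ?_) ha
  ext x
  rw [Set.mem_smul_set_iff_inv_smul_mem]
  exact not_congr (hp _ (n⁻¹).2 x)

variable [μ.IsMulRightInvariant]

theorem shift (h : Sel N P) (f : G → ℝ≥0∞) (hf : ∀ n ∈ N, ∀ x, f (n * x) = f x) (g : G) :
    ∫⁻ x in dom P, f (x * g) ∂μ = ∫⁻ x in dom P, f x ∂μ := by
  rw [(h.fd1 μ).setLIntegral_eq (h.fd μ g) _ fun n x => by
      rw [Subgroup.smul_def, smul_eq_mul, mul_assoc, hf _ n.2],
    ← lintegral_indicator h.mdom, ← lintegral_indicator (measurable_mul_const g h.mdom),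
    ← lintegral_mul_right_eq_self ((dom P).indicator f) g]
  rfl

theorem mp (h : Sel N P) (g : G) :
    MeasurePreserving (fun x => P (x * g)) (μ.restrict (dom P)) (μ.restrict (dom P)) := by
  have hm : Measurable fun x => P (x * g) := h.meas.comp (measurable_mul_const g)
  refine ⟨hm, Measure.ext fun A hA => ?_⟩
  rw [Measure.map_apply hm hA, ← lintegral_indicator_one (hm hA), ← lintegral_indicator_one hA]
  have := h.shift μ (fun x => A.indicator 1 (P x)) (fun n hn x => by rw [h.inv n hn]) g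
  refine Eq.trans rfl (this.trans (setLIntegral_congr_fun h.mdom fun x hx => ?_))
  rw [show P x = x from hx]

/-- right translation on `L²(N \ G)` -/
noncomputable def tr (h : Sel N P) (g : G) :
    Lp ℂ 2 (μ.restrict (dom P)) →L[ℂ] Lp ℂ 2 (μ.restrict (dom P)) :=
  (Lp.compMeasurePreservingₗᵢ ℂ _ (h.mp μ g)).toContinuousLinearMap

theorem tr_coe (h : Sel N P) (g : G) (ξ : Lp ℂ 2 (μ.restrict (dom P))) :
    h.tr μ g ξ =ᵐ[μ.restrict (dom P)] fun x => ξ (P (x * g)) :=
  Lp.coeFn_compMeasurePreserving ξ (h.mp μ g)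

/-- the representation on `L²(N \ G)` -/
noncomputable def rep (h : Sel N P) : URep G (Lp ℂ 2 (μ.restrict (dom P))) :=
  URep.mk' (h.tr μ)
    (by
      ext1 ξ
      refine Lp.ext ?_
      filter_upwards [h.tr_coe μ 1 ξ, ae_restrict_mem h.mdom] with x h1 h2
      rw [h1, mul_one, show P x = x from h2]; rfl)
    (fun g k => by
      ext1 ξ
      refine Lp.ext ?_
      filter_upwards [h.tr_coe μ (g * k) ξ, h.tr_coe μ g (h.tr μ k ξ),
        (h.mp μ g).quasiMeasurePreserving.ae (h.tr_coe μ k ξ)] with x h1 h2 h3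
      rw [h1, mul_apply_eq_comp, h2, h3, h.comp_mul, mul_assoc])
    fun g ξ => Lp.norm_compMeasurePreserving ξ (h.mp μ g)

theorem rep_coe (h : Sel N P) (g : G) (ξ : Lp ℂ 2 (μ.restrict (dom P))) :
    h.rep μ g ξ =ᵐ[μ.restrict (dom P)] fun x => ξ (P (x * g)) := h.tr_coe μ g ξ

end Sel
end sel

theorem eL2 {α : Type*} [MeasurableSpace α] (ν : Measure α) (f : α → ℂ) :
    eLpNorm f 2 ν ^ 2 = ∫⁻ x, ‖f x‖ₑ ^ 2 ∂ν := by
  have := eLpNorm_nnreal_pow_eq_lintegral (μ := ν) (f := f) (p := 2) two_ne_zero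
  simpa [ENNReal.rpow_two] using this

theorem enorm_sq {α : Type*} [MeasurableSpace α] {ν : Measure α} (ξ : Lp ℂ 2 ν) :
    ENNReal.ofReal (‖ξ‖ ^ 2) = ∫⁻ x, ‖ξ x‖ₑ ^ 2 ∂ν := by
  rw [← eL2, ← Lp.enorm_def, ENNReal.ofReal_pow (norm_nonneg _), ofReal_norm]

theorem enorm_real (t : ℝ) : ‖(t : ℂ)‖ₑ ^ 2 = ENNReal.ofReal (t ^ 2) := by
  rw [← ofReal_norm, ← ENNReal.ofReal_pow (norm_nonneg _), Complex.norm_real, Real.norm_eq_abs,
    sq_abs]

section coc
variable {G : Type*} [Group G] [TopologicalSpace G] [MeasurableSpace G] [MeasurableMul₂ G]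
  [MeasurableSingletonClass G] {Γ N : Subgroup G} [Countable Γ] {c : G → Γ}
  {Q : Type*} [Group Q] {κ : Γ →* Q} {sec : Q → Γ}

omit [MeasurableMul₂ G] in
theorem c_meas (hc : Coc Γ c) {β : Type*} [MeasurableSpace β] (f : Γ → β) : Measurable fun x => f (c x) :=
  (measurable_of_countable f).comp (measurable_to_countable' hc.meas)

/-- the selector attached to `t : Γ → Γ` -/
def pt (c : G → Γ) (t : Γ → Γ) (x : G) : G := (t (c x) : Γ) * (((c x : Γ) : G)⁻¹ * x)

omit [TopologicalSpace G] [MeasurableSpace G] [MeasurableMul₂ G]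
  [MeasurableSingletonClass G] [Countable Γ] in
theorem mem_dom {t : Γ → Γ} {x : G} : x ∈ dom (pt c t) ↔ t (c x) = c x := by
  change (t (c x) : G) * (((c x : Γ) : G)⁻¹ * x) = x ↔ _
  rw [← mul_assoc, mul_eq_right, mul_inv_eq_one, Subtype.coe_inj]

theorem sel_pt (hc : Coc Γ c) {t : Γ → Γ} (hN : N ≤ Γ) (h1 : ∀ n (hn : n ∈ N) γ, t (⟨n, hN hn⟩ * γ) = t γ)
    (h2 : ∀ γ, ((t γ * γ⁻¹ : Γ) : G) ∈ N) : Sel N (pt c t) where
  meas := (c_meas hc fun γ => (t γ : G)).mul ((c_meas hc fun γ => (γ : G)⁻¹).mul measurable_id)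
  mdom := by
    have : dom (pt c t) = (fun x => c x) ⁻¹' {γ | t γ = γ} := Set.ext fun x => mem_dom
    rw [this]
    exact c_meas hc id (Set.to_countable _).measurableSet
  inv n hn x := by
    have := hc.equiv ⟨n, hN hn⟩ x
    simp only [pt] at this ⊢
    rw [this, h1 n hn]
    simp [mul_assoc]
  ex x := ⟨_, h2 (c x), by simp [pt, mul_assoc]⟩

theorem selG (hc : Coc Γ c) : Sel Γ (pt c fun _ => 1) :=
  sel_pt hc le_rfl (fun _ _ _ => rfl) fun _ => Subtype.property _

theorem selN (hc : Coc Γ c) (hN : N ≤ Γ) (hk : ∀ γ : Γ, κ γ = 1 ↔ (γ : G) ∈ N) (hs : ∀ q, κ (sec q) = q) :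
    Sel N (pt c fun γ => sec (κ γ)) :=
  sel_pt hc hN (fun n hn γ => by rw [map_mul, (hk ⟨n, hN hn⟩).2 hn, one_mul]) fun γ =>
    (hk _).1 (by rw [map_mul, hs, map_inv, mul_inv_cancel])

variable (μ : Measure G) [μ.IsMulLeftInvariant]

/-- unfolding over `Q` -/
theorem unf (hc : Coc Γ c) (hN : N ≤ Γ) (hk : ∀ γ : Γ, κ γ = 1 ↔ (γ : G) ∈ N) (hs : ∀ q, κ (sec q) = q)
    (f : G → ℝ≥0∞) : ∫⁻ x in dom (pt c fun γ => sec (κ γ)), f x ∂μ =
      ∑' q, ∫⁻ x in dom (pt c fun _ => 1), f (sec q * x) ∂μ := by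
  have hG := selG hc
  have hi : Function.Injective sec := fun a b h => by rw [← hs a, h, hs]
  have key : ∀ γ : Γ, ∀ x ∈ dom (pt c fun _ => 1),
      (γ : G) * x ∈ dom (pt c fun γ => sec (κ γ)) ↔ sec (κ γ) = γ := fun γ x hx => by
    rw [mem_dom, hc.equiv, ← mem_dom.1 hx, mul_one]
  rw [← lintegral_indicator (selN hc hN hk hs).mdom, (hG.fd1 μ).lintegral_eq_tsum'', ← hi.tsum_eq]
  · refine tsum_congr fun q => setLIntegral_congr_fun hG.mdom fun x hx => ?_
    exact Set.indicator_of_mem ((key _ x hx).2 (by rw [hs])) _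
  · intro γ hγ
    by_contra h
    refine hγ ((setLIntegral_congr_fun hG.mdom fun x hx => ?_).trans lintegral_zero)
    exact Set.indicator_of_notMem (fun h' => h ⟨_, (key γ x hx).1 h'⟩) _

/-- the almost invariant vector -/
theorem almost [μ.IsMulRightInvariant] [Countable N] (hc : Coc Γ c) (hN : N ≤ Γ)
    (hk : ∀ γ : Γ, κ γ = 1 ↔ (γ : G) ∈ N) (hs : ∀ q, κ (sec q) = q)
    (h0 : μ (dom (pt c fun _ => 1)) ≠ 0) (h1 : μ (dom (pt c fun _ => 1)) ≠ ∞) (hR : Reiter Q) {K : Set G}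
    (hK : {γ : Γ | ∃ x ∈ dom (pt c fun _ => 1), ∃ k ∈ K, c (x * k) = γ}.Finite) {δ : ℝ} (hδ : 0 < δ) :
    ∃ ξ, ξ ≠ 0 ∧ ∀ k ∈ K, ‖(selN hc hN hk hs).rep μ k ξ - ξ‖ ≤ δ * ‖ξ‖ := by
  have hG := selG hc
  have hS := selN hc hN hk hs
  have : Countable Q := (show Function.Surjective κ from fun q => ⟨_, hs q⟩).countable
  obtain ⟨φ, hf, hne, hφ⟩ := hR (hK.image κ).toFinset (δ ^ 2) (by positivity)
  have s1 : Summable fun q => φ q ^ 2 :=
    summable_of_hasFiniteSupport (hf.subset fun q hq h => hq (by simp [h]))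
  have s2 : ∀ s, Summable fun q => (φ (q * s) - φ q) ^ 2 := fun s =>
    summable_of_hasFiniteSupport (((hf.preimage (mul_left_injective s).injOn).union hf).subset fun q hq => by
      by_contra h
      simp only [Set.mem_union, Set.mem_preimage, Function.mem_support, not_or, not_not] at h
      exact hq (by simp [h.1, h.2]))
  have hc1 : ∀ q, ∀ x ∈ dom (pt c fun _ => 1), ∀ k, κ (c (sec q * x * k)) = q * κ (c (x * k)) :=
    fun q x _ k => by rw [mul_assoc, hc.equiv, map_mul, hs]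
  have hc2 : ∀ q, ∀ x ∈ dom (pt c fun _ => 1), κ (c (sec q * x)) = q := fun q x hx => by
    rw [hc.equiv, ← mem_dom.1 hx, mul_one, hs]
  let Φ : G → ℂ := fun x => (φ (κ (c x)) : ℂ)
  have mΦ : Measurable Φ := c_meas hc fun γ => (φ (κ γ) : ℂ)
  have iΦ : ∀ x, Φ (pt c (fun γ => sec (κ γ)) x) = Φ x := fun x => by
    obtain ⟨n, hn, e⟩ := hS.ex x
    have := hc.equiv ⟨n, hN hn⟩ x
    simp only [Φ] at this ⊢
    rw [e, this, map_mul, (hk ⟨n, hN hn⟩).2 hn, one_mul]
  have n1 : ∫⁻ x in dom (pt c fun γ => sec (κ γ)), ‖Φ x‖ₑ ^ 2 ∂μ =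
      ENNReal.ofReal (∑' q, φ q ^ 2) * μ (dom (pt c fun _ => 1)) := by
    rw [unf μ hc hN hk hs, ENNReal.ofReal_tsum_of_nonneg (fun _ => sq_nonneg _) s1,
      ← ENNReal.tsum_mul_right]
    refine tsum_congr fun q => ?_
    rw [← setLIntegral_const]
    refine setLIntegral_congr_fun hG.mdom fun x hx => ?_
    simp only [Φ]
    rw [hc2 q x hx, enorm_real]
  have hm : MemLp Φ 2 (μ.restrict (dom (pt c fun γ => sec (κ γ)))) := by
    refine ⟨mΦ.aestronglyMeasurable, lt_top_iff_ne_top.2 fun h => ?_⟩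
    have := eL2 (μ.restrict (dom (pt c fun γ => sec (κ γ)))) Φ
    rw [h, n1] at this
    exact ENNReal.mul_ne_top ENNReal.ofReal_ne_top h1 (this.symm.trans (by simp))
  have n2 : ENNReal.ofReal (‖hm.toLp Φ‖ ^ 2) = ENNReal.ofReal (∑' q, φ q ^ 2) * μ (dom (pt c fun _ => 1)) := by
    rw [enorm_sq, ← n1]
    exact lintegral_congr_ae (hm.coeFn_toLp.mono fun x hx => by simp only [hx])
  refine ⟨hm.toLp Φ, fun h => ?_, fun k hk' => ?_⟩
  · rw [h] at n2
    obtain ⟨q, hq⟩ := Function.ne_iff.1 hne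
    have : 0 < ∑' q, φ q ^ 2 := s1.tsum_pos (fun _ => sq_nonneg _) q (sq_pos_of_ne_zero hq)
    exact mul_ne_zero (ENNReal.ofReal_pos.2 this).ne' h0 (n2.symm.trans (by simp))
  · have n3 : ENNReal.ofReal (‖hS.rep μ k (hm.toLp Φ) - hm.toLp Φ‖ ^ 2) =
        ∫⁻ x in dom (pt c fun γ => sec (κ γ)), ENNReal.ofReal ((φ (κ (c (x * k))) - φ (κ (c x))) ^ 2) ∂μ := by
      rw [enorm_sq]
      refine lintegral_congr_ae ?_
      filter_upwards [Lp.coeFn_sub (hS.rep μ k (hm.toLp Φ)) (hm.toLp Φ), hS.rep_coe μ k (hm.toLp Φ),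
        hm.coeFn_toLp, (hS.mp μ k).quasiMeasurePreserving.ae hm.coeFn_toLp] with x e1 e2 e3 e4
      rw [e1, Pi.sub_apply, e2, e3, e4, iΦ, ← enorm_real]
      simp only [Φ, Complex.ofReal_sub]
    have n4 : ∀ q, ∫⁻ x in dom (pt c fun _ => 1), ENNReal.ofReal
        ((φ (κ (c (sec q * x * k))) - φ (κ (c (sec q * x)))) ^ 2) ∂μ = ∫⁻ x in dom (pt c fun _ => 1),
        ENNReal.ofReal ((φ (q * κ (c (x * k))) - φ q) ^ 2) ∂μ := fun q =>
      setLIntegral_congr_fun hG.mdom fun x hx => by simp only [hc1 q x hx, hc2 q x hx]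
    rw [unf μ hc hN hk hs, tsum_congr n4, ← lintegral_tsum
      (f := fun q x => ENNReal.ofReal ((φ (q * κ (c (x * k))) - φ q) ^ 2)) fun q => ((c_meas hc fun γ => ENNReal.ofReal ((φ (q * κ γ) - φ q) ^ 2)).comp
        (measurable_mul_const k)).aemeasurable] at n3
    have n5 : ENNReal.ofReal (‖hS.rep μ k (hm.toLp Φ) - hm.toLp Φ‖ ^ 2) ≤
        ENNReal.ofReal ((δ * ‖hm.toLp Φ‖) ^ 2) := by
      rw [n3, mul_pow, ENNReal.ofReal_mul (sq_nonneg _), n2, ← mul_assoc,
        ← ENNReal.ofReal_mul (sq_nonneg _), ← setLIntegral_const]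
      refine setLIntegral_mono' hG.mdom fun x hx => ?_
      rw [← ENNReal.ofReal_tsum_of_nonneg (fun _ => sq_nonneg _) (s2 _)]
      exact ENNReal.ofReal_le_ofReal (hφ _ ((Set.Finite.mem_toFinset _).2 ⟨_, ⟨x, hx, k, hk', rfl⟩, rfl⟩))
    exact le_of_sq_le_sq ((ENNReal.ofReal_le_ofReal_iff (sq_nonneg _)).1 n5) (by positivity)

end coc

section fin
variable {G₁ G₂ : Type*} [Group G₁] [Group G₂] [MeasurableSpace G₁] [MeasurableSpace G₂]
  [MeasurableMul₂ G₁] [MeasurableMul₂ G₂] (μ₁ : Measure G₁) (μ₂ : Measure G₂) [SFinite μ₁] [SFinite μ₂]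
  [μ₁.IsMulLeftInvariant]

/-- a function that is right invariant under the first factor depends on the second coordinate only -/
theorem snd_only (h0 : μ₁ ≠ 0) {f : G₁ × G₂ → ℝ} (hf : Measurable f)
    (hi : ∀ g : G₁, ∀ᵐ x ∂μ₁.prod μ₂, f (x * (g, 1)) = f x) :
    ∃ h : G₂ → ℝ, ∀ᵐ x ∂μ₁.prod μ₂, f x = h x.2 := by
  classical
  have hm : MeasurableSet {z : G₁ × G₁ × G₂ | f (z.2 * (z.1, 1)) = f z.2} :=
    measurableSet_eq_fun (hf.comp (show Measurable fun z : G₁ × G₁ × G₂ => (z.2.1 * z.1, z.2.2 * 1) by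
      fun_prop)) (hf.comp measurable_snd)
  have h1 := (Measure.ae_ae_comm (μ := μ₁) (ν := μ₁.prod μ₂)
    (p := fun g x => f (x * (g, 1)) = f x) hm).1 (Eventually.of_forall hi)
  refine ⟨fun y => if h : ∃ t, ∀ᵐ z ∂μ₁, f (z, y) = t then h.choose else 0, h1.mono fun x hx => ?_⟩
  have h2 : ∀ᵐ z ∂μ₁, f (z, x.2) = f x := by
    filter_upwards [(measurePreserving_mul_left μ₁ x.1⁻¹).quasiMeasurePreserving.ae hx] with z hz
    rw [← hz]; congr 1; ext <;> simp
  have h3 : ∃ t, ∀ᵐ z ∂μ₁, f (z, x.2) = t := ⟨_, h2⟩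
  have : (ae μ₁).NeBot := ae_neBot.2 h0
  obtain ⟨z, a, b⟩ := (h2.and h3.choose_spec).exists
  simp only [dif_pos h3]
  rw [← a, b]

end fin

end Th5

open Th5 in
/-- **the (T) half of the normal subgroup theorem** -/
theorem thStmt (hF : FdStmt.{max u v}) (hC : ContStmt.{max u v}) (hE : EndStmt.{u, v}) :
    ThStmt.{u, v, w} := by
  intro G₁ G₂ _ _ _ _ _ _ _ _ _ _ _ _ Γ N Q _ κ hκ hk hS hK hR
  borelize G₁ G₂
  let μ₁ : Measure G₁ := Measure.haar
  let μ₂ : Measure G₂ := Measure.haar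
  let μ : Measure (G₁ × G₂) := μ₁.prod μ₂
  obtain ⟨hct, hfin, ⟨c, hc⟩, hri⟩ := hF (G₁ × G₂) Γ hS.lat
  have := hri μ
  have : Countable N := (Subgroup.inclusion_injective hS.le).countable
  obtain ⟨C, hCc, hCx⟩ := hc.cpt
  obtain ⟨K, δ, hKc, hδ, hKz⟩ := hK
  have hs : ∀ q, κ (Function.surjInv hκ q) = q := Function.surjInv_eq hκ
  set sec := Function.surjInv hκ
  have hG := selG hc
  have hN := selN hc hS.le hk hs
  have hsub : dom (pt c fun _ => 1) ⊆ C := fun x hx => by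
    have := hCx x
    rwa [← mem_dom.1 hx, Subgroup.coe_one, inv_one, one_mul] at this
  have h0 : μ (dom (pt c fun _ => 1)) ≠ 0 := (hG.fd1 μ).measure_ne_zero (NeZero.ne μ)
  have h1 : μ (dom (pt c fun _ => 1)) ≠ ∞ := ((measure_mono hsub).trans_lt hCc.measure_lt_top).ne
  obtain ⟨ξ, hξ, hξ'⟩ := almost μ hc hS.le hk hs h0 h1 hR (K := (fun k => (k, 1)) '' K) (by
    refine (hfin _ ((hCc.mul (hKc.image (f := fun k => ((k, 1) : G₁ × G₂)) (by fun_prop))).mul hCc.inv)).subset ?_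
    rintro _ ⟨x, hx, k, hk', rfl⟩
    exact ⟨x * k, Set.mul_mem_mul (hsub hx) hk', _, Set.inv_mem_inv.2 (hCx (x * k)), by simp [mul_assoc]⟩) hδ
  obtain ⟨y, hy, hy'⟩ := hKz _ ((hN.rep μ).comp (MonoidHom.inl G₁ G₂)) ξ hξ fun k hk' => hξ' _ ⟨k, hk', rfl⟩
  have hu := unf μ hc hS.le hk hs fun _ => 1
  replace hy' : ∀ g : G₁, hN.rep μ (g, 1) y = y := hy'
  clear hξ hξ' ξ
  revert y hu hN
  generalize (pt c fun γ => sec (κ γ)) = P
  intro hN y hy hu hy'
  let f : G₁ × G₂ → ℝ := fun x => min (‖y (P x)‖ ^ 2) 1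
  have mf : Measurable f :=
    (((Lp.stronglyMeasurable y).measurable.comp hN.meas).norm.pow_const 2).min measurable_const
  have f0 : ∀ x, 0 ≤ f x := fun x => le_min (sq_nonneg _) zero_le_one
  have f1 : ∀ x, |f x| ≤ 1 := fun x => by rw [abs_of_nonneg (f0 x)]; exact min_le_right _ _
  have fN : ∀ n ∈ N, ∀ x, f (n * x) = f x := fun n hn x => by simp only [f, hN.inv n hn]
  have fr : ∀ g : G₁, ∀ᵐ x ∂μ, f (x * (g, 1)) = f x := fun g => by
    refine hN.ae_of_dom μ (fun n hn x => by rw [mul_assoc, fN n hn, fN n hn]) ?_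
    have := hN.rep_coe μ (g, 1) y
    rw [hy' g] at this
    filter_upwards [this, ae_restrict_mem hN.mdom] with x e1 e2
    simp only [f]
    rw [← e1, show P x = x from e2]
  have I0 : ∫⁻ x in dom P, ENNReal.ofReal (f x) ∂μ ≠ 0 := fun h => hy <| by
    rw [lintegral_eq_zero_iff mf.ennreal_ofReal] at h
    refine Lp.ext ?_
    filter_upwards [h, ae_restrict_mem hN.mdom, Lp.coeFn_zero ℂ 2 (μ.restrict (dom P))] with x e1 e2 e3
    have e4 : min (‖y (P x)‖ ^ 2) 1 ≤ 0 := ENNReal.ofReal_eq_zero.1 e1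
    rw [show P x = x from e2, min_le_iff] at e4
    rw [e3]
    rcases e4 with e4 | e4
    · exact norm_eq_zero.1 (pow_eq_zero_iff two_ne_zero |>.1 (le_antisymm e4 (sq_nonneg _)))
    · norm_num at e4
  have I1 : ∫⁻ x in dom P, ENNReal.ofReal (f x) ∂μ ≠ ∞ := by
    refine ne_top_of_le_ne_top ENNReal.ofReal_ne_top (le_trans ?_ (enorm_sq y).ge)
    refine setLIntegral_mono' hN.mdom fun x hx => ?_
    rw [← ofReal_norm, ← ENNReal.ofReal_pow (norm_nonneg _)]
    refine ENNReal.ofReal_le_ofReal ?_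
    simp only [f]
    rw [show P x = x from hx]
    exact min_le_left _ _
  obtain ⟨h, hh⟩ := snd_only μ₁ μ₂ (NeZero.ne μ₁) mf fr
  obtain ⟨U, hU, hU1⟩ := exists_compact_mem_nhds (1 : G₁ × G₂)
  let p : G₁ × G₂ → ℝ := fun x => ∫ z in U, f (x * z) ∂μ
  have pc : Continuous p := (hC (G₁ × G₂) μ f 1 U mf f1 hU).1
  have ph : ∀ x, p x = ∫ z in U, h (x * z).2 ∂μ := fun x =>
    integral_congr_ae (ae_restrict_of_ae ((measurePreserving_mul_left μ x).quasiMeasurePreserving.ae hh))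
  obtain ⟨H, hHn, hHf, hH⟩ := hE G₁ G₂ N hS.dense hS.fin
  have pH := hH p pc (fun n hn x => by simp only [p, mul_assoc, fN n hn])
    (Or.inl fun g x => by simp [ph])
  have pl : ∀ x, ENNReal.ofReal (p x) = ∫⁻ z in U, ENNReal.ofReal (f (x * z)) ∂μ := fun x => by
    have : IsFiniteMeasure (μ.restrict U) := isFiniteMeasure_restrict.2 hU.measure_lt_top.ne
    exact ofReal_integral_eq_lintegral_ofReal
      (Integrable.of_bound (mf.comp (measurable_const_mul x)).aestronglyMeasurable 1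
        (Eventually.of_forall fun z => f1 _)) (Eventually.of_forall fun z => f0 _)
  have pI : ∀ g, ∫⁻ x in dom P, ENNReal.ofReal (p (x * g)) ∂μ =
      (∫⁻ x in dom P, ENNReal.ofReal (f x) ∂μ) * μ U := fun g => by
    simp only [pl]
    rw [lintegral_lintegral_swap
      (mf.comp ((measurable_fst.mul_const g).mul measurable_snd)).ennreal_ofReal.aemeasurable,
      ← setLIntegral_const]
    refine lintegral_congr fun z => ?_
    simp only [mul_assoc]
    exact hN.shift μ (fun x => ENNReal.ofReal (f x)) (fun n hn x => by rw [fN n hn]) _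
  obtain ⟨x₀, hx₀⟩ : ∃ x₀, ENNReal.ofReal (p x₀) ≠ 0 := by
    by_contra hcon
    push Not at hcon
    have := pI 1
    simp only [hcon, lintegral_zero] at this
    exact mul_ne_zero I0 (Measure.measure_pos_of_mem_nhds μ hU1).ne' this.symm
  have : Fintype ((G₁ × G₂) ⧸ H) := Fintype.ofFinite _
  have hle : ENNReal.ofReal (p x₀) * μ (dom P) ≤
      ∑ j : (G₁ × G₂) ⧸ H, ∫⁻ x in dom P, ENNReal.ofReal (p (x * j.out)) ∂μ := by
    rw [← setLIntegral_const, ← lintegral_finsetSum _ fun j _ =>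
      (pc.measurable.comp (measurable_mul_const j.out)).ennreal_ofReal]
    refine lintegral_mono fun x => ?_
    obtain ⟨k, e⟩ := QuotientGroup.mk_out_eq_mul H (x⁻¹ * x₀)
    refine le_trans (le_of_eq ?_) (Finset.single_le_sum (f := fun j : (G₁ × G₂) ⧸ H =>
      ENNReal.ofReal (p (x * j.out))) (fun _ _ => zero_le) (Finset.mem_univ (QuotientGroup.mk (x⁻¹ * x₀))))
    rw [e, ← pH _ (hHn.conj_mem _ k.2 x₀) x₀]
    congr 2
    group
  have hv : μ (dom P) ≠ ∞ := fun hv => by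
    rw [hv, ENNReal.mul_top hx₀, top_le_iff] at hle
    refine (ENNReal.sum_ne_top.2 fun j _ => ?_) hle
    rw [pI]
    exact ENNReal.mul_ne_top I1 hU.measure_lt_top.ne
  by_contra hQ
  have : Infinite Q := not_finite_iff_infinite.1 hQ
  simp only [setLIntegral_one] at hu
  exact hv (hu.trans (ENNReal.tsum_const_eq_top_of_ne_zero h0))

end Crest.Agent.T24.Nst
end

-- ▼ part T24/NstMk_33
section

/-!
# Row 24, module NST (helper33): Markov–Kakutani for solvable groups; Hahn–Banach gives Reiter's condition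
-/

set_option autoImplicit false

namespace Crest.Agent.T24.Nst

open Topology Filter

universe u v

namespace Mk33

variable {E : Type*} [AddCommGroup E] [Module ℝ E] [TopologicalSpace E] [IsTopologicalAddGroup E]
  [ContinuousSMul ℝ E] [T2Space E] {K : Set E}

theorem fix_one (hK : IsCompact K) (hc : Convex ℝ K) (hn : K.Nonempty) (T : E →L[ℝ] E)
    (hT : ∀ x ∈ K, T x ∈ K) : ∃ x ∈ K, T x = x := by
  obtain ⟨x₀, h0⟩ := hn
  have h1 : ∀ k : ℕ, T^[k] x₀ ∈ K := fun k => by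
    induction k with
    | zero => exact h0
    | succ k ih => rw [Function.iterate_succ_apply']; exact hT _ ih
  let A : ℕ → E := fun n => ∑ k ∈ Finset.range (n + 1), ((n : ℝ) + 1)⁻¹ • T^[k] x₀
  have h2 : ∀ n, A n ∈ K := fun n => hc.sum_mem (fun _ _ => by positivity)
    (by simp only [Finset.sum_const, Finset.card_range, nsmul_eq_mul]; push_cast; field_simp)
    fun k _ => h1 k
  have h3 : Tendsto (fun n => T (A n) - A n) atTop (𝓝 0) := by
    have e : ∀ n, T (A n) - A n = ((n : ℝ) + 1)⁻¹ • (T^[n + 1] x₀ - x₀) := fun n => by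
      simp only [A, map_sum, map_smul, ← Finset.sum_sub_distrib, ← smul_sub, ← Finset.smul_sum]
      congr 1
      simpa only [Function.iterate_succ_apply', Function.iterate_zero_apply] using
        Finset.sum_range_sub (fun k => T^[k] x₀) (n + 1)
    simp only [e]
    exact ((hK.image (continuous_sub_right x₀)).isVonNBounded ℝ).smul_tendsto_zero
      (Eventually.of_forall fun n => ⟨_, h1 (n + 1), rfl⟩)
      (by simpa only [one_div] using tendsto_one_div_add_atTop_nhds_zero_nat (𝕜 := ℝ))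
  obtain ⟨x, hx, h4⟩ := hK.ultrafilter_le_nhds ((hyperfilter ℕ).map A)
    (le_principal_iff.2 (mem_map.2 (Eventually.of_forall h2)))
  have h5 : Tendsto A (hyperfilter ℕ) (𝓝 x) := h4
  exact ⟨x, hx, sub_eq_zero.1 (tendsto_nhds_unique (((T.continuous.tendsto x).comp h5).sub h5)
    (h3.mono_left Nat.hyperfilter_le_atTop))⟩

omit [IsTopologicalAddGroup E] [ContinuousSMul ℝ E] in
theorem closed_fix {ι : Type*} (T : ι → E →L[ℝ] E) (P : ι → Prop) :
    IsClosed {x | ∀ i, P i → T i x = x} := by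
  simp only [Set.ofPred_forall]
  exact isClosed_iInter fun i => isClosed_iInter fun _ => isClosed_eq (T i).continuous continuous_id

omit [IsTopologicalAddGroup E] [ContinuousSMul ℝ E] [T2Space E] in
theorem convex_fix {ι : Type*} (T : ι → E →L[ℝ] E) (P : ι → Prop) :
    Convex ℝ {x | ∀ i, P i → T i x = x} := fun x hx y hy a b _ _ _ i hi => by
  rw [map_add, map_smul, map_smul, hx i hi, hy i hi]

theorem fix_comm (hK : IsCompact K) (hc : Convex ℝ K) (hn : K.Nonempty) {ι : Type*}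
    (T : ι → E →L[ℝ] E) (hT : ∀ i, ∀ x ∈ K, T i x ∈ K)
    (h : ∀ i j, ∀ x ∈ K, T i (T j x) = T j (T i x)) : ∃ x ∈ K, ∀ i, T i x = x := by
  classical
  have key : ∀ S : Finset ι, (K ∩ {x | ∀ i, i ∈ S → T i x = x}).Nonempty := by
    intro S
    induction S using Finset.induction_on with
    | empty => simpa using hn
    | insert j S _ ih =>
      obtain ⟨x, hx, h1⟩ := fix_one (hK.inter_right (closed_fix T _)) (hc.inter (convex_fix T _)) ih
        (T j) fun x hx => ⟨hT j x hx.1, fun i hi => by rw [h i j x hx.1, hx.2 i hi]⟩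
      exact ⟨x, hx.1, fun i hi => (Finset.mem_insert.1 hi).elim (fun e => e ▸ h1) (hx.2 i)⟩
  obtain ⟨x, hx, h1⟩ := hK.inter_iInter_nonempty (fun i => {x | T i x = x})
    (fun i => isClosed_eq (T i).continuous continuous_id) fun S => by
      simpa only [Set.ofPred_forall] using key S
  exact ⟨x, hx, fun i => Set.mem_iInter.1 h1 i⟩

end Mk33

open Mk33

theorem mkStmt : MkStmt.{u, v} := by
  intro E _ _ _ _ _ _ B _ hB ρ K hK hc hn hρ
  obtain ⟨N, hN⟩ := hB.solvable
  have key : ∀ n, (K ∩ {x | ∀ b, b ∈ derivedSeries B (n + 1) → ρ b x = x}).Nonempty →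
      (K ∩ {x | ∀ b, b ∈ derivedSeries B n → ρ b x = x}).Nonempty := by
    intro n h
    have hm : ∀ a b x, ρ (a * b) x = ρ a (ρ b x) := fun a b x => by rw [map_mul]; rfl
    obtain ⟨x, hx, h1⟩ := fix_comm (hK.inter_right (closed_fix ρ _)) (hc.inter (convex_fix ρ _)) h
      (fun b : derivedSeries B n => ρ b) (fun b x hx => ⟨hρ _ _ hx.1, fun a ha => by
        have := hx.2 _ ((derivedSeries_normal B (n + 1)).conj_mem' a ha b)
        rw [← hm, show a * b = b * ((b : B)⁻¹ * a * b) by group, hm, this]⟩)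
      fun a b x hx => by
        have := hx.2 _ (Subgroup.commutator_mem_commutator (inv_mem a.2) (inv_mem b.2))
        rw [commutatorElement_def] at this
        rw [← hm, show (a : B) * b = b * (a * ((a : B)⁻¹ * (b : B)⁻¹ * (a : B)⁻¹⁻¹ * (b : B)⁻¹⁻¹))
          by group, hm, hm, this]
    exact ⟨x, hx.1, fun b hb => h1 ⟨b, hb⟩⟩
  have h0 := Nat.decreasingInduction (motive := fun n _ =>
    (K ∩ {x | ∀ b, b ∈ derivedSeries B n → ρ b x = x}).Nonempty) (fun n _ => key n)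
    (hn.mono fun x hx => ⟨hx, fun b hb => by
      rw [hN, Subgroup.mem_bot] at hb; simp [hb]⟩) (Nat.zero_le N)
  obtain ⟨x, hx, h1⟩ := h0
  exact ⟨x, hx, fun b => h1 b (Subgroup.mem_top b)⟩

theorem hbStmt : HbStmt.{u} := by
  classical
  intro Q _ hP S δ hδ
  by_contra h
  push Not at h
  let s : Fin S.card → Q := fun i => S.equivFin.symm i
  let C : Set (Fin S.card → lp (fun _ : Q => ℝ) 1) := {y | ∃ p : Q → ℝ, (Function.support p).Finite ∧
    (∀ q, 0 ≤ p q) ∧ HasSum p 1 ∧ ∀ i r, y i r = p ((s i)⁻¹ * r) - p r}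
  have hC : Convex ℝ C := by
    rintro y ⟨p, a1, a2, a3, a4⟩ y' ⟨p', b1, b2, b3, b4⟩ a b ha hb hab
    refine ⟨fun q => a * p q + b * p' q, (a1.union b1).subset fun q hq => ?_,
      fun q => add_nonneg (mul_nonneg ha (a2 q)) (mul_nonneg hb (b2 q)), ?_, fun i r => ?_⟩
    · by_contra h1
      simp only [Set.mem_union, Function.mem_support, not_or, not_not] at h1
      exact hq (by simp [h1.1, h1.2])
    · simpa [hab] using (a3.mul_left a).add (b3.mul_left b)
    · simp only [Pi.add_apply, Pi.smul_apply, lp.coeFn_add, lp.coeFn_smul, a4, b4, smul_eq_mul]; ring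
  have hd : Disjoint (Metric.ball 0 δ) C := by
    rw [Set.disjoint_right]
    rintro y ⟨p, a1, a2, a3, a4⟩ hy
    have h1 : ∑' q, Real.sqrt (p q⁻¹) ^ 2 = 1 := by
      simp only [Real.sq_sqrt (a2 _)]
      exact ((Equiv.inv Q).tsum_eq p).trans a3.tsum_eq
    obtain ⟨t, ht, h2⟩ := h (fun q => Real.sqrt (p q⁻¹))
      ((a1.preimage inv_injective.injOn).subset fun q hq h0 => hq (by simp [h0])) fun h0 => by
        simp only [congrFun h0, Pi.zero_apply] at h1
        simp at h1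
    have h3 : HasSum (fun r => |y (S.equivFin ⟨t, ht⟩) r|) ‖y (S.equivFin ⟨t, ht⟩)‖ := by
      simpa using lp.hasSum_norm (p := 1) (by simp) (y (S.equivFin ⟨t, ht⟩))
    have h4 := (Equiv.inv Q).hasSum_iff.2 h3
    have h5 : ∀ q, (Real.sqrt (p (q * t)⁻¹) - Real.sqrt (p q⁻¹)) ^ 2 ≤
        |y (S.equivFin ⟨t, ht⟩) q⁻¹| := fun q => by
      rw [a4, mul_inv_rev, show s (S.equivFin ⟨t, ht⟩) = t by simp [s]]
      nth_rw 2 [← Real.sq_sqrt (a2 (t⁻¹ * q⁻¹))]
      nth_rw 2 [← Real.sq_sqrt (a2 q⁻¹)]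
      rw [sq_sub_sq, abs_mul, ← sq_abs, sq]
      refine mul_le_mul_of_nonneg_right ?_ (abs_nonneg _)
      have c1 := Real.sqrt_nonneg (p (t⁻¹ * q⁻¹))
      have c2 := Real.sqrt_nonneg (p q⁻¹)
      rw [abs_of_nonneg (add_nonneg c1 c2), abs_le]
      constructor <;> linarith
    have h6 := (Summable.tsum_le_tsum h5 (h4.summable.of_nonneg_of_le (fun _ => sq_nonneg _) h5)
      h4.summable).trans_eq h4.tsum_eq
    have h7 := (norm_le_pi_norm y (S.equivFin ⟨t, ht⟩)).trans_lt (mem_ball_zero_iff.1 hy)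
    rw [h1] at h2
    linarith
  obtain ⟨L, u, h1, h2⟩ := geometric_hahn_banach_open (convex_ball 0 δ) Metric.isOpen_ball hC hd
  refine hP ⟨_, s, fun i q => L (Pi.single i (lp.single 1 q 1)), ‖L‖, u,
    by simpa using h1 0 (Metric.mem_ball_self hδ), fun i q => ?_, fun q => ?_⟩
  · refine (L.le_opNorm _).trans (le_of_eq ?_)
    rw [Pi.norm_single, lp.norm_single (by simp), norm_one, mul_one]
  · refine (h2 (fun i => lp.single 1 (s i * q) 1 - lp.single 1 q 1) ⟨Pi.single q 1,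
      (Set.finite_singleton q).subset Pi.support_single_subset, fun r => ?_, hasSum_pi_single q 1,
      fun i r => ?_⟩).trans (le_of_eq ?_)
    · rw [Pi.single_apply]; split_ifs <;> norm_num
    · simp only [lp.coeFn_sub, Pi.sub_apply, lp.single_apply, Pi.single_apply, inv_mul_eq_iff_eq_mul]
    · simp only [← map_sub, ← map_sum, ← Pi.single_sub, Finset.univ_sum_single]

end Crest.Agent.T24.Nst
end

-- ▼ part T24/NstCtr_66
section

/-!
# Row 24, module NST: the Borel subgroup, the big cell and the contraction in `SL_d(F)` (helper66)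
-/

set_option autoImplicit false

namespace Crest.Agent.T24.Nst

open Topology Filter Matrix Finset
open scoped commutatorElement

universe u

namespace Ctr66

variable {F : Type u} [Field F] {d : ℕ}

/-- vanishing below the `k`-th superdiagonal -/
def Z (k : ℕ) (M : Matrix (Fin d) (Fin d) F) : Prop := ∀ i j : Fin d, j.val < i.val + k → M i j = 0

variable {k l : ℕ} {M N : Matrix (Fin d) (Fin d) F}

theorem Z.mul (h : Z k M) (h' : Z l N) : Z (k + l) (M * N) := fun i j hij =>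
  Matrix.mul_apply.trans <| sum_eq_zero fun m _ => by
    rcases lt_or_ge m.val (i.val + k) with hm | hm
    · rw [h i m hm, zero_mul]
    · rw [h' m j (by omega), mul_zero]

theorem Z.mono (h : Z k M) (hl : l ≤ k) : Z l M := fun i j hij => h i j (by omega)
theorem Z.add (h : Z k M) (h' : Z k N) : Z k (M + N) := fun i j hij => by
  rw [Matrix.add_apply, h i j hij, h' i j hij, add_zero]
theorem Z.sub (h : Z k M) (h' : Z k N) : Z k (M - N) := fun i j hij => by
  rw [Matrix.sub_apply, h i j hij, h' i j hij, sub_zero]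
theorem Z.neg (h : Z k M) : Z k (-M) := fun i j hij => by rw [neg_apply, h i j hij, neg_zero]
theorem Z.diag (w : Fin d → F) : Z 0 (diagonal w) := fun i j hij =>
  diagonal_apply_ne _ fun e => by subst e; omega

theorem Z.mul_diag (h : Z 0 M) (h' : Z 0 N) (i : Fin d) : (M * N) i i = M i i * N i i :=
  Matrix.mul_apply.trans <| sum_eq_single i (fun m _ hm => by
    rcases lt_or_gt_of_ne hm with hm | hm
    · rw [h i m hm, zero_mul]
    · rw [h' m i hm, mul_zero]) (by simp)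

theorem Z.comm (h : Z 0 M) (h' : Z 0 N) : Z 1 (M * N - N * M) := fun i j hij => by
  rcases eq_or_ne j i with rfl | hn
  · rw [Matrix.sub_apply, h.mul_diag h', h'.mul_diag h, mul_comm, sub_self]
  · exact ((h.mul h').sub (h'.mul h)) i j (by have := Fin.val_ne_of_ne hn; omega)

/-- the upper triangular subgroup -/
def bor (F : Type u) [Field F] (d : ℕ) : Subgroup (SpecialLinearGroup (Fin d) F) where
  carrier := {g | Z 0 g.1}
  one_mem' := Z.diag _
  mul_mem' := fun h h' => Z.mul h h'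
  inv_mem' := fun {g} h => by
    have e : g.1⁻¹ = (g⁻¹).1 := inv_eq_left_inv (congrArg Subtype.val (inv_mul_cancel g))
    let : Invertible g.1 := invertibleOfLeftInverse _ _ (congrArg Subtype.val (inv_mul_cancel g))
    have := blockTriangular_inv_of_blockTriangular (M := g.1) (b := id) fun i j hij => h i j hij
    exact fun i j hij => e ▸ this (show j < i from hij)

/-- the filtration -/
def fil (k : ℕ) : Subgroup (bor F d) where
  carrier := {g | Z k (g.1.1 - 1)}
  one_mem' := fun i j _ => by simp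
  mul_mem' := fun {g h} hg hh => by
    have e : (g * h).1.1 - 1 = (g.1.1 - 1) * h.1.1 + (h.1.1 - 1) := by
      change g.1.1 * h.1.1 - 1 = _; noncomm_ring
    change Z k _
    rw [e]; exact (Z.mul hg h.2).add hh
  inv_mem' := fun {g} hg => by
    have e0 : (g⁻¹).1.1 * g.1.1 = 1 := congrArg (·.1.1) (inv_mul_cancel g)
    have e : (g⁻¹).1.1 - 1 = -((g⁻¹).1.1 * (g.1.1 - 1)) := by rw [mul_sub, e0]; noncomm_ring
    change Z k _
    rw [e]; exact ((Z.mul (g⁻¹).2 hg).mono (by omega)).neg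

theorem comm_mem {g h : bor F d} (H : Z k (g.1.1 * h.1.1 - h.1.1 * g.1.1)) : ⁅g, h⁆ ∈ fil k := by
  have e0 : h.1.1 * g.1.1 * (g⁻¹ * h⁻¹).1.1 = 1 :=
    congrArg (·.1.1) (show h * g * (g⁻¹ * h⁻¹) = 1 by group)
  have e1 : (⁅g, h⁆).1.1 = g.1.1 * h.1.1 * (g⁻¹ * h⁻¹).1.1 :=
    congrArg (·.1.1) (show ⁅g, h⁆ = g * h * (g⁻¹ * h⁻¹) by rw [commutatorElement_def, mul_assoc])
  change Z k _
  rw [e1, ← e0, ← sub_mul]
  exact Z.mul H (g⁻¹ * h⁻¹).2

theorem der_le (k : ℕ) : derivedSeries (bor F d) (k + 1) ≤ fil (k + 1) := by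
  induction k with
  | zero => exact Subgroup.commutator_le.2 fun g _ h _ => comm_mem (Z.comm g.2 h.2)
  | succ k ih =>
    refine Subgroup.commutator_le.2 fun g hg h hh => comm_mem ?_
    have e : g.1.1 * h.1.1 - h.1.1 * g.1.1 =
        (g.1.1 - 1) * (h.1.1 - 1) - (h.1.1 - 1) * (g.1.1 - 1) := by noncomm_ring
    rw [e]
    exact ((Z.mul (ih hg) (ih hh)).sub (Z.mul (ih hh) (ih hg))).mono (by omega)

theorem solv : Group.IsSolvable (bor F d) := ⟨⟨d + 1, eq_bot_iff.2 fun g hg =>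
  Subtype.ext (Subtype.ext (sub_eq_zero.1 (Matrix.ext fun i j => der_le d hg i j (by omega))))⟩⟩

/-- the leading principal submatrix -/
def lead (i : Fin d) (M : Matrix (Fin d) (Fin d) F) : Matrix {j // j < i} {j // j < i} F :=
  M.submatrix Subtype.val Subtype.val

/-- row reduction -/
theorem lu (h : ∀ i, (lead i M).det ≠ 0) : ∃ u : Matrix (Fin d) (Fin d) F,
    (∀ i, u i i = 1) ∧ (∀ i j, i < j → u i j = 0) ∧ Z 0 (u * M) := by
  let c : ∀ i : Fin d, {j // j < i} → F := fun i => (fun l => M i l.1) ᵥ* (lead i M)⁻¹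
  have hc : ∀ i, c i ᵥ* lead i M = fun l => M i l.1 := fun i => by
    rw [vecMul_vecMul, nonsing_inv_mul _ (isUnit_iff_ne_zero.2 (h i)), vecMul_one]
  refine ⟨1 - of fun i j => if hj : j < i then c i ⟨j, hj⟩ else 0, fun i => by simp,
    fun i j hij => by simp [hij.ne, hij.not_gt], fun i l hl => ?_⟩
  rw [sub_mul, one_mul, Matrix.sub_apply, sub_eq_zero, ← congrFun (hc i) ⟨l, hl⟩, Matrix.mul_apply]
  simp only [of_apply, dite_mul, zero_mul]
  rw [sum_dite, sum_const_zero, add_zero, vecMul, dotProduct]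
  exact (sum_bij' (fun j _ => ⟨j.1, mem_filter.2 ⟨mem_univ _, j.2⟩⟩)
    (fun j _ => ⟨j.1, (mem_filter.1 j.2).2⟩) (by simp) (by simp) (by simp) (by simp) fun j _ => rfl)

/-- a diagonal element -/
def dg (w : Fin d → F) (h : ∏ i, w i = 1) : SpecialLinearGroup (Fin d) F :=
  ⟨diagonal w, by rw [det_diagonal, h]⟩

theorem dg_inv (w : Fin d → F) (h : ∏ i, w i = 1) : ((dg w h)⁻¹).1 = diagonal fun i => (w i)⁻¹ := by
  have h0 : ∀ i, w i ≠ 0 := fun i => prod_ne_zero_iff.1 (h ▸ one_ne_zero) i (mem_univ i)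
  have : (dg w h)⁻¹ = dg (fun i => (w i)⁻¹) (by rw [prod_inv_distrib, h, inv_one]) :=
    inv_eq_of_mul_eq_one_right (Subtype.ext (by
      change diagonal _ * diagonal _ = 1
      rw [diagonal_mul_diagonal, ← diagonal_one]
      exact congrArg _ (funext fun i => mul_inv_cancel₀ (h0 i))))
  rw [this]; rfl

theorem ev_ne [TopologicalSpace F] [T1Space F] {p : Polynomial F} (hp : p ≠ 0) :
    ∀ᶠ t in 𝓝[≠] (0 : F), p.eval t ≠ 0 := by
  have h := ((Polynomial.finite_setOfPred_isRoot hp).subset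
    (Set.sdiff_subset (t := {0}))).isClosed.isOpen_compl.mem_nhds (x := 0) (by simp)
  filter_upwards [mem_nhdsWithin_of_mem_nhds h, self_mem_nhdsWithin] with t h1 h2 h3
  exact h1 ⟨h3, h2⟩

theorem ev_det [TopologicalSpace F] [T1Space F] {n : Type*} [Fintype n] [DecidableEq n]
    (A : Matrix n n F) : ∀ᶠ t in 𝓝[≠] (0 : F), (A + scalar n t).det ≠ 0 := by
  filter_upwards [ev_ne (-A).charpoly_monic.ne_zero] with t ht
  rwa [eval_charpoly, sub_neg_eq_add, add_comm] at ht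

theorem dense [TopologicalSpace F] [IsTopologicalDivisionRing F] [T2Space F] [(𝓝[≠] (0 : F)).NeBot]
    (hd : 0 < d) : Dense {g : SpecialLinearGroup (Fin d) F | ∀ i, (lead i g.1).det ≠ 0} := fun g => by
  obtain ⟨n, rfl⟩ : ∃ n, d = n + 1 := ⟨d - 1, by omega⟩
  refine ((SpecialLinearGroup.isClosedEmbedding_val (n := Fin (n + 1))
    (R := F)).isInducing.closure_eq_preimage_closure_image _).ge ?_
  let f : F → Matrix (Fin (n + 1)) (Fin (n + 1)) F := fun t =>
    (g.1 + scalar _ t) * diagonal (Function.update 1 (Fin.last n) (g.1 + scalar _ t).det⁻¹)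
  have c0 : Continuous fun t : F => g.1 + scalar (Fin (n + 1)) t :=
    continuous_const.add (continuous_pi fun _ => continuous_id).matrix_diagonal
  have c1 : ContinuousAt (fun t : F => (g.1 + scalar (Fin (n + 1)) t).det⁻¹) 0 :=
    c0.matrix_det.continuousAt.inv₀ (by simp)
  have c2 : ContinuousAt f 0 := c0.continuousAt.mul
    ((continuous_id.matrix_diagonal.comp (continuous_const.update _ continuous_id)).continuousAt.comp c1)
  have e : f 0 = g.1 := by simp [f]
  refine mem_closure_of_tendsto (b := 𝓝[≠] 0) (e ▸ c2.tendsto.mono_left nhdsWithin_le_nhds) ?_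
  filter_upwards [ev_det g.1, eventually_all.2 fun i => ev_det (lead i g.1)] with t h1 h2
  refine ⟨⟨f t, ?_⟩, fun i => ?_, rfl⟩
  · rw [det_mul, det_diagonal, prod_update_of_mem (mem_univ _)]
    simpa using mul_inv_cancel₀ h1
  · refine ne_of_eq_of_ne (congrArg det (Matrix.ext fun a b => ?_)) (h2 i)
    have hb : b.1 ≠ Fin.last n := (b.2.trans_le (Fin.le_last i)).ne
    simp [f, lead, hb, diagonal_apply, Subtype.ext_iff]

end Ctr66

open Ctr66

theorem ctrStmt : CtrStmt.{u} := fun F _ _ _ _ π d h0 ht hd => by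
  have : (𝓝[≠] (0 : F)).NeBot := (tendsto_nhdsWithin_iff.2
    ⟨ht, Eventually.of_forall fun n => pow_ne_zero n h0⟩).neBot
  let w : ℕ → Fin d → F := fun n i => ((π ^ n) ^ i.val) ^ d / ∏ j : Fin d, (π ^ n) ^ j.val
  have hp : ∀ n, ∏ j : Fin d, (π ^ n) ^ j.val ≠ 0 := fun n =>
    prod_ne_zero_iff.2 fun j _ => pow_ne_zero _ (pow_ne_zero _ h0)
  have hw : ∀ n, ∏ i, w n i = 1 := fun n => by
    rw [prod_div_distrib, prod_pow, prod_const, card_univ, Fintype.card_fin,
      div_self (pow_ne_zero _ (hp n))]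
  refine ⟨bor F d, fun n => dg (w n) (hw n), _, solv, ?_, dense hd, fun g hg => ?_⟩
  · rw [Set.ofPred_forall]
    exact isOpen_iInter_of_finite fun i => isOpen_ne_fun
      ((continuous_subtype_val.matrix_submatrix _ _).matrix_det) continuous_const
  obtain ⟨u, hu1, hu2, hu3⟩ := lu hg
  let U : SpecialLinearGroup (Fin d) F :=
    ⟨u, by rw [det_of_isLowerTriangular u fun i j hij => hu2 i j hij]; simp [hu1]⟩
  refine ⟨fun n => (U * g)⁻¹ * (dg (w n) (hw n))⁻¹, fun n =>
    mul_mem (inv_mem hu3) (inv_mem (Z.diag _)), ?_⟩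
  have T : Tendsto (fun n => dg (w n) (hw n) * U * (dg (w n) (hw n))⁻¹) atTop (𝓝 1) := by
    refine tendsto_subtype_rng.2 (tendsto_pi_nhds.2 fun i => tendsto_pi_nhds.2 fun j => ?_)
    have e : ∀ n, (dg (w n) (hw n) * U * (dg (w n) (hw n))⁻¹).1 i j = w n i * u i j * (w n j)⁻¹ :=
      fun n => by
        change (diagonal (w n) * u * ((dg (w n) (hw n))⁻¹).1) i j = _
        rw [dg_inv, mul_diagonal, diagonal_mul]
    simp only [e]
    change Tendsto _ _ (𝓝 ((1 : Matrix (Fin d) (Fin d) F) i j))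
    rcases lt_trichotomy i j with h | rfl | h
    · simp [hu2 i j h, h.ne]
    · have : ∀ n, w n i ≠ 0 := fun n => prod_ne_zero_iff.1 (hw n ▸ one_ne_zero) i (mem_univ i)
      simp [hu1, this]
    · obtain ⟨m, hm⟩ : ∃ m, i.val = j.val + (m + 1) := ⟨i.val - j.val - 1, by have : j.val < i.val := h; omega⟩
      have e2 : ∀ n, w n i * u i j * (w n j)⁻¹ = ((π ^ n) ^ (m + 1)) ^ d * u i j := fun n => by
        have := hp n
        simp only [w, hm, pow_add (π ^ n) j.val, mul_pow]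
        field_simp
      simp only [e2, one_apply_ne h.ne']
      simpa [hd.ne'] using ((ht.pow (m + 1)).pow d).mul_const (u i j)
  have := T.inv
  rw [inv_one] at this
  exact this.congr fun n => by group

end Crest.Agent.T24.Nst
end

-- ▼ part T24/NstFix_37
section

/-!
# Row 24, module NST: the dual of `L¹` and right invariant flows.
-/

set_option autoImplicit false

namespace Crest.Agent.T24.Nst

open Topology Filter MeasureTheory

universe u

namespace Fix37

/-- Riesz representation against a square integrable weight -/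
theorem riesz {α : Type u} [MeasurableSpace α] (μ : Measure α) (Λ : Lp ℝ 1 μ →L[ℝ] ℝ)
    (w : α → ℝ) (hw : MemLp w 2 μ) :
    ∃ F : α → ℝ, Measurable F ∧ MemLp F 2 μ ∧ ∀ h : α → ℝ, MemLp h 2 μ → ∀ ξ : Lp ℝ 1 μ,
      (ξ : α → ℝ) =ᵐ[μ] (fun x => w x * h x) → Λ ξ = ∫ x, F x * h x ∂μ := by
  let T : Lp ℝ 2 μ →L[ℝ] Lp ℝ 1 μ := (ContinuousLinearMap.mul ℝ ℝ).holderL μ 2 2 1 hw.toLp
  let F : Lp ℝ 2 μ := (InnerProductSpace.toDual ℝ (Lp ℝ 2 μ)).symm (Λ.comp T)
  refine ⟨F, (Lp.stronglyMeasurable F).measurable, Lp.memLp F, fun h hh ξ hξ => ?_⟩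
  have h1 : ξ = T hh.toLp := by
    apply Lp.ext
    have e1 := (ContinuousLinearMap.mul ℝ ℝ).coeFn_holder (r := 1) hw.toLp hh.toLp
    filter_upwards [hξ, e1, hw.coeFn_toLp, hh.coeFn_toLp] with x h0 h1 h2 h3
    have : (T hh.toLp) x = ((ContinuousLinearMap.mul ℝ ℝ).holder 1 hw.toLp hh.toLp) x := rfl
    rw [this, h1, h2, h3, h0]
    simp
  have h2 : Λ (T hh.toLp) = inner ℝ F hh.toLp := by
    simp [F]
  rw [h1, h2, L2.inner_def]
  apply integral_congr_ae
  filter_upwards [hh.coeFn_toLp] with x hx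
  rw [hx]
  simp [mul_comm]

theorem abs_apply_le {α : Type u} [MeasurableSpace α] {μ : Measure α} (Λ : Lp ℝ 1 μ →L[ℝ] ℝ)
    {φ : α → ℝ} (hφ : Integrable φ μ) : |Λ (hφ.toL1 φ)| ≤ ‖Λ‖ * ∫ x, |φ x| ∂μ := by
  have h1 := Λ.le_opNorm (hφ.toL1 φ)
  rw [L1.norm_eq_integral_norm, Real.norm_eq_abs] at h1
  have : ∫ a, ‖(hφ.toL1 φ) a‖ ∂μ = ∫ x, |φ x| ∂μ := by
    apply integral_congr_ae
    filter_upwards [hφ.coeFn_toL1] with x hx
    rw [hx, Real.norm_eq_abs]
  rwa [this] at h1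

end Fix37

open Fix37 in
/-- the dual of `L¹` -/
theorem dualStmt : DualStmt.{u} := by
  intro α _ μ _ Λ
  obtain ⟨g0, hg0, hgm, hgi⟩ := exists_pos_lintegral_lt_of_sigmaFinite μ (ε := 1) one_ne_zero
  let g : α → ℝ := fun x => g0 x
  have hgpos : ∀ x, 0 < g x := fun x => by simpa [g] using hg0 x
  have hgmeas : Measurable g := hgm.coe_nnreal_real
  have hgint : Integrable g μ := by
    refine ⟨hgmeas.aestronglyMeasurable, ?_⟩
    rw [HasFiniteIntegral]
    simpa [g] using hgi.trans ENNReal.one_lt_top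
  let w : α → ℝ := fun x => Real.sqrt (g x)
  have hwpos : ∀ x, 0 < w x := fun x => Real.sqrt_pos.2 (hgpos x)
  have hww : ∀ x, w x * w x = g x := fun x => Real.mul_self_sqrt (hgpos x).le
  have hwmeas : Measurable w := hgmeas.sqrt
  have hw : MemLp w 2 μ := by
    rw [memLp_two_iff_integrable_sq hwmeas.aestronglyMeasurable]
    simpa only [sq, hww] using hgint
  obtain ⟨F, hFm, hF, hrep⟩ := riesz μ Λ w hw
  have hFw : Integrable (fun x => F x * w x) μ := hF.integrable_mul hw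
  have hb : ∀ s, MeasurableSet s → |∫ x in s, F x * w x ∂μ| ≤ ∫ x in s, ‖Λ‖ * g x ∂μ := by
    intro s hs
    have hi : Integrable (s.indicator g) μ := hgint.indicator hs
    have h1 := hrep (s.indicator w) (hw.indicator hs) (hi.toL1 _) (by
      filter_upwards [hi.coeFn_toL1] with x hx
      rw [hx]
      by_cases hxs : x ∈ s <;> simp [hxs, hww])
    have h2 := abs_apply_le Λ hi
    have h3 : ∫ x, F x * s.indicator w x ∂μ = ∫ x in s, F x * w x ∂μ := by
      rw [← integral_indicator hs]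
      congr 1
      funext x
      by_cases hxs : x ∈ s <;> simp [hxs]
    have h4 : ∫ x, |s.indicator g x| ∂μ = ∫ x in s, g x ∂μ := by
      rw [← integral_indicator hs]
      congr 1
      funext x
      by_cases hxs : x ∈ s <;> simp [hxs, abs_of_pos (hgpos x)]
    rw [h1, h3, h4] at h2
    rwa [integral_const_mul]
  have hup : (fun x => F x * w x) ≤ᵐ[μ] fun x => ‖Λ‖ * g x :=
    ae_le_of_forall_setIntegral_le hFw (hgint.const_mul _)
      fun s hs _ => (le_abs_self _).trans (hb s hs)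
  have hlo : (fun x => -(F x * w x)) ≤ᵐ[μ] fun x => ‖Λ‖ * g x :=
    ae_le_of_forall_setIntegral_le hFw.neg (hgint.const_mul _) fun s hs _ => by
      rw [integral_neg]
      exact (neg_le_abs _).trans (hb s hs)
  let f : α → ℝ := fun x => max (-‖Λ‖) (min ‖Λ‖ (F x / w x))
  have hfm : Measurable f := measurable_const.max (measurable_const.min (hFm.div hwmeas))
  have hfb : ∀ x, |f x| ≤ ‖Λ‖ := fun x =>
    abs_le.2 ⟨le_max_left _ _, max_le (by linarith [norm_nonneg Λ]) (min_le_left _ _)⟩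
  have hfe : ∀ᵐ x ∂μ, f x = F x / w x := by
    filter_upwards [hup, hlo] with x h1 h2
    have hx := hwpos x
    rw [← hww x] at h1 h2
    have a1 : F x / w x ≤ ‖Λ‖ := by
      rw [div_le_iff₀ hx]
      exact le_of_mul_le_mul_right (by nlinarith) hx
    have a2 : -‖Λ‖ ≤ F x / w x := by
      rw [le_div_iff₀ hx]
      exact le_of_mul_le_mul_right (by nlinarith) hx
    simp only [f, min_eq_right a1, max_eq_right a2]
  refine ⟨f, hfm, hfb, fun ξ => ?_⟩
  have hξm : Measurable (ξ : α → ℝ) := (Lp.stronglyMeasurable ξ).measurable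
  have hξi : Integrable (ξ : α → ℝ) μ := L1.integrable_coeFn ξ
  have hfξ : Integrable (fun x => f x * ξ x) μ :=
    hξi.bdd_mul hfm.aestronglyMeasurable (Eventually.of_forall fun x => hfb x)
  let B : ℕ → Set α := fun n => {x | (n : ℝ) * g x < |ξ x|}
  have hBm : ∀ n, MeasurableSet (B n) := fun n =>
    measurableSet_lt (hgmeas.const_mul _) hξm.abs
  have hBa : Antitone B := by
    intro m n hmn x hx
    have : (m : ℝ) ≤ n := by exact_mod_cast hmn
    exact lt_of_le_of_lt (mul_le_mul_of_nonneg_right this (hgpos x).le) hx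
  have hBe : ⋂ n, B n = ∅ := by
    rw [Set.eq_empty_iff_forall_notMem]
    intro x hx
    obtain ⟨n, hn⟩ := exists_nat_ge (|ξ x| / g x)
    have := Set.mem_iInter.1 hx n
    rw [div_le_iff₀ (hgpos x)] at hn
    exact absurd this (not_lt.2 hn)
  have hkey : ∀ n, |Λ ξ - ∫ x, f x * ξ x ∂μ| ≤
      ‖Λ‖ * (∫ x in B n, |ξ x| ∂μ) + |∫ x in B n, f x * ξ x ∂μ| := by
    intro n
    have hi : Integrable ((B n).indicator ξ) μ := hξi.indicator (hBm n)
    let h : α → ℝ := (B n)ᶜ.indicator fun x => ξ x / w x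
    have hhm : Measurable h := (hξm.div hwmeas).indicator (hBm n).compl
    have hh : MemLp h 2 μ := by
      refine (hw.const_mul (n : ℝ)).of_le hhm.aestronglyMeasurable
        (Eventually.of_forall fun x => ?_)
      have hx := hwpos x
      rw [Real.norm_eq_abs, Real.norm_eq_abs, abs_of_nonneg (by positivity : 0 ≤ (n : ℝ) * w x)]
      by_cases hxs : x ∈ B n
      · simp only [h, Set.indicator_of_notMem (show x ∉ (B n)ᶜ from fun h => h hxs), abs_zero]
        positivity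
      · simp only [h, Set.indicator_of_mem (show x ∈ (B n)ᶜ from hxs)]
        rw [abs_div, abs_of_pos hx, div_le_iff₀ hx, mul_assoc, hww]
        exact not_lt.1 hxs
    have h1 := hrep h hh (ξ - hi.toL1 _) (by
      filter_upwards [Lp.coeFn_sub ξ (hi.toL1 _), hi.coeFn_toL1] with x h1 h2
      rw [h1, Pi.sub_apply, h2]
      have hx := (hwpos x).ne'
      by_cases hxs : x ∈ B n
      · simp [h, hxs]
      · simp only [h, Set.indicator_of_mem (show x ∈ (B n)ᶜ from hxs),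
          Set.indicator_of_notMem hxs]
        field_simp
        ring)
    have h2 : ∫ x, F x * h x ∂μ = ∫ x in (B n)ᶜ, f x * ξ x ∂μ := by
      rw [← integral_indicator (hBm n).compl]
      apply integral_congr_ae
      filter_upwards [hfe] with x hx
      by_cases hxs : x ∈ B n
      · simp [h, hxs]
      · simp only [h, Set.indicator_of_mem (show x ∈ (B n)ᶜ from hxs), hx]
        ring
    have h3 := integral_add_compl (hBm n) hfξ
    have h4 := abs_apply_le Λ hi
    have h5 : ∫ x, |(B n).indicator ξ x| ∂μ = ∫ x in B n, |ξ x| ∂μ := by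
      rw [← integral_indicator (hBm n)]
      congr 1
      funext x
      by_cases hxs : x ∈ B n <;> simp [hxs]
    rw [h5] at h4
    rw [map_sub, h2] at h1
    have e : Λ ξ - ∫ x, f x * ξ x ∂μ = Λ (hi.toL1 _) - ∫ x in B n, f x * ξ x ∂μ := by
      linarith
    rw [e]
    exact (abs_sub _ _).trans (by linarith)
  have t1 := tendsto_setIntegral_of_antitone (f := fun x => |ξ x|) hBm hBa
    ⟨0, hξi.abs.integrableOn⟩
  have t2 := tendsto_setIntegral_of_antitone (f := fun x => f x * ξ x) hBm hBa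
    ⟨0, hfξ.integrableOn⟩
  rw [hBe, setIntegral_empty] at t1 t2
  have t3 := (t1.const_mul ‖Λ‖).add t2.abs
  have := ge_of_tendsto' t3 hkey
  rw [mul_zero, abs_zero, add_zero] at this
  exact sub_eq_zero.1 (abs_nonpos_iff.1 this)

namespace Fix37

theorem ae_nonneg_of_pair {α : Type u} [MeasurableSpace α] {μ : Measure α} [SigmaFinite μ]
    {φ : α → ℝ} (hm : Measurable φ) {C : ℝ} (hb : ∀ x, |φ x| ≤ C)
    (h : ∀ ξ : Lp ℝ 1 μ, 0 ≤ᵐ[μ] (ξ : α → ℝ) → 0 ≤ ∫ x, φ x * ξ x ∂μ) : 0 ≤ᵐ[μ] φ := by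
  refine ae_nonneg_of_forall_setIntegral_nonneg_of_sigmaFinite (fun s _ hμ => ?_) fun s hs hμ => ?_
  · exact Measure.integrableOn_of_bounded hμ.ne hm.aestronglyMeasurable
      (Eventually.of_forall fun x => hb x)
  · have hi : Integrable (s.indicator fun _ => (1 : ℝ)) μ :=
      (integrableOn_const hμ.ne).integrable_indicator hs
    have h1 := h (hi.toL1 _) (by
      filter_upwards [hi.coeFn_toL1] with x hx
      rw [hx]
      by_cases hxs : x ∈ s <;> simp [hxs])
    have h2 : ∫ x, φ x * (hi.toL1 _) x ∂μ = ∫ x in s, φ x ∂μ := by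
      rw [← integral_indicator hs]
      apply integral_congr_ae
      filter_upwards [hi.coeFn_toL1] with x hx
      rw [hx]
      by_cases hxs : x ∈ s <;> simp [hxs]
    rwa [h2] at h1

theorem integrable_pair {α : Type u} [MeasurableSpace α] {μ : Measure α}
    {φ : α → ℝ} (hm : Measurable φ) {C : ℝ} (hb : ∀ x, |φ x| ≤ C) (ξ : Lp ℝ 1 μ) :
    Integrable (fun x => φ x * ξ x) μ :=
  (L1.integrable_coeFn ξ).bdd_mul hm.aestronglyMeasurable (Eventually.of_forall fun x => hb x)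

theorem ae_eq_of_pair {α : Type u} [MeasurableSpace α] {μ : Measure α} [SigmaFinite μ]
    {φ ψ : α → ℝ} (hm : Measurable φ) (hm' : Measurable ψ) {C : ℝ} (hb : ∀ x, |φ x| ≤ C)
    (hb' : ∀ x, |ψ x| ≤ C)
    (h : ∀ ξ : Lp ℝ 1 μ, ∫ x, φ x * ξ x ∂μ = ∫ x, ψ x * ξ x ∂μ) : φ =ᵐ[μ] ψ := by
  have key : ∀ {φ ψ : α → ℝ}, Measurable φ → Measurable ψ → (∀ x, |φ x| ≤ C) →
      (∀ x, |ψ x| ≤ C) → (∀ ξ : Lp ℝ 1 μ, ∫ x, φ x * ξ x ∂μ = ∫ x, ψ x * ξ x ∂μ) →
      0 ≤ᵐ[μ] fun x => φ x - ψ x := by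
    intro φ ψ hm hm' hb hb' h
    refine ae_nonneg_of_pair (C := C + C) (hm.sub hm')
      (fun x => (abs_sub _ _).trans (add_le_add (hb x) (hb' x))) fun ξ _ => ?_
    simp only [sub_mul]
    rw [integral_sub (integrable_pair hm hb ξ) (integrable_pair hm' hb' ξ), h ξ, sub_self]
  filter_upwards [key hm hm' hb hb' h, key hm' hm hb' hb fun ξ => (h ξ).symm] with x h1 h2
  simp only [Pi.zero_apply] at h1 h2
  linarith

section Grp

variable {G : Type u} [Group G] [MeasurableSpace G] [MeasurableMul G] (μ : Measure G)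

/-- left translation on `L¹` -/
noncomputable def lt [μ.IsMulLeftInvariant] (g : G) : Lp ℝ 1 μ →ₗᵢ[ℝ] Lp ℝ 1 μ :=
  Lp.compMeasurePreservingₗᵢ ℝ (fun x => g * x) (measurePreserving_mul_left μ g)

/-- right translation on `L¹` -/
noncomputable def rt [μ.IsMulRightInvariant] (g : G) : Lp ℝ 1 μ →ₗᵢ[ℝ] Lp ℝ 1 μ :=
  Lp.compMeasurePreservingₗᵢ ℝ (fun x => x * g) (measurePreserving_mul_right μ g)

theorem coe_lt [μ.IsMulLeftInvariant] (g : G) (ξ : Lp ℝ 1 μ) :
    (lt μ g ξ : G → ℝ) =ᵐ[μ] fun x => ξ (g * x) :=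
  Lp.coeFn_compMeasurePreserving ξ (measurePreserving_mul_left μ g)

theorem coe_rt [μ.IsMulRightInvariant] (g : G) (ξ : Lp ℝ 1 μ) :
    (rt μ g ξ : G → ℝ) =ᵐ[μ] fun x => ξ (x * g) :=
  Lp.coeFn_compMeasurePreserving ξ (measurePreserving_mul_right μ g)

theorem rt_one [μ.IsMulRightInvariant] (ξ : Lp ℝ 1 μ) : rt μ 1 ξ = ξ := by
  apply Lp.ext
  filter_upwards [coe_rt μ 1 ξ] with x hx
  rw [hx, mul_one]

theorem rt_mul [μ.IsMulRightInvariant] (a b : G) (ξ : Lp ℝ 1 μ) :
    rt μ (a * b) ξ = rt μ a (rt μ b ξ) := by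
  apply Lp.ext
  filter_upwards [coe_rt μ (a * b) ξ, coe_rt μ a (rt μ b ξ),
    (measurePreserving_mul_right μ a).quasiMeasurePreserving.ae (coe_rt μ b ξ)] with x h1 h2 h3
  rw [h1, h2, h3, mul_assoc]

theorem lt_rt [μ.IsMulLeftInvariant] [μ.IsMulRightInvariant] (a b : G) (ξ : Lp ℝ 1 μ) :
    lt μ a (rt μ b ξ) = rt μ b (lt μ a ξ) := by
  apply Lp.ext
  filter_upwards [coe_lt μ a (rt μ b ξ), coe_rt μ b (lt μ a ξ),
    (measurePreserving_mul_left μ a).quasiMeasurePreserving.ae (coe_rt μ b ξ),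
    (measurePreserving_mul_right μ b).quasiMeasurePreserving.ae (coe_lt μ a ξ)] with x h1 h2 h3 h4
  rw [h1, h2, h3, h4, mul_assoc]

theorem pair_lt [μ.IsMulLeftInvariant] (φ : G → ℝ) (g : G) (ξ : Lp ℝ 1 μ) :
    ∫ x, φ x * (lt μ g⁻¹ ξ) x ∂μ = ∫ x, φ (g * x) * ξ x ∂μ := by
  rw [← integral_mul_left_eq_self (fun x => φ (g * x) * ξ x) g⁻¹]
  apply integral_congr_ae
  filter_upwards [coe_lt μ g⁻¹ ξ] with x hx
  rw [hx, mul_inv_cancel_left]

theorem pair_rt [μ.IsMulRightInvariant] (φ : G → ℝ) (g : G) (ξ : Lp ℝ 1 μ) :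
    ∫ x, φ x * (rt μ g⁻¹ ξ) x ∂μ = ∫ x, φ (x * g) * ξ x ∂μ := by
  rw [← integral_mul_right_eq_self (fun x => φ (x * g) * ξ x) g⁻¹]
  apply integral_congr_ae
  filter_upwards [coe_rt μ g⁻¹ ξ] with x hx
  rw [hx, inv_mul_cancel_right]

theorem integral_rt [μ.IsMulRightInvariant] (g : G) (ξ : Lp ℝ 1 μ) :
    ∫ x, (rt μ g ξ) x ∂μ = ∫ x, ξ x ∂μ := by
  rw [integral_congr_ae (coe_rt μ g ξ)]
  exact integral_mul_right_eq_self (fun x => ξ x) g

/-- the action of a subgroup by right translations -/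
noncomputable def act [μ.IsMulRightInvariant] (B : Subgroup G) (k : ℕ) :
    B →* ((Fin k → Lp ℝ 1 μ → ℝ) →L[ℝ] (Fin k → Lp ℝ 1 μ → ℝ)) where
  toFun b :=
    { toFun := fun L i ξ => L i (rt μ (b : G)⁻¹ ξ)
      map_add' := fun _ _ => rfl
      map_smul' := fun _ _ => rfl
      cont := by fun_prop }
  map_one' := by
    ext L i ξ
    simp [rt_one]
  map_mul' a b := by
    ext L i ξ
    simp [rt_mul]

theorem act_apply [μ.IsMulRightInvariant] (B : Subgroup G) (k : ℕ) (b : B)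
    (L : Fin k → Lp ℝ 1 μ → ℝ) (i : Fin k) (ξ : Lp ℝ 1 μ) :
    act μ B k b L i ξ = L i (rt μ (b : G)⁻¹ ξ) := rfl

/-- the compact convex set of flows -/
def KK [μ.IsMulLeftInvariant] (N : Subgroup G) {k : ℕ} (s : Fin k → G) (M ε : ℝ) :
    Set (Fin k → Lp ℝ 1 μ → ℝ) :=
  {L | (∀ i ξ η, L i (ξ + η) = L i ξ + L i η) ∧ (∀ i (c : ℝ) ξ, L i (c • ξ) = c * L i ξ) ∧
    (∀ i ξ, |L i ξ| ≤ M * ‖ξ‖) ∧ (∀ i, ∀ n ∈ N, ∀ ξ, L i (lt μ n⁻¹ ξ) = L i ξ) ∧
    ∀ ξ : Lp ℝ 1 μ, 0 ≤ᵐ[μ] (ξ : G → ℝ) →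
      ε * ∫ x, ξ x ∂μ ≤ ∑ i, (L i (lt μ (s i)⁻¹ ξ) - L i ξ)}

theorem isCompact_KK [μ.IsMulLeftInvariant] (N : Subgroup G) {k : ℕ} (s : Fin k → G) (M ε : ℝ) :
    IsCompact (KK μ N s M ε) := by
  have hc : IsCompact (Set.univ.pi fun _ : Fin k =>
      Set.univ.pi fun ξ : Lp ℝ 1 μ => Set.Icc (-(M * ‖ξ‖)) (M * ‖ξ‖)) :=
    isCompact_univ_pi fun _ => isCompact_univ_pi fun _ => isCompact_Icc
  refine hc.of_isClosed_subset ?_ fun L hL i _ ξ _ => abs_le.1 (hL.2.2.1 i ξ)
  simp only [KK, Set.ofPred_and, Set.ofPred_forall]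
  refine IsClosed.inter ?_ (IsClosed.inter ?_ (IsClosed.inter ?_ (IsClosed.inter ?_ ?_)))
  · exact isClosed_iInter fun i => isClosed_iInter fun ξ => isClosed_iInter fun η =>
      isClosed_eq (by fun_prop) (by fun_prop)
  · exact isClosed_iInter fun i => isClosed_iInter fun c => isClosed_iInter fun ξ =>
      isClosed_eq (by fun_prop) (by fun_prop)
  · exact isClosed_iInter fun i => isClosed_iInter fun ξ =>
      isClosed_le (by fun_prop) (by fun_prop)
  · exact isClosed_iInter fun i => isClosed_iInter fun n => isClosed_iInter fun _ =>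
      isClosed_iInter fun ξ => isClosed_eq (by fun_prop) (by fun_prop)
  · exact isClosed_iInter fun ξ => isClosed_iInter fun _ =>
      isClosed_le (by fun_prop) (by fun_prop)

theorem convex_KK [μ.IsMulLeftInvariant] (N : Subgroup G) {k : ℕ} (s : Fin k → G) (M ε : ℝ) :
    Convex ℝ (KK μ N s M ε) := by
  rintro L ⟨l1, l2, l3, l4, l5⟩ P ⟨p1, p2, p3, p4, p5⟩ a b ha hb hab
  refine ⟨fun i ξ η => ?_, fun i c ξ => ?_, fun i ξ => ?_, fun i n hn ξ => ?_, fun ξ hξ => ?_⟩
  · simp only [Pi.add_apply, Pi.smul_apply, smul_eq_mul, l1, p1]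
    ring
  · simp only [Pi.add_apply, Pi.smul_apply, smul_eq_mul, l2, p2]
    ring
  · simp only [Pi.add_apply, Pi.smul_apply, smul_eq_mul]
    have h1 := abs_le.1 (l3 i ξ)
    have h2 := abs_le.1 (p3 i ξ)
    have e : M * ‖ξ‖ = a * (M * ‖ξ‖) + b * (M * ‖ξ‖) := by rw [← add_mul, hab, one_mul]
    rw [abs_le]
    constructor <;> nlinarith [mul_le_mul_of_nonneg_left h1.1 ha, mul_le_mul_of_nonneg_left h1.2 ha,
      mul_le_mul_of_nonneg_left h2.1 hb, mul_le_mul_of_nonneg_left h2.2 hb]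
  · simp only [Pi.add_apply, Pi.smul_apply, smul_eq_mul, l4 i n hn, p4 i n hn]
  · have h1 := mul_le_mul_of_nonneg_left (l5 ξ hξ) ha
    have h2 := mul_le_mul_of_nonneg_left (p5 ξ hξ) hb
    have e : ∑ i, ((a • L + b • P) i (lt μ (s i)⁻¹ ξ) - (a • L + b • P) i ξ) =
        a * ∑ i, (L i (lt μ (s i)⁻¹ ξ) - L i ξ) + b * ∑ i, (P i (lt μ (s i)⁻¹ ξ) - P i ξ) := by
      rw [Finset.mul_sum, Finset.mul_sum, ← Finset.sum_add_distrib]
      refine Finset.sum_congr rfl fun i _ => ?_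
      simp only [Pi.add_apply, Pi.smul_apply, smul_eq_mul]
      ring
    have e2 : ε * ∫ x, ξ x ∂μ = a * (ε * ∫ x, ξ x ∂μ) + b * (ε * ∫ x, ξ x ∂μ) := by
      rw [← add_mul, hab, one_mul]
    rw [e]
    linarith

theorem act_mem_KK [μ.IsMulLeftInvariant] [μ.IsMulRightInvariant] (N B : Subgroup G) {k : ℕ}
    (s : Fin k → G) (M ε : ℝ) (b : B) (L : Fin k → Lp ℝ 1 μ → ℝ) (hL : L ∈ KK μ N s M ε) :
    act μ B k b L ∈ KK μ N s M ε := by
  obtain ⟨l1, l2, l3, l4, l5⟩ := hL
  refine ⟨fun i ξ η => ?_, fun i c ξ => ?_, fun i ξ => ?_, fun i n hn ξ => ?_, fun ξ hξ => ?_⟩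
  · simp only [act_apply, map_add, l1]
  · simp only [act_apply, map_smul, l2]
  · rw [act_apply, ← (rt μ (b : G)⁻¹).norm_map ξ]
    exact l3 i _
  · rw [act_apply, act_apply, ← lt_rt, l4 i n hn]
  · have h := l5 (rt μ (b : G)⁻¹ ξ) (by
      filter_upwards [coe_rt μ (b : G)⁻¹ ξ,
        (measurePreserving_mul_right μ (b : G)⁻¹).quasiMeasurePreserving.ae hξ] with x h1 h2
      rw [h1]
      exact h2)
    rw [integral_rt] at h
    simpa only [act_apply, ← lt_rt] using h

theorem pair_div [μ.IsMulLeftInvariant] {k : ℕ} (s : Fin k → G) (f : Fin k → G → ℝ) (M ε : ℝ)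
    (hm : ∀ i, Measurable (f i)) (hb : ∀ i x, |f i x| ≤ M) (ξ : Lp ℝ 1 μ) :
    ∫ x, (∑ i, (f i (s i * x) - f i x) - ε) * ξ x ∂μ =
      ∑ i, (∫ x, f i x * (lt μ (s i)⁻¹ ξ) x ∂μ - ∫ x, f i x * ξ x ∂μ) - ε * ∫ x, ξ x ∂μ := by
  have hi : ∀ i, Integrable (fun x => f i (s i * x) * ξ x) μ := fun i =>
    integrable_pair ((hm i).comp (measurable_const_mul (s i))) (fun x => hb i _) ξ
  have hj : ∀ i, Integrable (fun x => f i x * ξ x) μ := fun i => integrable_pair (hm i) (hb i) ξ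
  have hk : ∀ i, Integrable (fun x => f i (s i * x) * ξ x - f i x * ξ x) μ := fun i =>
    (hi i).sub (hj i)
  simp only [sub_mul, Finset.sum_mul, pair_lt]
  rw [integral_sub (integrable_finsetSum _ fun i _ => hk i)
    ((L1.integrable_coeFn ξ).const_mul ε), integral_finsetSum _ fun i _ => hk i,
    integral_const_mul]
  congr 1
  exact Finset.sum_congr rfl fun i _ => integral_sub (hi i) (hj i)

end Grp

end Fix37

open Fix37 in
/-- a bounded flow can be made right invariant under a solvable subgroup -/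
theorem fixStmt (hMk : MkStmt.{u, u}) : FixStmt.{u} := by
  intro G _ _ _ μ _ _ _ N B _ _ k s f M ε hm hb hN hdiv
  have hne : (KK μ N s M ε).Nonempty := by
    refine ⟨fun i ξ => ∫ x, f i x * ξ x ∂μ, fun i ξ η => ?_, fun i c ξ => ?_, fun i ξ => ?_,
      fun i n hn ξ => ?_, fun ξ hξ => ?_⟩
    · rw [← integral_add (integrable_pair (hm i) (hb i) ξ) (integrable_pair (hm i) (hb i) η)]
      apply integral_congr_ae
      filter_upwards [Lp.coeFn_add ξ η] with x hx
      rw [hx, Pi.add_apply, mul_add]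
    · rw [← integral_const_mul]
      apply integral_congr_ae
      filter_upwards [Lp.coeFn_smul c ξ] with x hx
      rw [hx, Pi.smul_apply, smul_eq_mul]
      ring
    · rw [L1.norm_eq_integral_norm, ← integral_const_mul, ← Real.norm_eq_abs]
      refine norm_integral_le_of_norm_le ((L1.integrable_coeFn ξ).norm.const_mul M)
        (Eventually.of_forall fun x => ?_)
      rw [norm_mul]
      exact mul_le_mul_of_nonneg_right (hb i x) (norm_nonneg _)
    · simp only [pair_lt, hN i n hn]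
    · have h1 := pair_div μ s f M ε hm hb ξ
      have h2 : 0 ≤ ∫ x, (∑ i, (f i (s i * x) - f i x) - ε) * ξ x ∂μ := by
        apply integral_nonneg_of_ae
        filter_upwards [hξ] with x hx
        exact mul_nonneg (sub_nonneg.2 (hdiv x)) hx
      rw [h1] at h2
      exact sub_nonneg.1 h2
  obtain ⟨L, ⟨l1, l2, l3, l4, l5⟩, hfix⟩ := hMk (Fin k → Lp ℝ 1 μ → ℝ) B (act μ B k)
    (KK μ N s M ε) (isCompact_KK μ N s M ε) (convex_KK μ N s M ε) hne
    (fun b L hL => act_mem_KK μ N B s M ε b L hL)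
  have hM : ∀ _ : Fin k, 0 ≤ M := fun i => (abs_nonneg _).trans (hb i 1)
  have hex : ∀ i, ∃ φ : G → ℝ, Measurable φ ∧ (∀ x, |φ x| ≤ M) ∧
      ∀ ξ : Lp ℝ 1 μ, L i ξ = ∫ x, φ x * ξ x ∂μ := by
    intro i
    let Λ0 : Lp ℝ 1 μ →ₗ[ℝ] ℝ := { toFun := L i, map_add' := l1 i, map_smul' := l2 i }
    obtain ⟨φ, h1, h2, h3⟩ := dualStmt G μ (Λ0.mkContinuous M (l3 i))
    exact ⟨φ, h1, fun x => (h2 x).trans (LinearMap.mkContinuous_norm_le _ (hM i) _), h3⟩
  choose φ φm φb φe using hex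
  have hφN : ∀ i, ∀ᵐ x ∂μ, ∀ n : N, φ i (n * x) = φ i x := by
    intro i
    rw [ae_all_iff]
    intro n
    refine ae_eq_of_pair ((φm i).comp (measurable_const_mul (n : G))) (φm i) (fun x => φb i _)
      (φb i) fun ξ => ?_
    have := l4 i n n.2 ξ
    rwa [φe, φe, pair_lt] at this
  have hφB : ∀ i, ∀ b ∈ B, ∀ᵐ x ∂μ, φ i (x * b) = φ i x := by
    intro i b hbB
    refine ae_eq_of_pair ((φm i).comp (measurable_mul_const b)) (φm i) (fun x => φb i _)
      (φb i) fun ξ => ?_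
    have := congrFun (congrFun (hfix ⟨b, hbB⟩) i) ξ
    rwa [act_apply, φe, φe, pair_rt] at this
  have hφd : 0 ≤ᵐ[μ] fun x => ∑ i, (φ i (s i * x) - φ i x) - ε := by
    refine ae_nonneg_of_pair (C := ∑ _i : Fin k, (M + M) + |ε|) ?_ (fun x => ?_) fun ξ hξ => ?_
    · exact (Finset.measurable_sum _ fun i _ =>
        ((φm i).comp (measurable_const_mul (s i))).sub (φm i)).sub measurable_const
    · refine (abs_sub _ _).trans (add_le_add ((Finset.abs_sum_le_sum_abs _ _).trans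
        (Finset.sum_le_sum fun i _ => ?_)) le_rfl)
      exact (abs_sub _ _).trans (add_le_add (φb i _) (φb i _))
    · rw [pair_div μ s φ M ε φm φb ξ, sub_nonneg]
      simpa only [φe] using l5 ξ hξ
  let A : Fin k → Set G := fun i => {x | ∀ n : N, φ i (n * x) = φ i x}
  have hAm : ∀ i, MeasurableSet (A i) := by
    intro i
    simp only [A, Set.ofPred_forall]
    exact MeasurableSet.iInter fun n =>
      measurableSet_eq_fun ((φm i).comp (measurable_const_mul (n : G))) (φm i)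
  have hAinv : ∀ i, ∀ n ∈ N, ∀ x ∈ A i, n * x ∈ A i := by
    intro i n hn x hx m
    have h1 := hx (m * ⟨n, hn⟩)
    have h2 := hx ⟨n, hn⟩
    simp only [Subgroup.coe_mul, mul_assoc] at h1 h2
    rw [h1, h2]
  have hae : ∀ i, ∀ᵐ x ∂μ, (A i).indicator (φ i) x = φ i x := by
    intro i
    filter_upwards [hφN i] with x hx
    exact Set.indicator_of_mem (show x ∈ A i from hx) _
  refine ⟨fun i => (A i).indicator (φ i), fun i => (φm i).indicator (hAm i), fun i x => ?_,
    fun i n hn x => ?_, ?_, fun i b hbB => ?_⟩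
  · beta_reduce
    by_cases hx : x ∈ A i
    · rw [Set.indicator_of_mem hx]
      exact φb i x
    · rw [Set.indicator_of_notMem hx, abs_zero]
      exact hM i
  · beta_reduce
    by_cases hx : x ∈ A i
    · rw [Set.indicator_of_mem hx, Set.indicator_of_mem (hAinv i n hn x hx)]
      exact hx ⟨n, hn⟩
    · have : n * x ∉ A i := fun h => hx (by simpa using hAinv i n⁻¹ (N.inv_mem hn) _ h)
      rw [Set.indicator_of_notMem hx, Set.indicator_of_notMem this]
  · have h1 : ∀ᵐ x ∂μ, ∀ i, (A i).indicator (φ i) x = φ i x := ae_all_iff.2 hae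
    have h2 : ∀ᵐ x ∂μ, ∀ i, (A i).indicator (φ i) (s i * x) = φ i (s i * x) :=
      ae_all_iff.2 fun i => (measurePreserving_mul_left μ (s i)).quasiMeasurePreserving.ae (hae i)
    filter_upwards [h1, h2, hφd] with x h1 h2 h3
    simp only [h1, h2]
    exact sub_nonneg.1 h3
  · filter_upwards [hae i, (measurePreserving_mul_right μ b).quasiMeasurePreserving.ae (hae i),
      hφB i b hbB] with x h1 h2 h3
    rw [h1, h2, h3]

end Crest.Agent.T24.Nst
end

-- ▼ part T24/NstKaz_16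
section

/-!
# Row 24, NST-KAZ: `KazStmt` (helper16)
-/

set_option autoImplicit false

namespace Crest.Agent.T24.Nst

open Crest.Agent.N111 Matrix

namespace Kz16

/-- a unitary representation as a homomorphism to the isometry group -/
noncomputable def iso {G H : Type*} [Group G] [NormedAddCommGroup H] [InnerProductSpace ℂ H]
    (ρ : URep G H) : G →* (H ≃ₗᵢ[ℂ] H) where
  toFun g :=
    { toFun := ρ g
      invFun := ρ g⁻¹
      map_add' := map_add _
      map_smul' := map_smul _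
      left_inv := ρ.inv_apply_apply g
      right_inv := ρ.apply_inv_apply g
      norm_map' := ρ.norm_map g }
  map_one' := by ext v; simp
  map_mul' g h := by ext v; exact ρ.mul_apply g h v

theorem cpt_adjoin {F : Type*} [Field F] [TopologicalSpace F] [IsTopologicalRing F] {O : Subring F}
    (hO : IsCompact (O : Set F)) {π : F} {n : ℕ} (h : π ^ n * π ∈ O) :
    IsCompact ((Algebra.adjoin O {π}).toSubring : Set F) := by
  have : CompactSpace O := isCompact_iff_compactSpace.1 hO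
  have hi : IsIntegral O π := IsIntegral.of_pow (Nat.succ_pos n)
    (by rw [pow_succ]; exact isIntegral_algebraMap (x := (⟨_, h⟩ : O)))
  exact Submodule.isCompact_of_fg hi.fg_adjoin_singleton

theorem continuous_X {ι F : Type*} [Fintype ι] [DecidableEq ι] [Field F] [TopologicalSpace F]
    [IsTopologicalRing F] (i j : ι) : Continuous fun s : F => Kaz.X i j s := by
  by_cases h : i ≠ j
  · refine Continuous.subtype_mk (f := fun s : F => (Kaz.X i j s : Matrix ι ι F)) ?_ _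
    simp only [Kaz.X_coe h]
    refine continuous_const.add (continuous_matrix fun a b => ?_)
    simp only [single_apply]
    split_ifs
    exacts [continuous_id, continuous_const]
  · simp only [Kaz.X, dif_neg h]
    exact continuous_const

end Kz16

universe u w

theorem kazStmt : KazStmt.{u, w} := by
  intro F _ _ _ O π d h hd
  obtain ⟨n, hn⟩ := h.abs π
  obtain ⟨t, ht1, ht2⟩ := h.res
  set O' := (Algebra.adjoin O {π}).toSubring with hO'
  have hle : ∀ x ∈ O, x ∈ O' := fun x hx => (Algebra.adjoin O {π}).algebraMap_mem ⟨x, hx⟩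
  have hD : Kaz.Dat O' π⁻¹ t :=
    ⟨fun k => hle _ (ht1 k), fun k l hkl => ⟨_, hle _ (ht2 l k hkl.symm).2,
      inv_mul_cancel₀ (sub_ne_zero.2 (ht2 l k hkl.symm).1)⟩, fun x => by
      obtain ⟨m, hm⟩ := h.abs x
      exact ⟨m, _, hle _ hm, (inv_pow π m ▸ inv_mul_cancel_left₀ (pow_ne_zero m h.ne) x).symm⟩⟩
  have hp : ∃ o ∈ O', π⁻¹ * o = 1 :=
    ⟨π, Algebra.self_mem_adjoin_singleton O π, inv_mul_cancel₀ h.ne⟩
  have hd' : (3 : ℝ) ≤ d := by exact_mod_cast hd
  refine ⟨⋃ i : Fin d, ⋃ j : Fin d, (fun o => Kaz.X i j (π⁻¹ * o)) '' O', 1 / (10 * d),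
    isCompact_iUnion fun i => isCompact_iUnion fun j => (Kz16.cpt_adjoin h.cpt hn).image
      ((Kz16.continuous_X i j).comp (continuous_const.mul continuous_id)), by positivity,
    fun H _ _ _ ρ x hx hK => ?_⟩
  obtain ⟨y, hy1, hy2⟩ := Kaz.kazhdan_rc (Kz16.iso ρ) hD hp (by simp) (by simpa using hd) (v := x)
    fun i j hij o ho => hK _ (Set.mem_iUnion₂.2 ⟨i, j, o, ho, Kaz.X_eq hij _⟩)
  refine ⟨y, fun h0 => ?_, hy1⟩
  rw [h0, sub_zero, Fintype.card_fin] at hy2
  have h1 : 0 < ‖x‖ ^ 2 := by positivity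
  have h2 : 10 * (d : ℝ) * (1 / (10 * d) * ‖x‖) ^ 2 = ‖x‖ ^ 2 / (10 * d) := by field_simp
  rw [h2, le_div_iff₀ (by positivity)] at hy2
  nlinarith

end Crest.Agent.T24.Nst
end

-- ▼ part T24/Nst_39
section

/-!
# Row 24: the normal subgroup theorem for cocompact lattices of `SL_d(F) × G₂`.
-/

set_option autoImplicit false

namespace Crest.Agent.T24.Nst

universe u v w

theorem amStmt' : AmStmt.{u, v, w} :=
  amStmt fdStmt contStmt endStmt (fixStmt mkStmt) (ctStmt contStmt contStmt)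

theorem thStmt' : ThStmt.{u, v, w} := thStmt fdStmt contStmt endStmt

/-- **the normal subgroup theorem** -/
theorem nstStmt : NstStmt.{u, v, w} := nst_of kazStmt ctrStmt amStmt' hbStmt thStmt'

end Crest.Agent.T24.Nst
end

-- ▼ part T24/NstK_39

/-!
# Row 24: finite index of non-central normal subgroups of `SU` (anisotropic case).
-/

set_option autoImplicit false
set_option linter.unusedSectionVars false

noncomputable section

namespace Crest.Agent.T24

open Module NumberField IsDedekindDomain WithZero Csa Asa Topology Filter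
open scoped NumberField Valued

universe u v w

namespace NstK39

variable {k : Type*} [Field k] [NumberField k]

theorem val_alg (v : Pl k) (x : k) : Valued.v (algebraMap k (Kv v) x) = v.valuation k x :=
  v.valuedAdicCompletion_eq_valuation' x

theorem int_eq_ball (v : Pl k) :
    ((v.adicCompletionIntegers k).toSubring : Set (Kv v)) = Metric.closedBall 0 1 := by
  ext x
  rw [mem_closedBall_zero_iff, Valued.toNormedField.norm_le_one_iff]
  rfl

/-- the local field at a place prime to `6` -/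
theorem locF (v : Pl k) (h6 : v.valuation k (6 : k) = 1) :
    ∃ π : Kv v, Nst.LocF (v.adicCompletionIntegers k).toSubring π 5 := by
  have := Loc.proper_adic k v
  have := Loc.charZero_adic k v
  obtain ⟨p, hp⟩ := v.valuation_exists_uniformizer k
  have hp0 : p ≠ 0 := by rintro rfl; simp at hp; exact exp_ne_zero hp.symm
  have hπ : ‖algebraMap k (Kv v) p‖ < 1 := by
    rw [Valued.toNormedField.norm_lt_one_iff, val_alg, hp]
    exact exp_neg_lt_one one_pos
  have ht := tendsto_pow_atTop_nhds_zero_of_norm_lt_one hπ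
  have hmem : ∀ x : Kv v, x ∈ (v.adicCompletionIntegers k).toSubring ↔ Valued.v x ≤ 1 :=
    fun _ => Iff.rfl
  refine ⟨algebraMap k (Kv v) p, ?_, by simpa using hp0, ht, fun x => ?_, fun i => (i : ℕ),
    fun i => natCast_mem _ _, fun i j hij => ?_⟩
  · rw [int_eq_ball]; exact isCompact_closedBall _ _
  · have h1 := ht.mul_const x
    rw [zero_mul] at h1
    obtain ⟨n, hn⟩ := (h1.eventually (Metric.closedBall_mem_nhds (0 : Kv v) one_pos)).exists
    exact ⟨n, by rw [← SetLike.mem_coe, int_eq_ball]; exact hn⟩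
  · refine ⟨fun h => hij (Fin.ext (Nat.cast_injective h)), ?_⟩
    have h36 : Valued.v ((36 : ℤ) : Kv v) = 1 := by
      have : ((36 : ℤ) : Kv v) = algebraMap k (Kv v) 6 * algebraMap k (Kv v) 6 := by
        rw [map_ofNat]; norm_num
      rw [this, map_mul, val_alg, h6, one_mul]
    have hle : ∀ z : ℤ, Valued.v (z : Kv v) ≤ 1 := fun z => (hmem _).1 (intCast_mem _ z)
    obtain ⟨c, hc⟩ : ((i : ℕ) : ℤ) - ((j : ℕ) : ℤ) ∣ 36 := by revert i j; decide
    have e : (((i : ℕ) : Kv v) - ((j : ℕ) : Kv v)) = ((((i : ℕ) : ℤ) - ((j : ℕ) : ℤ) : ℤ) : Kv v) := by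
      push_cast; rfl
    rw [hc, Int.cast_mul, map_mul] at h36
    rw [hmem, map_inv₀, e, eq_one_of_one_le_mul_left (hle _) (hle _) h36.ge, inv_one]

variable {K B : Type*} [Field K] [NumberField K] [Algebra k K]
  [StarRing K] [Quad k K] [Ring B] [StarRing B] [Algebra K B] [StarModule K B]
  [Algebra.IsCentral K B] [IsSimpleRing B] [FiniteDimensional K B] [Algebra k B]
  [IsScalarTower k K B]

theorem smul_mem_O (Λ : Ord K B) (d : 𝓞 k) {x : B} (hx : x ∈ Λ.O) : (d : k) • x ∈ Λ.O := by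
  have := Λ.O.mul_mem (Λ.int (algebraMap (𝓞 k) (𝓞 K) d)) hx
  rwa [← Algebra.smul_def, show ((algebraMap (𝓞 k) (𝓞 K) d : 𝓞 K) : K) =
    algebraMap k K (d : k) from rfl, algebraMap_smul] at this

theorem smul_mem_At (Λ : Ord K B) (v : Pl k) {c : k} (hc : v.valuation k c ≤ 1) {x : B}
    (hx : x ∈ Λ.At v) : c • x ∈ Λ.At v := by
  obtain ⟨n, d, h⟩ := v.exists_primeCompl_mul_eq_of_integer c hc
  obtain ⟨e, he, hx⟩ := hx
  refine ⟨d * e, fun h => (v.isPrime.mem_or_mem h).elim d.2 he, ?_⟩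
  have := smul_mem_O Λ n hx
  rw [smul_smul] at this ⊢
  convert this using 2
  rw [show (n : k) = c * ((d : 𝓞 k) : k) from h.symm]
  push_cast; ring

theorem mem_At_of (Λ : Ord K B) (v : Pl k) {c : k} (hc : v.valuation k c = 1) {x : B}
    (hx : c • x ∈ Λ.O) : x ∈ Λ.At v := by
  have hc0 : c ≠ 0 := by rintro rfl; simp at hc
  have h1 : c • x ∈ Λ.At v := ⟨1, (Ideal.ne_top_iff_one _).1 v.isPrime.ne_top, by simpa using hx⟩
  simpa [smul_smul, hc0] using smul_mem_At Λ v (c := c⁻¹) (by simp [hc]) h1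

/-- an element is integral almost everywhere -/
theorem finite_not_At (Λ : Ord K B) (x : B) : {v : Pl k | x ∉ Λ.At v}.Finite := by
  obtain ⟨n, hn, hx⟩ := Λ.den x
  refine (finite_ne_one (x := (n : k)) (Nat.cast_ne_zero.2 hn)).subset fun v hv h => hv ?_
  exact mem_At_of Λ v h (by rwa [Nat.cast_smul_eq_nsmul, nsmul_eq_mul])

/-- integrality at `v` is an open condition -/
theorem At_nhds (Λ : Ord K B) (v : Pl k) :
    ∃ V ∈ 𝓝 (0 : BC k K B (Kv v)), ∀ x : B, BC.inc k K B (Kv v) x ∈ V → x ∈ Λ.At v := by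
  have := finite_kB k K B
  let e₀ := finBasis k B
  choose n hn hx using fun i => Λ.den (e₀ i)
  let e := e₀.unitsSMul fun i => Units.mk0 (n i : k) (Nat.cast_ne_zero.2 (hn i))
  have he : ∀ i, e i ∈ Λ.At v := fun i => mem_At_of Λ v (c := 1) (by simp) (by
    simpa [e, Basis.unitsSMul_apply, Units.smul_def, Nat.cast_smul_eq_nsmul] using hx i)
  refine ⟨BC.crd k K B (Kv v) e ⁻¹' Metric.closedBall 0 1,
    (BC.crd k K B (Kv v) e).continuous.continuousAt.preimage_mem_nhds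
      (by rw [map_zero]; exact Metric.closedBall_mem_nhds _ one_pos), fun x hx => ?_⟩
  rw [← e.sum_repr x]
  refine Subring.sum_mem _ fun i _ => smul_mem_At Λ v ?_ (he i)
  have h1 : BC.crd k K B (Kv v) e (BC.inc k K B (Kv v) x) i = algebraMap k (Kv v) (e.repr x i) := by
    have := Algebra.TensorProduct.basis_repr_tmul (A := Kv v) e 1 x
    change (Algebra.TensorProduct.basis (Kv v) e).repr ((1 : Kv v) ⊗ₜ[k] x) i = _
    rw [this]; simp
  rw [← val_alg, ← Valued.toNormedField.norm_le_one_iff, ← h1]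
  exact (norm_le_pi_norm _ i).trans (mem_closedBall_zero_iff.1 hx)

variable (k K B) in
theorem finite_Tk (h : Val K B) : (Tk k K B).Finite :=
  (h.1.image (below k)).subset fun _ ⟨w, hw, e⟩ => ⟨w, hw, e⟩

open scoped Classical in
/-- `SU = N · Γ` -/
theorem exists_mul (hA : Sa k K B) {N : Subgroup (unitary B)} (hN : NC K N) (Λ : Ord K B)
    {v₀ : Pl k} (s : Spl K B v₀) {S : Finset (Pl k)} (hS : ∀ v ∈ Tk k K B, v ∈ S)
    (g : SU K B) : ∃ n : SU K B, (n : unitary B) ∈ N ∧ n⁻¹ * g ∈ Λ.Gam (insert v₀ S) := by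
  obtain ⟨V, -, hV, hcl⟩ := hA N hN Λ v₀ ⟨s⟩
  let S' := (S ∪ (finite_not_At (k := k) Λ ((g : unitary B) : B)).toFinset).erase v₀
  let h : GS k K B S' := (1, fun v => if v.1 ∈ S then 1 else toG k K B (Kv v.1) g)
  have h1 := hcl S' (Finset.notMem_erase _ _) h fun v => by
    simp only [h]
    split_ifs with hv
    · exact (V v).one_mem
    · rw [hV v fun h' => hv (hS v h')]; trivial
  choose W hW hWA using fun v : Pl k => At_nhds (K := K) (B := B) Λ v
  have hnb : ∀ᶠ y : GS k K B S' in 𝓝 h, ∀ v : S',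
      ((((y.2 v)⁻¹ * h.2 v : SUc k K B (Kv v.1)) : Uc k K B (Kv v.1)) : BC k K B (Kv v.1)) - 1 ∈
        W v.1 := by
    refine eventually_all.2 fun v => ContinuousAt.preimage_mem_nhds (f := fun y : GS k K B S' =>
      ((((y.2 v)⁻¹ * h.2 v : SUc k K B (Kv v.1)) : Uc k K B (Kv v.1)) : BC k K B (Kv v.1)) - 1)
      (Continuous.continuousAt ?_) (by simpa using hW v.1)
    exact (continuous_subtype_val.comp (continuous_subtype_val.comp
      ((((continuous_apply v).comp continuous_snd).inv).mul continuous_const))).sub continuous_const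
  obtain ⟨_, hy, n, ⟨hn1, hn2⟩, rfl⟩ := mem_closure_iff_nhds.1 h1 _ hnb
  refine ⟨n, hn2, Ord.mem_Off.2 fun v hv => ?_⟩
  rw [Finset.mem_insert, not_or] at hv
  by_cases hv' : v ∈ S'
  · have h2 := hy ⟨v, hv'⟩
    have e : (jS k K B S' n).2 ⟨v, hv'⟩ = toG k K B (Kv v) n := rfl
    simp only [h, hv.2, if_false, e, ← map_inv, ← map_mul, coe_toG] at h2
    rw [← map_one (BC.inc k K B (Kv v)), ← map_sub] at h2
    simpa using (Λ.At v).add_mem (hWA v _ h2) (Λ.At v).one_mem
  · have h2 : ((g : unitary B) : B) ∈ Λ.At v := by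
      by_contra h3
      exact hv' (Finset.mem_erase.2 ⟨hv.1, Finset.mem_union_right _ (by simpa using h3)⟩)
    have h3 := Ord.mem_Off.1 ((Λ.Gam _).inv_mem hn1) v (by simp [hv.1, hv'])
    exact (Λ.At v).mul_mem h3 h2

open scoped Classical in
theorem nstK (hd : 3 ≤ deg K B) (hX : SplEx k K B) (hI : SplIso k K B) (hC : Coc k K B)
    (hT : TLink k K B) (hA : Sa k K B) (hV : Val K B) : NstK K B := by
  intro N hN
  obtain ⟨⟨Λ⟩, hX⟩ := hX
  let T₀ := (finite_Tk k K B hV).toFinset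
  obtain ⟨v₁, hv₁, s₁, -⟩ := hX Λ T₀
  let S := insert v₁ T₀
  obtain ⟨v₀, hv₀, s, -⟩ := hX Λ (S ∪ (finite_ne_one (x := (6 : k)) (by norm_num)).toFinset)
  rw [Finset.mem_union, not_or] at hv₀
  have hS : ∀ v ∈ Tk k K B, v ∈ S := fun v hv => Finset.mem_insert_of_mem (by simpa [T₀] using hv)
  obtain ⟨π, hπ⟩ := locF v₀ (by simpa using hv₀.2)
  let N₁ := N.subgroupOf (SU K B)
  have hN₁ : N₁.Normal := ⟨fun n hn g => hN.nrm g g.2 n hn⟩
  let Γ := Λ.Gam (insert v₀ S)
  obtain ⟨⟨V₁, hV₁, V₂, hV₂, hdisc⟩, C₁, C₂, hC₁, hC₂, hcoc⟩ := (hC Λ S).2.2.2 v₀ hv₀.1 s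
  have key : (N₁.subgroupOf Γ).FiniteIndex := by
    refine Nst.nstStmt (Kv v₀) _ π (deg K B) (GS k K B S) Γ (s.toSL.comp Γ.subtype)
      ((jS k K B S).comp Γ.subtype) _ hπ hd inferInstance
      ⟨V₁, hV₁, V₂, hV₂, fun γ h1 h2 => Subtype.ext (hdisc γ γ.2 h1 h2)⟩
      ⟨C₁, C₂, hC₁, hC₂, fun x₁ x₂ => ?_⟩ (fun y => ?_) ?_
    · obtain ⟨γ, hγ, h⟩ := hcoc x₁ x₂
      exact ⟨⟨γ, hγ⟩, h⟩
    · obtain ⟨V, -, hVt, hcl⟩ := hA N hN Λ v₁ ⟨s₁⟩
      obtain ⟨e, he⟩ := hI v₀ s
      have hne : v₁ ≠ v₀ := fun h => hv₀.1 (h ▸ Finset.mem_insert_self _ _)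
      let S'' := insert v₀ T₀
      have hm : v₀ ∈ S'' := Finset.mem_insert_self _ _
      let h : GS k K B S'' := (1, Pi.mulSingle ⟨v₀, hm⟩ (e.symm y))
      have h1 := hcl S'' (by simp [S'', hne, hv₁]) h fun v => by
        by_cases hv : v = ⟨v₀, hm⟩
        · subst hv
          rw [hVt v₀ fun h' => hv₀.1 (hS _ h')]; trivial
        · simp only [h, Pi.mulSingle_eq_of_ne hv]
          exact (V v).one_mem
      have h2 := map_mem_closure (f := fun x : GS k K B S'' => e (x.2 ⟨v₀, hm⟩))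
        (t := (s.toSL.comp Γ.subtype) '' (N₁.subgroupOf Γ : Set Γ))
        (e.continuous.comp ((continuous_apply _).comp continuous_snd)) h1 (by
          rintro _ ⟨γ, ⟨h3, h4⟩, rfl⟩
          rw [Finset.insert_comm] at h3
          exact ⟨⟨γ, h3⟩, h4, (he γ).symm⟩)
      simpa [h] using h2
    · obtain ⟨V, hVo, hVt, hcl⟩ := hA N hN Λ v₀ ⟨s⟩
      let ev : ∀ v : S, GS k K B S →* SUc k K B (Kv v.1) := fun v =>
        (Pi.evalMonoidHom _ v).comp (MonoidHom.snd _ _)
      have hW : (⨅ v : S, (V v.1).comap (ev v)).FiniteIndex := by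
        refine Subgroup.finiteIndex_iInf fun v => ⟨?_⟩
        have : (V v.1).FiniteIndex := by
          by_cases hv : v.1 ∈ Tk k K B
          · have := (hT v hv).1
            have := (V v).quotient_finite_of_isOpen (hVo v)
            exact Subgroup.finiteIndex_of_finite_quotient
          · rw [hVt v hv]; infer_instance
        rw [Subgroup.index_comap]
        exact Subgroup.FiniteIndex.index_ne_zero
      refine Subgroup.finiteIndex_of_le (H := ⨅ v : S, (V v.1).comap (ev v)) fun g hg => ?_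
      refine closure_mono ?_ (hcl S hv₀.1 g fun v => Subgroup.mem_iInf.1 hg v)
      rintro _ ⟨γ, ⟨h3, h4⟩, rfl⟩
      exact ⟨⟨γ, h3⟩, h4, rfl⟩
  have htop : N₁ ⊔ Γ = ⊤ := eq_top_iff.2 fun g _ => by
    obtain ⟨n, hn, hg⟩ := exists_mul hA hN Λ s hS g
    simpa using Subgroup.mul_mem_sup (S := N₁) (T := Γ) hn hg
  have := Subgroup.relIndex_sup_left Γ N₁
  rw [htop, Subgroup.relIndex_top_right] at this
  exact this.trans_ne key.index_ne_zero

end NstK39

theorem nstKStmt (hX : SplExStmt.{u, v, w}) (hI : SplIsoStmt.{u, v, w}) (hC : CocStmt.{u, v, w})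
    (hT : TLinkStmt.{u, v, w}) (hA : SaStmt.{u, v, w}) (hV : ValStmt.{u, v, w}) :
    NstKStmt.{u, v, w} := fun D hd ha =>
  NstK39.nstK hd (hX D) (hI D) (hC D ha) (hT D (by omega)) (hA D hd ha) (hV D (by omega))

end Crest.Agent.T24
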