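import Crest.Agent.T24.Def_26
import Crest.Agent.T24.Csa4_50
import Crest.Agent.T24.OpnB_6

/-!
# Row 24 (helper53): `Pow` and `Cont`
-/

set_option autoImplicit false
set_option linter.unusedSectionVars false

noncomputable section

namespace Crest.Agent.T24

open Module NumberField IsDedekindDomain WithZero Csa Asa Polynomial
open scoped commutatorElement IntermediateField

universe u v w

namespace P53

section Poly
variable {K B : Type*} [Field K] [Ring B] [Algebra K B]

theorem poly_zero (P : B[X]) {S : Set K} (hS : S.Infinite)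
    (h : ∀ t ∈ S, P.eval (algebraMap K B t) = 0) : P = 0 := by
  ext i
  rw [coeff_zero, ← Module.forall_dual_apply_eq_zero_iff K]
  intro l
  let Q : K[X] := ∑ j ∈ Finset.range (P.natDegree + 1), monomial j (l (P.coeff j))
  have hQ : Q = 0 := Q.eq_zero_of_infinite_isRoot (hS.mono fun t ht => by
    have := congrArg l (h t ht)
    rw [eval_eq_sum_range, map_sum, map_zero] at this
    simp only [Set.mem_ofPred_eq, IsRoot.def, Q, eval_finsetSum, eval_monomial]
    rw [← this]
    refine Finset.sum_congr rfl fun j _ => ?_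
    rw [← map_pow, ← Algebra.commutes, ← Algebra.smul_def, map_smul, smul_eq_mul, mul_comm])
  by_cases hi : i < P.natDegree + 1
  · have := congrArg (coeff · i) hQ
    simpa [Q, coeff_monomial, Finset.mem_range.2 hi] using this
  · rw [coeff_eq_zero_of_natDegree_lt (by omega), map_zero]

theorem coeff_lin_pow (a : B) (N : ℕ) :
    ((1 + C a * X) ^ N : B[X]).coeff 0 = 1 ∧ ((1 + C a * X) ^ N : B[X]).coeff 1 = N • a := by
  induction N with
  | zero => simp [coeff_one]
  | succ N ih =>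
    rw [pow_succ, mul_coeff_zero, mul_coeff_one, ih.1, ih.2]
    simp [coeff_one, add_mul, add_comm]

/-- rigidity of powers of Cayley transforms -/
theorem cay_rigid [CharZero K] {α β b : B} {N : ℕ} (hN : N ≠ 0) {S : Set K} (hS : S.Infinite)
    (h : ∀ t ∈ S, (1 + t • α) ^ N * b * (1 - t • β) ^ N = (1 - t • α) ^ N * b * (1 + t • β) ^ N) :
    α * b = b * β := by
  have h0 := poly_zero ((1 + C α * X) ^ N * C b * (1 + C (-β) * X) ^ N -
    (1 + C (-α) * X) ^ N * C b * (1 + C β * X) ^ N) hS fun t ht => by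
      let e := eval₂RingHom' (RingHom.id B) (algebraMap K B t) fun a => (Algebra.commutes t a).symm
      have he : ∀ p, eval (algebraMap K B t) p = e p := fun _ => rfl
      have hl : ∀ a : B, e (1 + C a * X) = 1 + t • a := fun a => by
        rw [← he, eval_add, eval_one, eval_mul_X, eval_C, ← Algebra.commutes, ← Algebra.smul_def]
      have hb : e (C b) = b := by rw [← he, eval_C]
      rw [he, map_sub, map_mul, map_mul, map_mul, map_mul, map_pow, map_pow, map_pow, map_pow,
        hl, hl, hl, hl, hb, smul_neg, smul_neg, ← sub_eq_add_neg, ← sub_eq_add_neg, h t ht,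
        sub_self]
  have h1 := congrArg (coeff · 1) h0
  simp only [coeff_sub, mul_coeff_one, mul_coeff_zero, (coeff_lin_pow _ N).1,
    (coeff_lin_pow _ N).2, coeff_C_zero, coeff_C_succ, coeff_zero] at h1
  have h2 : ((2 * N : ℕ) : K) • (α * b - b * β) = 0 := by
    rw [Nat.cast_smul_eq_nsmul, ← h1]
    simp only [smul_sub, smul_neg, mul_neg, neg_mul, smul_mul_assoc, mul_smul_comm, two_mul,
      add_smul, mul_zero, one_mul, mul_one, zero_add]
    abel
  exact sub_eq_zero.1 ((smul_eq_zero.1 h2).resolve_left (by exact_mod_cast (by omega)))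

/-- a power of a Cayley transform generates the same field -/
theorem prim [CharZero K] {L : Type*} [Field L] [Algebra K L] [FiniteDimensional K L] {a : L}
    (ha : K⟮a⟯ = ⊤) {N : ℕ} (hN : N ≠ 0) {S : Set K} (hS : S.Infinite)
    (h1 : ∀ t ∈ S, 1 - t • a ≠ 0) :
    ∃ t ∈ S, K⟮((1 + t • a) / (1 - t • a)) ^ N⟯ = ⊤ := by
  have hA : ∀ x : L, ((minpoly K x).map (algebraMap K (AlgebraicClosure K))).Splits :=
    fun x => IsAlgClosed.splits _
  have hinj := (Field.primitive_element_iff_algHom_eq_of_eval' K _ hA a).1 ha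
  by_contra hn
  push Not at hn
  have hp : ∀ t : S, ∃ p : (L →ₐ[K] AlgebraicClosure K) × (L →ₐ[K] AlgebraicClosure K),
      p.1 ≠ p.2 ∧ p.1 (((1 + t.1 • a) / (1 - t.1 • a)) ^ N) =
        p.2 (((1 + t.1 • a) / (1 - t.1 • a)) ^ N) := by
    intro t
    have := mt (Field.primitive_element_iff_algHom_eq_of_eval' K _ hA _).2 (hn t.1 t.2)
    rw [Function.not_injective_iff] at this
    obtain ⟨φ, ψ, h2, h3⟩ := this
    exact ⟨(φ, ψ), h3, h2⟩
  choose p hp1 hp2 using hp
  have := hS.to_subtype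
  obtain ⟨q, hq⟩ := Finite.exists_infinite_fiber p
  have hq' : (Subtype.val '' (p ⁻¹' {q})).Infinite :=
    (Set.infinite_coe_iff.1 hq).image Subtype.val_injective.injOn
  obtain ⟨_, t₀, ht₀, rfl⟩ := hq'.nonempty
  refine hp1 t₀ ?_
  rw [show p t₀ = q from ht₀]
  refine hinj ?_
  have := cay_rigid (α := q.1 a) (β := q.2 a) (b := 1) hN hq' (by
    rintro _ ⟨t, ht, rfl⟩
    have h2 := hp2 t
    rw [show p t = q from ht] at h2
    have h3 : ∀ φ : L →ₐ[K] AlgebraicClosure K, 1 - t.1 • φ a ≠ 0 := fun φ => by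
      have := (map_ne_zero φ).2 (h1 t.1 t.2)
      rwa [map_sub, map_one, map_smul] at this
    simp only [map_pow, map_div₀, map_add, map_sub, map_one, map_smul, div_pow] at h2
    rw [div_eq_div_iff (pow_ne_zero _ (h3 _)) (pow_ne_zero _ (h3 _))] at h2
    rw [mul_one, mul_one, h2, mul_comm])
  simpa using this

end Poly

theorem relIndex_ne_zero {G A : Type*} [Group G] [Finite A] {H G' : Subgroup G} (f : G → A)
    (h : ∀ x ∈ G', ∀ y ∈ G', f x = f y → x⁻¹ * y ∈ H) : H.relIndex G' ≠ 0 := by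
  have : Finite (G' ⧸ H.subgroupOf G') := Finite.of_injective (fun q => f (q.out : G'))
    fun q r e => by
      rw [← q.out_eq', ← r.out_eq', QuotientGroup.eq]
      exact h _ q.out.2 _ r.out.2 e
  exact Subgroup.index_ne_zero_of_finite

section Val
variable {K : Type*} [Field K] [NumberField K] [StarRing K] {B : Type*} [Ring B] [StarRing B]
  [Algebra K B] [StarModule K B] [Algebra.IsCentral K B] [IsSimpleRing B] [FiniteDimensional K B]

/-- `val w` as a valuation -/
def vw {w : Pl K} (h : Ultra B w) : Valuation B ℤᵐ⁰ where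
  toFun := val w
  map_zero' := val_zero w
  map_one' := val_one w
  map_mul' := val_mul w
  map_add_le_max' := h

theorem val_smul (w : Pl K) (c : K) (x : B) :
    val w (c • x) = w.valuation K c ^ deg K B * val w x := by
  simp [val, Nrd_smul]

theorem val_ne_zero {w : Pl K} {x : B} : val w x ≠ 0 ↔ IsUnit x := by
  rw [isUnit_iff_Nrd (K := K), val, Valuation.ne_zero_iff]

theorem val_unitary (w : Pl K) (u : unitary B) : val w (u : B) ≠ 0 :=
  val_ne_zero.2 (Unitary.toUnits u).isUnit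

/-- `B` is a division algebra as soon as it is one at some place -/
theorem isUnit_of_ultra {w : Pl K} (h : Ultra B w) {x : B} (hx : x ≠ 0) : IsUnit x := by
  let I : TwoSidedIdeal B := TwoSidedIdeal.mk' {x | vw h x = 0} (map_zero _)
    (fun {a b} ha hb => le_antisymm ((vw h).map_add_le (le_of_eq ha) (le_of_eq hb)) zero_le)
    (fun {a} ha => by rwa [Set.mem_ofPred_eq, Valuation.map_neg])
    (fun {a b} hb => by rw [Set.mem_ofPred_eq, map_mul, hb, mul_zero])
    (fun {a b} ha => by rw [Set.mem_ofPred_eq, map_mul, ha, zero_mul])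
  by_contra hu
  have h1 : x ∈ I := (TwoSidedIdeal.mem_mk' ..).2 (not_not.1 (mt val_ne_zero.1 hu))
  have := (TwoSidedIdeal.mem_mk' ..).1 (IsSimpleRing.one_mem_of_ne_zero_mem I hx h1)
  simp at this

theorem fin_res (w : Pl K) (M : ℕ) : ∃ (n : ℕ) (f : K → Fin n), ∀ x y : K,
    w.valuation K x ≤ 1 → w.valuation K y ≤ 1 → f x = f y →
      w.valuation K (x - y) ≤ exp (-(M : ℤ)) := by
  have : Finite (𝓞 K ⧸ w.asIdeal ^ M) :=
    Ideal.finiteQuotientOfFreeOfNeBot _ (pow_ne_zero _ w.ne_bot)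
  obtain ⟨n, ⟨e⟩⟩ := Finite.exists_equiv_fin (𝓞 K ⧸ w.asIdeal ^ M)
  have : ∀ x : K, w.valuation K x ≤ 1 →
      ∃ r : 𝓞 K, w.valuation K (algebraMap _ K r - x) ≤ exp (-(M : ℤ)) := fun x hx => by
    obtain ⟨r, hr⟩ := w.exists_valuation_sub_lt_of_integer hx
      (Units.mk0 (exp (-(M : ℤ))) exp_ne_zero)
    exact ⟨r, hr.le⟩
  choose! r hr using this
  refine ⟨n, fun x => e (Ideal.Quotient.mk _ (r x)), fun x y hx hy h => ?_⟩
  have h1 := (w.intValuation_le_pow_iff_mem _ M).2 (Ideal.Quotient.eq.1 (e.injective h))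
  rw [← w.valuation_of_algebraMap (K := K)] at h1
  change w.valuation K (algebraMap _ K (r x - r y)) ≤ _ at h1
  have : x - y = algebraMap _ K (r x - r y) - (algebraMap _ K (r x) - x) +
    (algebraMap _ K (r y) - y) := by rw [map_sub]; ring
  rw [this]
  exact Valuation.map_add_le _ (Valuation.map_sub_le _ h1 (hr x hx)) (hr y hy)

theorem fin_one (hC : Cof K B) {w : Pl K} (h : Ultra B w) (m : ℕ) :
    ∃ (n : ℕ) (f : B → Fin n), ∀ x y : B, val w x ≤ 1 → val w y ≤ 1 → f x = f y →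
      val w (x - y) < exp (-(m : ℤ)) := by
  let e := Module.finBasis K B
  obtain ⟨m₁, h₁⟩ := (hC w h e 0).2
  obtain ⟨m₂, h₂⟩ := (hC w h e m).1
  obtain ⟨π, hπ⟩ := w.valuation_exists_uniformizer K
  have hp : w.valuation K (π ^ (m₁ + 1)) = exp (-((m₁ + 1 : ℕ) : ℤ)) := by
    rw [map_pow, hπ, ← exp_nsmul]; simp
  obtain ⟨n, g, hg⟩ := fin_res w (m₂ + (m₁ + 1))
  obtain ⟨N, ⟨q⟩⟩ := Finite.exists_equiv_fin (Fin (finrank K B) → Fin n)
  have hint : ∀ x : B, val w x ≤ 1 → ∀ i, w.valuation K (e.repr (π ^ (m₁ + 1) • x) i) ≤ 1 := by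
    intro x hx i
    have := h₁ (π ^ (m₁ + 1) • x) (by
      rw [val_smul, hp]
      refine lt_of_le_of_lt (mul_le_mul' (pow_le_of_le_one zero_le (exp_neg_le_one _)
        (deg_pos K B).ne') hx) ?_
      rw [mul_one, exp_lt_exp]; omega) i
    simpa using this
  refine ⟨N, fun x => q fun i => g (e.repr (π ^ (m₁ + 1) • x) i), fun x y hx hy hxy => ?_⟩
  refine h₂ _ fun i => ?_
  have h3 := hg _ _ (hint x hx i) (hint y hy i) (congrFun (q.injective hxy) i)
  rw [← Finsupp.sub_apply, ← map_sub, ← smul_sub, map_smul, Finsupp.smul_apply, smul_eq_mul,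
    map_mul, hp, mul_comm, ← le_div_iff₀ exp_pos, ← exp_sub] at h3
  refine h3.trans (le_of_eq ?_)
  congr 1
  push_cast
  ring

/-- unitary elements that are units at `T` -/
def U0 (K : Type*) [Field K] [NumberField K] [StarRing K] (B : Type*) [Ring B] [StarRing B]
    [Algebra K B] [StarModule K B] [Algebra.IsCentral K B] [IsSimpleRing B]
    [FiniteDimensional K B] : Subgroup (unitary B) where
  carrier := {u | ∀ w ∈ TT K B, val w (u : B) = 1}
  one_mem' w _ := val_one w
  mul_mem' ha hb w hw := by rw [Submonoid.coe_mul, val_mul, ha w hw, hb w hw, one_mul]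
  inv_mem' {a} ha w hw := by
    have : val w ((a⁻¹ * a : unitary B) : B) = 1 := by simp
    rwa [Submonoid.coe_mul, val_mul, ha w hw, mul_one] at this

theorem SU_le_U0 : SU K B ≤ U0 K B := fun u hu w _ => by
  rw [val, mem_SU.1 hu, map_one]

theorem fin_cls (hT : (TT K B).Finite) (hC : Cof K B) (m : ℕ) :
    ∃ (A : Type) (_ : Finite A) (f : unitary B → A), ∀ x ∈ U0 K B, ∀ y ∈ U0 K B, f x = f y →
      x⁻¹ * y ∈ Um K B m := by
  choose n f hf using fun w : TT K B => fin_one hC w.2.2 m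
  have := hT.to_subtype
  obtain ⟨N, ⟨q⟩⟩ := Finite.exists_equiv_fin (∀ w : TT K B, Fin (n w))
  refine ⟨Fin N, inferInstance, fun x => q fun w => f w x, fun x hx y hy e w hw => ?_⟩
  have h1 := hf ⟨w, hw⟩ _ _ (hy w hw).le (hx w hw).le (congrFun (q.injective e) ⟨w, hw⟩).symm
  have : ((x⁻¹ * y : unitary B) : B) - 1 = (x⁻¹ : unitary B) * ((y : B) - x) := by
    rw [mul_sub, ← Submonoid.coe_mul, ← Submonoid.coe_mul, inv_mul_cancel]; rfl
  rw [this, val_mul, (U0 K B).inv_mem hx w hw, one_mul]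
  exact h1

theorem relIndex_SUm (hT : (TT K B).Finite) (hC : Cof K B) (m : ℕ) :
    (SUm K B m).relIndex (SU K B) ≠ 0 := by
  obtain ⟨A, _, f, hf⟩ := fin_cls hT hC m
  exact relIndex_ne_zero f fun x hx y hy e =>
    ⟨(SU K B).mul_mem ((SU K B).inv_mem hx) hy, hf x (SU_le_U0 hx) y (SU_le_U0 hy) e⟩


theorem anti_star : Opn.Anti (starAddEquiv : B ≃+ B).toAddMonoidHom :=
  ⟨fun x y => star_mul x y, fun x => star_star x⟩

/-- `z ^ d / Nrd z` -/
theorem exists_su (z : unitary B) :
    ∃ g ∈ SU K B, ∃ c : K, c ≠ 0 ∧ (g : B) = c • (z : B) ^ deg K B := by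
  have h1 : star (Nrd K (z : B)) * Nrd K (z : B) = 1 := Csa.Nrd_unitary z.2
  have h0 : Nrd K (z : B) ≠ 0 := right_ne_zero_of_mul_eq_one h1
  have hz := pow_mem z.2 (deg K B)
  refine ⟨⟨(Nrd K (z : B))⁻¹ • (z : B) ^ deg K B, ?_, ?_⟩, ?_, _, inv_ne_zero h0, rfl⟩
  · rw [star_smul, smul_mul_smul_comm, hz.1, star_inv₀, ← mul_inv, h1, inv_one, one_smul]
  · rw [star_smul, smul_mul_smul_comm, hz.2, star_inv₀, ← mul_inv, mul_comm, h1, inv_one,
      one_smul]
  · rw [mem_SU, Nrd_smul, map_pow, ← mul_pow, inv_mul_cancel₀ h0, one_pow]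

theorem exists_cay {a : B} (ha : star a = -a) {t : K} (ht : star t = t) (hu : IsUnit (1 - t • a)) :
    ∃ z : unitary B, (z : B) * (1 - t • a) = 1 + t • a := by
  have h1 : star (t • a) = -(t • a) := by rw [star_smul, ht, ha, smul_neg]
  have h2 : star (Opn.cay (t • a)) * Opn.cay (t • a) = 1 := anti_star.cay_unitary h1 hu
  have := Opn.dedekind' K (A := B)
  exact ⟨⟨Opn.cay (t • a), h2, mul_eq_one_comm.1 h2⟩, Ring.inverse_mul_cancel_right _ _ hu⟩

theorem good_t (a : B) : {t : K | star t = t ∧ IsUnit (1 - t • a)}.Infinite := by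
  have h1 := Opn.finite_nonunit (F := K) (a := 1) (b := -a) (t0 := 0) (by simp)
  refine (infinite_fixed.sdiff h1).mono fun t ht => ⟨ht.1, ?_⟩
  have := not_not.1 ht.2
  rwa [smul_neg, ← sub_eq_add_neg] at this

theorem pow_mul_eq {z p q : B} (h : z * p = q) (hc : Commute p q) (hp : IsUnit p) (N : ℕ) :
    z ^ N * p ^ N = q ^ N ∧ p ^ N * z ^ N = q ^ N := by
  have hz : Commute z p := by
    refine hp.mul_right_cancel ?_
    rw [h, mul_assoc, h, hc.eq]
  rw [← hz.mul_pow, ← hz.symm.mul_pow, ← hz.eq, h]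
  exact ⟨rfl, rfl⟩

theorem comm_lin (a : B) (t : K) : Commute (1 - t • a) (1 + t • a) :=
  (Commute.one_left _).sub_left ((Commute.one_right _).add_right (Commute.refl _))

/-- an element of `SU` in `K[a]` whose `N`-th power does not commute with `b` -/
theorem exists_nc {a b : B} (ha : star a = -a) (hab : a * b ≠ b * a) {N : ℕ} (hN : N ≠ 0) :
    ∃ x ∈ SU K B, (x : B) ^ N * b ≠ b * (x : B) ^ N := by
  by_contra hn
  push Not at hn
  refine hab (cay_rigid (mul_ne_zero (deg_pos K B).ne' hN) (good_t (K := K) a) fun t ht => ?_)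
  obtain ⟨z, hz⟩ := exists_cay ha ht.1 ht.2
  obtain ⟨g, hg, c, hc, e⟩ := exists_su (K := K) z
  have h1 := hn g hg
  rw [e, _root_.smul_pow, smul_mul_assoc, mul_smul_comm, ← pow_mul] at h1
  have h2 := smul_right_injective B (pow_ne_zero N hc) h1
  obtain ⟨h3, h4⟩ := pow_mul_eq hz (comm_lin a t) ht.2 (deg K B * N)
  conv_lhs => rw [← h4]
  conv_rhs => rw [← h3]
  rw [mul_assoc _ _ b, h2]
  simp only [mul_assoc]

theorem exists_skew_nc (hne : ∃ c : K, star c ≠ c) (hd : 2 ≤ deg K B) :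
    ∃ a c : B, star a = -a ∧ star c = -c ∧ a * c ≠ c * a := by
  obtain ⟨θ, h0, hθ⟩ := exists_skew hne
  obtain ⟨e, he⟩ := exists_herm_basis (B := B) hne
  by_contra hn
  push Not at hn
  have hs : ∀ i, star (θ • e i) = -(θ • e i) := fun i => by rw [star_smul, hθ, he, neg_smul]
  have h1 : ∀ i j, Commute (e i) (e j) := fun i j => by
    have := hn _ _ (hs i) (hs j)
    rw [smul_mul_smul_comm, smul_mul_smul_comm] at this
    exact smul_right_injective B (mul_ne_zero h0 h0) this
  have h2 : ∀ x y : B, Commute x y := fun x y => by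
    rw [← e.sum_repr x, ← e.sum_repr y]
    exact Commute.sum_left _ _ _ fun i _ => Commute.sum_right _ _ _ fun j _ =>
      ((h1 i j).smul_left _).smul_right _
  have h3 : Function.Surjective (Algebra.linearMap K B) := fun x => by
    obtain ⟨c, hc⟩ := (Algebra.IsCentral.mem_center_iff K).1
      (Subalgebra.mem_center_iff.2 fun y => (h2 y x).eq)
    exact ⟨c, hc.symm⟩
  have h4 := LinearMap.finrank_le_finrank_of_surjective h3
  rw [finrank_self, finrank_eq_deg_sq] at h4
  nlinarith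

theorem pow (hne : ∃ c : K, star c ≠ c) (hd : 2 ≤ deg K B) (hT : (TT K B).Finite)
    (hC : Cof K B) : Pow K B := by
  intro m n hn
  have hi := relIndex_SUm hT hC m
  refine ⟨hi, ?_⟩
  obtain ⟨a, c, ha, hc, hac⟩ := exists_skew_nc hne hd
  obtain ⟨g, hg, h1⟩ := exists_nc (K := K) hc hac.symm one_ne_zero
  rw [pow_one] at h1
  obtain ⟨x, hx, h2⟩ := exists_nc (K := K) ha h1.symm (mul_ne_zero hi hn)
  refine ⟨x ^ (SUm K B m).relIndex (SU K B), Subgroup.pow_relIndex_mem _ hx, g, hg, fun e => h2 ?_⟩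
  have := congrArg Subtype.val e
  simpa [pow_mul] using this

/-- polynomials are continuous on the integers of `w` -/
theorem aeval_cont {w : Pl K} (h : Ultra B w) (q : K[X]) {γ : ℤᵐ⁰} (hγ : γ ≠ 0) :
    ∃ m : ℕ, ∀ x y : B, val w x ≤ 1 → val w y ≤ 1 → val w (x - y) < exp (-(m : ℤ)) →
      val w (aeval x q - aeval y q) < γ := by
  induction q using Polynomial.induction_on' with
  | add p q hp hq =>
    obtain ⟨m, hm⟩ := hp
    obtain ⟨n, hn⟩ := hq
    refine ⟨max m n, fun x y hx hy hxy => ?_⟩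
    rw [map_add, map_add, add_sub_add_comm]
    exact (vw h).map_add_lt (hm x y hx hy (hxy.trans_le (exp_neg_anti (le_max_left _ _))))
      (hn x y hx hy (hxy.trans_le (exp_neg_anti (le_max_right _ _))))
  | monomial i c =>
    have hp : ∀ x y : B, val w x ≤ 1 → val w y ≤ 1 → val w (x ^ i - y ^ i) ≤ val w (x - y) := by
      intro x y hx hy
      induction i with
      | zero => simp
      | succ i ih =>
        have : x ^ (i + 1) - y ^ (i + 1) = x * (x ^ i - y ^ i) + (x - y) * y ^ i := by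
          rw [pow_succ', pow_succ']; noncomm_ring
        rw [this]
        refine (vw h).map_add_le ?_ ?_ <;> rw [map_mul]
        · exact (mul_le_mul' hx ih).trans (one_mul _).le
        · rw [map_pow]
          exact (mul_le_mul' le_rfl (pow_le_one' hy i)).trans (mul_one _).le
    by_cases hc : c = 0
    · exact ⟨0, fun x y _ _ _ => by simpa [hc] using zero_lt_iff.2 hγ⟩
    have hc' : w.valuation K c ^ deg K B ≠ 0 := pow_ne_zero _ (Asa.val_ne_zero w hc)
    obtain ⟨m, hm⟩ := exists_exp_le (div_ne_zero hγ hc')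
    refine ⟨m, fun x y hx hy hxy => ?_⟩
    rw [aeval_monomial, aeval_monomial, ← mul_sub, ← Algebra.smul_def, val_smul, mul_comm,
      ← lt_div_iff₀ (zero_lt_iff.2 hc')]
    exact ((hp x y hx hy).trans_lt hxy).trans_le hm

theorem aeval_cont' (hT : (TT K B).Finite) (q : K[X]) {x₀ : B} (hx₀ : IsUnit x₀) (m : ℕ) :
    ∃ m' : ℕ, ∀ w ∈ TT K B, ∀ x y : B, val w x ≤ 1 → val w y ≤ 1 →
      val w (x - y) < exp (-(m' : ℤ)) →
      val w (aeval x q - aeval y q) < val w x₀ * exp (-(m : ℤ)) := by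
  have := fun w : TT K B => aeval_cont w.2.2 q
    (mul_ne_zero (val_ne_zero (w := w.1).2 hx₀) (exp_ne_zero (a := -(m : ℤ))))
  choose f hf using this
  have := hT.to_subtype
  obtain ⟨M, hM⟩ := (Set.finite_range f).bddAbove
  exact ⟨M, fun w hw x y hx hy hxy => hf ⟨w, hw⟩ x y hx hy
    (hxy.trans_le (exp_neg_anti (hM ⟨⟨w, hw⟩, rfl⟩)))⟩

/-- `1 + u` is a polynomial in a deep element of `SU` that commutes with `u` -/
theorem exists_gen (hB : ∀ x : B, x ≠ 0 → IsUnit x) {m : ℕ}
    (hi : (SUm K B m).relIndex (SU K B) ≠ 0) (u : unitary B) (hu : (u : B) + 1 ≠ 0) :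
    ∃ y ∈ SUm K B m, ∃ q : K[X], aeval (y : B) q = (u : B) + 1 ∧ Commute u y := by
  have h2 : IsUnit (2 : B) := by
    have := (isUnit_iff_ne_zero.2 (two_ne_zero (α := K))).map (algebraMap K B)
    rwa [map_ofNat] at this
  set a := Opn.icay (u : B) with ha
  have hs : star a = -a := anti_star.icay_skew u.2.1 u.2.2 (hB _ hu)
  let L := Algebra.adjoin K {a}
  have hc : ∀ x y : L, x * y = y * x := fun x y => Subtype.ext
    (Algebra.commute_of_mem_adjoin_singleton_of_commute y.2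
      (Algebra.commute_of_mem_adjoin_singleton_of_commute x.2 (Commute.refl a)).symm).eq
  have hL : IsField L := ⟨exists_pair_ne _, hc, fun {x} hx =>
    LinearMap.surjective_of_injective (f := LinearMap.mulLeft K x) (fun y z e => Subtype.ext
      ((hB x fun h => hx (Subtype.ext h)).mul_left_cancel (congrArg Subtype.val e))) 1⟩
  let _ := hL.toField
  let a' : L := ⟨a, Algebra.self_mem_adjoin_singleton K a⟩
  have hadj : ∀ z : L, K⟮z⟯.toSubalgebra = Algebra.adjoin K {z} := fun z =>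
    IntermediateField.adjoin_simple_toSubalgebra_of_isAlgebraic (Algebra.IsAlgebraic.isAlgebraic z)
  have ha' : K⟮a'⟯ = ⊤ := by
    refine IntermediateField.toSubalgebra_injective ?_
    rw [hadj, IntermediateField.top_toSubalgebra]
    rw [← Algebra.adjoin_adjoin_coe_preimage (R := K) (s := {a})]
    congr 1
    ext x
    simp [a', Subtype.ext_iff]
  have hN := mul_ne_zero (deg_pos K B).ne' hi
  have hne : ∀ t : K, IsUnit (1 - t • a) → 1 - t • a' ≠ 0 := fun t ht e =>
    ht.ne_zero (congrArg Subtype.val e)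
  obtain ⟨t, ht, hp⟩ := prim ha' hN (good_t (K := K) a) fun t ht => hne t ht.2
  obtain ⟨z, hz⟩ := exists_cay hs ht.1 ht.2
  obtain ⟨g, hg, c, hc0, e⟩ := exists_su (K := K) z
  set z' : L := (1 + t • a') / (1 - t • a') with hz'
  have hzz : (z' : B) = z := by
    refine ht.2.mul_right_cancel ?_
    rw [hz]
    exact congrArg Subtype.val (div_mul_cancel₀ (1 + t • a') (hne t ht.2))
  set N := (SUm K B m).relIndex (SU K B)
  have hy : ((g ^ N : unitary B) : B) = c ^ N • ((z' ^ (deg K B * N) : L) : B) := by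
    rw [SubmonoidClass.coe_pow, e, _root_.smul_pow, ← pow_mul, SubmonoidClass.coe_pow, hzz]
  have hu1 : (u : B) + 1 ∈ L := by
    have h1 : 1 - a' ≠ 0 := by
      simpa using hne 1 (by simpa using (Opn.cay_icay h2 (hB _ hu)).1)
    have h3 : ((2 / (1 - a') : L) : B) = u + 1 := by
      refine (Opn.cay_icay h2 (hB _ hu)).1.mul_right_cancel ?_
      have h4 : ((2 / (1 - a') : L) : B) * (1 - a) = 2 :=
        congrArg Subtype.val (div_mul_cancel₀ (2 : L) h1)
      rw [← ha, h4, ha, Opn.one_sub_icay (hB _ hu), ← mul_assoc, ← (Commute.ofNat_left 2 _).eq,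
        Ring.mul_inverse_cancel_right _ _ (hB _ hu)]
    exact h3 ▸ Subtype.property _
  have hmem : (⟨_, hu1⟩ : L) ∈ Algebra.adjoin K {z' ^ (deg K B * N)} := by
    rw [← hadj, hp]; trivial
  rw [Algebra.adjoin_singleton_eq_range_aeval] at hmem
  obtain ⟨q, hq⟩ := hmem
  refine ⟨g ^ N, Subgroup.pow_relIndex_mem _ hg, q.comp (C (c ^ N)⁻¹ * X), ?_, ?_⟩
  · rw [aeval_comp, map_mul, aeval_C, aeval_X, ← Algebra.smul_def, hy,
      inv_smul_smul₀ (pow_ne_zero _ hc0)]
    exact (aeval_algHom_apply L.val _ q).trans (congrArg Subtype.val hq)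
  · refine Subtype.ext ?_
    have h1 := congrArg Subtype.val (hc ⟨_, hu1⟩ (z' ^ (deg K B * N)))
    change ((u : B) + 1) * _ = _ * ((u : B) + 1) at h1
    rw [add_mul, mul_add, one_mul, mul_one, add_left_inj] at h1
    rw [Submonoid.coe_mul, Submonoid.coe_mul, hy, mul_smul_comm, smul_mul_assoc, h1]

theorem deep_of_near {m : ℕ} {x x₀ : B} (hx₀ : IsUnit x₀)
    (h : ∀ w ∈ TT K B, val w (x - x₀) < val w x₀ * exp (-(m : ℤ))) :
    Ring.inverse x₀ * x ∈ Deep K B m := fun w hw => by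
  have h1 : val w (Ring.inverse x₀) * val w x₀ = 1 := by
    rw [← val_mul, Ring.inverse_mul_cancel _ hx₀, val_one]
  have : Ring.inverse x₀ * x - 1 = Ring.inverse x₀ * (x - x₀) := by
    rw [mul_sub, Ring.inverse_mul_cancel _ hx₀]
  rw [this, val_mul]
  refine (mul_lt_mul_of_pos_left (h w hw) (zero_lt_iff.2 (left_ne_zero_of_mul_eq_one h1))).trans_eq ?_
  rw [← mul_assoc, h1, one_mul]

/-- one element -/
theorem cont_one (hT : (TT K B).Finite) (hC : Cof K B) {w₀ : Pl K} (hw₀ : w₀ ∈ TT K B) (m : ℕ)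
    (u : unitary B) : ∃ m', ∀ g ∈ SUm K B m', u * g * u⁻¹ * g⁻¹ ∈ ⁅Um K B m, SUm K B m⁆ := by
  have hB : ∀ x : B, x ≠ 0 → IsUnit x := fun x hx => isUnit_of_ultra hw₀.2 hx
  by_cases hu : (u : B) + 1 = 0
  · refine ⟨0, fun g _ => ?_⟩
    have : u * g = g * u := Subtype.ext (by
      rw [Submonoid.coe_mul, Submonoid.coe_mul, eq_neg_of_add_eq_zero_left hu]; simp)
    rw [this]
    simp
  obtain ⟨y₀, hy₀, q, hq, hc⟩ := exists_gen hB (relIndex_SUm hT hC m) u hu
  have hx₀ := hB _ hu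
  have hs₀ : IsUnit (star ((u : B) + 1)) := hx₀.star
  obtain ⟨m₁, h₁⟩ := aeval_cont' hT q hx₀ m
  obtain ⟨m₂, h₂⟩ := aeval_cont' hT (q.map (starRingEnd K)) hs₀ m
  refine ⟨max m (max m₁ m₂), fun g hg => ?_⟩
  have hgm : g ∈ SUm K B m := SUm_anti (le_max_left _ _) hg
  set y := y₀ * g with hy
  have hym : y ∈ SUm K B m := mul_mem hy₀ hgm
  have v1 : ∀ z ∈ SUm K B m, ∀ w ∈ TT K B, val w (z : B) = 1 := fun z hz => SU_le_U0 hz.1
  have d1 : ∀ w ∈ TT K B, val w ((y : B) - y₀) < exp (-((max m (max m₁ m₂) : ℕ) : ℤ)) := by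
    intro w hw
    have : (y : B) - y₀ = y₀ * ((g : B) - 1) := by rw [hy, mul_sub, mul_one]; rfl
    rw [this, val_mul, v1 _ hy₀ w hw, one_mul]
    exact hg.2 w hw
  have d2 : ∀ w ∈ TT K B,
      val w (star (y : B) - star (y₀ : B)) < exp (-((max m (max m₁ m₂) : ℕ) : ℤ)) := by
    intro w hw
    have : star (y : B) - star (y₀ : B) = (((g⁻¹ : unitary B) : B) - 1) * (y₀⁻¹ : unitary B) := by
      rw [hy, sub_mul, one_mul, Submonoid.coe_mul, star_mul]; rfl
    rw [this, val_mul, v1 _ (inv_mem hy₀) w hw, mul_one]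
    exact (inv_mem hg).2 w hw
  set x := aeval (y : B) q with hx
  have e1 : Ring.inverse ((u : B) + 1) * x ∈ Deep K B m := deep_of_near hx₀ fun w hw => by
    rw [← hq] at h₁ ⊢
    exact h₁ w hw _ _ (v1 _ hym w hw).le (v1 _ hy₀ w hw).le
      ((d1 w hw).trans_le (exp_neg_anti ((le_max_left _ _).trans (le_max_right _ _))))
  have e2 : Ring.inverse (star ((u : B) + 1)) * star x ∈ Deep K B m :=
    deep_of_near hs₀ fun w hw => by
      have := h₂ w hw (star (y : B)) (star (y₀ : B)) (v1 _ (inv_mem hym) w hw).le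
        (v1 _ (inv_mem hy₀) w hw).le
        ((d2 w hw).trans_le (exp_neg_anti ((le_max_right _ _).trans (le_max_right _ _))))
      rwa [← star_aeval, ← star_aeval, hq] at this
  have hxu : IsUnit x := by
    refine hB _ fun h => ?_
    have := Deep.val_eq_one e1 hw₀
    rw [h, mul_zero, val_zero] at this
    exact zero_ne_one this
  have cy : Commute (y : B) (star (y : B)) := y.2.2.trans y.2.1.symm
  have ca : ∀ (z : B) (p : K[X]) (b : B), Commute b z → Commute b (aeval z p) := fun z p b h =>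
    Algebra.commute_of_mem_adjoin_singleton_of_commute (aeval_mem_adjoin_singleton K z) h
  have c1 : Commute (y : B) x := ca _ _ _ (Commute.refl _)
  have c2 : Commute (y : B) (star x) := by rw [hx, star_aeval]; exact ca _ _ _ cy
  have c3 : Commute x (star x) := by
    rw [hx, star_aeval]; exact ca _ _ _ (ca _ _ _ cy.symm).symm
  obtain ⟨v, hv⟩ := hxu
  let u' : unitary B := ⟨_, unitary_of_normal v (by rw [hv]; exact c3.eq)⟩
  have hu' : star x * (u' : B) = x := by
    change star x * (star ((v⁻¹ : Bˣ) : B) * v) = x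
    rw [← mul_assoc, ← star_mul, ← hv, v.inv_mul, star_one, one_mul]
  have hsx : IsUnit (star x) := (hv ▸ v.isUnit : IsUnit x).star
  have c4 : Commute u' y := Subtype.ext (hsx.mul_left_cancel (by
    change star x * ((u' : B) * y) = star x * ((y : B) * u')
    rw [← mul_assoc, hu', ← mul_assoc, ← c2.eq, mul_assoc, hu', c1.eq]))
  have hsu : star ((u : B) + 1) * u = u + 1 := by
    rw [star_add, star_one, add_mul, u.2.1, one_mul, add_comm]
  have hd : u⁻¹ * u' ∈ Um K B m := by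
    -- `u⁻¹ u' = (u⁻¹ A⁻¹ u) (x₀⁻¹ x)` with `A = (star x₀)⁻¹ star x`
    have f1 : Ring.inverse (star x) * star ((u : B) + 1) ∈ Deep K B m := Deep.inv e2 (by
      rw [mul_assoc, Ring.mul_inverse_cancel_left _ _ hs₀, Ring.inverse_mul_cancel _ hsx])
    have f2 := (Deep K B m).mul_mem (Deep.conj f1 (g := star (u : B)) (g' := (u : B)) u.2.1) e1
    have f3 : Ring.inverse (star x) * x = u' := by
      rw [← Ring.inverse_mul_cancel_left (star x) (u' : B) hsx, hu']
    rw [mul_assoc _ _ (u : B), mul_assoc _ _ (u : B), hsu, mul_assoc, mul_assoc,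
      Ring.mul_inverse_cancel_left _ _ hx₀, f3] at f2
    exact f2
  have hn : (⁅Um K B m, SUm K B m⁆ : Subgroup (unitary B)).Normal := inferInstance
  have k1 := hn.conj_mem _ (Subgroup.commutator_mem_commutator (inv_mem hd) hym) u'
  have k2 := hn.conj_mem _ k1 y₀⁻¹
  have k3 : u' * ⁅(u⁻¹ * u')⁻¹, y⁆ * u'⁻¹ = u * y * u⁻¹ * (u' * y⁻¹ * u'⁻¹) := by
    rw [commutatorElement_def]; group
  have k4 : u' * y⁻¹ * u'⁻¹ = y⁻¹ := by rw [c4.inv_right.eq, mul_inv_cancel_right]
  rw [k3, k4, hy, ← mul_assoc u, hc.eq] at k2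
  convert k2 using 1
  group

theorem cont (hT : (TT K B).Finite) (hC : Cof K B) : Cont K B := by
  intro m
  by_cases hw : ∃ w, w ∈ TT K B
  swap
  · exact ⟨m, fun u g hg => Subgroup.commutator_mem_commutator
      (show u ∈ Um K B m from fun w h => absurd ⟨w, h⟩ hw) hg⟩
  obtain ⟨w₀, hw₀⟩ := hw
  have hn : (⁅Um K B m, SUm K B m⁆ : Subgroup (unitary B)).Normal := inferInstance
  let H : ℕ → Subgroup (unitary B) := fun n =>
    { carrier := {u | ∀ g ∈ SUm K B n, u * g * u⁻¹ * g⁻¹ ∈ ⁅Um K B m, SUm K B m⁆}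
      one_mem' := fun g _ => by simp
      mul_mem' := fun {a b} ha hb g hg => by
        convert mul_mem (hn.conj_mem _ (hb g hg) a) (ha g hg) using 1
        group
      inv_mem' := fun {a} ha g hg => by
        convert hn.conj_mem _ (inv_mem (ha g hg)) a⁻¹ using 1
        group }
  have hmono : Monotone H := fun i j hij u hu g hg => hu g (SUm_anti hij hg)
  have hall : ∀ u, ∃ n, u ∈ H n := cont_one hT hC hw₀ m
  have hUm : Um K B m ≤ H m := fun u hu g hg => Subgroup.commutator_mem_commutator hu hg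
  obtain ⟨m₁, h₁⟩ : ∃ m₁, U0 K B ≤ H m₁ := by
    obtain ⟨A, _, f, hf⟩ := fin_cls hT hC m
    have : ∀ a : A, ∃ n, ∀ x ∈ U0 K B, f x = a → x ∈ H n := fun a => by
      by_cases h : ∃ x ∈ U0 K B, f x = a
      · obtain ⟨x, hx, rfl⟩ := h
        obtain ⟨n, hn⟩ := hall x
        refine ⟨max n m, fun y hy e => ?_⟩
        have := mul_mem (hmono (le_max_left n m) hn)
          (hmono (le_max_right n m) (hUm (hf x hx y hy e.symm)))
        rwa [mul_inv_cancel_left] at this
      · exact ⟨0, fun x hx e => absurd ⟨x, hx, e⟩ h⟩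
    choose n hn using this
    obtain ⟨M, hM⟩ := (Set.finite_range n).bddAbove
    exact ⟨M, fun x hx => hmono (hM ⟨_, rfl⟩) (hn _ x hx rfl)⟩
  have := hT.to_subtype
  let ν : unitary B → TT K B → ℤ := fun u w => log (val w.1 (u : B))
  have ν_mul : ∀ a b, ν (a * b) = ν a + ν b := fun a b => funext fun w => by
    simp only [ν, Submonoid.coe_mul, val_mul, Pi.add_apply]
    exact log_mul (val_unitary _ a) (val_unitary _ b)
  have ν_one : ν 1 = 0 := funext fun w => by simp [ν]
  have ν_inv : ∀ a, ν a⁻¹ = -ν a := fun a =>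
    eq_neg_of_add_eq_zero_left (by rw [← ν_mul, inv_mul_cancel, ν_one])
  let Λ : ℕ → AddSubgroup (TT K B → ℤ) := fun n =>
    { carrier := ν '' H n
      zero_mem' := ⟨1, one_mem _, ν_one⟩
      add_mem' := by
        rintro _ _ ⟨a, ha, rfl⟩ ⟨b, hb, rfl⟩
        exact ⟨a * b, mul_mem ha hb, ν_mul a b⟩
      neg_mem' := by
        rintro _ ⟨a, ha, rfl⟩
        exact ⟨a⁻¹, inv_mem ha, ν_inv a⟩ }
  obtain ⟨n, hn'⟩ := monotone_stabilizes_iff_noetherian.2
    (inferInstance : IsNoetherian ℤ (TT K B → ℤ))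
    ⟨fun n => (Λ n).toIntSubmodule, fun i j hij _ ⟨a, ha, e⟩ => ⟨a, hmono hij ha, e⟩⟩
  refine ⟨max n m₁, fun u => ?_⟩
  obtain ⟨j, hj⟩ := hall u
  have h2 : ν u ∈ (Λ (max n j)).toIntSubmodule := ⟨u, hmono (le_max_right n j) hj, rfl⟩
  have h3 : (Λ n).toIntSubmodule = (Λ (max n j)).toIntSubmodule := hn' _ (le_max_left n j)
  rw [← h3] at h2
  obtain ⟨a, ha, e⟩ := h2
  have h4 : a⁻¹ * u ∈ U0 K B := fun w hw => by
    have h5 := congrFun (ν_mul a⁻¹ u) ⟨w, hw⟩
    rw [ν_inv, e, neg_add_cancel] at h5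
    rw [← exp_log (val_unitary w (a⁻¹ * u))]
    exact (congrArg exp h5).trans exp_zero
  have := mul_mem (hmono (le_max_left n m₁) ha) (hmono (le_max_right n m₁) (h₁ h4))
  rwa [mul_inv_cancel_left] at this

end Val

end P53

theorem powStmt (hV : ValStmt.{u, v, w}) (hC : CofStmt.{u, v, w}) : PowStmt.{u, v, w} :=
  fun D hd => P53.pow (Quad.ne (k := D.k)) hd (hV D hd).1 (hC D)

theorem contStmt (hV : ValStmt.{u, v, w}) (hC : CofStmt.{u, v, w}) : ContStmt.{u, v, w} :=
  fun D hd => P53.cont (hV D hd).1 (hC D)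

end Crest.Agent.T24
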