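import Crest.Agent.T24.Def_26
import Crest.Agent.T24.Chief_29
import Crest.Agent.T24.Pow_53
import Crest.Agent.T24.NstK_39
import Crest.Agent.T24.WgSuk_25
import Crest.Agent.T24.TLink_31
import Crest.Agent.T24.BcB_98
import Crest.Agent.T24.SplEx_33
import Crest.Agent.T24.EvA_20
import Crest.Agent.T24.EvC_20
import Crest.Agent.T24.EvDec_21
import Crest.Agent.T24.Emb_13
import Crest.Agent.T24.EvDef_20
import Crest.Agent.T24.LocL_59
import Crest.Agent.T24.EvDef_47
import Crest.Agent.T24.EmbL_22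
import Crest.Agent.T24.EvBrDef_21
import Crest.Agent.T24.EvnApi_57
import Crest.Agent.T24.CfgB_24
import Crest.Agent.T24.LocG_59
import Crest.Agent.T24.NaDef_18

-- ▼ part T24/Fin_33
section

/-!
# Row 24 (helper33): the statement of the row from `MPStmt`, `ValStmt`, `CofStmt`
-/

set_option autoImplicit false

namespace Crest.Agent.T24

open Module WithZero Csa Asa Crest.NumberTheoryR.UnitaryMP

universe u v w

theorem fin (hM : MPStmt.{u, v, w}) (hV : ValStmt.{u, v, w}) (hC : CofStmt.{u, v, w})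
    (k : Type u) (K : Type v) [Field k] [NumberField k] [Field K] [NumberField K] [Algebra k K]
    (hK : Module.finrank k K = 2) (σ : K ≃ₐ[k] K) (hσ : σ ≠ AlgEquiv.refl)
    (B : Type w) [Ring B] [Algebra K B] [Algebra.IsCentral K B] [IsSimpleRing B]
    (d : ℕ) (hd : 3 ≤ d) (hB : Module.finrank K B = d ^ 2)
    (τ : B →+ B) (hτ : IsUnitaryInvolution σ τ)
    (L : Type*) [Field L] [Algebra K L] (φ : B →ₐ[K] Matrix (Fin d) (Fin d) L)
    {ι : Type*} (e : Module.Basis ι K B)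
    (N : Set B) (hNG : N ⊆ specialUnitary τ φ) (h1 : (1 : B) ∈ N)
    (hmul : ∀ x ∈ N, ∀ y ∈ N, x * y ∈ N) (hinv : ∀ x ∈ N, τ x ∈ N)
    (hnormal : ∀ g ∈ specialUnitary τ φ, ∀ x ∈ N, g * x * τ g ∈ N)
    (hnoncentral : ∃ x ∈ N, ∃ g ∈ specialUnitary τ φ, x * g ≠ g * x) :
    ∃ m : ℕ, ∀ g ∈ specialUnitary τ φ, CongruenceNear σ e m g → g ∈ N := by
  classical
  let : StarRing K :=
    { star := σ, star_involutive := sigma_sigma hK hσ, star_add := map_add σ
      star_mul := fun x y => (map_mul σ x y).trans (mul_comm _ _) }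
  let : StarRing B := { star := τ, star_involutive := hτ.2.1, star_add := map_add τ, star_mul := hτ.1 }
  have : StarModule K B := ⟨fun c x => by
    show τ (c • x) = σ c • τ x
    rw [Algebra.smul_def, hτ.1, hτ.2.2, Algebra.smul_def, Algebra.commutes]⟩
  have : Quad k K := ⟨hK, σ.commutes, by
    by_contra h
    push Not at h
    exact hσ (AlgEquiv.ext h)⟩
  have : FiniteDimensional K B := Module.finite_of_finrank_pos (by rw [hB]; positivity)
  let : Algebra k B := Algebra.compHom B (algebraMap k K)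
  have : IsScalarTower k K B := IsScalarTower.of_algebraMap_eq' rfl
  let D : Dat.{u, v, w} := ⟨k, K, B⟩
  have hdeg : deg K B = d := deg_eq K hB
  have hdet : ∀ b : B, (φ b).det = 1 ↔ Nrd K b = 1 := det_eq_one_iff φ (by simpa using hB)
  have hu : ∀ g ∈ specialUnitary τ φ, g ∈ unitary B := fun g hg =>
    haveI := IsArtinianRing.of_finite K B
    ⟨hg.1, mul_eq_one_comm.1 hg.1⟩
  have hs : ∀ u : unitary B, u ∈ SU K B ↔ (u : B) ∈ specialUnitary τ φ := fun u =>
    ⟨fun h => ⟨u.2.1, (hdet _).2 h⟩, fun h => (hdet _).1 h.2⟩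
  let N' : Subgroup (unitary B) :=
    { carrier := {u | (u : B) ∈ N}, one_mem' := h1, mul_mem' := fun ha hb => hmul _ ha _ hb
      inv_mem' := fun ha => hinv _ ha }
  obtain ⟨m, hm⟩ := hM D (hdeg ▸ hd) N' ⟨fun u h => (hs u).2 (hNG h),
    fun g hg x hx => hnormal _ ((hs g).1 hg) _ hx, by
      obtain ⟨x, hx, g, hg, h⟩ := hnoncentral
      exact ⟨⟨x, hu x (hNG hx)⟩, hx, ⟨g, hu g hg⟩, (hs _).2 hg, fun h' => h (congrArg Subtype.val h')⟩⟩
  obtain ⟨hT, hU⟩ : Val K B := hV D (hdeg ▸ by omega)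
  have := Module.Finite.finite_basis e
  have := Fintype.ofFinite ι
  let j : ι ≃ Fin (finrank K B) := Fintype.equivFinOfCardEq (finrank_eq_card_basis e).symm
  choose! f hf using fun w (hw : w ∈ TT K B) => (hC D w hw.2 (e.reindex j) m).1
  obtain ⟨M, hM'⟩ := (hT.image f).bddAbove
  refine ⟨M, fun g hg hc => hm (x := ⟨g, hu g hg⟩) ⟨(hs _).2 hg, fun w hw => hf w hw _ fun i => ?_⟩⟩
  rw [Basis.repr_reindex_apply]
  exact (hc w hw.1 ((hU w).2 hw.2) _).trans (exp_neg_anti (hM' ⟨w, hw, rfl⟩))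

end Crest.Agent.T24
end

-- ▼ part T24/Top_33
section

/-!
# Row 24 (helper33): the row from the modules that are still open.
-/

set_option autoImplicit false

namespace Crest.Agent.T24

universe u v w

theorem mp_of (hC : CocStmt.{u, v, w}) (hS : SaStmt.{u, v, w}) (h1 : NAStmt.{u, v, w})
    (h2 : TWStmt.{u, v, w}) (h3 : CenOddStmt.{u, v, w}) (h4 : CenEvenStmt.{u, v, w}) :
    MPStmt.{u, v, w} :=
  mpStmt chiefStmt (powStmt Loc.valStmt Loc.cofStmt) Wg.isoStmt
    (nstKStmt splExStmt splIsoStmt hC tLinkStmt hS Loc.valStmt) h1 h2 h3 h4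
    (contStmt Loc.valStmt Loc.cofStmt) cenRedStmt

end Crest.Agent.T24
end

-- ▼ part T24/EvWan_31
section

/-!
# Row 24: weak approximation for a non-central normal subgroup, with global targets.
-/

set_option autoImplicit false
set_option linter.unusedSectionVars false

noncomputable section

namespace Crest.Agent.T24.Ev

open Module NumberField WithZero Csa Asa Topology Filter

universe u v w

namespace W31

variable {k : Type u} {K B : Type*} [Field k] [NumberField k] [Field K] [NumberField K] [Algebra k K]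
  [StarRing K] [Quad k K] [Ring B] [StarRing B] [Algebra K B] [StarModule K B]
  [Algebra.IsCentral K B] [IsSimpleRing B] [FiniteDimensional K B] [Algebra k B]
  [IsScalarTower k K B]

/-- deep elements lie in given open subgroups at the places of `T` -/
theorem deep_mem (hd : 2 ≤ deg K B) (V : (v : Pl k) → Subgroup (SUc k K B (Kv v)))
    (hV : ∀ v, IsOpen (V v : Set (SUc k K B (Kv v)))) : ∃ m : ℕ, ∀ v ∈ Tk k K B, ∀ g : SU K B,
      (g : unitary B) ∈ Um K B m → toG k K B (Kv v) g ∈ V v := by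
  have h1 : ∀ v ∈ Tk k K B, ∀ᶠ m : ℕ in atTop, ∀ g : SU K B,
      (g : unitary B) ∈ Um K B m → toG k K B (Kv v) g ∈ V v := fun v hv => by
    have h2 : IsInducing fun x : SUc k K B (Kv v) => ((x : Uc k K B (Kv v)) : BC k K B (Kv v)) :=
      IsInducing.subtypeVal.comp IsInducing.subtypeVal
    have h3 := (hV v).mem_nhds (V v).one_mem
    rw [h2.nhds_eq_comap, mem_comap] at h3
    obtain ⟨U, hU, h4⟩ := h3
    have h5 : (fun x : BC k K B (Kv v) => x + 1) ⁻¹' U ∈ 𝓝 0 :=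
      (continuous_id.add continuous_const).continuousAt.preimage_mem_nhds (by simpa using hU)
    obtain ⟨m, hm⟩ := (TL31.tLink k K B hd v hv).2.1 _ h5
    refine eventually_atTop.2 ⟨m, fun m' hm' g hg => h4 ?_⟩
    have := hm _ fun w hw _ => Um_anti hm' hg w hw
    simpa using this
  obtain ⟨m, hm⟩ := ((eventually_all_finite (TL31.finite_Tk k K B hd)).2 h1).exists
  exact ⟨m, hm⟩

variable (k K B) in
/-- local groups inside local algebras -/
def co (S : Finset (Pl k)) (x : GS k K B S) : AS k K B S :=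
  (((x.1 : Uc k K B (Inf k)) : BC k K B (Inf k)), fun v => ((x.2 v : Uc k K B (Kv v.1)) : BC k K B (Kv v.1)))

theorem continuous_co (S : Finset (Pl k)) : Continuous (co k K B S) := by
  unfold co; fun_prop

theorem co_jS (S : Finset (Pl k)) (g : SU K B) :
    co k K B S (jS k K B S g) = jA k K B S ((g : unitary B) : B) := rfl

open scoped Classical in
theorem waN (hd : 2 ≤ deg K B) (hA : Sa k K B) : WaN k K B := fun N hN => by
  obtain ⟨⟨Λ⟩, hX⟩ := SplE.splEx k K B
  obtain ⟨v₀, -, s₀, -⟩ := hX Λ ∅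
  obtain ⟨V, hV, -, hV'⟩ := hA N hN Λ v₀ ⟨s₀⟩
  obtain ⟨m, hm⟩ := deep_mem hd V hV
  refine ⟨m, fun S t₀ t h₀ ht hT U hU => ?_⟩
  obtain ⟨v₁, hv₁, s₁, -⟩ := hX Λ S
  obtain ⟨W, hW, hW₁, hW₂⟩ := hA N hN Λ v₁ ⟨s₁⟩
  let S₁ := S.filter (· ∈ Tk k K B)
  have h1 := hV' S₁ (fun h => s₀.notMem_Tk hd (Finset.mem_filter.1 h).2)
    (1, fun v => toG k K B (Kv v.1) ⟨t v, ht v⟩) fun v =>
      hm v (Finset.mem_filter.1 v.2).2 _
        (hT v (Finset.mem_filter.1 v.2).1 (Finset.mem_filter.1 v.2).2).2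
  have h2 : IsOpen {x : GS k K B S₁ | ∀ v : S₁, (x.2 v)⁻¹ * toG k K B (Kv v.1) ⟨t v, ht v⟩ ∈ W v} := by
    rw [Set.ofPred_forall]
    exact isOpen_iInter_of_finite fun v => (hW v).preimage (by fun_prop)
  obtain ⟨_, h3, n₁, ⟨-, hn₁⟩, rfl⟩ := mem_closure_iff.1 h1 _ h2 fun v => by simp
  let g : GS k K B S := (toG k K B (Inf k) ⟨t₀, h₀⟩, fun v => toG k K B (Kv v.1) ⟨t v, ht v⟩)
  have h4 := hW₂ S hv₁ ((jS k K B S n₁)⁻¹ * g) fun v => by
    by_cases hv : v.1 ∈ Tk k K B
    · exact h3 ⟨v.1, Finset.mem_filter.2 ⟨v.2, hv⟩⟩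
    · rw [hW₁ _ hv]; trivial
  have h5 : Continuous fun x : GS k K B S => co k K B S (jS k K B S n₁ * x) :=
    (continuous_co S).comp (continuous_const.mul continuous_id)
  have h6 := h5.continuousAt (x := (jS k K B S n₁)⁻¹ * g) |>.preimage_mem_nhds (t := U)
    (by rw [mul_inv_cancel_left]; exact hU)
  obtain ⟨_, h7, n₂, ⟨-, hn₂⟩, rfl⟩ := mem_closure_iff_nhds.1 h4 _ h6
  refine ⟨(n₁ : unitary B) * n₂, N.mul_mem hn₁ hn₂, ?_⟩
  rwa [Set.mem_preimage, ← map_mul, co_jS] at h7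



end W31

theorem waNStmt (hA : SaStmt.{u, v, w}) : WaNStmt.{u, v, w} := fun D hd ha =>
  W31.waN (by omega) (hA D hd ha)

end Crest.Agent.T24.Ev
end
end

-- ▼ part T24/EvE2_53
section

/-!
# Row 24, even step (helper53): every coset of `N` contains good elements
-/

set_option autoImplicit false
set_option linter.unusedSectionVars false

noncomputable section

namespace Crest.Agent.T24.Ev

open Module NumberField WithZero Csa Asa Topology Filter Polynomial
open scoped Valued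

universe u v w

namespace E53

section Scal
variable {k : Type u} [Field k] [NumberField k] {α : Type*} {l : Filter α}

theorem exists_sq {ε : kˣ} (h : ¬ IsSquare (ε : k)) (S : Finset (Pl k)) :
    ∃ v ∉ S, ε ∈ Hn.Sq v := by
  have := Hn.fact_of_not_sq (d := ε) fun h' => h (Hn.Loc.mem_Sqs.1 h')
  have : NumberField (QuadraticAlgebra k (ε : k) 0) := NumberField.of_module_finite k _
  have q := Hn.qd_quad (ε : k)
  refine Lan.exists_split_Sq q.rank (σ := Hn.qconj (ε : k)) (fun e => ?_) q.conj q.sq S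
  have h1 := q.conj
  rw [e, AlgEquiv.coe_refl, id, eq_neg_iff_add_eq_zero, ← two_mul] at h1
  exact Lan.theta_ne q.sq ((mul_eq_zero.1 h1).resolve_left two_ne_zero)

/-- convergence of scalars at `v` -/
def Lk (v : Pl k) (l : Filter α) (f : α → k) (a : k) : Prop :=
  Tendsto (fun x => algebraMap k (Kv v) (f x)) l (𝓝 (algebraMap k (Kv v) a))

theorem lk_of_val {v : Pl k} {f : α → k} {a : k}
    (h : ∀ m : ℕ, ∀ᶠ x in l, v.valuation k (f x - a) ≤ exp (-(m : ℤ))) : Lk v l f a :=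
  Metric.tendsto_nhds.2 fun ε hε => by
    obtain ⟨m, hm⟩ := Lan.exists_depth v hε
    filter_upwards [h m] with x hx
    rw [dist_eq_norm, ← map_sub]
    exact hm _ hx

theorem Lk.le_one {v : Pl k} {f : α → k} {a : k} (h : Lk v l f a) (ha : v.valuation k a ≤ 1) :
    ∀ᶠ x in l, v.valuation k (f x) ≤ 1 := by
  have := h.eventually ((isOpen_val v 0).mem_nhds (by
    simpa only [Set.mem_ofPred_eq, Hn.Loc.valued_algebraMap, Nat.cast_zero, neg_zero, exp_zero]))
  simpa only [Hn.Loc.valued_algebraMap, Nat.cast_zero, neg_zero, exp_zero] using this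

theorem Lk.eq_one {v : Pl k} {f : α → k} {a : k} (h : Lk v l f a) (ha : v.valuation k a = 1) :
    ∀ᶠ x in l, v.valuation k (f x) = 1 := by
  have := h.eventually (Valued.locally_const (x := algebraMap k (Kv v) a) (by
    rw [Hn.Loc.valued_algebraMap, ha]; exact one_ne_zero))
  simpa only [Hn.Loc.valued_algebraMap, ha] using this

/-- a sequence tending to `0` at `S` and infinity, to `1` at `Z`, integral off `v₀` -/
theorem exists_seq (S Z : Finset (Pl k)) (hSZ : ∀ v ∈ Z, v ∉ S) {v₀ : Pl k} (h1 : v₀ ∉ S)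
    (h2 : v₀ ∉ Z) : ∃ s : ℕ → k, Tendsto s atTop (nbk k S 0) ∧ (∀ v ∈ Z, Lk v atTop s 1) ∧
      ∀ m, ∀ v ∉ S, v ∉ Z → v ≠ v₀ → v.valuation k (s m) ≤ 1 := by
  classical
  choose s e1 e2 e3 using fun m : ℕ => approx' (S ∪ Z) v₀ (by simp [h1, h2])
    (fun v => if v ∈ Z then 1 else 0) m 0 (ε := 1 / ((m : ℝ) + 1)) (by positivity)
  refine ⟨s, nbk_of_val (fun w ε hε => ?_) fun v hv m => ?_, fun v hv => lk_of_val fun m => ?_,
    fun m v hv hv' => e3 m v (by simp [hv, hv'])⟩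
  · exact (tendsto_one_div_add_atTop_nhds_zero_nat.eventually (gt_mem_nhds hε)).mono
      fun m hm => (e2 m w).trans hm
  · refine (eventually_ge_atTop m).mono fun n hn => le_trans ?_ (exp_neg_anti hn)
    simpa [if_neg fun h => hSZ v h hv] using e1 n v (by simp [hv])
  · refine (eventually_ge_atTop m).mono fun n hn => le_trans ?_ (exp_neg_anti hn)
    simpa [hv] using e1 n v (by simp [hv])

theorem exists_seq' (Z : Finset (Pl k)) : ∃ s : ℕ → k, (∀ v ∈ Z, Lk v atTop s (-1)) ∧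
    ∀ m, s m ≠ 0 ∧ s m ≠ -1 := by
  obtain ⟨v₀, h₀⟩ := exists_notMem Z
  choose s e1 e2 using fun m : ℕ => (approx_infinite Z v₀ h₀ (fun _ => -1) m 0
    one_pos).exists_notMem_finite (Set.toFinite {0, -1})
  exact ⟨s, fun v hv => lk_of_val fun m => (eventually_ge_atTop m).mono fun n hn =>
    ((e1 n).1 v hv).trans (exp_neg_anti hn), fun m => by simpa using e2 m⟩

end Scal

theorem prod_smul {k B ι : Type*} [CommRing k] [Ring B] [Algebra k B] (L : List ι) (a : ι → k)
    (x : ι → B) : (L.map fun j => a j • x j).prod = (L.map a).prod • (L.map x).prod := by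
  induction L with
  | nil => simp
  | cons j L ih => simp only [List.map_cons, List.prod_cons, ih, smul_mul_smul_comm]

section Alg
variable {k : Type u} (K : Type*) {B : Type*} [Field k] [NumberField k] [Field K] [NumberField K]
  [Algebra k K] [StarRing K] [Quad k K] [Ring B] [StarRing B] [Algebra K B] [StarModule K B]
  [Algebra.IsCentral K B] [IsSimpleRing B] [FiniteDimensional K B] [Algebra k B]
  [IsScalarTower k K B] {α : Type*} {l : Filter α}

/-- convergence at `v` -/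
def Lv (v : Pl k) (l : Filter α) (f : α → B) (a : B) : Prop :=
  Tendsto (fun x => BC.inc k K B (Kv v) (f x)) l (𝓝 (BC.inc k K B (Kv v) a))

variable {K} {v : Pl k}

theorem Lv.const (a : B) : Lv K v l (fun _ => a) a := tendsto_const_nhds

theorem Lv.mul {f g : α → B} {a b : B} (hf : Lv K v l f a) (hg : Lv K v l g b) :
    Lv K v l (fun x => f x * g x) (a * b) := by
  simpa only [Lv, map_mul] using Tendsto.mul hf hg

theorem Lv.add {f g : α → B} {a b : B} (hf : Lv K v l f a) (hg : Lv K v l g b) :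
    Lv K v l (fun x => f x + g x) (a + b) := by
  simpa only [Lv, map_add] using Tendsto.add hf hg

theorem Lv.sub {f g : α → B} {a b : B} (hf : Lv K v l f a) (hg : Lv K v l g b) :
    Lv K v l (fun x => f x - g x) (a - b) := by
  simpa only [Lv, map_sub] using Tendsto.sub hf hg

theorem Lv.star {f : α → B} {a : B} (hf : Lv K v l f a) :
    Lv K v l (fun x => star (f x)) (star a) := Tendsto.star hf

theorem Lv.smul {c : α → k} {c₀ : k} {f : α → B} {a : B} (hc : Lk v l c c₀) (hf : Lv K v l f a) :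
    Lv K v l (fun x => c x • f x) (c₀ • a) := by
  simpa only [Lv, inc_ksmul] using Tendsto.smul hc hf

theorem Lv.list {ι : Type*} (s : List ι) {f : ι → α → B} {a : ι → B}
    (hf : ∀ j, Lv K v l (f j) (a j)) :
    Lv K v l (fun x => (s.map fun j => f j x).prod) (s.map a).prod := by
  induction s with
  | nil => exact Lv.const _
  | cons j s ih => simpa only [List.map_cons, List.prod_cons] using (hf j).mul ih

theorem Lv.norm {f : α → B} {a : B} (hf : Lv K v l f a) :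
    Lk v l (fun x => Algebra.norm k (f x)) (Algebra.norm k a) := by
  have := ((continuous_LR (K := K) (Kv v)).matrix_det.tendsto _).comp hf
  simpa only [Lk, norm_eq (K := K), RingHom.map_det, ← LR_inc, Function.comp_def] using this

theorem Lv.good {ε : k} {i : B} {f : α → B} {a : B} (hf : Lv K v l f a) (h : Good K ε i v a) :
    ∀ᶠ x in l, Good K ε i v (f x) := by
  have h1 : Lv K v l (fun x => ε • f x) (ε • a) := Lv.smul tendsto_const_nhds hf
  have h2 := ((Lv.const i).mul hf).mul (Lv.const i)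
  refine (eventually_all.2 fun j => Lk.le_one ?_ (h.1 j)).and
    (((h1.add h2).norm.eq_one h.2.1).and ((h1.sub h2).norm.eq_one h.2.2))
  obtain ⟨G, e1, e2⟩ := lin_bc (K := K) (R := Kv v) ((eb k K B).coord j)
  simpa only [Lk, ← Basis.coord_apply, ← e2, Function.comp_def] using (e1.tendsto _).comp hf

theorem Lv.uu {ε : k} (i : B) {s : α → k} {s₀ : k} (hs : Lk v l s s₀) (h : 1 - ε * s₀ ^ 2 ≠ 0) :
    Lv K v l (fun x => uu ε i (s x)) (uu ε i s₀) := by
  have h1 : Lv K v l (fun x => 1 + s x • i) (1 + s₀ • i) :=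
    (Lv.const 1).add (Lv.smul hs (Lv.const i))
  refine Lv.smul ?_ (h1.mul h1)
  have := (((Tendsto.pow hs 2).const_mul (algebraMap k (Kv v) ε)).const_sub 1).inv₀
    (by simpa only [map_sub, map_mul, map_pow, map_one] using
      (map_ne_zero (algebraMap k (Kv v))).2 h)
  simpa only [Lk, map_inv₀, map_sub, map_mul, map_pow, map_one] using this

/-- the curve -/
def Ga (ε : k) (i : B) {r : ℕ} (c : Fin r → k) (n : Fin r → unitary B) : B :=
  ((List.finRange r).map fun j => star (n j : B) * uu ε i (c j) * n j).prod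

theorem Lv.ga {ε : k} (hε : ¬ IsSquare ε) (i : B) {r : ℕ} {c : α → Fin r → k} {c₀ : Fin r → k}
    {n : α → Fin r → unitary B} {n₀ : Fin r → unitary B}
    (hc : ∀ j, Lk v l (fun x => c x j) (c₀ j)) (hn : ∀ j, Lv K v l (fun x => (n x j : B)) (n₀ j)) :
    Lv K v l (fun x => Ga ε i (c x) (n x)) (Ga ε i c₀ n₀) :=
  Lv.list _ fun j => ((hn j).star.mul (Lv.uu i (hc j) (one_sub_ne_of hε _))).mul (hn j)

theorem good_ga {ε : k} (hε : ¬ IsSquare ε) {i g : B} {r : ℕ} {c : α → Fin r → k} {c₀ : Fin r → k}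
    {n : α → Fin r → unitary B} {n₀ : Fin r → unitary B} (h : Good K ε i v (g * Ga ε i c₀ n₀))
    (hc : ∀ j, Lk v l (fun x => c x j) (c₀ j)) (hn : ∀ j, Lv K v l (fun x => (n x j : B)) (n₀ j)) :
    ∀ᶠ x in l, Good K ε i v (g * Ga ε i (c x) (n x)) :=
  ((Lv.const g).mul (Lv.ga hε i hc hn)).good h

theorem Ga_eq (ε : k) (i : B) {r : ℕ} (c : Fin r → k) (n : Fin r → unitary B) (s : k) :
    Ga ε i (fun j => c j * s) n = ((List.finRange r).map fun j => (1 - ε * (c j * s) ^ 2)⁻¹).prod •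
      crv i c (fun j => (n j : B)) s := by
  rw [crv, List.ofFn_eq_map, ← prod_smul, Ga]
  simp only [uu, mul_smul_comm, smul_mul_assoc]

theorem Ga_zero (ε : k) (i : B) {r : ℕ} (c : Fin r → k) (n : Fin r → unitary B) :
    Ga ε i (fun j => c j * 0) n = 1 :=
  List.prod_eq_one fun x hx => by
    obtain ⟨j, -, rfl⟩ := List.mem_map.1 hx
    simp

theorem tendsto_Ga (ε : k) (i : B) {r : ℕ} (c : Fin r → k) (n : Fin r → unitary B)
    {S : Finset (Pl k)} {s : α → k} (hs : Tendsto s l (nbk k S 0)) :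
    Tendsto (fun x => Ga ε i (fun j => c j * s x) n) l (nb k K B S 1) := by
  rw [← Ga_zero ε i c n]
  refine nb_list _ fun j _ => nb_mul (nb_mul (nb_const _) ?_) (nb_const _)
  have := nbk_mul (nbk_const (c j)) hs
  simp only [mul_zero, uu_zero] at this ⊢
  exact (tendsto_uu K ε i S).comp this

theorem ev_nb {S : Finset (Pl k)} {a : B} {W : Set B} (h : W ∈ nb k K B S a) :
    ∀ᶠ x in nb k K B S a, W ∈ nb k K B S x := by
  obtain ⟨U, hU, h⟩ := mem_nb.1 h
  exact (tendsto_comap.eventually (eventually_eventually_nhds.2 hU)).mono fun x hx =>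
    mem_nb.2 ⟨U, hx, h⟩

variable (k K B) in
/-- the conclusion of `WaN` -/
def Wa (N : Subgroup (unitary B)) (m : ℕ) : Prop := ∀ (S : Finset (Pl k))
  (t₀ : unitary B) (t : Pl k → unitary B), t₀ ∈ SU K B → (∀ v, t v ∈ SU K B) →
  (∀ v ∈ S, v ∈ Tk k K B → t v ∈ SUm K B m) →
  ∀ U ∈ 𝓝 ((BC.inc k K B (Inf k) (t₀ : B), fun v : S => BC.inc k K B (Kv v.1) (t v : B)) :
    AS k K B S), ∃ n ∈ N, jA k K B S (n : B) ∈ U

theorem Wa.filter {N : Subgroup (unitary B)} {m : ℕ} (h : Wa k K B N m) (S : Finset (Pl k))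
    (t₀ : unitary B) (t : Pl k → unitary B) (h0 : t₀ ∈ SU K B) (h1 : ∀ v, t v ∈ SU K B)
    (h2 : ∀ v ∈ S, v ∈ Tk k K B → t v ∈ SUm K B m) : ∃ l : Filter (unitary B), l.NeBot ∧
      (∀ᶠ n in l, n ∈ N) ∧ Tendsto (fun n : unitary B => BC.inc k K B (Inf k) (n : B)) l
        (𝓝 (BC.inc k K B (Inf k) (t₀ : B))) ∧ ∀ v ∈ S, Lv K v l (fun n => (n : B)) (t v) := by
  let p : AS k K B S :=
    (BC.inc k K B (Inf k) (t₀ : B), fun v : S => BC.inc k K B (Kv v.1) (t v : B))
  let l := comap (fun n : unitary B => jA k K B S (n : B)) (𝓝 p) ⊓ 𝓟 (N : Set (unitary B))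
  have hl : Tendsto (fun n : unitary B => jA k K B S (n : B)) l (𝓝 p) :=
    tendsto_comap.mono_left inf_le_left
  refine ⟨l, inf_principal_neBot_iff.2 fun U hU => ?_, mem_inf_of_right (mem_principal_self _),
    (continuous_fst.tendsto _).comp hl, fun v hv =>
      (((continuous_apply (⟨v, hv⟩ : S)).comp continuous_snd).tendsto _).comp hl⟩
  obtain ⟨V, hV, e⟩ := mem_comap.1 hU
  obtain ⟨n, hn, e'⟩ := h S t₀ t h0 h1 h2 V hV
  exact ⟨n, e e', hn⟩

variable (K) in
include K in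
theorem norm_ne {x : B} : Algebra.norm k x ≠ 0 ↔ IsUnit x :=
  haveI := finite_kB k K B
  (Opn.isUnit_iff_det k).symm

theorem ev_good {ε : k} {i x : B} (h1 : IsUnit (pl ε i x)) (h2 : IsUnit (mi ε i x)) :
    ∀ᶠ v : Pl k in cofinite, Good K ε i v x :=
  (Lan.ev_in _ x).and ((ev_val_one ((norm_ne K).2 h1)).and (ev_val_one ((norm_ne K).2 h2)))

theorem Good.unit {ε : k} {i x : B} (h : Good K ε i v x) :
    IsUnit (pl ε i x) ∧ IsUnit (mi ε i x) :=
  ⟨(norm_ne K).1 fun e => zero_ne_one (by rw [← h.2.1, e, map_zero]),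
    (norm_ne K).1 fun e => zero_ne_one (by rw [← h.2.2, e, map_zero])⟩

theorem pl_mul {ε : k} {i n : B} (h : n * i = -(i * n)) (x : B) :
    pl ε i (n * x) = n * mi ε i x := by
  have : i * n = -(n * i) := by rw [h, neg_neg]
  rw [pl, mi, ← mul_assoc i, this, mul_sub, mul_smul_comm]
  noncomm_ring

variable (K) in
include K in
theorem val_norm_smul {c : k} (hc : v.valuation k c = 1) (x : B) :
    v.valuation k (Algebra.norm k (c • x)) = v.valuation k (Algebra.norm k x) := by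
  have := finite_kB k K B
  rw [Algebra.smul_def, map_mul, Algebra.norm_algebraMap, map_mul, map_pow, hc, one_pow, one_mul]

theorem Good.smul {ε c : k} {i x : B} (hc : v.valuation k c = 1) (h : Good K ε i v x) :
    Good K ε i v (c • x) := by
  have h1 : pl ε i (c • x) = c • pl ε i x := by
    simp only [pl, smul_add, smul_comm ε c, mul_smul_comm, smul_mul_assoc]
  have h2 : mi ε i (c • x) = c • mi ε i x := by
    simp only [mi, smul_sub, smul_comm ε c, mul_smul_comm, smul_mul_assoc]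
  exact ⟨h.1.smul hc.le, by rw [h1, val_norm_smul K hc, h.2.1], by
    rw [h2, val_norm_smul K hc, h.2.2]⟩

variable {ε : kˣ} {i n : B}

variable (K) in
/-- an element whose two parts are units -/
theorem exists_star (h : E0 ε i n) :
    ∃ g ∈ SU K B, IsUnit (pl (ε : k) i g) ∧ IsUnit (mi (ε : k) i g) := by
  have := finite_kB k K B
  have := Opn.dedekind' k (A := B)
  have f1 := Opn.finite_nonunit (F := k) (a := 1) (b := n * n) (t0 := 0) (by simp)
  have f2 := Opn.finite_nonunit (F := k) (a := 1) (b := -(n * n)) (t0 := 0) (by simp)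
  have f3 : Function.Injective fun j : ℕ => ((j + 1 : ℕ) : k) * ((j + 1 : ℕ) : k) := fun a b e => by
    have e' : (a + 1) * (a + 1) = (b + 1) * (b + 1) := by dsimp only at e; exact_mod_cast e
    exact Nat.succ_injective (Nat.mul_self_inj.1 e')
  obtain ⟨_, ⟨j, rfl⟩, hj⟩ := (Set.infinite_range_of_injective f3).exists_notMem_finite (f1.union f2)
  set t : k := ((j + 1 : ℕ) : k) with ht
  have ht0 : t ≠ 0 := Nat.cast_ne_zero.2 j.succ_ne_zero
  simp only [Set.mem_union, Set.mem_ofPred_eq, not_or, not_not] at hj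
  rw [smul_neg, ← smul_mul_smul_comm] at hj
  set y := t • n with hy
  have y1 : star y = -y := by rw [hy, star_ksmul k K B, h.nskew, smul_neg]
  have y2 : y * i = -(i * y) := by rw [hy, smul_mul_assoc, mul_smul_comm, h.anti, smul_neg]
  have y3 : i * y = -(y * i) := by rw [y2, neg_neg]
  have y4 : IsUnit y := by
    rw [hy, Algebra.smul_def]; exact (ht0.isUnit.map _).mul h.unit
  have e1 : 1 + -(y * y) = (1 - y) * (1 + y) := by noncomm_ring
  have u1 : IsUnit (1 - y) := isUnit_of_mul_isUnit_left (e1 ▸ hj.2)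
  have u2 : star (Opn.cay y) * Opn.cay y = 1 := Opn.Anti.cay_unitary
    (τ := (starAddEquiv : B ≃+ B).toAddMonoidHom) ⟨star_mul, star_star⟩ y1 u1
  have u3 : Opn.cay y * (1 - y) = 1 + y := Ring.inverse_mul_cancel_right _ _ u1
  have ui : IsUnit i := isUnit_of_mul_isUnit_left (h.sq ▸ ε.isUnit.map (algebraMap k B))
  have e2 : Opn.cay y * (1 + -(y * y)) = 1 + y * y + (y + y) := by
    rw [e1, ← mul_assoc, u3]; noncomm_ring
  have c1 : i * (y * y) = y * y * i := by rw [← mul_assoc, y3, neg_mul, mul_assoc, y3]; noncomm_ring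
  have c2 : ∀ x : B, x * (i * i) = (ε : k) • x := fun x => by
    rw [h.sq, ← Algebra.commutes, ← Algebra.smul_def]
  have c3 : i * (1 + y * y + (y + y)) * i = (ε : k) • (1 + y * y) - (ε : k) • (y + y) := by
    rw [← c2, ← c2, mul_add, mul_add, mul_add, c1, y3]; noncomm_ring
  have c4 : i * (1 + -(y * y)) = (1 + -(y * y)) * i := by rw [mul_add, mul_neg, c1]; noncomm_ring
  have u4 : ∀ x : B, IsUnit x → IsUnit (((ε : k) + ε) • x) := fun x hx => by
    rw [Algebra.smul_def, ← two_mul]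
    exact ((mul_ne_zero two_ne_zero ε.ne_zero).isUnit.map _).mul hx
  refine ⟨⟨Opn.cay y, u2, mul_eq_one_comm.1 u2⟩, ?_, ?_, ?_⟩
  · have h1 : i * (1 + y) = (1 - y) * i := by rw [mul_add, y3]; noncomm_ring
    have h2 := congrArg (Nrd K) h1
    rw [map_mul, map_mul, mul_comm] at h2
    have h3 := congrArg (Nrd K) u3
    rw [map_mul, mul_right_cancel₀ ((isUnit_iff_Nrd (K := K) i).1 ui) h2] at h3
    exact mul_right_cancel₀ ((isUnit_iff_Nrd (K := K) _).1 u1) (h3.trans (one_mul _).symm)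
  · refine isUnit_of_mul_isUnit_left (y := 1 + -(y * y)) ?_
    convert u4 _ hj.1 using 1
    change ((ε : k) • Opn.cay y + i * Opn.cay y * i) * _ = _
    rw [add_mul, smul_mul_assoc, mul_assoc _ i, c4, ← mul_assoc, mul_assoc i, e2, c3]
    module
  · refine isUnit_of_mul_isUnit_left (y := 1 + -(y * y)) ?_
    have : IsUnit (y + y) := by
      rw [← two_smul k, Algebra.smul_def]; exact (two_ne_zero.isUnit.map _).mul y4
    convert u4 _ this using 1
    change ((ε : k) • Opn.cay y - i * Opn.cay y * i) * _ = _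
    rw [sub_mul, smul_mul_assoc, mul_assoc _ i, c4, ← mul_assoc, mul_assoc i, e2, c3]
    module

variable (K) in
/-- the normal closure of `uu 1` -/
theorem exists_nc (h : E0 ε i n) (ha : Aniso B) : ∃ N : Subgroup (unitary B), NC K N ∧ ∀ x ∈ N,
    ∃ (r : ℕ) (c : Fin r → k) (t : Fin r → unitary B), (∀ j, t j ∈ SU K B) ∧
      (∀ j, c j = 1 ∨ c j = -1) ∧ (x : B) = Ga (ε : k) i c t := by
  let G : Set (unitary B) := {x | ∃ t ∈ SU K B, ∃ c : k, (c = 1 ∨ c = -1) ∧
    x = t⁻¹ * h.uU K ha c * t}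
  refine ⟨Subgroup.closure G, ⟨(Subgroup.closure_le _).2 ?_, fun g hg x hx => ?_, ?_⟩,
    fun x hx => ?_⟩
  · rintro _ ⟨t, ht, c, -, rfl⟩
    exact mul_mem (mul_mem (inv_mem ht) (h.uU_mem_SU K ha c)) ht
  · induction hx using Subgroup.closure_induction with
    | mem x hx =>
      obtain ⟨t, ht, c, hc, rfl⟩ := hx
      exact Subgroup.subset_closure ⟨t * g⁻¹, mul_mem ht (inv_mem hg), c, hc, by group⟩
    | one => simp
    | mul x y _ _ hx hy => convert mul_mem hx hy using 1; group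
    | inv x _ hx => convert inv_mem hx using 1; group
  · obtain ⟨g, hg, -, h2⟩ := exists_star K h
    refine ⟨h.uU K ha 1, Subgroup.subset_closure ⟨1, one_mem _, 1, Or.inl rfl, by simp⟩, g, hg,
      fun e => h2.ne_zero ?_⟩
    have e1 : uu (ε : k) i 1 * g = g * uu (ε : k) i 1 := congrArg Subtype.val e
    rw [uu_eq h.sq, add_mul, mul_add (g : B), smul_mul_assoc, mul_smul_comm, one_mul, mul_one (g : B),
      add_right_inj, smul_mul_assoc, mul_smul_comm] at e1
    have e2 := smul_right_injective B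
      (mul_ne_zero (inv_ne_zero (h.den_ne K ha 1)) (by simp)) e1
    rw [mi, e2, mul_assoc, h.sq, ← Algebra.commutes, ← Algebra.smul_def, sub_self]
  · obtain ⟨L, hL, rfl⟩ := Submonoid.exists_list_of_mem_closure
      (Subgroup.closure_toSubmonoid G ▸ hx : x ∈ Submonoid.closure (G ∪ G⁻¹))
    have : ∀ j : Fin L.length, L.get j ∈ G := fun j => by
      refine (hL _ (L.get_mem j)).elim id ?_
      rintro ⟨t, ht, c, hc, e⟩
      refine ⟨t, ht, -c, hc.symm.imp (by rintro rfl; simp) (by rintro rfl; rfl), ?_⟩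
      rw [h.uU_neg K ha, ← inv_inv (L.get j), e]; group
    choose t ht c hc e using this
    refine ⟨_, c, t, ht, hc, ?_⟩
    conv_lhs => rw [← List.ofFn_get L, List.ofFn_eq_map, funext e]
    rw [SubmonoidClass.coe_list_prod, List.map_map]
    rfl

open scoped Classical in
theorem step1 {N : Subgroup (unitary B)} {m : ℕ} (hN : N ≤ SU K B) (hm : Wa k K B N m) {e : k}
    {g₀ g : unitary B} (hg₀ : g₀ ∈ SU K B) (hg : g ∈ SUm K B m) {S : Finset (Pl k)}
    (hS' : ∀ v ∉ S, v ∉ Tk k K B ∧ Good K e i v g₀) {W : Set B} (hWm : W ∈ nb k K B S 1) :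
    ∃ g₁ ∈ SU K B, g⁻¹ * g₁ ∈ N ∧ W ∈ nb k K B S (g₁ : B) ∧
      IsUnit (pl e i g₁) ∧ IsUnit (mi e i g₁) := by
  obtain ⟨v₁, h₁⟩ := exists_notMem S
  obtain ⟨l, _, e1, e2, e3⟩ := hm.filter (insert v₁ S) g⁻¹ (fun v => if v ∈ S then g⁻¹ else
    g⁻¹ * g₀) (inv_mem hg.1) (fun v => by
      split_ifs; exacts [inv_mem hg.1, mul_mem (inv_mem hg.1) hg₀]) fun v _ hv => by
      rw [if_pos (not_not.1 fun e => (hS' v e).1 hv)]; exact inv_mem hg
  have f1 : (g : B) * (g⁻¹ : unitary B) = 1 := g.2.2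
  have f2 : Tendsto (fun x : unitary B => (g : B) * x) l (nb k K B S 1) := by
    refine nb_of ?_ fun v hv => ?_
    · simpa only [← map_mul, f1] using e2.const_mul (BC.inc k K B (Inf k) g)
    · have := (Lv.const (g : B)).mul (e3 v (Finset.mem_insert_of_mem hv))
      rwa [if_pos hv, f1] at this
  have f3 := (Lv.const (g : B)).mul (e3 v₁ (Finset.mem_insert_self _ _))
  rw [if_neg h₁, ← Submonoid.coe_mul, mul_inv_cancel_left] at f3
  obtain ⟨x, x1, x2, x3⟩ :=
    (e1.and ((f2.eventually (ev_nb hWm)).and (f3.good (hS' v₁ h₁).2))).exists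
  exact ⟨g * x, mul_mem hg.1 (hN x1), by rwa [inv_mul_cancel_left], x2, Good.unit x3⟩

theorem step2 (h : E0 ε i n) (ha : Aniso B) (hW : WaN k K B) {g₀ g₁ : unitary B}
    (hg₀ : g₀ ∈ SU K B) (hg₁ : g₁ ∈ SU K B) {Z : Finset (Pl k)}
    (hZ : ∀ v ∈ Z, v ∉ Tk k K B ∧ Good K (ε : k) i v g₀) :
    ∃ (r : ℕ) (c : Fin r → k) (t : Fin r → unitary B), (∀ j, t j ∈ SU K B) ∧
      (∀ j, c j = 1 ∨ c j = -1) ∧ ∀ v ∈ Z, Good K (ε : k) i v (g₁ * Ga (ε : k) i c t) := by
  obtain ⟨N₁, hN₁, h₁⟩ := exists_nc K h ha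
  obtain ⟨m₁, hm₁⟩ : ∃ m, Wa k K B N₁ m := hW N₁ hN₁
  obtain ⟨l, _, e1, -, e3⟩ := hm₁.filter Z 1 (fun _ => g₁⁻¹ * g₀) (one_mem _)
    (fun _ => mul_mem (inv_mem hg₁) hg₀) fun v hv hv' => absurd hv' (hZ v hv).1
  have e4 : ∀ᶠ x : unitary B in l, ∀ v ∈ Z, Good K (ε : k) i v ((g₁ : B) * x) :=
    Z.eventually_all.2 fun v hv => by
      have f3 := (Lv.const (g₁ : B)).mul (e3 v hv)
      rw [← Submonoid.coe_mul, mul_inv_cancel_left] at f3
      exact f3.good (hZ v hv).2
  obtain ⟨x, x1, x2⟩ := (e1.and e4).exists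
  obtain ⟨r, c, t, e1, e2, e3⟩ := h₁ x x1
  exact ⟨r, c, t, e1, e2, e3 ▸ x2⟩

open scoped Classical in
theorem step3 {e : k} (hε : ¬ IsSquare e) {g₁ : B} {Z : Finset (Pl k)} {r : ℕ} {σ : Fin r → k}
    {t : Fin r → unitary B} (hσ : ∀ j, σ j = 1 ∨ σ j = -1)
    (hx : ∀ v ∈ Z, Good K e i v (g₁ * Ga e i σ t)) :
    ∃ c : Fin r → k, (∀ j l, c j + c l ≠ 0) ∧ ∀ v ∈ Z, Good K e i v (g₁ * Ga e i c t) := by
  obtain ⟨s, s1, s2⟩ := exists_seq' Z
  have e4 : ∀ᶠ x in atTop, ∀ v ∈ Z,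
      Good K e i v (g₁ * Ga e i (fun j => if σ j = 1 then 1 else s x) t) :=
    Z.eventually_all.2 fun v hv => by
      refine good_ga hε (hx v hv) (fun j => ?_) fun j => Lv.const _
      by_cases e : σ j = 1
      · simp only [if_pos e]; rw [e]; exact tendsto_const_nhds
      · simp only [if_neg e]; rw [(hσ j).resolve_left e]; exact s1 v hv
  obtain ⟨x, x1⟩ := e4.exists
  refine ⟨_, fun j l => ?_, x1⟩
  obtain ⟨a1, a2⟩ := s2 x
  split_ifs
  · norm_num
  · exact fun e => a2 (by linear_combination e)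
  · exact fun e => a2 (by linear_combination e)
  · exact fun e => a1 (by linear_combination (1 / 2 : k) * e)

open scoped Classical in
theorem step4 {N : Subgroup (unitary B)} {m : ℕ} (hN : N ≤ SU K B) (hm : Wa k K B N m) {e : k}
    (hε : ¬ IsSquare e) {g₁ : B} {Z : Finset (Pl k)} (hZ : ∀ v ∈ Z, v ∉ Tk k K B) {r : ℕ}
    {c : Fin r → k} {t : Fin r → unitary B} (ht : ∀ j, t j ∈ SU K B)
    (hx : ∀ v ∈ Z, Good K e i v (g₁ * Ga e i c t)) {v₂ : Pl k} (hv₂ : v₂ ∉ Z)
    {U : Set (BC k K B (Kv v₂))} (hU : U ∈ 𝓝 1) :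
    ∃ a : Fin r → unitary B, (∀ j, a j ∈ SU K B) ∧ (∀ j, BC.inc k K B (Kv v₂) (a j : B) ∈ U) ∧
      ∀ v ∈ Z, Good K e i v (g₁ * Ga e i c a) := by
  choose l e0 e1 _ e3 using fun j => hm.filter (insert v₂ Z) 1
    (fun v => if v ∈ Z then t j else 1) (one_mem _)
    (fun v => by split_ifs; exacts [ht j, one_mem _]) fun v _ hv => by
      rw [if_neg fun e => hZ v e hv]; exact one_mem _
  have f1 : ∀ᶠ x in Filter.pi l, ∀ j, x j ∈ N :=
    eventually_all.2 fun j => (tendsto_eval_pi l j).eventually (e1 j)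
  have f2 : ∀ᶠ x in Filter.pi l, ∀ j, BC.inc k K B (Kv v₂) (x j : B) ∈ U :=
    eventually_all.2 fun j => by
      have := e3 j v₂ (Finset.mem_insert_self _ _)
      rw [if_neg hv₂, Lv, OneMemClass.coe_one, map_one] at this
      exact (this.comp (tendsto_eval_pi l j)).eventually hU
  have f3 : ∀ᶠ x in Filter.pi l, ∀ v ∈ Z, Good K e i v (g₁ * Ga e i c x) :=
    Z.eventually_all.2 fun v hv => by
      refine good_ga hε (hx v hv) (fun j => tendsto_const_nhds) fun j => ?_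
      have := e3 j v (Finset.mem_insert_of_mem hv)
      rw [if_pos hv] at this
      exact this.comp (tendsto_eval_pi l j)
  obtain ⟨x, x1, x2, x3⟩ := (f1.and (f2.and f3)).exists
  exact ⟨x, fun j => hN (x1 j), x2, x3⟩

theorem step5 (h : E0 ε i n) {g₁ : B} {r : ℕ} {c : Fin r → k} {a : Fin r → unitary B}
    (h1 : ∀ᶠ v : Pl k in cofinite, ε ∉ Hn.Sq v → ∀ s : k, v.valuation k s ≤ 1 → v.valuation k
      (Algebra.norm k (pl (ε : k) i (g₁ * crv i c (fun j => (a j : B)) s))) = 1)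
    (h2 : ∀ᶠ v : Pl k in cofinite, ε ∉ Hn.Sq v → ∀ s : k, v.valuation k s ≤ 1 → v.valuation k
      (Algebra.norm k (pl (ε : k) i (n * g₁ * crv i c (fun j => (a j : B)) s))) = 1) :
    ∀ᶠ v : Pl k in cofinite, ε ∉ Hn.Sq v → ∀ s : k, v.valuation k s ≤ 1 →
      Good K (ε : k) i v (g₁ * Ga (ε : k) i (fun j => c j * s) a) := by
  filter_upwards [h1, h2, ev_val_one ε.ne_zero,
    ev_val_one (two_ne_zero (α := k)), ev_val_one ((norm_ne K).2 h.unit),
    eventually_all.2 fun j => eventually_cofinite.2 (finite_not_le (c j)),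
    eventually_all.2 fun p => eventually_all.2 fun q =>
      Lan.ev_in (eb k K B) (eb k K B p * eb k K B q),
    Lan.ev_in (eb k K B) g₁, Lan.ev_in (eb k K B) 1, Lan.ev_in (eb k K B) i,
    eventually_all.2 fun j => Lan.ev_in (eb k K B) (a j : B),
    eventually_all.2 fun j => Lan.ev_in (eb k K B) (star (a j : B))] with
    v b1 b2 b3 b4 b5 b6 b7 b8 b9 b10 b11 b12 hv s hs
  have d1 : ∀ j, v.valuation k (c j * s) ≤ 1 := fun j => by
    rw [map_mul]; exact mul_le_one' (b6 j) hs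
  rw [Ga_eq, mul_smul_comm]
  refine Good.smul ?_ ⟨b8.mul b7 ?_, b1 hv s hs, ?_⟩
  · rw [map_list_prod]
    refine List.prod_eq_one fun x hx => ?_
    simp only [List.map_map, List.mem_map, Function.comp] at hx
    obtain ⟨j, -, rfl⟩ := hx
    have := val_norm_eq_one hv b4 b3 (a := 1) (by simp) (d1 j) (by simp)
    rw [one_pow] at this
    rw [map_inv₀, this, inv_one]
  · refine List.prod_induction _ (fun x y => Lan.In.mul b7) b9 fun x hx => ?_
    obtain ⟨j, rfl⟩ := List.mem_ofFn.1 hx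
    have := b9.add (b10.smul (d1 j))
    exact ((b12 j).mul b7 (this.mul b7 this)).mul b7 (b11 j)
  · have := b2 hv s hs
    rwa [mul_assoc, pl_mul h.anti, map_mul, map_mul, b5, one_mul] at this

theorem step6 {e : k} (hε : ¬ IsSquare e) {g₁ : B} (q₁ : IsUnit (mi e i g₁)) {r : ℕ}
    {c : Fin r → k} {a : Fin r → unitary B} {S S' Z : Finset (Pl k)} (hS₁ : S ⊆ S')
    (hZ : ∀ v ∈ Z, v ∉ S') (hx : ∀ v ∈ Z, Good K e i v (g₁ * Ga e i c a)) {v₂ : Pl k}
    (h1 : v₂ ∉ S') (h2 : v₂ ∉ Z) {W : Set B} (hW₁ : W ∈ nb k K B S g₁) {p : k → Prop}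
    (hu : ∀ᶠ s in nbk k S 0, p s) : ∃ s : k, (∀ j, p (c j * s)) ∧
      g₁ * Ga e i (fun j => c j * s) a ∈ W ∧ IsUnit (mi e i (g₁ * Ga e i (fun j => c j * s) a)) ∧
      (∀ v ∈ S', Good K e i v g₁ → Good K e i v (g₁ * Ga e i (fun j => c j * s) a)) ∧
      (∀ v ∈ Z, Good K e i v (g₁ * Ga e i (fun j => c j * s) a)) ∧
      ∀ v ∉ S', v ∉ Z → v ≠ v₂ → v.valuation k s ≤ 1 := by
  obtain ⟨s, s1, s2, s3⟩ := exists_seq S' Z hZ h1 h2
  have t1 : Tendsto (fun x => g₁ * Ga e i (fun j => c j * s x) a) atTop (nb k K B S' g₁) := by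
    simpa only [mul_one] using nb_mul (nb_const g₁) (tendsto_Ga e i c a s1)
  have t2 : Tendsto (fun x => mi e i (g₁ * Ga e i (fun j => c j * s x) a)) atTop
      (nb k K B S' (mi e i g₁)) :=
    nb_sub (nb_smul (nbk_const _) t1) (nb_mul (nb_mul (nb_const _) t1) (nb_const _))
  have f1 : ∀ᶠ x in atTop, ∀ j, p (c j * s x) := eventually_all.2 fun j => by
    have := nbk_mul (nbk_const (c j)) (s1.mono_right (nbk_anti hS₁ 0))
    rw [mul_zero] at this
    exact this.eventually hu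
  have f4 : ∀ᶠ x in atTop, ∀ v ∈ S', Good K e i v g₁ →
      Good K e i v (g₁ * Ga e i (fun j => c j * s x) a) :=
    S'.eventually_all.2 fun v hv => eventually_imp_distrib_left.2 (Lv.good (nb_fin t1 hv))
  have f5 : ∀ᶠ x in atTop, ∀ v ∈ Z, Good K e i v (g₁ * Ga e i (fun j => c j * s x) a) :=
    Z.eventually_all.2 fun v hv => by
      refine good_ga hε (hx v hv) (fun j => ?_) fun j => Lv.const _
      simpa only [Lk, map_mul, map_one, mul_one] using
        (s2 v hv).const_mul (algebraMap k (Kv v) (c j))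
  obtain ⟨x, x1, x2, x3, x4, x5⟩ := (f1.and (((t1.mono_right (nb_anti hS₁ _)).eventually
    hW₁).and ((ev_isUnit t2 q₁).and (f4.and f5)))).exists
  exact ⟨s x, x1, x2, x3, x4, x5, s3 x⟩

theorem e2 (hd : 2 ≤ deg K B) (ha : Aniso B) (hW : WaN k K B) (hC : Cop k K B) : E2 k K B := by
  classical
  intro ε i n h N hN
  obtain ⟨m, hm⟩ : ∃ m, Wa k K B N m := hW N hN
  obtain ⟨g₀, hg₀, p₀, q₀⟩ := exists_star K h
  have hT : (Tk k K B).Finite := ((Loc.finite_TT hd).image (below k)).subset fun _ h => h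
  have hε := h.not_isSquare K ha
  refine ⟨m, (hT.union (eventually_cofinite.1 (ev_good (K := K) p₀ q₀))).toFinset,
    fun S hS hu g hg W hWm => ?_⟩
  have hS' : ∀ v ∉ S, v ∉ Tk k K B ∧ Good K (ε : k) i v g₀ := fun v hv => by
    simpa using fun e => hv (hS ((Set.Finite.mem_toFinset _).2 e))
  obtain ⟨g₁, hg₁, hg₁', hW₁, p₁, q₁⟩ := step1 hN.le hm hg₀ hg hS' hWm
  obtain ⟨Z, hZ⟩ : ∃ Z : Finset (Pl k), ∀ v, v ∈ Z ↔ ¬ Good K (ε : k) i v g₁ ∧ v ∉ S :=
    ⟨(eventually_cofinite.1 (ev_good (K := K) p₁ q₁)).toFinset \ S, fun v => by simp⟩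
  obtain ⟨r, σ, t, ht, hσ, hx⟩ := step2 h ha hW hg₀ hg₁ fun v hv => hS' v ((hZ v).1 hv).2
  obtain ⟨c, hc, hx⟩ := step3 hε hσ hx
  obtain ⟨v₂, hv₂, hq⟩ := exists_sq hε (S ∪ Z)
  rw [Finset.mem_union, not_or] at hv₂
  obtain ⟨U, hU, hU'⟩ := hC ε i h.sq hε g₁ ((norm_ne K).2 p₁) r c hc v₂ hq
  obtain ⟨V, hV, hV'⟩ := hC ε i h.sq hε (n * g₁)
    ((norm_ne K).2 (by rw [pl_mul h.anti]; exact h.unit.mul q₁)) r c hc v₂ hq
  obtain ⟨a, ha1, ha2, hx⟩ := step4 hN.le hm hε (fun v hv => (hS' v ((hZ v).1 hv).2).1) ht hx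
    hv₂.2 (inter_mem hU hV)
  have hP := step5 (K := K) h (hU' _ fun j => (ha2 j).1) (hV' _ fun j => (ha2 j).2)
  obtain ⟨S', hS₁⟩ : ∃ S' : Finset (Pl k), ∀ v, v ∈ S' ↔ v ∈ S ∨ (¬ (ε ∉ Hn.Sq v → ∀ s : k,
      v.valuation k s ≤ 1 → Good K (ε : k) i v (g₁ * Ga (ε : k) i (fun j => c j * s) a)) ∧
        v ≠ v₂ ∧ v ∉ Z) :=
    ⟨S ∪ ((eventually_cofinite.1 hP).toFinset \ insert v₂ Z), fun v => by
      simp only [Finset.mem_union, Finset.mem_sdiff, Finset.mem_insert, Set.Finite.mem_toFinset,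
        Set.mem_ofPred_eq, not_or]⟩
  obtain ⟨s, x1, x2, x3, x4, x5, x6⟩ := step6 hε q₁ (S' := S') (fun v hv => (hS₁ v).2 (Or.inl hv))
    (fun v hv e => ((hS₁ v).1 e).elim ((hZ v).1 hv).2 fun e => e.2.2 hv) hx
    (fun e => ((hS₁ v₂).1 e).elim hv₂.1 fun e => e.2.1 rfl) hv₂.2 hW₁ hu
  let y : unitary B := ((List.finRange r).map fun j => (a j)⁻¹ * h.uU K ha (c j * s) * a j).prod
  have y1 : (y : B) = Ga (ε : k) i (fun j => c j * s) a := by
    rw [SubmonoidClass.coe_list_prod, List.map_map]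
    rfl
  have y2 : y ∈ N := list_prod_mem fun z hz => by
    obtain ⟨j, -, rfl⟩ := List.mem_map.1 hz
    simpa using hN.nrm _ (inv_mem (ha1 j)) _ (x1 j (h.uU K ha (c j * s)) rfl)
  refine ⟨g₁ * y, mul_mem hg₁ (hN.le y2), by rw [← mul_assoc]; exact mul_mem hg₁' y2, ?_, ?_,
    fun v hv hq' => ?_⟩ <;> rw [Submonoid.coe_mul, y1]
  · exact x2
  · exact x3
  by_cases e1 : v ∈ Z
  · exact x5 v e1
  by_cases e2 : v ∈ S'
  · exact x4 v e2 (not_not.1 fun e => e1 ((hZ v).2 ⟨e, hv⟩))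
  have e3 : v ≠ v₂ := by rintro rfl; exact hq' hq
  exact not_not.1 (fun e => e2 ((hS₁ v).2 (Or.inr ⟨e, e3, e1⟩))) hq' _ (x6 v e2 e1 e3)

end Alg

end E53

theorem e2Stmt (hW : WaNStmt.{u, v, w}) (hC : CopStmt.{u, v, w}) : E2Stmt.{u, v, w} :=
  fun D hd ha => E53.e2 (by omega) ha (hW D hd ha) (hC D)

end Crest.Agent.T24.Ev
end
end

-- ▼ part T24/EvE0_59
section

/-!
# Row 24 (helper59): a skew element with central square in even degree
-/

set_option autoImplicit false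
set_option linter.unusedSectionVars false

noncomputable section

namespace Crest.Agent.T24.Ev

open Module Polynomial NumberField Csa Asa Topology Filter Emb WithZero
open scoped TensorProduct Valued

namespace E59

section eis
variable {F : Type*} [NontriviallyNormedField F] [IsUltrametricDist F]

/-- Eisenstein's criterion -/
theorem eis {P : F[X]} (hm : P.Monic) (hd : 0 < P.natDegree) (h1 : ∀ i < P.natDegree, ‖P.coeff i‖ < 1)
    (h2 : ∀ c : F, ‖c‖ < 1 → ‖c‖ ≤ ‖P.coeff 0‖) : Irreducible P := by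
  let O := (NormedField.valuation (K := F)).valuationSubring
  have hO : ∀ x : F, x ∈ O ↔ ‖x‖ ≤ 1 := fun x => by
    rw [Valuation.mem_valuationSubring_iff, NormedField.valuation_apply, ← NNReal.coe_le_coe]; rfl
  obtain ⟨Q, rfl, h3, h4⟩ := lifts_and_natDegree_eq_and_monic (f := algebraMap O F)
    ((lifts_iff_coeff_lifts P).2 fun i => ⟨⟨P.coeff i, (hO _).2 (by
      rcases lt_trichotomy i P.natDegree with h | rfl | h
      exacts [(h1 i h).le, by simp [hm], by simp [coeff_eq_zero_of_natDegree_lt h]])⟩, rfl⟩) hm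
  simp only [coeff_map, ← h3] at h1 h2 hd
  have h0 : 0 < ‖algebraMap O F (Q.coeff 0)‖ := by
    obtain ⟨c, hc, hc'⟩ := NormedField.exists_norm_lt_one F
    exact hc.trans_le (h2 c hc')
  have h5 : ∀ x : O, x ∈ Ideal.span {Q.coeff 0} ↔ ‖algebraMap O F x‖ < 1 := fun x => by
    rw [Ideal.mem_span_singleton']
    refine ⟨?_, fun h => ⟨⟨x / algebraMap O F (Q.coeff 0), (hO _).2 ?_⟩, Subtype.ext ?_⟩⟩
    · rintro ⟨a, rfl⟩
      rw [map_mul, norm_mul]
      exact mul_lt_one_of_nonneg_of_lt_one_right ((hO _).1 a.2) h0.le (h1 0 hd)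
    · rw [norm_div, div_le_one h0]; exact h2 _ h
    · exact div_mul_cancel₀ _ (norm_pos_iff.1 h0)
  refine (h4.irreducible_iff_irreducible_map_fraction_map (K := F)).1
    ((⟨?_, fun hn => (h5 _).2 (h1 _ hn), ?_⟩ : Q.IsEisensteinAt (Ideal.span {Q.coeff 0})).irreducible
      ⟨?_, fun {x y} h => ?_⟩ h4.isPrimitive hd)
  · simp [h5, h4.leadingCoeff]
  · rw [Ideal.span_singleton_pow, Ideal.mem_span_singleton']
    rintro ⟨a, ha⟩
    have h6 := congrArg (fun x => ‖algebraMap O F x‖) ha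
    simp only [map_mul, norm_mul, sq, ← mul_assoc] at h6
    exact (mul_lt_one_of_nonneg_of_lt_one_right ((hO _).1 a.2) h0.le (h1 0 hd)).ne
      (mul_right_cancel₀ h0.ne' (h6.trans (one_mul _).symm))
  · rw [Ideal.ne_top_iff_one, h5]; simp
  · simp only [h5, map_mul, norm_mul] at h ⊢
    by_contra h6
    push Not at h6
    exact h.not_ge (one_le_mul_of_one_le_of_one_le h6.1 h6.2)

theorem eis_pow {π : F} (h1 : ‖π‖ < 1) (h2 : ∀ c : F, ‖c‖ < 1 → ‖c‖ ≤ ‖π‖) {d : ℕ} (hd : 0 < d)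
    {P : F[X]} (hm : P.Monic) (hP : P.natDegree = d) (h : ∀ i, ‖P.coeff i - (X ^ d - C π).coeff i‖ < ‖π‖) :
    Irreducible P := by
  have h0 : ‖P.coeff 0‖ = ‖π‖ := by
    have := h 0
    rw [coeff_sub, coeff_X_pow, if_neg hd.ne, coeff_C_zero, zero_sub, ← norm_neg π] at this
    rw [Loc.norm_eq_of_lt this, norm_neg]
  refine eis hm (hP ▸ hd) (fun i hi => ?_) (h0 ▸ h2)
  rcases i.eq_zero_or_pos with rfl | h3
  · exact h0 ▸ h1
  have := h i
  rw [coeff_sub, coeff_X_pow, if_neg (hP ▸ hi.ne), coeff_C_of_ne_zero h3.ne', sub_zero, sub_zero] at this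
  exact this.trans h1

end eis

section par
variable {R : Type*} [CommRing R]

/-- a polynomial of degree `< m` -/
def lo (m : ℕ) (y : ℕ → R) : R[X] := ∑ j ∈ Finset.range m, C (y j) * X ^ j

/-- `A ^ 2 - r B ^ 2` -/
def PP (m : ℕ) (x : Fin 3 × ℕ → R) : R[X] :=
  (X ^ m + lo m fun j => x (0, j)) ^ 2 - C (x (2, 0)) * (lo m fun j => x (1, j)) ^ 2

theorem degree_lo (m : ℕ) (y : ℕ → R) : (lo m y).degree < m :=
  (degree_sum_le _ _).trans_lt ((Finset.sup_lt_iff (WithBot.bot_lt_coe m)).2 fun j hj =>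
    (degree_C_mul_X_pow_le j _).trans_lt (WithBot.coe_lt_coe.2 (Finset.mem_range.1 hj)))

theorem lo_coeff {m : ℕ} {B : R[X]} (h : B.degree < m) : lo m B.coeff = B := by
  rcases eq_or_ne B 0 with rfl | h0
  · simp [lo]
  simpa only [lo, C_mul_X_pow_eq_monomial] using
    (B.as_sum_range' m ((natDegree_lt_iff_degree_lt h0).2 h)).symm

theorem map_PP {S : Type*} [CommRing S] (f : R →+* S) (m : ℕ) (x : Fin 3 × ℕ → R) :
    (PP m x).map f = PP m fun i => f (x i) := by
  simp [PP, lo, Polynomial.map_sum]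

theorem exists_par {m : ℕ} (r : R) {A B : R[X]} (h1 : A.Monic) (h2 : A.natDegree = m)
    (h3 : B.degree < m) : ∃ x, x (2, 0) = r ∧ PP m x = A ^ 2 - C r * B ^ 2 := by
  refine ⟨fun p => ![A.coeff p.2, B.coeff p.2, r] p.1, rfl, ?_⟩
  have : X ^ m + lo m A.coeff = A := h2 ▸ h1.as_sum.symm
  simp only [PP, Matrix.cons_val_zero, Matrix.cons_val_one, Matrix.cons_val]
  rw [this, lo_coeff h3]

theorem form [IsDomain R] {m : ℕ} (r : R) {A B : R[X]} (h1 : A.Monic) (h2 : A.natDegree = m)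
    (h3 : B.degree < m) : (A ^ 2 - C r * B ^ 2).Monic ∧ (A ^ 2 - C r * B ^ 2).natDegree = 2 * m := by
  have h4 : (A ^ 2).natDegree = 2 * m := by rw [h1.natDegree_pow, h2]
  have h5 : (C r * B ^ 2).degree < (A ^ 2).degree := by
    rw [degree_eq_natDegree (h1.pow 2).ne_zero, h4, ← smul_eq_C_mul]
    refine (degree_smul_le _ _).trans_lt ?_
    rw [sq, degree_mul, two_mul, Nat.cast_add]
    exact (add_le_add le_rfl h3.le).trans_lt (WithBot.add_lt_add_right WithBot.coe_ne_bot h3)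
  exact ⟨(h1.pow 2).sub_of_left h5, (natDegree_eq_of_degree_eq (degree_sub_eq_left_of_degree_lt h5)).trans h4⟩

theorem monic_A [Nontrivial R] (m : ℕ) (y : ℕ → R) :
    (X ^ m + lo m y).Monic ∧ (X ^ m + lo m y).natDegree = m :=
  ⟨monic_X_pow_add (degree_lo m y), by
    rw [natDegree_add_eq_left_of_degree_lt (by rw [degree_X_pow]; exact degree_lo m y), natDegree_X_pow]⟩

theorem monic_PP [IsDomain R] (m : ℕ) (x : Fin 3 × ℕ → R) : (PP m x).Monic ∧ (PP m x).natDegree = 2 * m :=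
  form _ (monic_A m _).1 (monic_A m _).2 (degree_lo m _)

theorem par_mul {F : Type*} [Field F] [CharZero F] {m : ℕ} {P Q : F[X]} (hP : P.Monic) (hQ : Q.Monic)
    (h1 : P.natDegree = m) (h2 : Q.natDegree = m) : ∃ x, PP m x = P * Q := by
  have h3 : (C (2⁻¹ : F) * (Q - P)).degree < m := by
    rw [← smul_eq_C_mul]
    refine (degree_smul_le _ _).trans_lt ?_
    rw [← h2, ← degree_eq_natDegree hQ.ne_zero]
    exact degree_sub_lt_left (by rw [degree_eq_natDegree hQ.ne_zero, degree_eq_natDegree hP.ne_zero, h1, h2])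
      hQ.ne_zero (hQ.trans hP.symm)
  have h4 : (C (2⁻¹ : F) * (Q - P)).degree < P.degree := by rwa [degree_eq_natDegree hP.ne_zero, h1]
  obtain ⟨x, -, hx⟩ := exists_par 1 (hP.add_of_left h4) ((natDegree_add_eq_left_of_degree_lt h4).trans h1) h3
  refine ⟨x, hx.trans ?_⟩
  have : C (2⁻¹ : F) * 2 = 1 := by rw [← map_ofNat C, ← map_mul, inv_mul_cancel₀ two_ne_zero, map_one]
  rw [map_one]
  linear_combination P * (Q - P) * this

section top
variable {T : Type*} [TopologicalSpace T] [TopologicalSpace R] [IsTopologicalRing R]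

/-- continuous coefficients -/
def Cts (f : T → R[X]) : Prop := ∀ i, Continuous fun x => (f x).coeff i

theorem Cts.const (p : R[X]) : Cts fun _ : T => p := fun _ => continuous_const

theorem Cts.add {f g : T → R[X]} (hf : Cts f) (hg : Cts g) : Cts fun x => f x + g x := fun i => by
  simp only [coeff_add]; exact (hf i).add (hg i)

theorem Cts.sub {f g : T → R[X]} (hf : Cts f) (hg : Cts g) : Cts fun x => f x - g x := fun i => by
  simp only [coeff_sub]; exact (hf i).sub (hg i)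

theorem Cts.mul {f g : T → R[X]} (hf : Cts f) (hg : Cts g) : Cts fun x => f x * g x := fun i => by
  simp only [coeff_mul]; exact continuous_finsetSum _ fun p _ => (hf _).mul (hg _)

theorem Cts.sq {f : T → R[X]} (hf : Cts f) : Cts fun x => f x ^ 2 := by
  simpa only [_root_.sq] using hf.mul hf

theorem Cts.C {f : T → R} (hf : Continuous f) : Cts fun x => C (f x) := fun i => by
  simp only [coeff_C]
  split_ifs
  exacts [hf, continuous_const]

theorem Cts.lo (m : ℕ) {f : T → ℕ → R} (hf : ∀ j, Continuous fun x => f x j) : Cts fun x => lo m (f x) :=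
  fun i => by
    simpa only [E59.lo, finsetSum_coeff] using
      continuous_finsetSum _ fun j _ => (Cts.C (hf j)).mul (.const _) i

theorem cts_PP (m : ℕ) : Cts (PP (R := R) m) := by
  have h : ∀ a : Fin 3, Cts fun x : Fin 3 × ℕ → R => E59.lo m fun j => x (a, j) := fun a =>
    .lo m fun j => continuous_apply (a, j)
  exact ((Cts.const _).add (h 0)).sq.sub ((Cts.C (continuous_apply (2, 0))).mul (h 1).sq)

end top

theorem ev_PP {F : Type*} [NormedField F] (m : ℕ) (x₀ : Fin 3 × ℕ → F) {ε : ℝ} (hε : 0 < ε) :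
    ∀ᶠ x in 𝓝 x₀, ∀ i, ‖(PP m x).coeff i - (PP m x₀).coeff i‖ < ε := by
  have h : ∀ᶠ x in 𝓝 x₀, ∀ i : Fin (2 * m + 1), ‖(PP m x).coeff i - (PP m x₀).coeff i‖ < ε :=
    eventually_all.2 fun i => by
      simpa only [dist_eq_norm] using Metric.tendsto_nhds.1 ((cts_PP m i).tendsto x₀) ε hε
  filter_upwards [h] with x hx i
  rcases lt_or_ge i (2 * m + 1) with hi | hi
  · exact hx ⟨i, hi⟩
  rwa [coeff_eq_zero_of_natDegree_lt (by rw [(monic_PP m x).2]; omega),
    coeff_eq_zero_of_natDegree_lt (by rw [(monic_PP m x₀).2]; omega), sub_zero, norm_zero]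

end par

section real

theorem real_fac {P : ℝ[X]} (h : P.natDegree ≠ 0) :
    (∃ a, X - C a ∣ P) ∨ ∃ a s, (X - C a) ^ 2 + C s ^ 2 ∣ P := by
  obtain ⟨z, hz⟩ := IsAlgClosed.exists_aeval_eq_zero ℂ P (fun h' => h (natDegree_eq_of_degree_eq_some h'))
  by_cases h1 : z.im = 0
  · lift z to ℝ using h1
    rw [← Complex.coe_algebraMap, aeval_algebraMap_apply, map_eq_zero, coe_aeval_eq_eval] at hz
    exact .inl ⟨z, dvd_iff_isRoot.2 hz⟩
  refine .inr ⟨z.re, z.im, ?_⟩
  convert quadratic_dvd_of_aeval_eq_zero_im_ne_zero P hz h1 using 1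
  rw [Complex.sq_norm, Complex.normSq_apply]
  simp only [map_add, map_mul, map_ofNat]
  ring

theorem monic_q (a s : ℝ) : ((X - C a) ^ 2 + C s ^ 2).Monic ∧ ((X - C a) ^ 2 + C s ^ 2).natDegree = 2 := by
  simpa using form (-1) (monic_X_sub_C a) (natDegree_X_sub_C a) (B := C s) (degree_C_le.trans_lt (by decide))

theorem quo {P Q S : ℝ[X]} (hP : P.Monic) (hQ : Q.Monic) (h : P = Q * S) :
    S.Monic ∧ P.natDegree = Q.natDegree + S.natDegree :=
  ⟨hQ.of_mul_monic_left (h ▸ hP), h ▸ hQ.natDegree_mul (hQ.of_mul_monic_left (h ▸ hP))⟩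

theorem real_two {P : ℝ[X]} (hP : P.Monic) (h : 2 ≤ P.natDegree) :
    ∃ Q : ℝ[X], Q.Monic ∧ Q.natDegree = 2 ∧ Q ∣ P := by
  obtain ⟨a, S, hS⟩ | ⟨a, s, hs⟩ := real_fac (P := P) (by omega)
  · have h1 := (quo hP (monic_X_sub_C a) hS).2
    rw [natDegree_X_sub_C] at h1
    obtain ⟨b, hb⟩ | ⟨b, s, hs⟩ := real_fac (P := S) (by omega)
    · exact ⟨_, (monic_X_sub_C a).mul (monic_X_sub_C b), by
        rw [(monic_X_sub_C a).natDegree_mul (monic_X_sub_C b), natDegree_X_sub_C, natDegree_X_sub_C],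
        hS ▸ mul_dvd_mul_left _ hb⟩
    · exact ⟨_, (monic_q b s).1, (monic_q b s).2, hS ▸ hs.mul_left _⟩
  · exact ⟨_, (monic_q a s).1, (monic_q a s).2, hs⟩

theorem real_even (j : ℕ) {P : ℝ[X]} (hP : P.Monic) (h : 2 * j ≤ P.natDegree) :
    ∃ Q : ℝ[X], Q.Monic ∧ Q.natDegree = 2 * j ∧ Q ∣ P := by
  induction j with
  | zero => exact ⟨1, monic_one, natDegree_one, one_dvd _⟩
  | succ j ih =>
    obtain ⟨Q, h1, h2, S, hS⟩ := ih (by omega)
    obtain ⟨h3, h4⟩ := quo hP h1 hS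
    obtain ⟨T, h5, h6, h7⟩ := real_two h3 (by omega)
    exact ⟨Q * T, h1.mul h5, by rw [h1.natDegree_mul h5, h2, h6]; ring, hS ▸ mul_dvd_mul_left _ h7⟩

theorem real_sq (m : ℕ) {P : ℝ[X]} (hP : P.Monic) (h : P.natDegree = 2 * m) (h0 : ∀ a, ¬ X - C a ∣ P) :
    ∃ A B : ℝ[X], A.Monic ∧ A.natDegree = m ∧ B.degree < m ∧ P = A ^ 2 + B ^ 2 := by
  induction m generalizing P with
  | zero => exact ⟨1, 0, monic_one, natDegree_one, by simp, by simpa using hP.natDegree_eq_zero.1 h⟩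
  | succ m ih =>
    obtain ⟨a, ha⟩ | ⟨a, s, S, hS⟩ := real_fac (P := P) (by omega)
    · exact absurd ha (h0 a)
    obtain ⟨h1, h2⟩ := quo hP (monic_q a s).1 hS
    rw [(monic_q a s).2] at h2
    obtain ⟨A, B, h3, h4, h5, h6⟩ := ih h1 (by omega) fun b hb => h0 b (hS ▸ hb.mul_left _)
    have h7 : ((X - C a) * A).degree = ((m + 1 : ℕ) : WithBot ℕ) := by
      rw [degree_mul, degree_X_sub_C, degree_eq_natDegree h3.ne_zero, h4, add_comm]; rfl
    have h8 : (m : WithBot ℕ) < ((m + 1 : ℕ) : WithBot ℕ) := WithBot.coe_lt_coe.2 m.lt_succ_self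
    have h9 : (C s * B).degree < ((X - C a) * A).degree := by
      rw [h7, ← smul_eq_C_mul]; exact ((degree_smul_le _ _).trans_lt h5).trans h8
    refine ⟨(X - C a) * A - C s * B, (X - C a) * B + C s * A, ((monic_X_sub_C a).mul h3).sub_of_left h9,
      natDegree_eq_of_degree_eq_some ((degree_sub_eq_left_of_degree_lt h9).trans h7),
      (degree_add_le _ _).trans_lt (max_lt ?_ ?_), by rw [hS, h6]; ring⟩
    · rw [degree_mul, degree_X_sub_C, add_comm]
      exact WithBot.add_lt_add_right WithBot.one_ne_bot h5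
    · rw [← smul_eq_C_mul]
      exact ((degree_smul_le _ _).trans (degree_le_of_natDegree_le h4.le)).trans_lt h8

/-- every real monic polynomial of even degree is a norm from a quadratic algebra -/
theorem real_par {m : ℕ} {P : ℝ[X]} (hP : P.Monic) (h : P.natDegree = 2 * m) : ∃ x, PP m x = P := by
  by_cases h0 : ∀ a, ¬ X - C a ∣ P
  · obtain ⟨A, B, h1, h2, h3, rfl⟩ := real_sq m hP h h0
    obtain ⟨x, -, hx⟩ := exists_par (-1) h1 h2 h3
    exact ⟨x, by simpa using hx⟩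
  push Not at h0
  obtain ⟨a, S, hS⟩ := h0
  obtain ⟨h1, h2⟩ := quo hP (monic_X_sub_C a) hS
  rw [natDegree_X_sub_C] at h2
  obtain ⟨Q, h3, h4, T, hT⟩ : ∃ Q : ℝ[X], Q.Monic ∧ Q.natDegree = m ∧ Q ∣ P := by
    obtain ⟨j, rfl | rfl⟩ := m.even_or_odd'
    · exact real_even j hP (by omega)
    · obtain ⟨Q, h3, h4, h5⟩ := real_even j h1 (by omega)
      exact ⟨_, (monic_X_sub_C a).mul h3, by
        rw [(monic_X_sub_C a).natDegree_mul h3, natDegree_X_sub_C, h4, add_comm], hS ▸ mul_dvd_mul_left _ h5⟩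
  obtain ⟨h5, h6⟩ := quo hP h3 hT
  exact hT ▸ par_mul h3 h5 h4 (by omega)

end real

section mat

theorem exists_root_mat {R : Type*} [CommRing R] [Nontrivial R] (c : R) {r : ℕ} (hr : 0 < r) :
    ∃ M : Matrix (Fin r) (Fin r) R, M ^ r = algebraMap R _ c := by
  have h := monic_X_pow_sub_C c hr.ne'
  let b := (AdjoinRoot.powerBasis' h).basis.reindex (finCongr (natDegree_X_pow_sub_C (n := r) (r := c)))
  refine ⟨Algebra.leftMulMatrix b (AdjoinRoot.root _), ?_⟩
  have := AdjoinRoot.eval₂_root (X ^ r - C c)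
  rw [eval₂_sub, eval₂_X_pow, eval₂_C, sub_eq_zero] at this
  rw [← map_pow, this]
  exact AlgHom.commutes _ c

/-- a root of a uniformiser in a local central simple algebra -/
theorem exists_root (F A : Type*) [NontriviallyNormedField F] [ProperSpace F] [IsUltrametricDist F] [Ring A]
    [Algebra F A] [Algebra.IsCentral F A] [IsSimpleRing A] [FiniteDimensional F A] :
    ∃ (π : F) (t : A), ‖π‖ < 1 ∧ (∀ c : F, ‖c‖ < 1 → ‖c‖ ≤ ‖π‖) ∧ t ^ deg F A = algebraMap F A π := by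
  obtain ⟨r, e, D, _, _, _, _, hr, -, h1, h2, ⟨φ⟩⟩ := Hsm.exists_wedderburn F A (finrank_eq_deg_sq F A)
  let := Loc.ndr F D
  let := Loc.nalg F D
  have := Loc.ultra F D
  obtain ⟨π, ζ, M, s, h⟩ := Loc.exists_cyc (F := F) (D := D)
  obtain ⟨t, ht⟩ := exists_root_mat (Loc.zz F π) hr
  refine ⟨h.vp, φ.symm ((Loc.WW F π).val.mapMatrix t), h.vp_lt, fun c => h.le_vp', ?_⟩
  have h3 : Loc.zz F π ^ e = algebraMap F _ h.vp := Subtype.ext (h.n_eq h2 ▸ h.vp_eq.symm)
  rw [← map_pow, ← map_pow, h1, pow_mul, ht, ← map_pow, h3, ← IsScalarTower.algebraMap_apply, AlgHom.commutes,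
    AlgEquiv.commutes]

theorem exists_diag_herm (F : Type*) {E A D : Type*} [Field F] [Field E] [StarRing E] [CharZero E] [Algebra F E]
    [Quad F E] [Ring A] [StarRing A] [Algebra E A] [StarModule E A] [Algebra F A] [IsScalarTower F E A]
    [DivisionRing D] [Algebra E D] [FiniteDimensional E D] {d : ℕ}
    (hd : 0 < d) (ψ : A ≃ₐ[E] Matrix (Fin d) (Fin d) D) {l : Fin d → F} (hl : Function.Injective l) :
    ∃ t : A, star t = t ∧ minpoly F t = ∏ i, (X - C (l i)) := by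
  have : Nonempty (Fin d) := ⟨⟨0, hd⟩⟩
  obtain ⟨_, _, e, a, h1, h2⟩ := exists_star_of_equiv (Quad.ne (k := F)) ψ
  let f : (Fin d → F) →ₐ[F] A := ((e.symm.toAlgHom.comp ((Matrix.diagonalAlgHom E).comp
    (AlgHom.pi fun i => (Algebra.ofId E D).comp (Pi.evalAlgHom E (fun _ => E) i)))).restrictScalars F).comp
    (AlgHom.pi fun i => (Algebra.ofId F E).comp (Pi.evalAlgHom F (fun _ => F) i))
  have hf : ∀ x, e (f x) = Matrix.diagonal fun i => algebraMap E D (algebraMap F E (x i)) := fun x =>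
    e.apply_symm_apply _
  refine ⟨f l, e.injective ?_, ?_⟩
  · have hu : IsUnit (Matrix.diagonal a) :=
      (Pi.isUnit_iff.2 fun i => (h1 i).1.isUnit).map (Matrix.diagonalRingHom _ D)
    refine hu.mul_left_cancel ((h2 _).trans ?_)
    rw [hf, Matrix.diagonal_conjTranspose, Matrix.diagonal_mul_diagonal, Matrix.diagonal_mul_diagonal]
    congr 1
    funext i
    rw [Pi.star_apply, Csa.star_algebraMap, Quad.star_k, Algebra.commutes]
  rw [minpoly.algHom_eq f fun x y h => funext fun i => (algebraMap F E).injective ((algebraMap E D).injective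
    (congrFun (Matrix.diagonal_injective ((hf x).symm.trans ((congrArg e h).trans (hf y)))) i))]
  have h3 : ∀ (q : F[X]) i, aeval l q i = q.eval (l i) := fun q i =>
    (aeval_algHom_apply (Pi.evalAlgHom F (fun _ => F) i) l q).symm
  refine (minpoly.unique' F l (monic_prod_X_sub_C _ _) (funext fun i => ?_) fun q hq => ?_).symm
  · rw [h3, eval_prod]
    exact Finset.prod_eq_zero (Finset.mem_univ i) (by simp)
  rw [or_iff_not_imp_right, not_not]
  intro h4
  by_contra h5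
  refine h5 (eq_zero_of_natDegree_lt_card_of_eval_eq_zero q hl (fun i => by rw [← h3, h4]; rfl) ?_)
  simpa using natDegree_lt_natDegree h5 hq

end mat

variable {k : Type*} (K B : Type*) [Field k] [NumberField k] [Field K] [NumberField K] [Algebra k K]
  [StarRing K] [Quad k K] [Ring B] [StarRing B] [Algebra K B] [StarModule K B]
  [Algebra.IsCentral K B] [IsSimpleRing B] [FiniteDimensional K B] [Algebra k B]
  [IsScalarTower k K B] {m : ℕ}

/-- the parameters with a local point -/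
def Pt (m : ℕ) (F : Type*) [Field F] [Algebra k F] : Set (Fin 3 × ℕ → F) :=
  {x | ∃ t : BC k K B F, HR (PP m x) t}

variable {K B} in
theorem pt_nhds {F : Type*} [NontriviallyNormedField F] [CompleteSpace F] [Algebra k F] {x : Fin 3 × ℕ → F}
    {t : BC k K B F} (h : HR (PP m x) t) (hs : (PP m x).Separable) : Pt (k := k) K B m F ∈ 𝓝 x := by
  obtain ⟨ε, hε, H⟩ := W56.loc_near F h hs univ_mem
  filter_upwards [ev_PP m x hε] with y hy
  exact (H _ (monic_PP m y).1 ((monic_PP m y).2.trans (monic_PP m x).2.symm) hy).imp fun _ h => h.1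

theorem par_pow {R : Type*} [CommRing R] [Nontrivial R] (hm : 0 < m) (π : R) :
    ∃ x, x (2, 0) = π ∧ PP m x = X ^ (2 * m) - C π := by
  obtain ⟨x, h1, h2⟩ := exists_par π (monic_X_pow m) (natDegree_X_pow m) (B := 1)
    (by rw [degree_one]; exact_mod_cast hm)
  exact ⟨x, h1, by rw [h2, one_pow, mul_one, ← pow_mul, mul_comm]⟩

theorem pt_real (hd : deg K B = 2 * m) (φ : k →+* ℝ) : ∃ x, Pt (k := k) K B m (Rp φ) ∈ 𝓝 x := by
  obtain ⟨a, h1, h2⟩ := exists_herm_separable (B := B) (Quad.ne (k := k) (K := K))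
  obtain ⟨P, h3, h4, h5⟩ := exists_rch_herm (fun _ => exists_of_star_eq (Quad.fr (k := k) (K := K)) Quad.star_k
    (Quad.ne (k := k))) h1
  have h6 : P.Separable := (separable_map _).1 (h5 ▸ h2)
  obtain ⟨x, hx⟩ : ∃ x : Fin 3 × ℕ → Rp φ, PP m x = P.map (algebraMap k (Rp φ)) :=
    real_par (P := P.map φ) (h3.map φ) (by rw [natDegree_map, h4, hd])
  exact ⟨x, pt_nhds (hx ▸ W56.hr ⟨h1, h5.symm⟩ h6) (hx ▸ h6.map)⟩

theorem pt_fin (hd : deg K B = 2 * m) (v : Pl k) : ∃ x, Pt (k := k) K B m (Kv v) ∈ 𝓝 x := by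
  have := Loc.proper_adic k v
  have := Loc.charZero_adic k v
  have h0 := deg_pos K B
  rcases isEmpty_or_nonempty (K →ₐ[k] Kv v) with h | ⟨⟨i⟩⟩
  · obtain ⟨ψ⟩ := Loc.bc_mat K B v
    have hl : Function.Injective fun i : Fin (deg K B) => ((i : ℕ) : Kv v) := fun i j h =>
      Fin.ext (Nat.cast_injective h)
    obtain ⟨t, h1, h2⟩ := exists_diag_herm (Kv v) h0 ψ hl
    have h3 : ∀ s : ℕ, (∏ i ∈ Finset.range m, (X - C ((s + i : ℕ) : Kv v))).Monic ∧
        (∏ i ∈ Finset.range m, (X - C ((s + i : ℕ) : Kv v))).natDegree = m := fun s =>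
      ⟨monic_prod_X_sub_C _ _, by rw [natDegree_finsetProd_X_sub_C_eq_card, Finset.card_range]⟩
    obtain ⟨x, hx⟩ := par_mul (h3 0).1 (h3 m).1 (h3 0).2 (h3 m).2
    have h4 : PP m x = ∏ i : Fin (deg K B), (X - C ((i : ℕ) : Kv v)) := by
      rw [hx, Fin.prod_univ_eq_prod_range fun i => X - C (i : Kv v), hd, two_mul, Finset.prod_range_add]
      simp only [zero_add]
    exact ⟨x, pt_nhds ⟨h1, h4 ▸ h2⟩ (h4 ▸ separable_prod_X_sub_C_iff.2 hl)⟩
  · let := i.toRingHom.toAlgebra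
    have : IsScalarTower k K (Kv v) := .of_algebraMap_eq fun c => (i.commutes c).symm
    have := isSimpleRing_tensor (K := K) (A := Kv v) (B := B)
    have := isCentral_tensor (K := K) (F := Kv v) (A := Kv v) (B := B)
    let s := SM.taut k K B (Kv v)
    obtain ⟨π, y, h1, h2, h3⟩ := exists_root (Kv v) (Kv v ⊗[K] B)
    rw [s.deg_eq, hd] at h3
    obtain ⟨t, h4, rfl⟩ := s.exists_herm y
    obtain ⟨x, -, hx⟩ := par_pow (m := m) (by omega) π
    have h5 : Irreducible (PP m x) := eis_pow h1 h2 (d := 2 * m) (by omega) (monic_PP m x).1 (monic_PP m x).2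
      fun i => by
        obtain ⟨c, hc, hc'⟩ := NormedField.exists_norm_lt_one (Kv v)
        rw [hx, sub_self, norm_zero]
        exact hc.trans_le (h2 c hc')
    have := (BC.inc_injective k K B (Kv v)).nontrivial
    refine ⟨x, pt_nhds (t := t) ⟨h4, (minpoly.eq_of_irreducible_of_monic h5 ?_ (monic_PP m x).1).symm⟩
      h5.separable⟩
    refine s.herm_ext (A16.star_aeval h4 _) (star_zero _) ?_
    rw [← aeval_algHom_apply, hx, map_sub, map_pow, aeval_X, h3, aeval_C, sub_self, map_zero]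

include K in
theorem star_aeval_k {x : B} (hx : star x = x) (p : k[X]) : star (aeval x p) = aeval x p := by
  induction p using Polynomial.induction_on' with
  | add p q hp hq => rw [map_add, star_add, hp, hq]
  | monomial n c => rw [aeval_monomial, ← Algebra.smul_def, star_ksmul k K B, star_pow, hx]

/-- a hermitian element whose square is a scalar of odd valuation at a given kind of place -/
theorem exists_herm_sq (hL : LocEx k K B) (hd : Even (deg K B)) (S : Finset (Pl k)) :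
    ∃ v ∉ S, ∃ (r : k) (η : B), v.valuation k r = exp (-1) ∧ star η = η ∧ η * η = algebraMap k B r := by
  classical
  obtain ⟨m, hd⟩ := hd
  rw [← two_mul] at hd
  have hm : 0 < m := by have := deg_pos K B; omega
  obtain ⟨S₀, hL⟩ := hL
  obtain ⟨v₁, h₁⟩ := exists_notMem (S₀ ∪ S)
  rw [Finset.mem_union, not_or] at h₁
  obtain ⟨π₀, hπ⟩ := v₁.valuation_exists_uniformizer k
  let π := algebraMap k (Kv v₁) π₀
  have hv : Valued.v π = exp (-1) := (Loc.val_alg v₁ π₀).trans hπ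
  have h1 : ‖π‖ < 1 := Valued.toNormedField.norm_lt_one_iff.2 (hv ▸ exp_lt_exp.2 (by decide))
  have h2 : ∀ c : Kv v₁, ‖c‖ < 1 → ‖c‖ ≤ ‖π‖ := fun c hc => Valued.toNormedField.norm_le_iff.2 (by
    rw [hv, ← lt_mul_exp_iff_le exp_ne_zero, ← exp_add]
    exact Valued.toNormedField.norm_lt_one_iff.1 hc)
  have h3 : 0 < ‖π‖ := norm_pos_iff.2 fun h => exp_ne_zero (by rw [← hv, h, map_zero])
  obtain ⟨x₁, h4, h5⟩ := par_pow hm π
  choose a ha using pt_fin (k := k) K B hd
  choose b hb using pt_real (k := k) K B hd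
  obtain ⟨x, h6, h7⟩ := Hil.wa (insert v₁ S₀) (Function.update a v₁ x₁)
    (Function.update (fun v => Pt (k := k) K B m (Kv v)) v₁
      {x | (∀ i, ‖(PP m x).coeff i - (PP m x₁).coeff i‖ < ‖π‖) ∧ ‖x (2, 0) - π‖ < ‖π‖}) (fun v hv => by
      rcases eq_or_ne v v₁ with rfl | h
      · rw [Function.update_self, Function.update_self]
        refine (ev_PP m x₁ h3).and ?_
        simpa only [dist_eq_norm, h4] using Metric.tendsto_nhds.1 ((continuous_apply (2, 0)).tendsto x₁) _ h3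
      · rw [Function.update_of_ne h, Function.update_of_ne h]
        exact ha v) b (fun φ => Pt (k := k) K B m (Rp φ)) hb
  obtain ⟨h8, h9⟩ := Function.update_self v₁ _ _ ▸ h6 v₁ (Finset.mem_insert_self _ _)
  obtain ⟨h10, h11⟩ := monic_PP m x
  have h12 : Irreducible (PP m x) := h10.irreducible_of_irreducible_map (algebraMap k (Kv v₁)) _ (by
    rw [map_PP]
    exact eis_pow h1 h2 (d := 2 * m) (by omega) (monic_PP m _).1 (monic_PP m _).2 (h5 ▸ h8))
  obtain ⟨th, h13, h14⟩ := embEx k K B (PP m x) h10 h12 (h11.trans hd.symm) (fun v => by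
    by_cases hv : v ∈ S₀
    · have := h6 v (Finset.mem_insert_of_mem hv)
      rw [Function.update_of_ne (fun h : v = v₁ => h₁.1 (h ▸ hv))] at this
      rwa [map_PP]
    · exact hL v hv _ (h10.map _) (by rw [natDegree_map, h11, hd]) h12.separable.map) fun φ => by
      rw [map_PP]; exact h7 φ
  have h15 : aeval th (PP m x) = 0 := by rw [← aeval_map_algebraMap K, ← h14, aeval_rch]
  obtain ⟨U, V, h16⟩ : IsCoprime (PP m x) (lo m fun j => x (1, j)) := h12.coprime_iff_not_dvd.2 fun h => by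
    have h17 := eq_zero_of_dvd_of_degree_lt h ((degree_lo m _).trans_le (by
      rw [degree_eq_natDegree h10.ne_zero, h11]; exact WithBot.coe_le_coe.2 (show m ≤ 2 * m by omega)))
    have h18 := natDegree_eq_zero_of_isUnit ((or_self_iff).1 (h12.isUnit_or_isUnit
      (show PP m x = _ * _ by rw [PP, h17, zero_pow two_ne_zero, mul_zero, sub_zero, sq])))
    rw [(monic_A m _).2] at h18
    omega
  refine ⟨v₁, h₁.2, x (2, 0), aeval th ((X ^ m + lo m fun j => x (0, j)) * V), ?_, star_aeval_k K B h13 _, ?_⟩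
  · have h17 := Loc.norm_eq_of_lt h9
    rw [← Loc.val_alg, ← hv]
    exact (Valued.toNormedField.norm_le_iff.1 h17.le).antisymm (Valued.toNormedField.norm_le_iff.1 h17.ge)
  rw [← map_mul, ← aeval_C th, ← sub_eq_zero, ← map_sub]
  set A := X ^ m + lo m fun j => x (0, j)
  set B' := lo m fun j => x (1, j)
  have h17 : PP m x = A ^ 2 - C (x (2, 0)) * B' ^ 2 := rfl
  rw [show A * V * (A * V) - C (x (2, 0)) = (V ^ 2 - C (x (2, 0)) * U * (1 + V * B')) * PP m x by
    linear_combination (-V ^ 2) * h17 + C (x (2, 0)) * (1 + V * B') * h16, map_mul, h15, mul_zero]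

end E59

open E59

variable (k K B : Type*) [Field k] [NumberField k] [Field K] [NumberField K] [Algebra k K]
  [StarRing K] [Quad k K] [Ring B] [StarRing B] [Algebra K B] [StarModule K B]
  [Algebra.IsCentral K B] [IsSimpleRing B] [FiniteDimensional K B] [Algebra k B]
  [IsScalarTower k K B]


/-- a hermitian element generating a quadratic field over `K` -/
theorem exists_eps (hL : LocEx k K B) (hd : Even (deg K B)) : ∃ (η : B) (r : k), star η = η ∧
    η * η = algebraMap k B r ∧ ¬ IsSquare (algebraMap k K r) := by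
  obtain ⟨θ, δ, h0, hθ, hδ⟩ := BC.exists_delta k K
  have hδ0 : δ ≠ 0 := fun h => mul_ne_zero h0 h0 (by rw [← hδ, h, map_zero])
  obtain ⟨v, hv, r, η, h1, h2, h3⟩ := exists_herm_sq K B hL hd (finite_ne_one hδ0).toFinset
  rw [Set.Finite.mem_toFinset, Set.mem_ofPred_eq, not_not] at hv
  have key : ∀ c a : k, v.valuation k c = 1 → algebraMap k K (c * r) ≠ algebraMap k K a * algebraMap k K a :=
    fun c a hc h => by
      rw [← map_mul, (algebraMap k K).injective.eq_iff] at h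
      have h4 := congrArg (fun x => log (v.valuation k x)) h
      have h5 : v.valuation k a ≠ 0 := fun h5 => by
        simp only [map_mul, hc, h1, h5, log_exp, one_mul, mul_zero, log_zero] at h4
        omega
      simp only [map_mul, hc, h1, log_exp, one_mul, log_mul h5 h5] at h4
      omega
  refine ⟨η, r, h2, h3, ?_⟩
  rintro ⟨z, hz⟩
  have h5 := congrArg star hz
  rw [Quad.star_k, star_mul, hz, eq_comm, mul_self_eq_mul_self_iff] at h5
  have fx := fun c => exists_of_star_eq (c := c) (Quad.fr (k := k) (K := K)) Quad.star_k (Quad.ne (k := k))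
  rcases h5 with h5 | h5
  · obtain ⟨a, rfl⟩ := fx z h5
    exact key 1 a (map_one _) (by rw [one_mul, hz])
  · obtain ⟨a, ha⟩ := fx (θ * z) (by rw [star_mul, h5, hθ, neg_mul_neg, mul_comm])
    exact key δ a hv (by rw [ha, map_mul, hz, hδ]; ring)


end Crest.Agent.T24.Ev
end
end

-- ▼ part T24/EvnEps_59
section

/-! Row 24 (helper59): a hermitian quadratic generator in even degree. -/

namespace Crest.Agent.T24.Evn

universe u v w

theorem epsStmt : EpsStmt.{u, v, w} := fun D hd =>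
  Ev.exists_eps D.k D.K D.B (Emb.locEx D.k D.K D.B) hd

end Crest.Agent.T24.Evn
end

-- ▼ part T24/EvTwoA_30
section

/-!
# Row 24, degree two (helper30): `SU (B, ⋆) = SL₁ (Q₀)` for the `k`-form `Q₀` of `B`
-/

set_option autoImplicit false
set_option linter.unusedSectionVars false

noncomputable section

namespace Crest.Agent.T24.Two30

open Module NumberField Csa Asa Polynomial Filter Ev

universe u v w

variable {k : Type u} {K B : Type*} [Field k] [NumberField k] [Field K] [NumberField K] [Algebra k K]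
  [StarRing K] [Quad k K] [Ring B] [StarRing B] [Algebra K B] [StarModule K B]
  [Algebra.IsCentral K B] [IsSimpleRing B] [FiniteDimensional K B] [Algebra k B]
  [IsScalarTower k K B]

/-- Cayley–Hamilton in degree two -/
theorem ch2 (hd : deg K B = 2) (x : B) :
    x * x = Trd K x • x - algebraMap K B (Nrd K x) := by
  have h := aeval_rch (K := K) x
  have hn : (rch K x).natDegree = 2 := by rw [rch_natDegree, hd]
  have hm := rch_monic K x
  rw [aeval_eq_sum_range, hn] at h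
  have h2 : (rch K x).coeff 2 = 1 := by rw [← hn]; exact hm
  have ht : Trd K x = -(rch K x).coeff 1 := by
    rw [Trd_def, nextCoeff, if_neg (by omega), hn]
  have hN : Nrd K x = (rch K x).coeff 0 := by rw [Nrd_def, hd]; simp
  simp only [Finset.sum_range_succ, Finset.sum_range_zero, h2, one_smul, pow_zero, pow_one,
    zero_add] at h
  rw [ht, hN, Algebra.algebraMap_eq_smul_one, neg_smul, ← sq, eq_neg_of_add_eq_zero_right h]
  abel

/-- a non-zero skew element in a `⋆`-stable `K`-subspace -/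
theorem exists_skew_mem (hne : ∃ c : K, star c ≠ c) (V : Submodule K B) (hV : ∀ x ∈ V, star x ∈ V) {b : B} (hb : b ∈ V)
    (h0 : b ≠ 0) : ∃ j ∈ V, j ≠ 0 ∧ star j = -j := by
  by_cases h : star b = b
  · obtain ⟨θ, h1, h2⟩ := exists_skew hne
    exact ⟨θ • b, V.smul_mem _ hb, smul_ne_zero h1 h0, by rw [star_smul, h, h2, neg_smul]⟩
  · exact ⟨b - star b, V.sub_mem hb (hV b hb), sub_ne_zero.2 (Ne.symm h), by
      rw [star_sub, star_star, neg_sub]⟩

/-- the square of a skew element of trace zero -/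
theorem sq_skew (hd : deg K B = 2) (ha : Aniso B) {j : B} (h0 : j ≠ 0) (hs : star j = -j)
    (ht : Trd K j = 0) : ∃ a : kˣ, j * j = algebraMap k B a := by
  have h := ch2 hd j
  rw [ht, zero_smul, zero_sub, ← map_neg] at h
  have h1 : star (-Nrd K j) = -Nrd K j := by
    apply (algebraMap K B).injective
    rw [← star_algebraMap, ← h, star_mul, hs, neg_mul_neg]
  obtain ⟨a, ha'⟩ := exists_of_star_eq (Quad.fr (k := k) (K := K)) Quad.star_k
    (Quad.ne (k := k)) h1
  have e : j * j = algebraMap k B a := by rw [h, ← ha', ← IsScalarTower.algebraMap_apply]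
  refine ⟨Units.mk0 a fun h2 => h0 (ha j ?_), e⟩
  rw [hs, neg_mul, e, h2, map_zero, neg_zero]

theorem unit_of_sq {j : B} {a : kˣ} (h : j * j = algebraMap k B a) : IsUnit j := by
  have hu : IsUnit (j * j) := h ▸ a.isUnit.map _
  exact (isUnit_mul_self_iff).1 hu

theorem trd_anti {u y : B} (hu : IsUnit u) (h : u * y = -(y * u)) : Trd K y = 0 := by
  obtain ⟨u, rfl⟩ := hu
  have e1 : Trd K ((u : B) * y * (u⁻¹ : Bˣ)) = Trd K y := by
    rw [Trd_mul_comm, ← mul_assoc, Units.inv_mul, one_mul]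
  rw [h, neg_mul, Units.mul_inv_cancel_right, map_neg] at e1
  have : 2 * Trd K y = 0 := by linear_combination -e1
  exact (mul_eq_zero.1 this).resolve_left two_ne_zero

/-- the generators -/
theorem exists_gen (hd : deg K B = 2) (ha : Aniso B) : ∃ (j r : B) (a c : kˣ), star j = -j ∧
    star r = -r ∧ j * j = algebraMap k B a ∧ r * r = algebraMap k B c ∧ j * r = -(r * j) := by
  have h4 : finrank K B = 4 := by rw [finrank_eq_deg_sq, hd]; rfl
  obtain ⟨b, hb, hb0⟩ : ∃ b ∈ LinearMap.ker (Trd K (B := B)), b ≠ 0 := by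
    refine Submodule.exists_mem_ne_zero_of_ne_bot fun h => ?_
    have := LinearMap.finrank_le_finrank_of_injective (LinearMap.ker_eq_bot.1 h)
    rw [h4, finrank_self] at this
    omega
  obtain ⟨j, hj, hj0, hjs⟩ := exists_skew_mem (Quad.ne (k := k)) (LinearMap.ker (Trd K (B := B)))
    (fun x hx => by rw [LinearMap.mem_ker] at *; rw [Trd_star, hx, star_zero]) hb hb0
  rw [LinearMap.mem_ker] at hj
  obtain ⟨a, hja⟩ := sq_skew (k := k) hd ha hj0 hjs hj
  obtain ⟨y, hy⟩ : ∃ y, j * y ≠ y * j := by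
    by_contra h
    push Not at h
    obtain ⟨c, hc⟩ := (Algebra.IsCentral.mem_center_iff K (x := j)).1
      (Subalgebra.mem_center_iff.2 fun y => (h y).symm)
    rw [hc, Trd_algebraMap, hd] at hj
    have : c = 0 := by simpa using hj
    exact hj0 (by rw [hc, this, map_zero])
  let V : Submodule K B := LinearMap.ker (LinearMap.mulLeft K j + LinearMap.mulRight K j)
  have hV : ∀ x, x ∈ V ↔ j * x = -(x * j) := fun x => by
    simp [V, LinearMap.mem_ker, add_eq_zero_iff_eq_neg]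
  obtain ⟨r, hr, hr0, hrs⟩ := exists_skew_mem (Quad.ne (k := k)) V (fun x hx => by
    rw [hV] at *
    have := congrArg star hx
    rw [star_mul, star_neg, star_mul, hjs, mul_neg, neg_mul, neg_neg] at this
    exact this.symm) (b := j * y - y * j) (by
    rw [hV, mul_sub, sub_mul, ← mul_assoc j j, hja, mul_assoc y j j, hja, Algebra.commutes,
      neg_sub, mul_assoc]) (sub_ne_zero.2 hy)
  rw [hV] at hr
  have hrt : Trd K r = 0 := trd_anti (unit_of_sq hja) hr
  obtain ⟨c, hrc⟩ := sq_skew (k := k) hd ha hr0 hrs hrt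
  exact ⟨j, r, a, c, hjs, hrs, hja, hrc, hr⟩

theorem indep₂ {j r : B} (hj : IsUnit j) (hr : IsUnit r) (h : j * r = -(r * j)) {s t : K}
    (e : s • (1 : B) + t • j = 0) : s = 0 ∧ t = 0 := by
  have e1 : s • r + t • (j * r) = 0 := by
    have := congrArg (· * r) e
    simpa [add_mul] using this
  have e2 : s • r - t • (j * r) = 0 := by
    have := congrArg (r * ·) e
    simpa [mul_add, h, sub_eq_add_neg] using this
  have e3 : (2 * s) • r = 0 := by
    rw [two_mul, add_smul, ← add_zero (0 : B)]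
    nth_rewrite 1 [← e1]
    rw [← e2]; abel
  have hs : s = 0 := by simpa [hr.ne_zero] using e3
  refine ⟨hs, ?_⟩
  simpa [hs, hj.ne_zero] using e

theorem indep₄ {j r : B} (hj : IsUnit j) (hr : IsUnit r)
    (h : j * r = -(r * j)) {x₀ x₁ x₂ x₃ : K}
    (e : x₀ • (1 : B) + x₁ • j + x₂ • r + x₃ • (j * r) = 0) :
    x₀ = 0 ∧ x₁ = 0 ∧ x₂ = 0 ∧ x₃ = 0 := by
  have h' : r * j = -(j * r) := by rw [h, neg_neg]
  have e1 : j * (x₀ • (1 : B) + x₁ • j) + j * (x₂ • r + x₃ • (j * r)) = 0 := by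
    rw [← mul_add, ← add_assoc, e, mul_zero]
  have e2 : j * (x₀ • (1 : B) + x₁ • j) - j * (x₂ • r + x₃ • (j * r)) = 0 := by
    have := congrArg (· * j) e
    simp only [add_mul, smul_mul_assoc, one_mul, mul_assoc, h', zero_mul, mul_neg, smul_neg] at this
    simp only [mul_add, mul_smul_comm, mul_one]
    rw [← this]; abel
  have e3 : x₀ • (1 : B) + x₁ • j = 0 := by
    have : (2 : K) • (j * (x₀ • (1 : B) + x₁ • j)) = 0 := by
      rw [two_smul, ← add_zero (0 : B)]
      nth_rewrite 1 [← e1]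
      rw [← e2]; abel
    exact hj.mul_right_eq_zero.1 ((smul_eq_zero.1 this).resolve_left two_ne_zero)
  have e4 : x₂ • (1 : B) + x₃ • j = 0 := by
    rw [e3, mul_zero, zero_add, hj.mul_right_eq_zero] at e1
    apply hr.mul_left_eq_zero.1
    rw [add_mul, smul_mul_assoc, smul_mul_assoc, one_mul, e1]
  exact ⟨(indep₂ hj hr h e3).1, (indep₂ hj hr h e3).2, indep₂ hj hr h e4⟩

theorem span₄ (hd : deg K B = 2) {j r : B} (hj : IsUnit j) (hr : IsUnit r)
    (h : j * r = -(r * j)) (x : B) :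
    ∃ x₀ x₁ x₂ x₃ : K, x = x₀ • (1 : B) + x₁ • j + x₂ • r + x₃ • (j * r) := by
  have hli : LinearIndependent K ![(1 : B), j, r, j * r] := by
    rw [Fintype.linearIndependent_iff]
    intro g hg i
    obtain ⟨h0, h1, h2, h3⟩ := indep₄ hj hr h (x₀ := g 0) (x₁ := g 1) (x₂ := g 2) (x₃ := g 3)
      (by simpa [Fin.sum_univ_four] using hg)
    fin_cases i <;> assumption
  have hsp := hli.span_eq_top_of_card_eq_finrank (by rw [finrank_eq_deg_sq, hd]; simp)
  obtain ⟨f, hf⟩ := (Submodule.mem_span_range_iff_exists_fun K).1 (hsp ▸ Submodule.mem_top (x := x))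
  exact ⟨f 0, f 1, f 2, f 3, by simp [← hf, Fin.sum_univ_four]⟩

/-- on `SU` the involution is the canonical one -/
theorem add_star (hd : deg K B = 2) {x : B} (hx : star x * x = 1) (hN : Nrd K x = 1) :
    x + star x = Trd K x • (1 : B) := by
  have h := ch2 hd x
  rw [hN, map_one] at h
  have h1 : star x * (x * x) = x := by rw [← mul_assoc, hx, one_mul]
  rw [h, mul_sub, mul_smul_comm, hx, mul_one] at h1
  exact eq_sub_iff_add_eq.1 h1.symm

variable (k) in
/-- the `k`-form -/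
theorem exists_quat (hd : deg K B = 2) (ha : Aniso B) : ∃ q : Ct2.Quat k B,
    q.i = algebraMap k B ∧ ∀ x : B, star x * x = 1 → Nrd K x = 1 →
      ∃ x₀ x₁ x₂ x₃ : k, x = q.el x₀ x₁ x₂ x₃ := by
  obtain ⟨j, r, a, c, hjs, hrs, hja, hrc, h⟩ := exists_gen (k := k) hd ha
  have hk : ∀ y : k, star (algebraMap k B y) = algebraMap k B y := fun y => by
    rw [IsScalarTower.algebraMap_apply k K B, star_algebraMap, Quad.star_k]
  refine ⟨⟨algebraMap k B, j, r, a, c, hk, hjs, hrs, hja, hrc, h, fun f => Algebra.commutes f j,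
    fun f => Algebra.commutes f r⟩, rfl, fun x hx hN => ?_⟩
  have hj := unit_of_sq hja
  have hr := unit_of_sq hrc
  obtain ⟨x₀, x₁, x₂, x₃, e⟩ := span₄ hd hj hr h x
  have h1 := add_star hd hx hN
  have hs : star (j * r) = -(j * r) := by rw [star_mul, hjs, hrs, neg_mul_neg, h, neg_neg]
  have h2 : star x = star x₀ • (1 : B) - star x₁ • j - star x₂ • r - star x₃ • (j * r) := by
    rw [e]
    simp only [star_add, star_smul, star_one, hjs, hrs, hs, smul_neg]
    abel
  obtain ⟨g0, g1, g2, g3⟩ := indep₄ hj hr h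
    (x₀ := x₀ + star x₀ - Trd K x) (x₁ := x₁ - star x₁) (x₂ := x₂ - star x₂) (x₃ := x₃ - star x₃)
    (by
      rw [h2] at h1
      nth_rewrite 1 [e] at h1
      simp only [sub_smul, add_smul]
      rw [← h1]; abel)
  have ht : Trd K x = 2 * x₀ := by
    have t1 : Trd K j = 0 := trd_anti hr (by rw [h, neg_neg])
    have t2 : Trd K r = 0 := trd_anti hj h
    have t3 : Trd K (j * r) = 0 := trd_anti hj (by rw [mul_assoc, ← mul_neg, ← h])
    rw [e]
    simp only [map_add, map_smul, t1, t2, t3, Trd_one, hd, smul_eq_mul]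
    push_cast; ring
  have f : ∀ y : K, star y = y → ∃ a : k, algebraMap k K a = y := fun y hy =>
    exists_of_star_eq (Quad.fr (k := k) (K := K)) Quad.star_k (Quad.ne (k := k)) hy
  obtain ⟨y₀, rfl⟩ := f x₀ (by rw [ht] at g0; linear_combination g0)
  obtain ⟨y₁, rfl⟩ := f x₁ (by linear_combination -g1)
  obtain ⟨y₂, rfl⟩ := f x₂ (by linear_combination -g2)
  obtain ⟨y₃, rfl⟩ := f x₃ (by linear_combination -g3)
  refine ⟨y₀, y₁, y₂, y₃, ?_⟩
  rw [e]
  simp only [Ct2.Quat.el, Algebra.smul_def, mul_one, ← IsScalarTower.algebraMap_apply]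



end Crest.Agent.T24.Two30
end
end

-- ▼ part T24/EvnQ2_30
section

/-!
# Row 24, degree two (helper30): `Q2Stmt`
-/

set_option autoImplicit false

namespace Crest.Agent.T24.Evn

universe u v w

theorem q2Stmt : Q2Stmt.{u, v, w} := fun D hd ha => by
  obtain ⟨q, hq, h⟩ := Two30.exists_quat D.k hd ha
  exact ⟨q, fun y => by rw [hq], fun g hg => h g g.2.1 hg⟩

end Crest.Agent.T24.Evn
end

-- ▼ part T24/EvnTow_57
section

/-!
# Row 24, even degree: existence of the tower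
-/

set_option autoImplicit false
set_option linter.unusedSectionVars false

noncomputable section

namespace Crest.Agent.T24.Evn

open Module NumberField WithZero Csa Asa Polynomial

universe u v w t

namespace T57

theorem exists_sqrt (F : Type u) [Field F] [NumberField F] (a : F) (h : ¬ IsSquare a) :
    ∃ (L : Type u) (_ : Field L) (_ : NumberField L) (_ : Algebra F L) (ω : L) (σ : L ≃ₐ[F] L),
      ω * ω = algebraMap F L a ∧ finrank F L = 2 ∧ σ ω = -ω ∧
      (∀ c : L, ∃ x y : F, c = algebraMap F L x + algebraMap F L y * ω) ∧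
      ∀ (A : Type t) [Ring A] [Algebra F A] (x : A), x * x = algebraMap F A a →
        ∃ φ : L →ₐ[F] A, φ ω = x := by
  have : Fact (∀ r : F, r ^ 2 ≠ a + 0 * r) := ⟨fun r hr => h ⟨r, by linear_combination -hr⟩⟩
  have hq := Hn.qd_quad a
  refine ⟨QuadraticAlgebra F a 0, inferInstance, NumberField.of_module_finite F _, inferInstance,
    QuadraticAlgebra.omega, Hn.qconj a, by rw [← sq, hq.sq], hq.rank, hq.conj,
    fun z => ⟨z.re, z.im, by ext <;> simp⟩, fun A _ _ x hx => ⟨QuadraticAlgebra.lift ⟨x, by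
      rw [hx, zero_smul, add_zero, Algebra.algebraMap_eq_smul_one]⟩, by simp [QuadraticAlgebra.lift]⟩⟩

variable {k K B : Type*} [Field k] [NumberField k] [Field K] [NumberField K] [Algebra k K]
  [StarRing K] [Quad k K] [Ring B] [StarRing B] [Algebra K B] [StarModule K B]
  [Algebra.IsCentral K B] [IsSimpleRing B] [FiniteDimensional K B]

include k in
/-- a skew unit anticommuting with a hermitian element -/
theorem exists_skew {θ : K} (h0 : θ ≠ 0) (hθ : star θ = -θ) {ε u : B} (hε : star ε = ε)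
    (hu : IsUnit u) (h : u * ε = -(ε * u)) :
    ∃ n : B, star n = -n ∧ IsUnit n ∧ n * ε = -(ε * n) := by
  have h' : star u * ε = -(ε * star u) := by
    have := congrArg star h
    rw [star_neg, star_mul, star_mul, hε] at this
    rw [this, neg_neg]
  obtain ⟨y, hy, hn⟩ := exists_isUnit_box (K := K) (e := ![u - star u, θ • (u + star u)])
    (x := ![1 / 2, (2 * θ)⁻¹]) (by
      convert hu using 1
      simp only [Fin.sum_univ_two, Matrix.cons_val_zero, Matrix.cons_val_one, smul_smul]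
      rw [show (2 * θ)⁻¹ * θ = 1 / 2 by field_simp]
      module) (fun _ => Set.range (algebraMap k K))
    fun _ => Set.infinite_range_of_injective (algebraMap k K).injective
  obtain ⟨a, ha⟩ := hy 0
  obtain ⟨b, hb⟩ := hy 1
  refine ⟨_, ?_, hn, ?_⟩
  · simp only [Fin.sum_univ_two, Matrix.cons_val_zero, Matrix.cons_val_one, ← ha, ← hb, star_add,
      star_smul, star_sub, star_star, Quad.star_k, hθ]
    module
  · simp only [Fin.sum_univ_two, Matrix.cons_val_zero, Matrix.cons_val_one, add_mul, mul_add, sub_mul,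
      mul_sub, smul_mul_assoc, mul_smul_comm, h, h']
    module

end T57

theorem towStmt : TowStmt.{u, v, w} := by
  rintro D ⟨ε, r, hε, hr, hn⟩
  have r0 : r ≠ 0 := fun h => hn (by simp [h])
  obtain ⟨θ, b, h0, hθ, -, hb⟩ := TL31.exists_basis D.k D.K
  obtain ⟨δ, hδ⟩ := Asa.fixed (Quad.fr (k := D.k) (K := D.K)) (sig_ne D.k D.K) (x := θ ^ 2)
    (by rw [sig_apply, star_pow, hθ]; ring)
  have δ0 : δ ≠ 0 := fun h => pow_ne_zero 2 h0 (by rw [← hδ, h, map_zero])
  obtain ⟨k₁, _, _, _, e, -, he, f₁, -, s₁, l₁⟩ := T57.exists_sqrt.{u, v} D.k r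
    fun h => hn (h.map _)
  obtain ⟨E, _, _, _, ω, σ, hω, f₂, hσ, s₂, l₂⟩ := T57.exists_sqrt.{v, w} D.K _ hn
  obtain ⟨φ, hφ⟩ := l₂ D.B ε (by rw [hr, IsScalarTower.algebraMap_apply D.k D.K D.B])
  let _ : Algebra D.k E := ((algebraMap D.K E).comp (algebraMap D.k D.K)).toAlgebra
  have : IsScalarTower D.k D.K E := IsScalarTower.of_algebraMap_eq fun _ => rfl
  obtain ⟨ψ, hψ⟩ := l₁ E ω hω
  let _ : Algebra k₁ E := ψ.toRingHom.toAlgebra
  have : IsScalarTower D.k k₁ E := IsScalarTower.of_algebraMap_eq fun c => (ψ.commutes c).symm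
  have hc : ∀ x : D.K, Commute ε (algebraMap D.K D.B x) := fun x => (Algebra.commutes x ε).symm
  have hs : ∀ c, ∃ c', φ c' = star (φ c) := fun c => by
    obtain ⟨x, y, rfl⟩ := s₂ c
    refine ⟨algebraMap _ _ (star x) + algebraMap _ _ (star y) * ω, ?_⟩
    simp only [map_add, map_mul, AlgHom.commutes, hφ, star_add, star_mul, star_algebraMap, hε,
      (hc _).eq]
  let _ : StarRing E := starOfStable φ hs
  have : StarHom φ := starHom_of_stable φ hs
  have hω' : star ω = ω := φ.injective (by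
    change φ _ = φ _
    rw [StarHom.map_star, hφ, hε])
  have : Module.Finite D.k D.K := finite_kK D.k D.K
  have : Module.Finite D.K E := Module.finite_of_finrank_pos (by omega)
  have : Quad k₁ E := by
    refine ⟨?_, fun c => ?_, algebraMap _ _ θ, fun h => h0 ?_⟩
    · have h1 := finrank_mul_finrank D.k D.K E
      have h2 := finrank_mul_finrank D.k k₁ E
      rw [Quad.fr, f₂] at h1
      rw [f₁] at h2
      omega
    · obtain ⟨x, y, rfl⟩ := s₁ c
      change star (ψ _) = ψ _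
      rw [map_add, map_mul, ψ.commutes, ψ.commutes, hψ, star_add, star_mul', hω']
      change star (algebraMap D.K E _) + star (algebraMap D.K E _) * _ = _
      rw [Ev.R57.star_alg φ, Ev.R57.star_alg φ, Quad.star_k, Quad.star_k]
      rfl
    · rw [Ev.R57.star_alg φ, hθ] at h
      exact self_eq_neg.1 ((algebraMap D.K E).injective h).symm
  obtain ⟨u, hu⟩ := skolemNoether φ (φ.comp σ)
  obtain ⟨n, n1, n2, n3⟩ := T57.exists_skew (k := D.k) h0 hθ hε u.isUnit (by
    have : φ (σ ω) = _ := hu ω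
    rw [hσ, map_neg, hφ, Units.eq_mul_inv_iff_mul_eq] at this
    rw [← this, neg_mul])
  exact ⟨{
    k₁ := k₁
    E := E
    i := φ
    e := e
    r := Units.mk0 r r0
    θ := θ
    δ := Units.mk0 δ δ0
    σ := σ
    n := n
    ee := he
    nsq := hn
    fr := f₂
    fr₁ := f₁
    star_θ := hθ
    θθ := hδ.symm
    σ_e := by
      change σ (ψ e) = -ψ e
      rw [hψ, hσ]
    star_n := n1
    unit_n := n2
    n_i := fun c => by
      obtain ⟨x, y, rfl⟩ := s₂ c
      simp only [map_add, map_mul, AlgEquiv.commutes, AlgHom.commutes, hσ, map_neg, hφ]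
      rw [add_mul, mul_add, Algebra.commutes x, ← mul_assoc n, ← Algebra.commutes y, mul_assoc,
        mul_assoc, neg_mul, n3]
    crd := fun c => by
      obtain ⟨x, y, rfl⟩ := s₂ c
      refine ⟨b.repr x 0, b.repr x 1, b.repr y 0, b.repr y 1, ?_⟩
      change _ = _ + _ + _ * ψ e + _ * (_ * ψ e)
      rw [hψ]
      conv_lhs => rw [hb x, hb y]
      simp only [map_add, map_mul, ← IsScalarTower.algebraMap_apply]
      ring }⟩

end Crest.Agent.T24.Evn
end
end

-- ▼ part T24/Cfg_24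
section

/-!
# T24 / CONFIG (helper24): configurations of Moebius points in the kernel of a finite colouring
-/

set_option autoImplicit false
set_option linter.unusedSectionVars false

noncomputable section

namespace Crest.Agent.T24

open Module Csa Asa NumberField IsDedekindDomain WithZero Filter

variable {K B : Type*} [Field K] [NumberField K] [StarRing K] [Ring B] [StarRing B]
  [Algebra K B] [StarModule K B] [Algebra.IsCentral K B] [IsSimpleRing B] [FiniteDimensional K B]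

local notation "ι" => algebraMap K B

/-- `r` Moebius points of one hermitian element in the kernel of `c`, on distinct lines -/
structure Cfg {m : ℕ} {Q : Type} [Group Q] (c : Um K B m →* Q) (r : ℕ) where
  /-- the base point -/
  th : B
  /-- the parameters -/
  a : Fin r → K
  /-- the points -/
  x : Fin r → Um K B m
  herm : star th = th
  ne : ∀ j, star (a j) ≠ a j
  eq : ∀ j, ((x j : unitary B) : B) * (th + algebraMap K B (star (a j))) = th + algebraMap K B (a j)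
  ker : ∀ j, c (x j) = 1
  line : ∀ i j, i ≠ j → ∀ t : K,
    (th + algebraMap K B (star (a i))) * (th + algebraMap K B (a i)) ≠
      t • ((th + algebraMap K B (star (a j))) * (th + algebraMap K B (a j)))

namespace Cfg

/-- at most two points on a line -/
theorem line_two {x : B} (hx : ∀ t : K, x ≠ ι t) (s : K) (N : B) {a b c : K}
    (hab : a ^ 2 ≠ b ^ 2) (hac : a ^ 2 ≠ c ^ 2) (hbc : b ^ 2 ≠ c ^ 2)
    (h : ∀ e ∈ ({a, b, c} : Set K), (x + ι (-(e - s) ^ 2)) * (x + ι (-(e + s) ^ 2)) ∈ K ∙ N) :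
    False := by
  have ha := h a (by simp)
  have hb := h b (by simp)
  have hc := h c (by simp)
  have key : ∀ a b : K, a ^ 2 ≠ b ^ 2 → (x + ι (-(a - s) ^ 2)) * (x + ι (-(a + s) ^ 2)) ∈ K ∙ N →
      (x + ι (-(b - s) ^ 2)) * (x + ι (-(b + s) ^ 2)) ∈ K ∙ N →
      (-2 : K) • x + ι (a ^ 2 + b ^ 2 - 2 * s ^ 2) ∈ K ∙ N := fun a b hab ha hb => by
    have := (K ∙ N).smul_mem (a ^ 2 - b ^ 2)⁻¹ ((K ∙ N).sub_mem ha hb)
    convert this using 1
    rw [eq_inv_smul_iff₀ (sub_ne_zero.2 hab)]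
    cfg24_sc
  have h1 := key a b hab ha hb
  have h2 := (K ∙ N).sub_mem h1 (key a c hac ha hc)
  rw [add_sub_add_left_eq_sub, ← map_sub] at h2
  obtain ⟨t, ht⟩ := Submodule.mem_span_singleton.1 h2
  obtain ⟨t', ht'⟩ := Submodule.mem_span_singleton.1 h1
  have ht0 : t ≠ 0 := by
    rintro rfl
    rw [zero_smul, eq_comm, map_eq_zero] at ht
    exact hbc (by linear_combination ht)
  have hN : N = t⁻¹ • _ := (eq_inv_smul_iff₀ ht0).2 ht
  refine hx ((-2)⁻¹ * (t' * t⁻¹ * (b ^ 2 - c ^ 2) - (a ^ 2 + b ^ 2 - 2 * s ^ 2))) ?_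
  rw [map_mul, ← Algebra.smul_def, eq_inv_smul_iff₀ (by norm_num), eq_sub_of_add_eq ht'.symm, hN]
  cfg24_sc

section Chart
variable {s : K} (hs : star s = -s) (h0 : s ≠ 0) (ha : Aniso B) {m : ℕ} {Q : Type} [Group Q]
  (c : Um K B m →* Q)

open scoped Classical in
/-- extension of a colour by `none` -/
def ext {Λ : Type} (W : Subgroup (unitary B)) (l : W → Λ) (u : unitary B) : Option Λ :=
  if h : u ∈ W then some (l ⟨u, h⟩) else none

theorem ext_of_mem {Λ : Type} {W : Subgroup (unitary B)} (l : W → Λ) {u : unitary B} (h : u ∈ W) :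
    ext W l u = some (l ⟨u, h⟩) := dif_pos h

theorem ext_of_notMem {Λ : Type} {W : Subgroup (unitary B)} (l : W → Λ) {u : unitary B}
    (h : u ∉ W) : ext W l u = none := dif_neg h

theorem ext_mem {Λ : Type} {W : Subgroup (unitary B)} {l : W → Λ} {u u' : unitary B}
    (e : ext W l u = ext W l u') (h : u ∈ W) : u' ∈ W := by
  by_contra h'
  rw [ext_of_mem l h, ext_of_notMem l h'] at e
  cases e

theorem canc {Λ : Type} [Group Λ] (W : Subgroup (unitary B)) (l : W →* Λ) : Canc (ext W l) W := by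
  intro x hx x' y y' e1 e2
  have hx' := ext_mem e1 hx
  by_cases hy : y ∈ W
  · have hy' : y' ∈ W := (W.mul_mem_cancel_left hx').1 (ext_mem e2 (W.mul_mem hx hy))
    rw [ext_of_mem l hx, ext_of_mem l hx', Option.some_inj] at e1
    rw [ext_of_mem l (W.mul_mem hx hy), ext_of_mem l (W.mul_mem hx' hy'), Option.some_inj] at e2
    rw [ext_of_mem l hy, ext_of_mem l hy', Option.some_inj]
    have p := l.map_mul ⟨x, hx⟩ ⟨y, hy⟩
    have p' := l.map_mul ⟨x', hx'⟩ ⟨y', hy'⟩
    exact mul_left_cancel ((e1 ▸ p.symm).trans (e2.trans p'))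
  · rw [ext_of_notMem l hy, ext_of_notMem l fun hy' =>
      hy ((W.mul_mem_cancel_left hx).1 (ext_mem e2.symm (W.mul_mem hx' hy')))]

include hs h0 ha

/-- a configuration at a rich centre -/
theorem of_rich {θ : B} (hθ : star θ = θ) {β : K} (hβ : star β = β) (hβ0 : β ≠ 0)
    (hW : ∀ n : ℕ, mb (θ + ι (n * β)) s ∈ Um K B m) {r σ : ℕ}
    (hR : Rich (fun n => c ⟨_, hW n⟩) (2 * r) σ)
    (hx : ∀ t : K, (θ + ι (σ / 2 * β)) * (θ + ι (σ / 2 * β)) ≠ ι t) :
    ∃ C : Cfg c r, C.th = (θ + ι (σ / 2 * β)) * (θ + ι (σ / 2 * β)) := by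
  classical
  obtain ⟨A, hA, hA'⟩ := hR
  set θ₀ := θ + ι (σ / 2 * β) with hθ₀
  have hθ0 : star θ₀ = θ₀ := by rw [hθ₀, star_add, hθ, Csa.star_algebraMap]; simp [hβ]
  let a : ℕ → K := fun i => (σ / 2 - i) * β
  have a1 : ∀ i, star (a i) = a i := fun i => by simp [a, hβ]
  have a2 : ∀ i ∈ A, ∀ j ∈ A, a i + a j ≠ 0 := fun i hi j hj h => by
    have h1 : ((σ : K) - ((i + j : ℕ) : K)) * β = 0 := by
      rw [← h]; simp only [a]; push_cast; ring
    have h2 : σ = i + j := Nat.cast_injective (sub_eq_zero.1 ((mul_eq_zero.1 h1).resolve_right hβ0))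
    have := (hA' i hi).1
    have := (hA' j hj).1
    omega
  have a3 : ∀ i ∈ A, ∀ j ∈ A, i ≠ j → a i ^ 2 ≠ a j ^ 2 := fun i hi j hj hij h => by
    have h1 : (a i + a j) * (((j : K) - i) * β) = 0 := by
      simp only [a] at h ⊢; linear_combination h
    exact hij (Nat.cast_injective (sub_eq_zero.1 ((mul_eq_zero.1
      ((mul_eq_zero.1 h1).resolve_left (a2 i hi j hj))).resolve_right hβ0))).symm
  have a0 : ∀ i ∈ A, a i ≠ 0 := fun i hi h => a2 i hi i hi (by rw [h, add_zero])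
  have st : ∀ i, star (-(a i + s) ^ 2) = -(a i - s) ^ 2 := fun i => by
    rw [star_neg, star_pow, star_add, a1, hs, sub_eq_add_neg]
  let N : ℕ → B := fun i => (θ₀ * θ₀ + ι (-(a i - s) ^ 2)) * (θ₀ * θ₀ + ι (-(a i + s) ^ 2))
  let f : ℕ → Submodule K B := fun i => K ∙ N i
  have hc : A.card ≤ 2 * (A.image f).card := by
    refine Finset.card_le_mul_card_image A 2 fun ℓ hℓ => ?_
    obtain ⟨i₀, -, rfl⟩ := Finset.mem_image.1 hℓ
    by_contra hlt
    obtain ⟨i, hi, j, hj, l, hl, hij, hil, hjl⟩ := Finset.two_lt_card.1 (not_le.1 hlt)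
    rw [Finset.mem_filter] at hi hj hl
    refine line_two hx s (N i₀) (a3 i hi.1 j hj.1 hij) (a3 i hi.1 l hl.1 hil)
      (a3 j hj.1 l hl.1 hjl) ?_
    rintro e (rfl | rfl | rfl)
    · exact hi.2.le (Submodule.mem_span_singleton_self _)
    · exact hj.2.le (Submodule.mem_span_singleton_self _)
    · exact hl.2.le (Submodule.mem_span_singleton_self _)
  obtain ⟨T, hT, hTc⟩ := Finset.exists_subset_card_eq (s := A.image f) (n := r) (by omega)
  let e : Fin r → T := fun j => T.equivFin.symm (j.cast hTc.symm)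
  have he : Function.Injective e := fun i j h => Fin.cast_injective _ (T.equivFin.symm.injective h)
  choose g hg hg' using fun j => Finset.mem_image.1 (hT (e j).2)
  have hm : ∀ i ∈ A, mb (θ₀ * θ₀) (-(a i + s) ^ 2) =
      mb (θ + ι ((σ - i : ℕ) * β)) s * (mb (θ + ι (i * β)) s)⁻¹ := fun i hi => by
    have := (hA' i hi).1
    rw [mb_sq hs h0 ha hθ0 (a1 i) (a0 i hi), Nat.cast_sub (by omega)]
    rw [show θ₀ + ι (a i) = θ + ι ((σ - i) * β) by simp only [hθ₀, a]; cfg24_sc,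
      show θ₀ - ι (a i) = θ + ι (i * β) by simp only [hθ₀, a]; cfg24_sc]
  have hsq : star (θ₀ * θ₀) = θ₀ * θ₀ := by rw [star_mul, hθ0]
  refine ⟨⟨θ₀ * θ₀, fun j => -(a (g j) + s) ^ 2, fun j => ⟨_, hW (σ - g j)⟩ * ⟨_, hW (g j)⟩⁻¹, hsq,
    fun j => sq_star_ne hs h0 (a1 _) (a0 _ (hg j)), fun j => ?_, fun j => ?_,
    fun i j hij t ht => hij (he (Subtype.ext ?_))⟩, rfl⟩
  · have := mb_spec ha hsq (sq_star_ne hs h0 (a1 _) (a0 _ (hg j)))
    rwa [hm _ (hg j)] at this
  · rw [map_mul, map_inv, mul_inv_eq_one]; exact (hA' _ (hg j)).2.symm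
  · rw [← hg', ← hg']
    rw [st, st] at ht
    have hn := sq_star_ne hs h0 (a1 _) (a0 _ (hg i))
    have hu : IsUnit (N (g i)) := (st _ ▸ unit_add ha hsq (star_ne hn)).mul (unit_add ha hsq hn)
    have ht0 : t ≠ 0 := by
      rintro rfl
      exact hu.ne_zero (ht.trans (zero_smul _ _))
    change K ∙ N (g i) = K ∙ N (g j)
    rw [show N (g i) = t • N (g j) from ht, Submodule.span_singleton_smul_eq ht0.isUnit]

/-- two centres carrying configurations -/
theorem centres [Finite Q] (r : ℕ) : ∃ D : ℕ, ∀ θ : B, star θ = θ → (∀ t : K, θ ≠ ι t) →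
    ∀ β : K, star β = β → β ≠ 0 → (∀ n : ℕ, mb (θ + ι (n * β)) s ∈ Um K B m) →
    ∃ σ σ' : ℕ, σ < σ' ∧ σ' ≤ D ∧
      (∃ C : Cfg c r, C.th = (θ + ι (σ / 2 * β)) * (θ + ι (σ / 2 * β))) ∧
      ∃ C : Cfg c r, C.th = (θ + ι (σ' / 2 * β)) * (θ + ι (σ' / 2 * β)) := by
  classical
  obtain ⟨D, hD⟩ := rich Q (2 * r) 3
  refine ⟨D, fun θ hθ hθ' β hβ hβ0 hW => ?_⟩
  obtain ⟨S, hS, hS'⟩ := hD (fun n => c ⟨_, hW n⟩)
  let P : ℕ → Prop := fun σ => ∀ t : K, (θ + ι (σ / 2 * β)) * (θ + ι (σ / 2 * β)) ≠ ι t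
  have h1 : (S.filter fun σ => ¬ P σ).card ≤ 1 := by
    refine Finset.card_le_one.2 fun i hi j hj => ?_
    obtain ⟨t, ht⟩ := not_forall.1 (Finset.mem_filter.1 hi).2
    obtain ⟨t', ht'⟩ := not_forall.1 (Finset.mem_filter.1 hj).2
    rw [not_not] at ht ht'
    by_contra hij
    have hn : ((i : K) - j) * β ≠ 0 :=
      mul_ne_zero (sub_ne_zero.2 fun h => hij (Nat.cast_injective h)) hβ0
    refine hθ' ((((i : K) - j) * β)⁻¹ * (t - t' - ((i / 2 * β) ^ 2 - (j / 2 * β) ^ 2))) ?_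
    rw [map_mul, ← Algebra.smul_def, eq_inv_smul_iff₀ hn, map_sub, map_sub, ← ht, ← ht']
    cfg24_sc
  have h2 := Finset.card_filter_add_card_filter_not (s := S) P
  obtain ⟨i, hi, j, hj, hij⟩ := Finset.one_lt_card.1 (show 1 < (S.filter P).card by omega)
  rw [Finset.mem_filter] at hi hj
  have ci := of_rich hs h0 ha c hθ hβ hβ0 hW (hS' i hi.1).2 hi.2
  have cj := of_rich hs h0 ha c hθ hβ hβ0 hW (hS' j hj.1).2 hj.2
  rcases lt_or_gt_of_ne hij with h | h
  · exact ⟨i, j, h, (hS' j hj.1).1, ci, cj⟩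
  · exact ⟨j, i, h, (hS' i hi.1).1, cj, ci⟩

end Chart

/-! ### valuations -/

theorem ev_small (δ : ℤᵐ⁰) {γ : ℤᵐ⁰} (h : γ ≠ 0) : ∀ᶠ n : ℕ in atTop, δ * exp (-(n : ℤ)) < γ := by
  rcases eq_or_ne δ 0 with rfl | hδ
  · exact .of_forall fun n => by rw [zero_mul]; exact zero_lt_iff.2 h
  lift δ to ℤ using hδ with a
  lift γ to ℤ using h with b
  filter_upwards [eventually_gt_atTop (a - b).toNat] with n hn
  rw [← exp_add, exp_lt_exp]; omega

theorem val_add_eq {w : Pl K} (h : Ultra B w) {x y : B} (hy : val w y < val w x) :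
    val w (x + y) = val w x := by
  refine le_antisymm ((h x y).trans (max_le le_rfl hy.le)) ?_
  have := h (x + y) (-y)
  rw [add_neg_cancel_right, val_neg] at this
  exact (le_max_iff.1 this).resolve_right (not_le.2 hy)

theorem val_ne {w : Pl K} {x : B} (h : IsUnit x) : val w x ≠ 0 :=
  val_ne_zero w ((isUnit_iff_Nrd x).1 h)

theorem val_alg (w : Pl K) (a : K) : val w (ι a) = w.valuation K a ^ deg K B := by
  rw [val, Nrd_algebraMap, map_pow]

theorem exists_large (hd : 2 ≤ deg K B) (γ : Pl K → ℤᵐ⁰) :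
    ∃ κ : K, star κ = κ ∧ ∀ w ∈ TT K B, γ w < val w (ι κ) := by
  have hT := Loc.finite_TT (K := K) (B := B) hd
  obtain ⟨n, hn⟩ := ((eventually_all_finite hT).2 fun w _ => ev_small (γ w) one_ne_zero).exists
  obtain ⟨c, hc0, hc⟩ := exists_deep hT.toFinset n
  have hc1 : (c : K) ≠ 0 := by simpa using hc0
  refine ⟨((c : K) * star (c : K))⁻¹, by simp [mul_comm], fun w hw => ?_⟩
  obtain ⟨w', hw', h1, -⟩ := Loc.TT_star hw
  have h2 : w.valuation K ((c : K) * star (c : K)) ≤ exp (-(n : ℤ)) := by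
    rw [map_mul, ← h1]
    exact (mul_le_mul' (hc w (hT.mem_toFinset.2 hw)) (val_int w' c)).trans (mul_one _).le
  have h3 : w.valuation K ((c : K) * star (c : K)) ≠ 0 := val_ne_zero w (by simpa using hc1)
  rw [val_alg, map_inv₀, inv_pow, ← one_mul (_⁻¹), lt_mul_inv_iff₀ (pow_pos (zero_lt_iff.2 h3) _)]
  refine lt_of_le_of_lt (mul_le_mul_right ?_ _) (hn w hw)
  exact (pow_le_of_le_one zero_le (h2.trans (exp_neg_le_one n)) (by omega)).trans h2

section Main
variable {s : K} (hs : star s = -s) (h0 : s ≠ 0) (ha : Aniso B)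
include hs h0 ha

theorem mb_sub_one {θ : B} (hθ : star θ = θ) :
    ((mb θ s : B) - 1) * (θ + ι (star s)) = ι (2 * s) := by
  rw [sub_mul, mb_spec ha hθ (skew_ne hs h0), hs]; cfg24_sc

theorem mb_mem {θ : B} (hθ : star θ = θ) {m : ℕ} : mb θ s ∈ Um K B m ↔
    ∀ w ∈ TT K B, val w (ι (2 * s)) < exp (-(m : ℤ)) * val w (θ + ι (star s)) := by
  refine forall₂_congr fun w _ => ?_
  rw [← mb_sub_one hs h0 ha hθ, val_mul,
    mul_lt_mul_iff_left₀ (zero_lt_iff.2 (val_ne (unit_add ha hθ (star_ne (skew_ne hs h0)))))]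

theorem exists_chart (hd : 2 ≤ deg K B) {x : B} (hx : star x = x) (m : ℕ) :
    ∃ κ : K, star κ = κ ∧ mb (x + ι κ) s ∈ Um K B m := by
  obtain ⟨κ, h1, h2⟩ := exists_large hd fun w =>
    max (val w (x + ι (star s))) (exp (m : ℤ) * val w (ι (2 * s)))
  refine ⟨κ, h1, (mb_mem hs h0 ha (by rw [star_add, hx, Csa.star_algebraMap, h1])).2 fun w hw => ?_⟩
  have h3 := max_lt_iff.1 (h2 w hw)
  rw [add_right_comm, add_comm _ (ι κ), val_add_eq hw.2 h3.1, exp_neg,
    lt_inv_mul_iff₀ (zero_lt_iff.2 exp_ne_zero)]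
  exact h3.2

theorem val_transl {m : ℕ} (hm : ∀ w ∈ TT K B, exp (-(m : ℤ)) ≤ val w (ι (2 * s))) {θ : B}
    (hθ : star θ = θ) (h : mb θ s ∈ Um K B m) {κ : K} (hκ : ∀ w ∈ TT K B, w.valuation K κ ≤ 1)
    {w : Pl K} (hw : w ∈ TT K B) : val w (θ + ι κ + ι (star s)) = val w (θ + ι (star s)) := by
  have h1 := ((hm w hw).trans_lt ((mb_mem hs h0 ha hθ).1 h w hw))
  rw [lt_mul_iff_one_lt_right (zero_lt_iff.2 exp_ne_zero)] at h1
  rw [add_right_comm, val_add_eq hw.2 (lt_of_le_of_lt _ h1)]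
  rw [val_alg]; exact pow_le_one₀ zero_le (hκ w hw)

theorem transl {m : ℕ} (hm : ∀ w ∈ TT K B, exp (-(m : ℤ)) ≤ val w (ι (2 * s))) {θ : B}
    (hθ : star θ = θ) (h : mb θ s ∈ Um K B m) {κ : K} (hκ' : star κ = κ)
    (hκ : ∀ w ∈ TT K B, w.valuation K κ ≤ 1) : mb (θ + ι κ) s ∈ Um K B m :=
  (mb_mem hs h0 ha (by rw [star_add, hθ, Csa.star_algebraMap, hκ'])).2 fun w hw => by
    rw [val_transl hs h0 ha hm hθ h hκ hw]; exact (mb_mem hs h0 ha hθ).1 h w hw

omit hs ha in
theorem exists_depth (hd : 2 ≤ deg K B) (m : ℕ) :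
    ∃ m', m ≤ m' ∧ ∀ w ∈ TT K B, exp (-(m' : ℤ)) ≤ val w (ι (2 * s)) := by
  have h : IsUnit (ι (2 * s)) := (IsUnit.mk0 _ (mul_ne_zero two_ne_zero h0)).map _
  obtain ⟨n, h1, h2⟩ := ((eventually_ge_atTop m).and ((eventually_all_finite
    (Loc.finite_TT (K := K) (B := B) hd)).2 fun w _ => ev_small 1 (val_ne (w := w) h))).exists
  exact ⟨n, h1, fun w hw => by simpa using (h2 w hw).le⟩

theorem mb_scalar {t : K} (ht : star t = t) : (mb (ι t) s : B) = ι ((t + s) / (t - s)) := by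
  have h1 : star (ι t) = ι t := by rw [Csa.star_algebraMap, ht]
  refine (unit_add ha h1 (star_ne (skew_ne hs h0))).mul_right_cancel ?_
  have h2 : t - s ≠ 0 := @sub_ne K _ (starRingEnd K) s hs (mul_ne_zero two_ne_zero h0) t ht
  rw [mb_spec ha h1 (skew_ne hs h0), hs, ← map_add, ← map_add, ← map_mul, ← sub_eq_add_neg,
    div_mul_cancel₀ _ h2]

theorem exists_cay {u : unitary B} (h : IsUnit ((u : B) - 1)) : ∃ θ, star θ = θ ∧ mb θ s = u := by
  obtain ⟨v, hv⟩ := h
  have h1 : (u : B) * (v⁻¹ : Bˣ) = 1 + (v⁻¹ : Bˣ) := by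
    rw [← v.mul_inv, hv]; noncomm_ring
  have h2 : star ((v⁻¹ : Bˣ) : B) = -(1 + (v⁻¹ : Bˣ)) := by
    have h3 : star (v : B) * -(1 + (v⁻¹ : Bˣ)) = 1 := by
      rw [hv, star_sub, star_one, sub_mul, one_mul, mul_neg, ← h1, ← mul_assoc, u.2.1, h1]
      noncomm_ring
    rw [← one_mul (-_), ← star_one B, ← v.mul_inv, star_mul, mul_assoc, ← star_mul, v.mul_inv,
      star_one, h3, mul_one]
  have h4 : star (ι s + (2 * s) • ((v⁻¹ : Bˣ) : B)) = ι s + (2 * s) • ((v⁻¹ : Bˣ) : B) := by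
    rw [star_add, star_smul, h2, Csa.star_algebraMap, star_mul, hs, star_ofNat]; cfg24_sc
  refine ⟨_, h4, mb_eq ha h4 (skew_ne hs h0) ?_⟩
  rw [hs, map_neg, add_neg_cancel_comm, mul_smul_comm, h1]; cfg24_sc

end Main

theorem val_intCast (w : Pl K) (n : ℤ) : w.valuation K (n : K) ≤ 1 := by
  simpa using val_int w (n : 𝓞 K)

/-- **CONFIG** for an arbitrary finite colouring -/
theorem cfgNA (hne : ∃ c : K, star c ≠ c) (ha : Aniso B) (hd : 2 ≤ deg K B) {m : ℕ} {Q : Type}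
    [Group Q] [Finite Q] (c : Um K B m →* Q) (r : ℕ) : Nonempty (Cfg c r) := by
  obtain ⟨s, h0, hs⟩ := exists_skew hne
  obtain ⟨m₁, h1, hm⟩ := exists_depth (B := B) h0 hd m
  obtain ⟨x, hx, hx'⟩ : ∃ x : B, star x = x ∧ ∀ t : K, x ≠ ι t := by
    by_contra h
    push Not at h
    obtain ⟨e, he⟩ := exists_herm_basis (K := K) (B := B) hne
    have h2 : (⊤ : Submodule K B) ≤ K ∙ (1 : B) := by
      rw [← e.span_eq, Submodule.span_le]
      rintro _ ⟨i, rfl⟩
      obtain ⟨t, ht⟩ := h _ (he i)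
      exact Submodule.mem_span_singleton.2 ⟨t, by rw [ht, Algebra.algebraMap_eq_smul_one]⟩
    have h3 := Submodule.finrank_mono h2
    rw [finrank_top, finrank_span_singleton one_ne_zero, finrank_eq_deg_sq] at h3
    nlinarith
  obtain ⟨κ, hκ, hW⟩ := exists_chart hs h0 ha hd hx m₁
  have hθ : star (x + ι κ) = x + ι κ := by rw [star_add, hx, Csa.star_algebraMap, hκ]
  obtain ⟨D, hD⟩ := centres hs h0 ha c r
  obtain ⟨σ, σ', -, -, ⟨C, -⟩, -⟩ := hD (x + ι κ) hθ
    (fun t ht => hx' (t - κ) (by rw [map_sub, ← ht, add_sub_cancel_right])) 1 (star_one _)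
    one_ne_zero fun n => Um_anti h1 (transl hs h0 ha hm hθ hW (by simp)
      fun w _ => by simpa using val_intCast w n)
  exact ⟨C⟩

section TW
variable {s : K} (hs : star s = -s) (h0 : s ≠ 0) (ha : Aniso B) {m m₁ : ℕ} {Q : Type} [Group Q]
  [Finite Q] (c : Um K B m →* Q) (M : Subgroup Q) [M.Normal] (h1 : m ≤ m₁)

/-- the colour modulo `M` on the deeper group -/
def lam : Um K B m₁ →* Q ⧸ M :=
  (QuotientGroup.mk' M).comp (c.comp (Subgroup.inclusion (Um_anti h1)))

theorem lam_eq {x y : unitary B} (hx : x ∈ Um K B m₁) (hy : y ∈ Um K B m₁)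
    (h : c (⟨x, Um_anti h1 hx⟩ * ⟨y, Um_anti h1 hy⟩⁻¹) ∈ M) :
    ext _ (lam c M h1) x = ext _ (lam c M h1) y := by
  rw [ext_of_mem _ hx, ext_of_mem _ hy, Option.some_inj, ← mul_inv_eq_one, ← map_inv, ← map_mul]
  exact (QuotientGroup.eq_one_iff _).2 h

include hs h0 ha

/-- without a configuration, the scalars `κ D!` are periods -/
theorem per_scalar (hm : ∀ w ∈ TT K B, exp (-(m₁ : ℤ)) ≤ val w (ι (2 * s)))
    (hz : ∀ (u : Um K B m) (t : K), ((u : unitary B) : B) = ι t → c u ∈ M) {r : ℕ}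
    (hno : ∀ (C : Cfg c r) (a' : K) (x' : Um K B m), star a' ≠ a' →
      ((x' : unitary B) : B) * (C.th + ι (star a')) = C.th + ι a' → c x' ∈ M) :
    ∃ a : K, a ≠ 0 ∧ ∀ κ : K, star κ = κ → (∀ w ∈ TT K B, w.valuation K κ ≤ 1) →
      κ • ι a ∈ perG (ext _ (lam c M h1)) s := by
  obtain ⟨D, hD⟩ := centres hs h0 ha c r
  refine ⟨D.factorial, Nat.cast_ne_zero.2 D.factorial_ne_zero, fun κ hκ hκ' => ?_⟩
  rw [Algebra.smul_def, ← map_mul, mul_comm]
  have hi : ∀ n : ℤ, star (n * κ) = n * κ := fun n => by simp [hκ]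
  have hv : ∀ n : ℤ, ∀ w ∈ TT K B, w.valuation K (n * κ) ≤ 1 := fun n w hw => by
    rw [map_mul]; exact mul_le_one' (val_intCast w n) (hκ' w hw)
  have hst : ∀ θ : B, star θ = θ → ∀ n : ℤ, star (θ + ι (n * κ)) = θ + ι (n * κ) := fun θ hθ n => by
    rw [star_add, hθ, Csa.star_algebraMap, hi]
  refine ⟨by simpa using hst 0 (star_zero _) D.factorial, fun θ hθ => ?_⟩
  by_cases hW : mb θ s ∈ Um K B m₁
  swap
  · rw [ext_of_notMem _ hW, ext_of_notMem _ fun h => hW ?_]
    have := transl hs h0 ha hm (hst θ hθ D.factorial) (by simpa using h) (hi (-D.factorial))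
      (hv (-D.factorial))
    simpa using this
  have hn : ∀ n : ℤ, mb (θ + ι (n * κ)) s ∈ Um K B m₁ := fun n =>
    transl hs h0 ha hm hθ hW (hi n) (hv n)
  let g : ℤ → Option (Q ⧸ M) := fun n => ext _ (lam c M h1) (mb (θ + ι (n * κ)) s)
  suffices h : g D.factorial = g 0 by simpa [g] using h
  by_cases hsc : ∃ t : K, θ = ι t
  · obtain ⟨t, rfl⟩ := hsc
    have ht : star t = t := (algebraMap K B).injective (by rw [← Csa.star_algebraMap, hθ])
    have key : ∀ n : ℤ, c ⟨_, Um_anti h1 (hn n)⟩ ∈ M := fun n => hz _ _ (by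
      change (mb (ι t + ι (n * κ)) s : B) = _
      rw [← map_add, mb_scalar hs h0 ha (by rw [star_add, ht, hi])])
    exact lam_eq c M h1 (hn _) (hn _) (by
      rw [map_mul, map_inv]; exact M.mul_mem (key _) (M.inv_mem (key _)))
  rcases eq_or_ne κ 0 with rfl | hκ0
  · simp [g]
  obtain ⟨σ, σ', hlt, hle, hC, hC'⟩ := hD θ hθ (fun t ht => hsc ⟨t, ht⟩) κ hκ hκ0
    fun n => Um_anti h1 (by simpa using hn n)
  have sym : ∀ σ : ℕ, (∃ C : Cfg c r, C.th = (θ + ι (σ / 2 * κ)) * (θ + ι (σ / 2 * κ))) →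
      ∀ j : ℤ, g (σ + j) = g (-j) := by
    rintro σ ⟨C, hC⟩ j
    have e1 : θ + ι (σ / 2 * κ) + ι ((σ / 2 + j) * κ) = θ + ι ((σ + j : ℤ) * κ) := by
      rw [add_assoc, ← map_add]; congr 2; push_cast; ring
    have e2 : θ + ι (σ / 2 * κ) - ι ((σ / 2 + j) * κ) = θ + ι ((-j : ℤ) * κ) := by
      rw [add_sub_assoc, ← map_sub]; congr 2; push_cast; ring
    rcases eq_or_ne (((σ : K) / 2 + j) * κ) 0 with h | h
    · simp only [g, ← e1, ← e2, h, map_zero, add_zero, sub_zero]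
    have h2 : star (θ + ι (σ / 2 * κ)) = θ + ι (σ / 2 * κ) := by
      rw [star_add, hθ, Csa.star_algebraMap]; simp [hκ]
    have h3 : star (((σ : K) / 2 + j) * κ) = (σ / 2 + j) * κ := by simp [hκ]
    have h4 := sq_star_ne hs h0 h3 h
    have h5 := mb_spec ha (by rw [star_mul, h2] : star ((θ + ι (σ / 2 * κ)) * (θ + ι (σ / 2 * κ))) = _) h4
    rw [mb_sq hs h0 ha h2 h3 h, e1, e2, ← hC] at h5
    exact lam_eq c M h1 (hn _) (hn _) (hno C _ _ h4 h5)
  have per : Function.Periodic g ((σ' - σ : ℕ) : ℤ) := fun n => by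
    have := (sym σ' hC' (n - σ)).trans (sym σ hC (n - σ)).symm
    rw [Nat.cast_sub hlt.le]
    convert this using 2 <;> ring
  obtain ⟨q, hq⟩ := Nat.dvd_factorial (Nat.sub_pos_of_lt hlt) ((Nat.sub_le σ' σ).trans hle)
  rw [hq, mul_comm, Nat.cast_mul]
  exact per.nat_mul_eq q

/-- all small hermitian elements are periods -/
theorem per_small (hd : 2 ≤ deg K B) {Y : Type} {Γ : unitary B → Y} (hc : Canc Γ (Um K B m₁))
    {a : K} (ha0 : a ≠ 0) (hα : ∀ κ : K, star κ = κ → (∀ w ∈ TT K B, w.valuation K κ ≤ 1) →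
      κ • ι a ∈ perG Γ s) :
    ∃ n : ℕ, ∀ β : B, star β = β → (∀ w ∈ TT K B, val w β ≤ exp (-(n : ℤ))) → β ∈ perG Γ s := by
  classical
  let O : Set K := {κ | star κ = κ ∧ ∀ w ∈ TT K B, w.valuation K κ ≤ 1}
  have hO : 1 ∈ O := ⟨star_one _, fun w _ => by simp⟩
  let P : Set B := {β | ∀ κ ∈ O, κ • β ∈ perG Γ s}
  have htop : ⊤ ≤ Submodule.span K P := fun x _ => by
    have key : ∀ y : B, star y = y → y ∈ Submodule.span K P := fun y hy => by
      obtain ⟨κ, hκ, hW⟩ := exists_chart hs h0 ha hd hy m₁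
      obtain ⟨p1, p2⟩ := mem_span hs h0 ha hc O hO ha0 (fun κ h => hα κ h.1 h.2)
        (by rw [star_add, hy, Csa.star_algebraMap, hκ]) hW
      simpa [Algebra.algebraMap_eq_smul_one] using sub_mem p1 (Submodule.smul_mem _ κ p2)
    obtain ⟨y, z, hy, hz, rfl⟩ := herm_decomp h0 hs x
    exact add_mem (key y hy) (Submodule.smul_mem _ _ (key z hz))
  obtain ⟨b, hb, hsp, hli⟩ := exists_linearIndependent K P
  let e : Basis b K B := Basis.mk hli (by rw [Subtype.range_coe, hsp]; exact htop)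
  have he : ∀ i, e i ∈ P := fun i => by simpa [e] using hb i.2
  have he' : ∀ i, star (e i) = e i := fun i => by simpa using (he i 1 hO).1
  obtain ⟨n, hn⟩ := (Loc.cofinal_all hd e 0).exists
  refine ⟨n, fun β hβ hv => ?_⟩
  have := FiniteDimensional.fintypeBasisIndex e
  rw [← e.sum_repr β]
  refine sum_mem fun i _ => he i _ ⟨(herm_iff_repr e he' β).1 hβ i, fun w hw => ?_⟩
  simpa using (hn w (Loc.ultra_iff.1 hw.2) β).2 (hv w hw) i

/-- a colour whose small translations are periods is constant on cosets of a deep subgroup -/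
theorem deep_const (hd : 2 ≤ deg K B) (hm : ∀ w ∈ TT K B, exp (-(m₁ : ℤ)) ≤ val w (ι (2 * s)))
    {Y : Type} {Γ : unitary B → Y} {n : ℕ}
    (hn : ∀ β : B, star β = β → (∀ w ∈ TT K B, val w β ≤ exp (-(n : ℤ))) → β ∈ perG Γ s) :
    ∃ m₂, ∀ t ∈ Um K B m₂, ∃ z ∈ Um K B m₁, Γ (z * t) = Γ z := by
  obtain ⟨κ, hκ, hW⟩ := exists_chart hs h0 ha hd (star_zero B) m₁
  rw [zero_add] at hW
  have hθ : star (ι κ) = ι κ := by rw [Csa.star_algebraMap, hκ]
  have h2s : IsUnit (ι (2 * s)) := (IsUnit.mk0 _ (mul_ne_zero two_ne_zero h0)).map _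
  let A : Pl K → ℤᵐ⁰ := fun w => val w ((mb (ι κ) s : B) - 1)
  have hA : ∀ w, A w * val w (ι κ + ι (star s)) = val w (ι (2 * s)) := fun w => by
    rw [← val_mul, mb_sub_one hs h0 ha hθ]
  have hA0 : ∀ w, A w ≠ 0 := fun w h => val_ne (w := w) h2s (by rw [← hA, h, zero_mul])
  obtain ⟨m₂, h2⟩ := ((eventually_all_finite (Loc.finite_TT (K := K) (B := B) hd)).2 fun w _ =>
    (ev_small 1 (hA0 w)).and (ev_small (val w (ι (2 * s)))
      (mul_ne_zero (mul_ne_zero (hA0 w) (exp_ne_zero (a := -(n : ℤ)))) (hA0 w)))).exists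
  refine ⟨m₂, fun t ht => ?_⟩
  have hj : ∀ j : ℕ, star (κ + j) = κ + j := fun j => by simp [hκ]
  have p1 : ∀ j : ℕ, κ + j + s ≠ 0 := fun j =>
    @add_ne K _ (starRingEnd K) s hs (mul_ne_zero two_ne_zero h0) _ (hj j)
  have p2 : ∀ j : ℕ, κ + j - s ≠ 0 := fun j =>
    @sub_ne K _ (starRingEnd K) s hs (mul_ne_zero two_ne_zero h0) _ (hj j)
  have hi : Function.Injective fun j : ℕ => -((κ + j - s) / (κ + j + s)) := fun j j' h => by
    have h' := neg_injective h
    rw [div_eq_div_iff (p1 j) (p1 j')] at h'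
    have : 2 * s * ((j : K) - j') = 0 := by linear_combination h'
    exact Nat.cast_injective (sub_eq_zero.1
      ((mul_eq_zero.1 this).resolve_left (mul_ne_zero two_ne_zero h0)))
  obtain ⟨j, hu⟩ := ((finite_nonunit (K := K) (t : B)).preimage hi.injOn).exists_notMem
  simp only [Set.mem_preimage, Set.mem_ofPred_eq, not_not] at hu
  have hv : ∀ w ∈ TT K B, w.valuation K (j : K) ≤ 1 := fun w _ => by simpa using val_intCast w j
  have hz := transl hs h0 ha hm hθ hW (κ := j) (by simp) hv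
  have hv' := fun w hw => val_transl hs h0 ha hm hθ hW hv (w := w) hw
  rw [← map_add] at hz hv'
  have hθj : star (ι (κ + j)) = ι (κ + j) := by rw [Csa.star_algebraMap, hj]
  have hz1 := mb_scalar hs h0 ha (hj j)
  have hz2 := mb_sub_one hs h0 ha hθj
  set z := mb (ι (κ + j)) s with hzd
  obtain ⟨θ, hθ', hzt⟩ := exists_cay hs h0 ha (u := z * t) (by
    have : ((z * t : unitary B) : B) - 1 =
        ι ((κ + j + s) / (κ + j - s)) * (t + ι (-((κ + j - s) / (κ + j + s)))) := by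
      rw [Submonoid.coe_mul, hz1, mul_add, ← map_mul, mul_neg, div_mul_div_cancel₀ (p2 j),
        div_self (p1 j), map_neg, map_one, sub_eq_add_neg]
    rw [this]
    exact ((IsUnit.mk0 _ (div_ne_zero (p1 j) (p2 j))).map _).mul hu)
  refine ⟨z, hz, ?_⟩
  have hβ : θ - ι (κ + j) ∈ perG Γ s := by
    refine hn _ (by rw [star_sub, hθ', hθj]) fun w hw => ?_
    have q1 : val w ((z : B) - 1) = A w := mul_right_cancel₀
      (val_ne (unit_add ha hθ (star_ne (skew_ne hs h0)))) (by rw [hA, ← hv' w hw, ← val_mul, hz2])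
    have q2 : val w (z : B) = 1 := Deep.val_eq_one hz hw
    have q3 : val w ((t : B) - 1) < exp (-(m₂ : ℤ)) := ht w hw
    have q4 : val w (((z * t : unitary B) : B) - 1) = A w := by
      rw [show ((z * t : unitary B) : B) - 1 = (z - 1) + z * (t - 1) by
        rw [Submonoid.coe_mul]; noncomm_ring, val_add_eq hw.2, q1]
      rw [val_mul, q1, q2]
      exact (mul_lt_mul_of_pos_left q3 one_pos).trans (h2 w hw).1
    have q5 := mb_sub_one hs h0 ha hθ'
    rw [hzt] at q5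
    have q6 : (((z * t : unitary B) : B) - 1) * (θ - ι (κ + j)) * (z - 1) =
        -(ι (2 * s) * (z * (t - 1))) := by
      have c1 : (ι (κ + j) + ι (star s)) * ((z : B) - 1) = ι (2 * s) := by
        rw [← hz2, ← map_add, Algebra.commutes]
      rw [show θ - ι (κ + j) = (θ + ι (star s)) - (ι (κ + j) + ι (star s)) by abel, mul_sub _ (θ + _), q5,
        sub_mul, mul_assoc, c1, ← Algebra.commutes, Submonoid.coe_mul]
      noncomm_ring
    have q7 := congrArg (val (K := K) w) q6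
    rw [val_mul, val_mul, q1, q4, val_neg, val_mul, val_mul, q2, one_mul] at q7
    have q8 := (q7.le.trans (mul_le_mul_right q3.le _)).trans (h2 w hw).2.le
    have hp := zero_lt_iff.2 (hA0 w)
    exact le_of_mul_le_mul_left (le_of_mul_le_mul_right q8 hp) hp
  have := hβ.2 _ hθj
  rwa [add_sub_cancel, hzt] at this

end TW

/-- **CONFIG** with an extra point of colour outside `M` -/
theorem cfgTW (hne : ∃ c : K, star c ≠ c) (ha : Aniso B) (hd : 2 ≤ deg K B) {m : ℕ} {Q : Type}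
    [Group Q] [Finite Q] {c : Um K B m →* Q} {M : Subgroup Q} (hc : Col m c M) (hM : M ≠ ⊤)
    (hF : ∀ q : Q, q ∉ M → ∀ x ∈ M, q * x = x * q → x = 1) (r : ℕ) :
    ∃ (C : Cfg c r) (a' : K) (x' : Um K B m), star a' ≠ a' ∧
      ((x' : unitary B) : B) * (C.th + ι (star a')) = C.th + ι a' ∧ c x' ∉ M := by
  by_contra hno
  push Not at hno
  obtain ⟨s, h0, hs⟩ := exists_skew hne
  obtain ⟨m₁, h1, hm⟩ := exists_depth (B := B) h0 hd m
  have : M.Normal := hc.im m le_rfl ▸ Subgroup.Normal.map inferInstance c hc.surj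
  have hz : ∀ (u : Um K B m) (t : K), ((u : unitary B) : B) = ι t → c u ∈ M := fun u t ht => by
    by_contra h
    refine hc.ne (M.eq_bot_iff_forall.2 fun x hx => hF _ h x hx ?_)
    obtain ⟨y, rfl⟩ := hc.surj x
    rw [← map_mul, ← map_mul]
    congr 1
    exact Subtype.ext (Subtype.ext (by
      change ((u : unitary B) : B) * ((y : unitary B) : B) = ((y : unitary B) : B) * ((u : unitary B) : B)
      rw [ht, Algebra.commutes]))
  obtain ⟨a, ha0, hα⟩ := per_scalar hs h0 ha c M h1 hm hz hno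
  obtain ⟨n, hn⟩ := per_small hs h0 ha hd (canc _ (lam c M h1)) ha0 hα
  obtain ⟨m₂, h2⟩ := deep_const hs h0 ha hd hm hn
  refine hM (top_le_iff.1 ((hc.deep (max m₁ m₂)).ge.trans ?_))
  rintro _ ⟨t, ht, rfl⟩
  have ht1 : (t : unitary B) ∈ Um K B m₁ := Um_anti (le_max_left _ _) ht
  obtain ⟨z, hz1, hz2⟩ := h2 t (Um_anti (le_max_right _ _) ht)
  rw [ext_of_mem _ (mul_mem hz1 ht1), ext_of_mem _ hz1, Option.some_inj] at hz2
  have := (lam c M h1).map_mul ⟨z, hz1⟩ ⟨t, ht1⟩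
  exact (QuotientGroup.eq_one_iff _).1 (left_eq_mul.1 (hz2.symm.trans this))

end Cfg

end Crest.Agent.T24
end
end

-- ▼ part T24/NaFin_33

/-!
# Row 24 (helper33): `NA` and `TW` from the analytic step `IndepStmt`.
-/

set_option autoImplicit false
set_option linter.unusedSectionVars false

noncomputable section

namespace Crest.Agent.T24.Na

open Finset Csa

universe u v w

namespace F33

section prob
variable {Ω : Type*}

/-- indicator functions -/
def ind (p : Ω → Prop) : Ω → ℝ := {ω | p ω}.indicator 1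

theorem ind_pos {p : Ω → Prop} {ω : Ω} (h : p ω) : ind p ω = 1 := Set.indicator_of_mem h _
theorem ind_neg {p : Ω → Prop} {ω : Ω} (h : ¬ p ω) : ind p ω = 0 := Set.indicator_of_notMem h _
theorem ind_nonneg (p : Ω → Prop) (ω : Ω) : 0 ≤ ind p ω := by
  by_cases h : p ω <;> simp [ind_pos, ind_neg, h]
theorem ind_le (p : Ω → Prop) (ω : Ω) : ind p ω ≤ 1 := by
  by_cases h : p ω <;> simp [ind_pos, ind_neg, h]

/-- a mean carried by `G` -/
structure Pr (E : (Ω → ℝ) →ₗ[ℝ] ℝ) (G : Set Ω) : Prop where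
  pos : ∀ F : Ω → ℝ, (∀ ω ∈ G, 0 ≤ F ω) → 0 ≤ E F
  one : E 1 = 1

variable {E : (Ω → ℝ) →ₗ[ℝ] ℝ} {G : Set Ω}

theorem Pr.mono (h : Pr E G) {F F' : Ω → ℝ} (hF : ∀ ω ∈ G, F ω ≤ F' ω) : E F ≤ E F' := by
  have := h.pos (F' - F) fun ω hω => sub_nonneg.2 (hF ω hω)
  rwa [map_sub, sub_nonneg] at this

theorem pr_push {X : Type*} [Finite Ω] (P : (X → ℝ) →ₗ[ℝ] ℝ) (good : X → Prop)
    (pos : ∀ S : Set X, 0 ≤ P (S.indicator 1)) (one : P 1 = 1)
    (bad : P ({a | ¬ good a}.indicator 1) = 0) (l : X → Ω) :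
    Pr (P ∘ₗ LinearMap.funLeft ℝ ℝ l) (l '' {a | good a}) := by
  have := Fintype.ofFinite Ω
  refine ⟨fun F hF => ?_, one⟩
  have h1 : LinearMap.funLeft ℝ ℝ l F = ∑ ω, F ω • ind (fun a => l a = ω ∧ good a) +
      ∑ ω, F ω • ind (fun a => l a = ω ∧ ¬ good a) := by
    funext a
    simp only [LinearMap.funLeft_apply, Pi.add_apply, Finset.sum_apply, Pi.smul_apply, smul_eq_mul]
    rw [sum_eq_single (l a) (fun ω _ h => by rw [ind_neg fun h' => h h'.1.symm, mul_zero]) (by simp),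
      sum_eq_single (l a) (fun ω _ h => by rw [ind_neg fun h' => h h'.1.symm, mul_zero]) (by simp)]
    by_cases h : good a <;> simp [ind_pos, ind_neg, h]
  have h2 : ∀ ω, P (ind fun a => l a = ω ∧ ¬ good a) = 0 := fun ω => by
    have h3 : ({a | ¬ good a}.indicator 1 : X → ℝ) =
        ind (fun a => l a = ω ∧ ¬ good a) + ind (fun a => l a ≠ ω ∧ ¬ good a) := by
      funext a
      change ind (fun a => ¬ good a) a = _
      by_cases h : good a <;> by_cases h' : l a = ω <;> simp [ind_pos, ind_neg, h, h']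
    rw [h3, map_add] at bad
    have h4 : 0 ≤ P (ind fun a => l a = ω ∧ ¬ good a) := pos _
    have h5 : 0 ≤ P (ind fun a => l a ≠ ω ∧ ¬ good a) := pos _
    linarith
  rw [LinearMap.comp_apply, h1, map_add, map_sum, map_sum]
  simp only [map_smul, h2, smul_eq_mul, mul_zero, sum_const_zero, add_zero]
  refine sum_nonneg fun ω _ => ?_
  by_cases h : ω ∈ l '' {a | good a}
  · exact mul_nonneg (hF ω h) (pos _)
  · have : ind (fun a => l a = ω ∧ good a) = 0 :=
      funext fun a => ind_neg fun h' => h ⟨a, h'.2, h'.1⟩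
    simp [this]

/-- Bessel's inequality -/
theorem Pr.bessel (h : Pr E G) {T T' : Type*} [Fintype T] {r : ℕ} (A : Fin r → Ω → T') (Bl : Ω → T)
    (Φ : T' → T → ℝ) (hΦ : ∀ a b, |Φ a b| ≤ 1)
    (orth : ∀ i j, i ≠ j → ∀ b, E (fun ω => Φ (A i ω) b * Φ (A j ω) b) = 0) {δ : ℝ} (hδ : 0 < δ)
    (hl : ∀ j, δ ≤ E fun ω => Φ (A j ω) (Bl ω)) : r * δ ^ 2 ≤ Fintype.card T := by
  rcases Nat.eq_zero_or_pos r with rfl | hr
  · simp
  have h1 : ∀ b, E (fun ω => (∑ j, Φ (A j ω) b) ^ 2) ≤ r := fun b => by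
    have : (fun ω => (∑ j, Φ (A j ω) b) ^ 2) = ∑ i, ∑ j, fun ω => Φ (A i ω) b * Φ (A j ω) b := by
      funext ω; simp [sq, sum_mul_sum]
    rw [this, map_sum]
    calc _ ≤ ∑ _i : Fin r, (1 : ℝ) := sum_le_sum fun i _ => by
            rw [map_sum, sum_eq_single i (fun j _ hj => orth i j hj.symm b) (by simp), ← h.one]
            exact h.mono fun ω _ => by
              have := abs_le.1 (hΦ (A i ω) b)
              change _ ≤ (1 : ℝ)
              nlinarith
      _ = r := by simp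
  have h2 := h.mono (F := (2 * (r * δ)) • ∑ j, fun ω => Φ (A j ω) (Bl ω))
    (F' := (r * δ) ^ 2 • 1 + ∑ b, fun ω => (∑ j, Φ (A j ω) b) ^ 2) fun ω _ => by
      have := single_le_sum (f := fun b => (∑ j, Φ (A j ω) b) ^ 2) (fun b _ => sq_nonneg _)
        (mem_univ (Bl ω))
      simp only [Pi.smul_apply, Finset.sum_apply, Pi.add_apply, Pi.one_apply, smul_eq_mul]
      nlinarith [sq_nonneg (r * δ - ∑ j, Φ (A j ω) (Bl ω))]
  rw [map_smul, map_add, map_smul, map_sum, map_sum, h.one, smul_eq_mul, smul_eq_mul] at h2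
  have h3 : r * δ ≤ ∑ j, E fun ω => Φ (A j ω) (Bl ω) := by
    simpa using sum_le_sum fun j (_ : j ∈ univ) => hl j
  have h4 : ∑ b, E (fun ω => (∑ j, Φ (A j ω) b) ^ 2) ≤ Fintype.card T * r := by
    simpa using sum_le_sum fun b (_ : b ∈ univ) => h1 b
  have h5 : (0 : ℝ) < r := by exact_mod_cast hr
  have h6 := mul_le_mul_of_nonneg_left h3 (show 0 ≤ 2 * (r * δ) by positivity)
  refine le_of_mul_le_mul_right ?_ h5
  nlinarith

variable {Q : Type} [Group Q] [Finite Q] {M : Subgroup Q}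

/-- the average along `M` -/
def av (M : Subgroup Q) {T : Type*} [MulAction Q T] (ψ : T → ℝ) (t : T) : ℝ :=
  (∑ᶠ f : M, ψ ((f : Q) • t)) / Nat.card M

theorem card_pos : (0 : ℝ) < Nat.card M := by exact_mod_cast Nat.card_pos

theorem mz_sub {T : Type*} [MulAction Q T] (ψ : T → ℝ) (σ : ℝ) :
    Mz M fun t => σ * (ψ t - av M ψ t) := fun t => by
  have := Fintype.ofFinite M
  have h1 : ∀ f : M, av M ψ ((f : Q) • t) = av M ψ t := fun f => by
    simp only [av, finsum_eq_sum_of_fintype, smul_smul, ← Subgroup.coe_mul]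
    rw [← Equiv.sum_comp (Equiv.mulRight f) fun g : M => ψ ((g : Q) • t)]
    rfl
  simp only [finsum_eq_sum_of_fintype, h1, ← mul_sum, sum_sub_distrib, sum_const, card_univ,
    nsmul_eq_mul, ← Nat.card_eq_fintype_card]
  rw [av, finsum_eq_sum_of_fintype, mul_div_cancel₀ _ card_pos.ne', sub_self, mul_zero]

theorem av_ind {T : Type*} [MulAction Q T] (p : T → Prop) (t : T) :
    av M (ind p) t = (Nat.card {f : M | p ((f : Q) • t)} : ℝ) / Nat.card M := by
  classical
  have := Fintype.ofFinite M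
  rw [av, finsum_eq_sum_of_fintype, Nat.card_eq_fintype_card (α := {f : M | _}), Fintype.card_subtype,
    card_eq_sum_ones, sum_filter]
  congr 1
  push_cast
  refine sum_congr rfl fun f _ => ?_
  by_cases h : p ((f : Q) • t) <;> simp [ind_pos, ind_neg, h]

theorem abs_sub_av {T : Type*} [MulAction Q T] (p : T → Prop) (t : T) :
    |ind p t - av M (ind p) t| ≤ 1 := by
  have h1 : av M (ind p) t ≤ 1 := by
    rw [av_ind, div_le_one card_pos]
    exact_mod_cast Nat.card_le_card_of_injective _ Subtype.val_injective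
  have h2 : 0 ≤ av M (ind p) t := by rw [av_ind]; positivity
  have := ind_nonneg p t
  have := ind_le p t
  rw [abs_le]; constructor <;> linarith

theorem Pr.unif (e : Ω → Q)
    (hu : ∀ f ∈ M, E (ind fun ω => e ω = 1 * f) = E (ind fun ω => e ω = 1)) :
    Nat.card M * E (ind fun ω => e ω = 1) = E (ind fun ω => e ω ∈ M) := by
  have := Fintype.ofFinite M
  have h1 : (ind fun ω => e ω ∈ M) = ∑ f : M, ind fun ω => e ω = 1 * f := by
    funext ω
    rw [Finset.sum_apply]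
    by_cases h : e ω ∈ M
    · rw [ind_pos (p := fun ω => e ω ∈ M) h, sum_eq_single ⟨_, h⟩ (fun f _ hf => ind_neg fun h' =>
        hf (Subtype.ext (by simpa using h'.symm))) (by simp), ind_pos (by simp)]
    · rw [ind_neg (p := fun ω => e ω ∈ M) h, sum_eq_zero fun (f : M) _ => ind_neg fun h' => h (by simp [h'])]
  rw [h1, map_sum, sum_congr rfl fun (f : M) _ => hu f f.2]
  simp

end prob

/-- subgroups, with the action by conjugation -/
def Sg (Q : Type) [Group Q] : Type := Subgroup Q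

section grp
variable {Q : Type} [Group Q]

instance : SetLike (Sg Q) Q := inferInstanceAs (SetLike (Subgroup Q) Q)
instance [Finite Q] : Finite (Sg Q) := inferInstanceAs (Finite (Subgroup Q))
instance : MulAction Q (Sg Q) where
  smul q A := Subgroup.comap (MulAut.conj q⁻¹).toMonoidHom A
  one_smul A := Subgroup.ext fun y => by
    change 1⁻¹ * y * 1⁻¹⁻¹ ∈ A ↔ y ∈ A
    simp
  mul_smul q q' A := Subgroup.ext fun y => by
    change (q * q')⁻¹ * y * (q * q')⁻¹⁻¹ ∈ A ↔ q'⁻¹ * (q⁻¹ * y * q⁻¹⁻¹) * q'⁻¹⁻¹ ∈ A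
    simp [mul_assoc]

theorem mem_smul {q y : Q} {A : Sg Q} : y ∈ q • A ↔ q⁻¹ * y * q ∈ A := by
  change q⁻¹ * y * q⁻¹⁻¹ ∈ A ↔ _
  rw [inv_inv]

/-- abelian -/
def Ab (A : Sg Q) : Prop := ∀ a ∈ A, ∀ a' ∈ A, a * a' = a' * a

variable [Finite Q] {M : Subgroup Q} {Ω : Type*} {E : (Ω → ℝ) →ₗ[ℝ] ℝ} {G : Set Ω}

/-- one system of labels -/
structure Sy (M : Subgroup Q) (E : (Ω → ℝ) →ₗ[ℝ] ℝ) (G : Set Ω) {r : ℕ} (e : Fin r → Ω → Q)
    (A : Fin r → Ω → Sg Q) (Bl : Ω → Sg Q) : Prop where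
  pr : Pr E G
  abA : ∀ j, ∀ ω ∈ G, Ab (A j ω)
  abB : ∀ ω ∈ G, Ab (Bl ω)
  memA : ∀ j, ∀ ω ∈ G, e j ω ∈ A j ω
  memB : ∀ j, ∀ ω ∈ G, e j ω ∈ Bl ω
  unif : ∀ j, ∀ f ∈ M, E (ind fun ω => e j ω = 1 * f) = E (ind fun ω => e j ω = 1)
  orth : ∀ i j, i ≠ j → ∀ φ χ : Sg Q → ℝ, Mz M φ → E (fun ω => φ (A i ω) * χ (A j ω)) = 0

variable {r : ℕ} {e : Fin r → Ω → Q} {A : Fin r → Ω → Sg Q} {Bl : Ω → Sg Q}

theorem Sy.key (h : Sy M E G e A Bl) (Ψ : Sg Q → Sg Q → Prop) {σ δ : ℝ} (hσ : |σ| = 1) (hδ : 0 < δ)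
    (hl : ∀ j, δ ≤ E fun ω => σ * (ind (Ψ (Bl ω)) (A j ω) - av M (ind (Ψ (Bl ω))) (A j ω))) :
    r * δ ^ 2 ≤ Nat.card (Sg Q) := by
  have := Fintype.ofFinite (Sg Q)
  rw [Nat.card_eq_fintype_card]
  exact h.pr.bessel A Bl (fun a b => σ * (ind (Ψ b) a - av M (ind (Ψ b)) a))
    (fun a b => by rw [abs_mul, hσ, one_mul]; exact abs_sub_av _ _)
    (fun i j hij b => h.orth i j hij _ (fun a => σ * (ind (Ψ b) a - av M (ind (Ψ b)) a)) (mz_sub _ _))
    hδ hl

theorem Sy.na [M.Normal] (h : Sy M E G e A Bl) (hab : ∀ a b : Q, a * b * a⁻¹ * b⁻¹ ∈ M)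
    (hF : Zen.NoP M) (hC : ∀ g : Q, (∀ f ∈ M, g * f = f * g) → g = 1) (hne : M ≠ ⊥) :
    r * (1 / (Nat.card M : ℝ)) ^ 2 ≤ Nat.card (Sg Q) := by
  have hn : (0 : ℝ) < Nat.card M := card_pos
  refine h.key (fun b a => ∀ y ∈ b, y ∈ a → y = 1) (σ := -1) (by simp) (by positivity) fun j => ?_
  have h1 := h.pr.mono (F := (2 / (Nat.card M : ℝ)) • 1 - ind fun ω => e j ω = 1)
    (F' := fun ω => -1 * (ind (fun a => ∀ y ∈ Bl ω, y ∈ a → y = 1) (A j ω) -
      av M (ind fun a => ∀ y ∈ Bl ω, y ∈ a → y = 1) (A j ω))) fun ω hω => by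
    obtain ⟨f₁, h1, f₂, h2, h3, h4, h5⟩ := Zen.two hab hF hC hne (h.abA j ω hω) (h.abB ω hω)
    have h6 : 2 / (Nat.card M : ℝ) ≤ av M (ind fun a => ∀ y ∈ Bl ω, y ∈ a → y = 1) (A j ω) := by
      rw [av_ind]
      gcongr
      have : Nontrivial {f : M | ∀ y ∈ Bl ω, y ∈ (f : Q) • A j ω → y = 1} :=
        ⟨⟨⟨f₁, h1⟩, fun y hy hy' => h4 y hy (mem_smul.1 hy')⟩,
          ⟨⟨f₂, h2⟩, fun y hy hy' => h5 y hy (mem_smul.1 hy')⟩, fun h => h3 (by simpa using h)⟩
      exact_mod_cast Finite.one_lt_card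
    have h7 : ind (fun a => ∀ y ∈ Bl ω, y ∈ a → y = 1) (A j ω) ≤ ind (fun ω => e j ω = 1) ω := by
      by_cases h8 : ∀ y ∈ Bl ω, y ∈ A j ω → y = 1
      · exact (ind_le _ _).trans (ind_pos (h8 _ (h.memB j ω hω) (h.memA j ω hω))).ge
      · exact (ind_neg h8).trans_le (ind_nonneg _ _)
    simp only [Pi.sub_apply, Pi.smul_apply, Pi.one_apply, smul_eq_mul]
    linarith
  have h2 := Pr.unif (e j) (h.unif j)
  have h3 := h.pr.mono (F := ind fun ω => e j ω ∈ M) (F' := 1) fun ω _ => ind_le _ _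
  rw [map_sub, map_smul, h.pr.one, smul_eq_mul] at h1
  rw [h.pr.one, ← h2, ← le_div_iff₀' hn] at h3
  have : 2 / (Nat.card M : ℝ) = 1 / Nat.card M + 1 / Nat.card M := by ring
  linarith

theorem Sy.tw [hM : M.Normal] (h : Sy M E G e A Bl) (h3 : 3 ≤ Nat.card M)
    (hF : ∀ q : Q, q ∉ M → ∀ x ∈ M, q * x = x * q → x = 1)
    (hE : 1 / 2 ≤ E (ind fun ω => ∃ y ∈ Bl ω, y ∉ M)) :
    r * (1 / (2 * (Nat.card M : ℝ) ^ 2)) ^ 2 ≤ Nat.card (Sg Q) := by
  have hn : (3 : ℝ) ≤ Nat.card M := by exact_mod_cast h3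
  refine h.key (fun b a => ∃ y ∈ b, y ∈ a ∧ y ∉ M) (σ := 1) (by simp) (by positivity) fun j => ?_
  have h1 := h.pr.mono
    (F := 1 - (ind fun ω => e j ω ∈ M) - (1 / (Nat.card M : ℝ)) • ind fun ω => ∃ y ∈ Bl ω, y ∉ M)
    (F' := fun ω => 1 * (ind (fun a => ∃ y ∈ Bl ω, y ∈ a ∧ y ∉ M) (A j ω) -
      av M (ind fun a => ∃ y ∈ Bl ω, y ∈ a ∧ y ∉ M) (A j ω))) fun ω hω => by
    have h6 : av M (ind fun a => ∃ y ∈ Bl ω, y ∈ a ∧ y ∉ M) (A j ω) ≤
        1 / (Nat.card M : ℝ) * ind (fun ω => ∃ y ∈ Bl ω, y ∉ M) ω := by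
      rw [av_ind, one_div_mul_eq_div]
      gcongr
      by_cases h8 : ∃ y ∈ Bl ω, y ∉ M
      · rw [ind_pos (p := fun ω => ∃ y ∈ Bl ω, y ∉ M) h8]
        have : Subsingleton {f : M | ∃ y ∈ Bl ω, y ∈ (f : Q) • A j ω ∧ y ∉ M} := ⟨by
          rintro ⟨⟨f, hf⟩, y, h1, h2, h3⟩ ⟨⟨f', hf'⟩, y', h1', h2', h3'⟩
          have c1 := h.abB ω hω y h1 y' h1'
          have c2 := h.abA j ω hω _ (mem_smul.1 h2) _ (mem_smul.1 h2')
          have m1 : f * f'⁻¹ ∈ M := mul_mem hf (inv_mem hf')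
          have m2 : f * f'⁻¹ * (y' * (f * f'⁻¹)⁻¹ * y'⁻¹) ∈ M :=
            mul_mem m1 (hM.conj_mem _ (inv_mem m1) y')
          have c3 := hF y h3 _ m2 (by
            have e1 : y * (f * f'⁻¹ * y' * (f * f'⁻¹)⁻¹) = f * f'⁻¹ * y' * (f * f'⁻¹)⁻¹ * y := by
              calc _ = f * (f⁻¹ * y * f * (f'⁻¹ * y' * f')) * f⁻¹ := by group
                _ = _ := by rw [c2]; group
            calc _ = y * (f * f'⁻¹ * y' * (f * f'⁻¹)⁻¹) * y'⁻¹ := by group
              _ = f * f'⁻¹ * y' * (f * f'⁻¹)⁻¹ * y'⁻¹ * (y' * y) * y'⁻¹ := by rw [e1]; group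
              _ = _ := by rw [← c1]; group)
          have c4 := hF y' h3' _ m1 (by
            calc _ = f * f'⁻¹ * (y' * (f * f'⁻¹)⁻¹ * y'⁻¹) * (y' * (f * f'⁻¹)) := by
                  rw [c3, one_mul]
              _ = _ := by group)
          exact Subtype.ext (Subtype.ext (mul_inv_eq_one.1 c4))⟩
        exact_mod_cast Finite.card_le_one_iff_subsingleton.2 this
      · have : IsEmpty {f : M | ∃ y ∈ Bl ω, y ∈ (f : Q) • A j ω ∧ y ∉ M} :=
          ⟨fun ⟨_, y, h1, _, h3⟩ => h8 ⟨y, h1, h3⟩⟩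
        simp [ind_nonneg]
    have h7 : 1 - ind (fun ω => e j ω ∈ M) ω ≤ ind (fun a => ∃ y ∈ Bl ω, y ∈ a ∧ y ∉ M) (A j ω) := by
      by_cases h8 : e j ω ∈ M
      · rw [ind_pos (p := fun ω => e j ω ∈ M) h8, sub_self]; exact ind_nonneg _ _
      · rw [ind_neg (p := fun ω => e j ω ∈ M) h8, sub_zero]
        exact (ind_pos (p := fun a => ∃ y ∈ Bl ω, y ∈ a ∧ y ∉ M)
          ⟨_, h.memB j ω hω, h.memA j ω hω, h8⟩).ge
    simp only [Pi.sub_apply, Pi.smul_apply, Pi.one_apply, smul_eq_mul]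
    linarith
  have h2 := Pr.unif (e j) (h.unif j)
  have h4 := h.pr.mono (F := ind fun ω => ∃ y ∈ Bl ω, y ∉ M)
    (F' := (ind fun ω => e j ω = 1) + (1 - ind fun ω => e j ω ∈ M)) fun ω hω => by
    simp only [Pi.sub_apply, Pi.add_apply, Pi.one_apply]
    have := ind_nonneg (fun ω => e j ω = 1) ω
    by_cases h8 : ∃ y ∈ Bl ω, y ∉ M
    · by_cases h9 : e j ω ∈ M
      · obtain ⟨y, h1, h2⟩ := id h8
        rw [ind_pos (p := fun ω => e j ω ∈ M) h9, ind_pos (p := fun ω => e j ω = 1)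
          (hF y h2 _ h9 (h.abB ω hω _ h1 _ (h.memB j ω hω)))]
        simpa using ind_le _ _
      · rw [ind_neg (p := fun ω => e j ω ∈ M) h9]
        linarith [ind_le (fun ω => ∃ y ∈ Bl ω, y ∉ M) ω]
    · have := ind_le (fun ω => e j ω ∈ M) ω
      rw [ind_neg (p := fun ω => ∃ y ∈ Bl ω, y ∉ M) h8]; linarith
  rw [map_sub, map_sub, map_smul, h.pr.one, smul_eq_mul] at h1
  rw [map_add, map_sub, h.pr.one] at h4
  refine le_trans ?_ h1
  rw [← h2] at h4 ⊢
  set n : ℝ := (Nat.card M : ℝ)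
  set x := E (ind fun ω => ∃ y ∈ Bl ω, y ∉ M)
  set p := E (ind fun ω => e j ω = 1)
  rw [div_le_iff₀ (by positivity)]
  have e1 : (1 - n * p - 1 / n * x) * (2 * n ^ 2) = 2 * n * (n - n ^ 2 * p - x) := by field_simp
  rw [e1]
  have h5 : (n - 1) * p ≤ 1 - x := by linarith
  have h6 : 1 / 2 ≤ (n - 1) * (n - n ^ 2 * p - x) := by
    have : n ^ 2 * ((n - 1) * p) ≤ n ^ 2 * (1 - x) := by gcongr
    have h7 : (n ^ 2 - n + 1) * (1 / 2) ≤ (n ^ 2 - n + 1) * x := by gcongr; nlinarith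
    nlinarith
  have h8 : 0 < n - n ^ 2 * p - x := by
    by_contra h9
    nlinarith
  nlinarith

end grp

section lab
variable {B : Type*} [Ring B] [StarRing B] {U : Subgroup (unitary B)} {Q : Type} [Group Q]

/-- the label -/
def At (c : U →* Q) (a : B) : Sg Q := (bic U a).map c

theorem bic_conj (u : U) {a : B} {y : U} (hy : y ∈ bic U a) :
    u * y * u⁻¹ ∈ bic U (((u : unitary B) : B) * a * star ((u : unitary B) : B)) := fun z hz => by
  have e1 := (u : unitary B).2.1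
  have e2 := (u : unitary B).2.2
  change z * (((u : unitary B) : B) * ((y : unitary B) : B) * star ((u : unitary B) : B)) =
    ((u : unitary B) : B) * ((y : unitary B) : B) * star ((u : unitary B) : B) * z
  generalize ((u : unitary B) : B) = t at *
  have h1 := hy (star t * z * t) (by
    calc _ = star t * (z * (t * a * star t)) * t := by simp only [mul_assoc, e1, mul_one]
      _ = _ := by rw [hz]; simp only [← mul_assoc, e1, one_mul])
  calc _ = t * (star t * z * t * ((y : unitary B) : B)) * star t := by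
        simp only [← mul_assoc, e2, one_mul]
    _ = _ := by rw [h1]; simp only [mul_assoc, e2, mul_one]

theorem At_cj (c : U →* Q) (u : U) (a : B) :
    At c (((u : unitary B) : B) * a * star ((u : unitary B) : B)) = c u • At c a := by
  refine SetLike.ext fun q => Iff.trans ⟨?_, ?_⟩ mem_smul.symm
  · rintro ⟨y, hy, rfl⟩
    have := bic_conj u⁻¹ hy
    have e : (((u⁻¹ : U) : unitary B) : B) = star ((u : unitary B) : B) := rfl
    simp only [e, star_star, ← mul_assoc, (u : unitary B).2.1, one_mul] at this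
    rw [mul_assoc a, (u : unitary B).2.1, mul_one] at this
    exact ⟨_, this, by simp⟩
  · rintro ⟨y, hy, h⟩
    exact ⟨_, bic_conj u hy, by simp [h, mul_assoc]⟩

theorem At_tr {k : Type*} [Field k] [Algebra k B] (c : U →* Q) (a : B) (r : k) :
    At c (a + r • 1) = At c a := by
  have : bic U (a + r • 1) = bic U a := Subgroup.ext fun y => forall_congr' fun z => by
    simp [mul_add, add_mul]
  rw [At, this, At]

theorem ab_At (c : U →* Q) (a : B) : Ab (At c a) := by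
  rintro _ ⟨x, hx, rfl⟩ _ ⟨y, hy, rfl⟩
  rw [← map_mul, ← map_mul]
  exact congrArg c (Subtype.ext (Subtype.ext (hy _ (hx a rfl).symm)))

theorem mem_At (c : U →* Q) {θ a : B} (hθ : ∀ z, z * θ = θ * z) {u : U}
    (hu : ((u : unitary B) : B) = cy θ a) : c u ∈ At c a := ⟨u, fun z hz => by
  have h1 : Commute z (a + θ) := Commute.add_right hz (hθ z)
  have h2 : Commute z (a - θ) := Commute.sub_right hz (hθ z)
  rw [hu]
  refine h1.mul_right ?_
  by_cases h : IsUnit (a - θ)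
  · obtain ⟨v, hv⟩ := h
    rw [← hv] at h2 ⊢
    rw [Ring.inverse_unit]
    exact h2.units_inv_right
  · rw [Ring.inverse_non_unit _ h]; exact Commute.zero_right z, rfl⟩

end lab

variable {k K B : Type*} [Field k] [NumberField k] [Field K] [NumberField K] [Algebra k K]
  [StarRing K] [Quad k K] [Ring B] [StarRing B] [Algebra K B] [StarModule K B]
  [Algebra.IsCentral K B] [IsSimpleRing B] [FiniteDimensional K B] [Algebra k B]
  [IsScalarTower k K B]

local notation "ι" => algebraMap K B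

variable (K) in
/-- `g ∘ h⁻¹` -/
def dv (g h : Aff k B) : Aff k B where
  κ := g.κ * h.κ⁻¹
  p := h.p⁻¹ * g.p
  b := g.b - ((g.κ * h.κ⁻¹ : kˣ) : k) • (star ((h.p⁻¹ * g.p : Bˣ) : B) * h.b * (h.p⁻¹ * g.p : Bˣ))
  hb := by simp only [star_sub, star_ksmul k K B, star_mul, star_star, g.hb, h.hb, mul_assoc]

/-- `h⁻¹` -/
def un (h : Aff k B) (y : B) : B :=
  ((h.κ⁻¹ : kˣ) : k) • (star ((h.p⁻¹ : Bˣ) : B) * (y - h.b) * (h.p⁻¹ : Bˣ))

theorem dv_ap (g h : Aff k B) (y : B) : (dv K g h).ap y = g.ap (un h y) := by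
  simp only [Aff.ap, Aff.lin, dv, un, Units.val_mul, star_mul, mul_sub, sub_mul, smul_sub,
    mul_smul_comm, smul_mul_assoc, mul_assoc, smul_smul]
  abel

theorem dv_self (h : Aff k B) (y : B) : (dv K h h).ap y = y := by
  simp [Aff.ap, Aff.lin, dv]

include K in
theorem star_un (h : Aff k B) {y : B} (hy : star y = y) : star (un h y) = un h y := by
  simp only [un, star_sub, star_ksmul k K B, star_mul, star_star, hy, h.hb, mul_assoc]

theorem dv_dif {g g' : Aff k B} (hg : g.Dif g') (h : Aff k B) : (dv K g h).Dif (dv K g' h) :=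
  fun r hr => hg r (by
    have := congrArg (fun x => (h.p : B) * x * star (h.p : B)) hr
    simpa [dv, mul_assoc, ← star_mul] using this)

variable (K) in
/-- `g` belongs to the point `(th + a) (th + star a)⁻¹` -/
def Sp (θ : K) (th : B) (a : K) (g : Aff k B) : Prop := (g.p : B) = th + ι a ∧
  ∀ z, star z = z → IsUnit (1 + th * z + star a • z) ∧ ∀ x, x * (th + ι (star a)) = th + ι a →
    x * cy (ι θ) (g.ap z) * (1 + th * z + star a • z) = 1 + th * z + a • z

variable (k) in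
theorem exists_sp (ha : Aniso B) {θ : K} (h0 : θ ≠ 0) (hθ : star θ = -θ) {th : B}
    (hth : star th = th) {a : K} (hne : star a ≠ a) : ∃ g : Aff k B, Sp K θ th a g := by
  obtain ⟨s, hs⟩ := SplE.fixed' k (x := (a + star a) / 2) (by simp [add_comm])
  obtain ⟨t, ht⟩ := SplE.fixed' k (x := 2 * θ / (star a - a)) (by
    simp only [star_div₀, star_mul, star_sub, star_star, hθ, star_ofNat]
    rw [← neg_sub (star a), div_neg]; ring)
  have h1 := sub_ne_zero.2 hne
  have ht0 : t ≠ 0 := fun h => by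
    rw [h, map_zero, eq_comm, div_eq_zero_iff] at ht
    simp [h0, h1] at ht
  obtain ⟨p, hp⟩ := Cfg.unit_add ha hth hne
  have hp' : star (p : B) = th + ι (star a) := by rw [hp, star_add, hth, star_algebraMap]
  let g : Aff k B := ⟨Units.mk0 t ht0, p, t • (th + s • 1), by
    simp only [star_ksmul k K B, star_add, hth, star_one]⟩
  refine ⟨g, hp, fun z hz => ?_⟩
  have e0 : g.ap z = algebraMap k K t • (star (p : B) * z * p + th + algebraMap k K s • 1) := by
    simp [g, Aff.ap, Aff.lin, add_assoc]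
  have f1 : algebraMap k K t * (a - algebraMap k K s) = -θ := by rw [ht, hs]; field_simp; ring
  have f2 : algebraMap k K t * (star a - algebraMap k K s) = θ := by rw [ht, hs]; field_simp; ring
  have e1 : g.ap z - ι θ = algebraMap k K t • ((1 + th * z + star a • z) * p) := by
    rw [e0, hp', hp, ← neg_eq_iff_eq_neg.2 f1]
    generalize algebraMap k K t = T, algebraMap k K s = S
    cfg24_sc
  have e2 : g.ap z + ι θ = algebraMap k K t • (star (p : B) * (1 + z * p)) := by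
    rw [e0, hp', hp, ← f2]
    generalize algebraMap k K t = T, algebraMap k K s = S
    cfg24_sc
  have hu : IsUnit (g.ap z - ι θ) := by
    rw [sub_eq_add_neg, ← map_neg]
    refine Cfg.unit_add ha ?_ (Cfg.skew_ne (by simp [hθ]) (neg_ne_zero.2 h0))
    simp only [Aff.ap, Aff.lin, star_add, star_ksmul k K B, star_mul, star_star, g.hb, hz, mul_assoc]
  have ht1 : algebraMap k K t ≠ 0 := by simpa using ht0
  refine ⟨?_, fun x hx => p.isUnit.mul_right_cancel (smul_right_injective B ht1 ?_)⟩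
  · rw [e1, Algebra.smul_def] at hu
    exact (Units.isUnit_mul_units _ p).1
      (((isUnit_iff_ne_zero.2 ht1).map ι).unit.isUnit_units_mul _ |>.1 hu)
  · dsimp only
    rw [mul_assoc, ← mul_smul_comm, ← e1, cy, mul_assoc, mul_assoc, Ring.inverse_mul_cancel _ hu,
      mul_one, e2, mul_smul_comm, ← mul_assoc, hp', hx, hp]
    cfg24_sc

theorem comm_res {u z y y' : B} {a b a' b' : K} (h : IsUnit (u + b • z)) (h' : IsUnit (u + b' • z))
    (e : y * (u + b • z) = u + a • z) (e' : y' * (u + b' • z) = u + a' • z) : y * y' = y' * y := by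
  obtain ⟨D, hD⟩ := h
  have h1 : ∀ c : K, (u + c • z) * (D⁻¹ : Bˣ) = 1 + (c - b) • (z * (D⁻¹ : Bˣ)) := fun c => by
    rw [← D.mul_inv, hD]; cfg24_sc
  have h2 : ∀ c : K, Commute (z * (D⁻¹ : Bˣ)) ((u + c • z) * (D⁻¹ : Bˣ)) := fun c => by
    rw [h1]; exact (Commute.one_right _).add_right ((Commute.refl _).smul_right _)
  have h3 : y = 1 + (a - b) • (z * (D⁻¹ : Bˣ)) := by rw [← h1, ← e, ← hD, mul_assoc, D.mul_inv, mul_one]
  have h4 : Commute (z * (D⁻¹ : Bˣ)) y' := (h'.mul (D⁻¹).isUnit).mul_right_cancel (by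
    rw [mul_assoc, mul_assoc y', (h2 b').eq, ← mul_assoc y', ← mul_assoc y', ← mul_assoc y', e', (h2 a').eq])
  rw [h3]
  exact (Commute.one_left _).add_left (h4.smul_left _)

variable {U : Subgroup (unitary B)} {Q : Type} [Group Q] [Finite Q] {c : U →* Q} {M : Subgroup Q}
  {θ : K} {I : Type} [Finite I] {g : I → Aff k B} {P : (B → ℝ) →ₗ[ℝ] ℝ}

variable (c θ g) in
/-- the labels -/
def lb (y : B) : (I → Q) × (I → Sg Q) := (fun i => col c (cy (ι θ) ((g i).ap y)), fun i => At c ((g i).ap y))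

variable (U θ g) in
/-- the good points -/
def Gd (y : B) : Prop := star y = y ∧ ∀ j, ∃ u : U, ((u : unitary B) : B) = cy (ι θ) ((g j).ap y)

theorem sy_of (hI : Indep (ι θ) c M (At c) g P) {th : B} {J : Type*} {a : J → K} {x : J → U}
    {af : J → Aff k B} (h1 : ∀ j, Sp K θ th (a j) (af j))
    (h2 : ∀ j, ((x j : unitary B) : B) * (th + ι (star (a j))) = th + ι (a j)) (h : Aff k B)
    (id : J → I) (h3 : ∀ j, g (id j) = dv K (af j) h) {r : ℕ} (s : Fin r → J)
    (h4 : ∀ j, c (x (s j)) = 1) (h5 : ∀ i j, i ≠ j → (af (s i)).Dif (af (s j))) :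
    Sy M (P ∘ₗ LinearMap.funLeft ℝ ℝ (lb c θ g)) (lb c θ g '' {y | Gd U θ g y})
      (fun j ω => ω.1 (id (s j))) (fun j ω => ω.2 (id (s j)))
      fun ω => Subgroup.closure (Set.range fun j => c (x j) * ω.1 (id j)) where
  pr := pr_push P _ hI.pos hI.one hI.good _
  abA := by rintro j _ ⟨y, -, rfl⟩; exact ab_At _ _
  abB := by
    rintro _ ⟨y, ⟨hy, hu⟩, rfl⟩ q hq q' hq'
    choose u hu using hu
    refine Subtype.ext_iff.1 ((Subgroup.isMulCommutative_closure ?_).1.1 ⟨q, hq⟩ ⟨q', hq'⟩)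
    rintro _ ⟨i, rfl⟩ _ ⟨j, rfl⟩
    simp only [lb, ← hu, col_coe, ← map_mul]
    refine congrArg c (Subtype.ext (Subtype.ext ?_))
    obtain ⟨f1, f2⟩ := (h1 i).2 _ (star_un (K := K) h hy)
    obtain ⟨f3, f4⟩ := (h1 j).2 _ (star_un (K := K) h hy)
    refine comm_res f1 f3 (a := a i) (a' := a j) ?_ ?_
    · rw [← f2 _ (h2 i), ← dv_ap (K := K), ← h3, ← hu]; rfl
    · rw [← f4 _ (h2 j), ← dv_ap (K := K), ← h3, ← hu]; rfl
  memA := by
    rintro j _ ⟨y, ⟨-, hu⟩, rfl⟩
    obtain ⟨u, hu⟩ := hu (id (s j))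
    simp only [lb]
    rw [← hu, col_coe]
    exact mem_At c (fun z => (Algebra.commutes θ z).symm) hu
  memB := fun j ω _ => Subgroup.subset_closure ⟨s j, by simp [h4]⟩
  unif := fun j f hf => hI.unif _ 1 f hf
  orth := fun i j hij φ χ hφ => hI.orth _ _ (by rw [h3, h3]; exact dv_dif (h5 i j hij) h) φ χ hφ

theorem dif_of {m r : ℕ} {c : Um K B m →* Q} (C : Cfg c r) {i j : Fin r} (hij : i ≠ j) {f f' : Aff k B}
    (h : Sp K θ C.th (C.a i) f) (h' : Sp K θ C.th (C.a j) f') : f.Dif f' := fun t ht =>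
  C.line i j hij (algebraMap k K t) (by
    rw [h.1, h'.1, star_add, star_add, C.herm, star_algebraMap, star_algebraMap,
      ← algebraMap_smul K] at ht
    calc _ = (C.th + ι (C.a i)) * (C.th + ι (star (C.a i))) := by cfg24_sc
      _ = _ := by rw [ht]; cfg24_sc)

theorem comm_mem {m : ℕ} {c : Um K B m →* Q} (hc : Col m c M) (a b : Q) : a * b * a⁻¹ * b⁻¹ ∈ M := by
  obtain ⟨a, rfl⟩ := hc.surj a
  obtain ⟨b, rfl⟩ := hc.surj b
  rw [← hc.im m le_rfl]
  exact ⟨a * b * a⁻¹ * b⁻¹, Subgroup.mem_subgroupOf.2 (Subgroup.mem_inf.2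
    ⟨comm_mem_SU K (a : unitary B) (b : unitary B), (a * b * a⁻¹ * b⁻¹).2⟩), by simp⟩

theorem exists_r (n : ℕ) {δ : ℝ} (hδ : 0 < δ) : ∃ r : ℕ, ¬ ((r + 1 : ℕ) : ℝ) * δ ^ 2 ≤ n := by
  obtain ⟨r, hr⟩ := exists_nat_gt (n / δ ^ 2)
  rw [div_lt_iff₀ (by positivity)] at hr
  exact ⟨r, by push_cast; nlinarith [sq_pos_of_pos hδ]⟩

end F33

open F33

theorem naStmt (h : IndepStmt.{u, v, w}) : NAStmt.{u, v, w} := by
  intro D hd ha m Q _ _ c M hc hF hC
  have hne := Quad.ne (k := D.k) (K := D.K)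
  obtain ⟨θ, h0, hθ⟩ := exists_skew hne
  have : M.Normal := hc.im m le_rfl ▸ Subgroup.Normal.map inferInstance c hc.surj
  obtain ⟨r, hr⟩ := exists_r (Nat.card (Sg Q)) (δ := 1 / (Nat.card M : ℝ)) (one_div_pos.2 card_pos)
  obtain ⟨C⟩ := Cfg.cfgNA hne ha (by omega) c (r + 1)
  choose af h1 using fun j => exists_sp D.k ha h0 hθ C.herm (C.ne j)
  obtain ⟨P, hP⟩ := h D hd ha m Q c M hc θ h0 hθ (Sg Q) (At c) (At_cj c) (At_tr c) _
    fun j => dv D.K (af j) (af 0)
  exact hr ((sy_of hP h1 C.eq (af 0) id (fun _ => rfl) id C.ker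
    fun i j hij => dif_of C hij (h1 i) (h1 j)).na (comm_mem hc) hF hC hc.ne)

theorem twStmt (h : IndepStmt.{u, v, w}) : TWStmt.{u, v, w} := by
  intro D hd ha m Q _ _ c M hc hab hM hF
  have hne := Quad.ne (k := D.k) (K := D.K)
  obtain ⟨θ, h0, hθ⟩ := exists_skew hne
  have hN : M.Normal := hc.im m le_rfl ▸ Subgroup.Normal.map inferInstance c hc.surj
  have h3 : 3 ≤ Nat.card M := by
    by_contra h4
    obtain ⟨q, hq⟩ : ∃ q, q ∉ M := by simpa [Subgroup.eq_top_iff'] using hM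
    obtain ⟨⟨f, hf⟩, hf1⟩ := Subgroup.ne_bot_iff_exists_ne_one.1 hc.ne
    have := Fintype.ofFinite M
    refine h4 ?_
    rw [Nat.card_eq_fintype_card]
    refine Fintype.two_lt_card_iff.2 ⟨1, ⟨f, hf⟩, ⟨_, hN.conj_mem f hf q⟩, hf1.symm, fun h => hf1 ?_,
      fun h => hf1 (Subtype.ext (hF q hq f hf ?_))⟩
    · exact Subtype.ext (conj_eq_one_iff.1 (Subtype.ext_iff.1 h).symm)
    · exact (eq_mul_inv_iff_mul_eq.1 (Subtype.ext_iff.1 h)).symm
  obtain ⟨r, hr⟩ := exists_r (Nat.card (Sg Q)) (δ := 1 / (2 * (Nat.card M : ℝ) ^ 2))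
    (by have := card_pos (M := M); positivity)
  obtain ⟨C, a', x', n1, n2, n3⟩ := Cfg.cfgTW hne ha (by omega) hc hM hF (r + 1)
  let a : Option (Fin (r + 1)) → D.K := fun j => j.elim a' C.a
  let x : Option (Fin (r + 1)) → Um D.K D.B m := fun j => j.elim x' C.x
  choose af h1 using fun j => exists_sp D.k ha h0 hθ C.herm (a := a j) (by
    cases j; exacts [n1, C.ne _])
  have h2 : ∀ j, ((x j : unitary D.B) : D.B) * (C.th + algebraMap _ _ (star (a j))) =
      C.th + algebraMap _ _ (a j) := fun j => by cases j; exacts [n2, C.eq _]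
  let g : Option (Fin (r + 1)) × Option (Fin (r + 1)) → Aff D.k D.B := fun p => dv D.K (af p.2) (af p.1)
  obtain ⟨P, hP⟩ := h D hd ha m Q c M hc θ h0 hθ (Sg Q) (At c) (At_cj c) (At_tr c) _ g
  have S := fun b => sy_of hP h1 h2 (af b) (Prod.mk b) (fun _ => rfl) some C.ker
    fun i j hij => dif_of C hij (h1 (some i)) (h1 (some j))
  have h4 := fun b => not_le.1 fun h => hr ((S b).tw h3 hF h)
  have h5 := add_lt_add (h4 none) (h4 (some 0))
  rw [← map_add, add_halves, ← (S none).pr.one] at h5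
  refine h5.not_ge ((S none).pr.mono ?_)
  rintro _ ⟨y, -, rfl⟩
  rw [Pi.add_apply]
  by_cases h6 : col c (cy (algebraMap D.K D.B θ) y) ∈ M
  · refine le_add_of_le_of_nonneg (ind_pos ⟨_, Subgroup.subset_closure ⟨none, rfl⟩, fun h7 => n3 ?_⟩).ge
      (ind_nonneg _ _)
    simp only [lb, g, dv_self] at h7
    exact (M.mul_mem_cancel_right h6).1 h7
  · refine le_add_of_nonneg_of_le (ind_nonneg _ _)
      (ind_pos ⟨_, Subgroup.subset_closure ⟨some 0, rfl⟩, fun h7 => h6 ?_⟩).ge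
    simpa [lb, g, dv_self, x, C.ker] using h7

end Crest.Agent.T24.Na
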