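import Mathlib
import Crest.Agent.T24.AsaA_53
import Crest.Agent.T24.LocA_59
import Crest.Agent.T24.BcB_98
import Crest.Agent.T24.Csa5_56

-- ▼ part T24/Coc_98
section

/-!
# Row 24 (helper98): cocompactness of anisotropic unitary groups, abstract form

`A` a locally compact ring with a continuous anti-involution `τ`, `Λ` a discrete cocompact subring
on which `τ x * x = 0` forces `x = 0`.  Then `U (Λ)` is cocompact in `U (A)`, and `SU (Λ)` in
`SU (A)`.  No determinants, no Mahler criterion: the lattices `g Λ` have no short vectors, so a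
packing argument bounds their covering radius.
-/

set_option autoImplicit false

namespace Crest.Agent.T24.Coc

open MeasureTheory Set Filter Topology
open scoped Pointwise ENNReal NNReal

section Group

variable {V : Type*} [AddCommGroup V] [TopologicalSpace V] [IsTopologicalAddGroup V]

/-- a discrete subgroup meets compact sets in finite sets -/
theorem finite_inter (Λ : AddSubgroup V) (hd : ∃ N ∈ 𝓝 (0 : V), ∀ l ∈ Λ, l ∈ N → l = 0)
    {K : Set V} (hK : IsCompact K) : (K ∩ Λ).Finite := by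
  obtain ⟨N, hN, h⟩ := hd
  obtain ⟨N', hN', h'⟩ := exists_nhds_half_neg hN
  refine hK.induction_on (p := fun s => (s ∩ Λ).Finite) (by simp)
    (fun s t hst ht => ht.subset (inter_subset_inter_left _ hst))
    (fun s t hs ht => by rw [union_inter_distrib_right]; exact hs.union ht) fun x _ => ?_
  refine ⟨(fun y => y - x) ⁻¹' N', mem_nhdsWithin_of_mem_nhds
    ((continuous_sub_right x).continuousAt.preimage_mem_nhds (by simpa using hN')), ?_⟩
  refine Set.Subsingleton.finite fun a ha b hb => sub_eq_zero.1 (h _ (sub_mem ha.2 hb.2) ?_)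
  simpa using h' _ ha.1 _ hb.1

theorem isCompact_nsmul {U : Set V} (hU : IsCompact U) (k : ℕ) : IsCompact (k • U) := by
  induction k with
  | zero => rw [zero_nsmul]; exact isCompact_singleton
  | succ k ih => rw [succ_nsmul]; exact ih.add hU

variable [T2Space V] [MeasurableSpace V] [BorelSpace V]

/-- packing: a set that injects modulo the lattice is not larger than a set that surjects -/
theorem pack (μ : Measure V) [μ.IsAddLeftInvariant] (Λ : AddSubgroup V)
    (hd : ∃ N ∈ 𝓝 (0 : V), ∀ l ∈ Λ, l ∈ N → l = 0) {C s : Set V} (hC : IsCompact C)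
    (hc : ∀ a, ∃ l ∈ Λ, a - l ∈ C) (hs : IsCompact s)
    (h : ∀ x ∈ s, ∀ y ∈ s, x - y ∈ Λ → x = y) : μ s ≤ μ C := by
  have hT := finite_inter Λ hd (hs.add hC.neg)
  have h1 : s ⊆ ⋃ l ∈ hT.toFinset, (fun x => -l + x) ⁻¹' ((fun x => l + x) ⁻¹' s ∩ C) := by
    intro x hx
    obtain ⟨l, hl, hxl⟩ := hc x
    refine mem_iUnion₂.2 ⟨l, hT.mem_toFinset.2 ⟨⟨x, hx, -(x - l), by simpa using hxl, by simp⟩, hl⟩,
      by simpa using hx, ?_⟩
    rwa [sub_eq_neg_add] at hxl
  refine (measure_mono h1).trans ((measure_biUnion_finset_le _ _).trans ?_)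
  simp only [measure_preimage_add]
  rw [← measure_biUnion_finset]
  · exact measure_mono (iUnion₂_subset fun l _ => inter_subset_right)
  · intro l hl l' hl' hne
    rw [Function.onFun, disjoint_left]
    intro x hx hx'
    refine hne (add_right_cancel (h _ hx.1 _ hx'.1 ?_))
    rw [add_sub_add_right_eq_sub]
    exact sub_mem (hT.mem_toFinset.1 hl).2 (hT.mem_toFinset.1 hl').2
  · intro l _
    exact ((hs.isClosed.preimage (continuous_const_add l)).inter hC.isClosed).measurableSet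

end Group

section Radius

variable {V : Type*} [AddCommGroup V] [TopologicalSpace V] [IsTopologicalAddGroup V] [T2Space V]
  [LocallyCompactSpace V]

/-- lattices without short vectors have a bounded covering radius -/
theorem radius (Λ : AddSubgroup V) (hd : ∃ N ∈ 𝓝 (0 : V), ∀ l ∈ Λ, l ∈ N → l = 0)
    {C : Set V} (hC : IsCompact C) (hc : ∀ a, ∃ l ∈ Λ, a - l ∈ C)
    (hsa : ∀ H : AddSubgroup V, IsOpen (H : Set V) → ∀ a, ∃ l ∈ Λ, a - l ∈ H)
    {N : Set V} (hN : N ∈ 𝓝 (0 : V)) :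
    ∃ C' : Set V, IsCompact C' ∧ ∀ φ : V ≃ₜ+ V, (∀ l ∈ Λ, φ l ∈ N → l = 0) →
      (∀ l ∈ Λ, φ.symm l ∈ N → l = 0) → ∀ a, ∃ l ∈ Λ, a - φ l ∈ C' := by
  borelize V
  obtain ⟨N', hN', h'⟩ := exists_nhds_half_neg hN
  obtain ⟨K, hK, hKN, hKc⟩ := local_compact_nhds hN'
  obtain ⟨U, hU0, hUc, hUs, hUN⟩ : ∃ U ∈ 𝓝 (0 : V), IsCompact U ∧ (∀ x ∈ U, -x ∈ U) ∧
      ∀ x ∈ U, ∀ y ∈ U, x - y ∈ N :=
    ⟨K ∩ -K, inter_mem hK (neg_mem_nhds_zero V hK), hKc.inter_right hKc.neg.isClosed,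
      fun x hx => ⟨hx.2, by simpa using hx.1⟩, fun x hx y hy => h' _ (hKN hx.1) _ (hKN hy.1)⟩
  have h0 : (0 : V) ∈ U := mem_of_mem_nhds hU0
  let μ : Measure V := Measure.addHaar
  have hu0 : μ U ≠ 0 := (Measure.measure_pos_of_mem_nhds μ hU0).ne'
  have huT : μ U ≠ ⊤ := hUc.measure_lt_top.ne
  have hcT : μ C ≠ ⊤ := hC.measure_lt_top.ne
  obtain ⟨M, hM⟩ : ∃ M : ℕ, μ C * μ C < M * (μ U * μ U) :=
    ENNReal.exists_nat_mul_gt (mul_ne_zero hu0 hu0) (ENNReal.mul_ne_top hcT hcT)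
  refine ⟨(3 * M) • U, isCompact_nsmul hUc _, fun φ hφ hφ' => ?_⟩
  have hpre : ∀ (ψ : V ≃ₜ+ V) (s : Set V), IsCompact s →
      (∀ x ∈ s, ∀ y ∈ s, ∀ l ∈ Λ, x - y = ψ l → x = y) → μ s ≤ addEquivAddHaarChar ψ • μ C := by
    intro ψ s hs h
    rw [← addEquivAddHaarChar_smul_preimage μ ψ, ENNReal.smul_def, ENNReal.smul_def, smul_eq_mul,
      smul_eq_mul]
    refine mul_le_mul_right (pack μ Λ hd hC hc (ψ.toHomeomorph.isCompact_preimage.2 hs)
      fun x hx y hy hxy => ψ.injective (h _ hx _ hy _ hxy (map_sub ψ x y).symm)) _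
  have hχ : addEquivAddHaarChar φ • μ U ≤ μ C := by
    have h1 := hpre φ.symm U hUc fun x hx y hy l hl e => by
      have := hφ' l hl (e ▸ hUN x hx y hy)
      rw [this, map_zero] at e
      exact sub_eq_zero.1 e
    rw [addEquivAddHaarChar_symm] at h1
    have h2 := (addEquivAddHaarChar_pos φ).ne'
    calc _ ≤ addEquivAddHaarChar φ • (addEquivAddHaarChar φ)⁻¹ • μ C := by
          rw [ENNReal.smul_def, ENNReal.smul_def _ (_ • _), smul_eq_mul, smul_eq_mul]
          exact mul_le_mul_right h1 _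
      _ = μ C := smul_inv_smul₀ h2 _
  let P : ℕ → V → Prop := fun k a => ∃ l ∈ Λ, a - φ l ∈ k • U
  have hstep : ∀ k a u, P k a → u ∈ U → P (k + 1) (a + u) := by
    rintro k a u ⟨l, hl, h⟩ hu
    exact ⟨l, hl, by rw [succ_nsmul, add_sub_right_comm]; exact add_mem_add h hu⟩
  have hmono : ∀ j k a, j ≤ k → P j a → P k a := by
    intro j k a hjk h
    induction hjk with
    | refl => exact h
    | step _ ih => simpa using hstep _ a 0 ih h0
  have hlat : ∀ k a l, l ∈ Λ → P k a → P k (a + φ l) := by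
    rintro k a l hl ⟨l', hl', h⟩
    exact ⟨l' + l, add_mem hl' hl, by rwa [map_add, add_sub_add_right_eq_sub]⟩
  have hj : ∃ j < M, ∀ a, P (3 * j + 1) a → P (3 * j) a := by
    by_contra hcon
    push Not at hcon
    choose! a ha hna using hcon
    have hlt : ∀ i < M, ∀ j < M, i < j → ∀ x ∈ U, ∀ y ∈ U, ∀ l ∈ Λ,
        a j + x - (a i + y) ≠ φ l := by
      intro i hi j hj hij x hx y hy l hl e
      refine hna j hj (hmono (3 * i + 1 + 1 + 1) _ _ (by omega) ?_)
      have := hlat _ _ l hl (hstep _ _ _ (hstep _ _ _ (ha i hi) hy) (hUs x hx))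
      rwa [← e, show a i + y + -x + (a j + x - (a i + y)) = a j by abel] at this
    have hinj : ∀ i < M, ∀ j < M, ∀ x ∈ U, ∀ y ∈ U, ∀ l ∈ Λ,
        a j + x - (a i + y) = φ l → i = j ∧ x = y := by
      intro i hi j hj x hx y hy l hl e
      rcases lt_trichotomy i j with h | h | h
      · exact absurd e (hlt i hi j hj h x hx y hy l hl)
      · subst h
        rw [add_sub_add_left_eq_sub] at e
        have := hφ l hl (e ▸ hUN x hx y hy)
        rw [this, map_zero] at e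
        exact ⟨rfl, sub_eq_zero.1 e⟩
      · exact absurd (by rw [map_neg, ← e, neg_sub]) (hlt j hj i hi h y hy x hx (-l) (neg_mem hl))
    have hcp : ∀ i, IsCompact ((fun x => -a i + x) ⁻¹' U) := fun i =>
      (Homeomorph.addLeft (-a i)).isCompact_preimage.2 hUc
    have h1 := hpre φ (⋃ i ∈ Finset.range M, (fun x => -a i + x) ⁻¹' U)
      ((Finset.range M).isCompact_biUnion fun i _ => hcp i) fun x hx y hy l hl e => by
        obtain ⟨j, hj, hx⟩ := mem_iUnion₂.1 hx
        obtain ⟨i, hi, hy⟩ := mem_iUnion₂.1 hy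
        obtain ⟨rfl, h⟩ := hinj i (Finset.mem_range.1 hi) j (Finset.mem_range.1 hj) _ hx _ hy l hl
          (by simpa using e)
        exact add_left_cancel h
    rw [measure_biUnion_finset _ fun i _ => (hcp i).measurableSet] at h1
    · simp only [measure_preimage_add, Finset.sum_const, Finset.card_range, nsmul_eq_mul] at h1
      refine hM.not_ge ?_
      rw [ENNReal.smul_def, smul_eq_mul] at h1 hχ
      calc (M : ℝ≥0∞) * (μ U * μ U) = M * μ U * μ U := by ring
        _ ≤ addEquivAddHaarChar φ * μ C * μ U := mul_le_mul_left h1 _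
        _ = addEquivAddHaarChar φ * μ U * μ C := by ring
        _ ≤ μ C * μ C := mul_le_mul_left hχ _
    · intro i hi j hj hne
      rw [Function.onFun, disjoint_left]
      intro x hx hx'
      exact hne (hinj i (Finset.mem_range.1 hi) j (Finset.mem_range.1 hj) _ hx' _ hx 0 (zero_mem _)
        (by simp)).1
  obtain ⟨j, hjM, hj⟩ := hj
  have hH : ∀ h ∈ AddSubgroup.closure U, ∀ a, P (3 * j) a ↔ P (3 * j) (a + h) := by
    intro h hh
    induction hh using AddSubgroup.closure_induction with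
    | mem u hu =>
      exact fun a => ⟨fun h => hj _ (hstep _ _ _ h hu),
        fun h => by simpa using hj _ (hstep _ _ _ h (hUs u hu))⟩
    | zero => simp
    | add x y _ _ hx hy => exact fun a => by rw [← add_assoc, ← hy, ← hx]
    | neg x _ hx => exact fun a => by rw [hx (a + -x)]; simp
  intro a
  obtain ⟨l, hl, h⟩ := hsa ((AddSubgroup.closure U).comap (φ : V →+ V))
    (((AddSubgroup.closure U).isOpen_of_mem_nhds
      (mem_of_superset hU0 AddSubgroup.subset_closure)).preimage φ.continuous) (φ.symm a)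
  have h1 : a - φ l ∈ AddSubgroup.closure U := by simpa using AddSubgroup.mem_comap.1 h
  have h2 : P (3 * j) 0 := hmono 0 _ _ (Nat.zero_le _) ⟨0, zero_mem _, by simp⟩
  have h3 := hlat _ _ l hl ((hH _ h1 0).1 h2)
  rw [zero_add, sub_add_cancel] at h3
  exact hmono _ _ _ (by omega) h3

end Radius

section Ring

variable {A : Type*} [Ring A] [TopologicalSpace A] [IsTopologicalRing A]

/-- the data of the cocompactness theorem -/
structure Lat (τ : A →+ A) (Λ : Subring A) : Prop where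
  cont : Continuous τ
  mul : ∀ x y, τ (x * y) = τ y * τ x
  inv : ∀ x, τ (τ x) = x
  mem : ∀ x ∈ Λ, τ x ∈ Λ
  /-- discrete -/
  disc : ∃ N ∈ 𝓝 (0 : A), ∀ l ∈ Λ, l ∈ N → l = 0
  /-- cocompact -/
  coc : ∃ C, IsCompact C ∧ ∀ a, ∃ l ∈ Λ, a - l ∈ C
  /-- additive strong approximation -/
  sa : ∀ H : AddSubgroup A, IsOpen (H : Set A) → ∀ a, ∃ l ∈ Λ, a - l ∈ H
  /-- anisotropic -/
  ani : ∀ x ∈ Λ, τ x * x = 0 → x = 0
  /-- far out there is room for invertible elements (for example: invertible at one place) -/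
  big : ∃ W : Set A, (∀ g a, IsUnit g → a ∈ W → g * a ∈ W) ∧ (∀ x ∈ Λ, x ∈ W → IsUnit x) ∧
    ∀ C, IsCompact C → ∃ t, ∀ c ∈ C, t - c ∈ W

/-- left multiplication by a unit -/
def lm (g h : A) (h1 : h * g = 1) (h2 : g * h = 1) : A ≃ₜ+ A where
  toFun x := g * x
  invFun x := h * x
  left_inv x := by simp [← mul_assoc, h1]
  right_inv x := by simp [← mul_assoc, h2]
  map_add' := mul_add g
  continuous_toFun := continuous_const_mul g
  continuous_invFun := continuous_const_mul h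

variable {τ : A →+ A} {Λ : Subring A}

omit [IsTopologicalRing A] in
theorem Lat.one (h : Lat τ Λ) : τ 1 = 1 := by
  have := h.mul (τ 1) 1
  rwa [mul_one, h.inv, mul_one, eq_comm] at this

omit [IsTopologicalRing A] in
theorem Lat.isUnit (h : Lat τ Λ) {x : A} (hx : IsUnit x) : IsUnit (τ x) := by
  obtain ⟨x, rfl⟩ := hx
  exact ⟨⟨τ x, τ (x⁻¹ : Aˣ), by rw [← h.mul, Units.inv_mul, h.one],
    by rw [← h.mul, Units.mul_inv, h.one]⟩, rfl⟩

theorem Lat.finite (h : Lat τ Λ) {K : Set A} (hK : IsCompact K) : (K ∩ Λ).Finite :=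
  finite_inter Λ.toAddSubgroup h.disc hK

omit [IsTopologicalRing A] in
theorem Lat.sq (h : Lat τ Λ) {g : A} (hg : τ g * g = 1) (x : A) :
    τ (g * x) * (g * x) = τ x * x := by
  rw [h.mul, mul_assoc, ← mul_assoc (τ g), hg, one_mul]

variable [T2Space A] [LocallyCompactSpace A]

/-- every `g Λ` contains a bounded invertible element -/
theorem Lat.exists_unit (h : Lat τ Λ) : ∃ C : Set A, IsCompact C ∧
    ∀ g, τ g * g = 1 → g * τ g = 1 → ∃ x ∈ Λ, IsUnit x ∧ g * x ∈ C := by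
  obtain ⟨C, hC, hc⟩ := h.coc
  obtain ⟨N, hN, hd⟩ := h.disc
  obtain ⟨W, hW, hWu, hWc⟩ := h.big
  have hq : Continuous fun x => τ x * x := h.cont.mul continuous_id
  obtain ⟨C', hC', hr⟩ := radius Λ.toAddSubgroup h.disc hC hc h.sa
    (N := (fun x => τ x * x) ⁻¹' N) (hq.continuousAt.preimage_mem_nhds (by simpa using hN))
  obtain ⟨t, ht⟩ := hWc C' hC'
  have hs : ∀ g, τ g * g = 1 → ∀ l ∈ Λ, τ (g * l) * (g * l) ∈ N → l = 0 := fun g hg l hl e =>
    h.ani l hl (hd _ (mul_mem (h.mem l hl) hl) (h.sq hg l ▸ e))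
  refine ⟨(fun c => t - c) '' C', hC'.image (continuous_sub_left t), fun g h1 h2 => ?_⟩
  obtain ⟨l, hl, e⟩ := hr (lm g (τ g) h1 h2) (hs g h1) (hs (τ g) (by rwa [h.inv])) t
  refine ⟨l, hl, hWu l hl ?_, _, e, sub_sub_cancel t (g * l)⟩
  have := hW (τ g) _ ⟨⟨τ g, g, h1, h2⟩, rfl⟩ (ht _ e)
  change τ g * (t - (t - g * l)) ∈ W at this
  rwa [sub_sub_cancel, ← mul_assoc, h1, one_mul] at this

/-- **cocompactness of the unitary group** -/
theorem Lat.unitary (h : Lat τ Λ) : ∃ C : Set A, IsCompact C ∧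
    ∀ g, τ g * g = 1 → g * τ g = 1 → ∃ u ∈ Λ, τ u * u = 1 ∧ u * τ u = 1 ∧ g * u ∈ C := by
  obtain ⟨C, hC, hc⟩ := h.coc
  obtain ⟨C₁, hC₁, h₁⟩ := h.exists_unit
  have hq : Continuous fun x => τ x * x := h.cont.mul continuous_id
  have hr : ∀ x : A, IsUnit x → ∃ l ∈ Λ, ∃ c ∈ C, x - l * (τ x * x) = c * (τ x * x) := by
    intro x hx
    obtain ⟨f, hf⟩ := (h.isUnit hx).mul hx
    obtain ⟨l, hl, e⟩ := hc (x * (f⁻¹ : Aˣ))
    exact ⟨l, hl, _, e, by rw [← hf, sub_mul, Units.inv_mul_cancel_right]⟩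
  choose! l hl hlc using hr
  let S : Set A := {x | x ∈ Λ ∧ IsUnit x ∧ τ x * x ∈ (fun x => τ x * x) '' C₁}
  let cl : A → A × A := fun x => (τ x * x, x - l x * (τ x * x))
  have hfin : (cl '' S).Finite := by
    refine ((h.finite (hC₁.image hq)).biUnion fun f _ =>
      (h.finite (hC.image (continuous_mul_const f))).image (Prod.mk f)).subset ?_
    rintro _ ⟨x, ⟨hx, hu, hx1⟩, rfl⟩
    have hf := mul_mem (h.mem x hx) hx
    obtain ⟨c, hc, e⟩ := hlc x hu
    exact mem_iUnion₂.2 ⟨_, ⟨hx1, hf⟩, _, ⟨⟨c, hc, e.symm⟩, sub_mem hx (mul_mem (hl x hu) hf)⟩, rfl⟩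
  obtain ⟨T, hTS, hT, hTe⟩ := hfin.exists_subset_finite_image_eq subset_rfl
  refine ⟨⋃ y ∈ T, (fun c => c * Ring.inverse y) '' C₁,
    hT.isCompact_biUnion fun y _ => hC₁.image (continuous_mul_const _), fun g h1 h2 => ?_⟩
  obtain ⟨x, hx, hu, hgx⟩ := h₁ g h1 h2
  obtain ⟨y, hy, e⟩ : cl x ∈ cl '' T := hTe ▸ ⟨x, ⟨hx, hu, _, hgx, h.sq h1 x⟩, rfl⟩
  obtain ⟨hyΛ, hyu, -⟩ := hTS hy
  obtain ⟨e1, e2⟩ := Prod.mk.inj e
  have hyi := Ring.mul_inverse_cancel y hyu
  have hu1 : τ (x * Ring.inverse y) * (x * Ring.inverse y) = 1 := by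
    rw [h.mul, mul_assoc, ← mul_assoc (τ x), ← e1, mul_assoc, hyi, mul_one, ← h.mul, hyi, h.one]
  refine ⟨x * Ring.inverse y, ?_, hu1, ?_, mem_iUnion₂.2 ⟨y, hy, _, hgx, mul_assoc _ _ _⟩⟩
  · have : x = y + (l x - l y) * (τ y * y) := by
      rw [← e1] at e2
      rw [sub_mul, ← add_sub_assoc, add_sub_right_comm, e2, sub_add_cancel]
    rw [this, add_mul, hyi, mul_assoc, mul_assoc, hyi, mul_one]
    exact add_mem (one_mem _) (mul_mem (sub_mem (hl x hu) (hl y hyu)) (h.mem y hyΛ))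
  · obtain ⟨v, hv⟩ := hu.mul hyu.ringInverse
    rw [← hv] at hu1 ⊢
    rw [Units.eq_inv_of_mul_eq_one_right hu1, Units.mul_inv]

/-- **cocompactness of the special unitary group** -/
theorem Lat.special (h : Lat τ Λ) {Z : Type*} [Monoid Z] [TopologicalSpace Z] (ν : A →* Z)
    (hν : Continuous ν) (hf : ∀ K : Set Z, IsCompact K → (K ∩ ν '' Λ).Finite) :
    ∃ C : Set A, IsCompact C ∧ ∀ g, τ g * g = 1 → g * τ g = 1 → ν g = 1 →
      ∃ u ∈ Λ, τ u * u = 1 ∧ u * τ u = 1 ∧ ν u = 1 ∧ g * u ∈ C := by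
  obtain ⟨C, hC, hc⟩ := h.unitary
  let S : Set A := {u | u ∈ Λ ∧ τ u * u = 1 ∧ u * τ u = 1 ∧ ν u ∈ ν '' C}
  have hfin : (ν '' S).Finite := by
    refine (hf _ (hC.image hν)).subset ?_
    rintro _ ⟨u, hu, rfl⟩
    exact ⟨hu.2.2.2, u, hu.1, rfl⟩
  obtain ⟨T, hTS, hT, hTe⟩ := hfin.exists_subset_finite_image_eq subset_rfl
  refine ⟨⋃ y ∈ T, (fun c => c * τ y) '' C,
    hT.isCompact_biUnion fun y _ => hC.image (continuous_mul_const _), fun g h1 h2 h3 => ?_⟩
  obtain ⟨u, hu, u1, u2, hgu⟩ := hc g h1 h2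
  obtain ⟨y, hy, e⟩ : ν u ∈ ν '' T :=
    hTe ▸ ⟨u, ⟨hu, u1, u2, _, hgu, by rw [map_mul, h3, one_mul]⟩, rfl⟩
  obtain ⟨hyΛ, y1, y2, -⟩ := hTS hy
  refine ⟨u * τ y, mul_mem hu (h.mem y hyΛ), ?_, ?_, ?_,
    mem_iUnion₂.2 ⟨y, hy, _, hgu, mul_assoc _ _ _⟩⟩
  · rw [h.sq u1, h.inv, y2]
  · rw [h.mul, h.inv, mul_assoc, ← mul_assoc (τ y), y1, one_mul, u2]
  · rw [map_mul, ← e, ← map_mul, y2, map_one]

/-- the same with the lattice on the left: `g = u * c` -/
theorem Lat.special' (h : Lat τ Λ) {Z : Type*} [Monoid Z] [TopologicalSpace Z] [T1Space Z]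
    (ν : A →* Z) (hν : Continuous ν) (hf : ∀ K : Set Z, IsCompact K → (K ∩ ν '' Λ).Finite) :
    ∃ C : Set A, IsCompact C ∧ (∀ c ∈ C, τ c * c = 1 ∧ c * τ c = 1 ∧ ν c = 1) ∧
      ∀ g, τ g * g = 1 → g * τ g = 1 → ν g = 1 →
        ∃ u ∈ Λ, τ u * u = 1 ∧ u * τ u = 1 ∧ ν u = 1 ∧ ∃ c ∈ C, g = u * c := by
  obtain ⟨C, hC, hc⟩ := h.special ν hν hf
  have hν' : ∀ g, τ g * g = 1 → ν g = 1 → ν (τ g) = 1 := fun g h1 h2 => by
    have := congrArg ν h1
    rwa [map_mul, h2, mul_one, map_one] at this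
  refine ⟨τ '' C ∩ {c | τ c * c = 1 ∧ c * τ c = 1 ∧ ν c = 1}, (hC.image h.cont).inter_right
    ((isClosed_singleton.preimage (h.cont.mul continuous_id)).inter
      ((isClosed_singleton.preimage (continuous_id.mul h.cont)).inter
        (isClosed_singleton.preimage hν))), fun c hc => hc.2, fun g h1 h2 h3 => ?_⟩
  obtain ⟨u, hu, u1, u2, u3, e⟩ := hc (τ g) (by rwa [h.inv]) (by rwa [h.inv]) (hν' g h1 h3)
  refine ⟨u, hu, u1, u2, u3, τ u * g, ⟨⟨_, e, by rw [h.mul, h.inv]⟩, ?_, ?_, ?_⟩,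
    by rw [← mul_assoc, u2, one_mul]⟩
  · rw [h.sq (by rwa [h.inv]), h1]
  · rw [h.mul, h.inv, mul_assoc, ← mul_assoc g, h2, one_mul, u1]
  · rw [map_mul, h3, hν' u u1 u3, one_mul]

/-- group form: `G` any topological group embedded onto `SU (A)`; `G = G (Λ) * C` -/
theorem Lat.group (h : Lat τ Λ) {Z : Type*} [Monoid Z] [TopologicalSpace Z] [T1Space Z]
    (ν : A →* Z) (hν : Continuous ν) (hf : ∀ K : Set Z, IsCompact K → (K ∩ ν '' Λ).Finite)
    {G : Type*} [Group G] [TopologicalSpace G] (i : G →* A) (hi : IsEmbedding i)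
    (hr : ∀ a, a ∈ range i ↔ τ a * a = 1 ∧ a * τ a = 1 ∧ ν a = 1) :
    ∃ C : Set G, IsCompact C ∧ ∀ g, ∃ γ, i γ ∈ Λ ∧ ∃ c ∈ C, g = γ * c := by
  obtain ⟨C, hC, hCU, hc⟩ := h.special' ν hν hf
  refine ⟨i ⁻¹' C, (hi.isInducing.isCompact_preimage_iff fun c hc => (hr c).2 (hCU c hc)).2 hC,
    fun g => ?_⟩
  obtain ⟨h1, h2, h3⟩ := (hr (i g)).1 ⟨g, rfl⟩
  obtain ⟨u, hu, u1, u2, u3, c, hcC, e⟩ := hc _ h1 h2 h3
  obtain ⟨γ, rfl⟩ := (hr u).2 ⟨u1, u2, u3⟩
  obtain ⟨c, rfl⟩ := (hr c).2 (hCU c hcC)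
  exact ⟨γ, hu, c, hcC, hi.injective (by rw [map_mul, e])⟩


end Ring

end Crest.Agent.T24.Coc
end

-- ▼ part T24/CocK_98
section

/-!
# Row 24 (helper98): `S`-integers are discrete, cocompact and dense at the finite places
-/

set_option autoImplicit false

namespace Crest.Agent.T24.Coc

open Set Filter Topology NumberField IsDedekindDomain WithZero
open NumberField.mixedEmbedding (mixedSpace normAtPlace)
open Crest.Agent.T24.Asa (Pl)

section ALat

variable {V V' : Type*} [AddCommGroup V] [TopologicalSpace V] [AddCommGroup V'] [TopologicalSpace V']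

/-- discrete, cocompact, and surjective modulo every open subgroup -/
structure ALat (Λ : AddSubgroup V) : Prop where
  disc : ∃ N ∈ 𝓝 (0 : V), ∀ l ∈ Λ, l ∈ N → l = 0
  coc : ∃ C, IsCompact C ∧ ∀ a, ∃ l ∈ Λ, a - l ∈ C
  sa : ∀ H : AddSubgroup V, IsOpen (H : Set V) → ∀ a, ∃ l ∈ Λ, a - l ∈ H

theorem ALat.sandwich {Λ₁ Λ Λ₂ : AddSubgroup V} (h₁ : ALat Λ₁) (h₂ : ALat Λ₂) (h : Λ₁ ≤ Λ)
    (h' : Λ ≤ Λ₂) : ALat Λ := by
  obtain ⟨N, hN, hd⟩ := h₂.disc
  obtain ⟨C, hC, hc⟩ := h₁.coc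
  refine ⟨⟨N, hN, fun l hl => hd l (h' hl)⟩, ⟨C, hC, fun a => ?_⟩, fun H hH a => ?_⟩
  · obtain ⟨l, hl, e⟩ := hc a
    exact ⟨l, h hl, e⟩
  · obtain ⟨l, hl, e⟩ := h₁.sa H hH a
    exact ⟨l, h hl, e⟩

theorem ALat.equiv {Λ : AddSubgroup V} {Λ' : AddSubgroup V'} (h : ALat Λ') (Φ : V ≃ₜ+ V')
    (e : ∀ x, x ∈ Λ ↔ Φ x ∈ Λ') : ALat Λ := by
  obtain ⟨N, hN, hd⟩ := h.disc
  obtain ⟨C, hC, hc⟩ := h.coc
  refine ⟨⟨Φ ⁻¹' N, (map_continuous Φ).continuousAt.preimage_mem_nhds (by rwa [map_zero]),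
    fun l hl hl' => Φ.injective (by rw [map_zero]; exact hd _ ((e l).1 hl) hl')⟩,
    ⟨Φ ⁻¹' C, Φ.toHomeomorph.isCompact_preimage.2 hC, fun a => ?_⟩, fun H hH a => ?_⟩
  · obtain ⟨l, hl, h1⟩ := hc (Φ a)
    exact ⟨Φ.symm l, (e _).2 (by simpa using hl), by simpa using h1⟩
  · obtain ⟨l, hl, h1⟩ := h.sa (H.comap (Φ.symm : V' →+ V)) (hH.preimage Φ.symm.continuous) (Φ a)
    exact ⟨Φ.symm l, (e _).2 (by simpa using hl), by simpa using AddSubgroup.mem_comap.1 h1⟩

theorem ALat.pi {Λ : AddSubgroup V} (h : ALat Λ) (ι : Type*) [Finite ι] :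
    ALat (AddSubgroup.pi univ fun _ : ι => Λ) := by
  classical
  cases nonempty_fintype ι
  obtain ⟨N, hN, hd⟩ := h.disc
  obtain ⟨C, hC, hc⟩ := h.coc
  refine ⟨⟨univ.pi fun _ => N, set_pi_mem_nhds finite_univ fun _ _ => hN,
    fun l hl hl' => funext fun i => hd _ (hl i trivial) (hl' i trivial)⟩,
    ⟨univ.pi fun _ => C, isCompact_univ_pi fun _ => hC, fun a => ?_⟩, fun H hH a => ?_⟩
  · choose l hl e using fun i => hc (a i)
    exact ⟨l, fun i _ => hl i, fun i _ => e i⟩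
  · choose l hl e using fun i => h.sa (H.comap (AddMonoidHom.single (fun _ : ι => V) i))
      (hH.preimage (continuous_single i)) (a i)
    refine ⟨l, fun i _ => hl i, ?_⟩
    rw [← Finset.univ_sum_single (a - l)]
    exact sum_mem fun i _ => e i

end ALat

section Scalar

open scoped Valued

variable {k : Type*} [Field k] [NumberField k]

theorem isCompact_int (v : Pl k) : IsCompact {x : v.adicCompletion k | Valued.v x ≤ 1} := by
  have := Loc.proper_adic k v
  have e : {x : v.adicCompletion k | Valued.v x ≤ 1} = Metric.closedBall 0 1 := by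
    ext x
    rw [mem_closedBall_zero_iff, Valued.toNormedField.norm_le_one_iff, mem_ofPred_eq]
  rw [e]
  exact isCompact_closedBall _ _

theorem int_mem_nhds (v : Pl k) : {x : v.adicCompletion k | Valued.v x ≤ 1} ∈ 𝓝 0 :=
  (Valued.isOpen_valuationSubring (v.adicCompletion k)).mem_nhds (by simp)

theorem tendsto_of_val (v : Pl k) {z : ℕ → v.adicCompletion k}
    (h : ∀ m : ℕ, Valued.v (z m) ≤ exp (-(m : ℤ))) : Tendsto z atTop (𝓝 0) := by
  obtain ⟨π, hπ⟩ := v.valuation_exists_uniformizer k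
  rw [← v.valuedAdicCompletion_eq_valuation'] at hπ
  have h1 : ‖(π : v.adicCompletion k)‖ < 1 := by
    rw [Valued.toNormedField.norm_lt_one_iff, hπ, ← exp_zero, exp_lt_exp]
    norm_num
  refine squeeze_zero_norm (fun m => ?_) (tendsto_pow_atTop_nhds_zero_of_lt_one (norm_nonneg _) h1)
  rw [← norm_pow, Valued.toNormedField.norm_le_iff, map_pow, hπ, ← exp_nsmul]
  simpa using h m

variable {σ : Type*} (p : σ → Pl k)

/-- integers outside the places `p s` -/
def OS : Subring k where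
  carrier := {x | ∀ v, v ∉ range p → v.valuation k x ≤ 1}
  mul_mem' hx hy v hv := by rw [map_mul]; exact mul_le_one' (hx v hv) (hy v hv)
  one_mem' v _ := by rw [map_one]
  add_mem' hx hy v hv := Valuation.map_add_le _ (hx v hv) (hy v hv)
  zero_mem' v _ := by rw [map_zero]; exact zero_le
  neg_mem' hx v hv := by rw [Valuation.map_neg]; exact hx v hv


theorem int_mem_OS (z : 𝓞 k) : (z : k) ∈ OS p := fun v _ => Asa.val_int v z

/-- the product of the completions -/
abbrev RS : Type _ := mixedSpace k × ∀ s, (p s).adicCompletion k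

/-- the diagonal embedding -/
noncomputable def dS : k →+* RS p :=
  (mixedEmbedding k).prod (RingHom.pi fun s => algebraMap k ((p s).adicCompletion k))


variable [Finite σ] (hp : Function.Injective p)
include hp

theorem approx_p (a : ∀ s, (p s).adicCompletion k) (m : ℕ) : ∃ x ∈ OS p,
    ∀ s, Valued.v (a s - algebraMap k ((p s).adicCompletion k) x) ≤ exp (-(m : ℤ)) := by
  choose y hy using fun s => Asa.exists_near_completion (p s) (a s) m
  obtain ⟨x, h1, h2⟩ := Asa.approx_fin (finite_range p).toFinset (Function.extend p y 0) m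
  refine ⟨x, fun v hv => h2 v (by simpa using hv), fun s => ?_⟩
  have h3 := h1 (p s) (by simp)
  rw [hp.extend_apply, ← (p s).valuedAdicCompletion_eq_valuation'] at h3
  have e : a s - algebraMap k ((p s).adicCompletion k) x =
      -(((y s : k) : (p s).adicCompletion k) - a s) -
        algebraMap k ((p s).adicCompletion k) (x - y s) := by
    rw [map_sub, neg_sub, sub_sub_sub_comm, sub_sub_sub_comm]
    exact (sub_sub_sub_cancel_right _ _ _).symm
  rw [e]
  exact Valuation.map_sub_le _ (by rw [Valuation.map_neg]; exact hy s) h3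

omit [Finite σ] hp in
theorem disc_inf : ∃ N ∈ 𝓝 (0 : mixedSpace k), ∀ z : 𝓞 k, mixedEmbedding k z ∈ N → z = 0 := by
  have h1 : IsOpen ({0} : Set (mixedEmbedding.integerLattice k)) := isOpen_discrete _
  obtain ⟨N, hN, e⟩ := isOpen_induced_iff.1 h1
  refine ⟨N, hN.mem_nhds ?_, fun z hz => ?_⟩
  · exact (Set.ext_iff.1 e 0).2 rfl
  · have := (Set.ext_iff.1 e ⟨mixedEmbedding k z, z, rfl⟩).1 hz
    have h2 : mixedEmbedding k z = 0 := congrArg Subtype.val this
    simpa using h2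

omit [Finite σ] hp in
theorem coc_inf : ∃ C : Set (mixedSpace k), IsCompact C ∧
    ∀ b, ∃ z : 𝓞 k, b - mixedEmbedding k z ∈ C := by
  classical
  obtain ⟨C, -, hc⟩ := Asa.exists_close (k := k)
  refine ⟨Metric.closedBall 0 C, isCompact_closedBall _ _, fun b => ?_⟩
  obtain ⟨z, hz⟩ := hc b
  refine ⟨z, ?_⟩
  rw [mem_closedBall_zero_iff, norm_sub_rev, mixedEmbedding.norm_eq_sup'_normAtPlace,
    Finset.sup'_le_iff]
  exact fun w _ => hz w

omit hp in
theorem disc_OS : ∃ N ∈ 𝓝 (0 : RS p), ∀ x ∈ OS p, dS p x ∈ N → x = 0 := by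
  obtain ⟨N, hN, hd⟩ := disc_inf (k := k)
  refine ⟨N ×ˢ univ.pi fun s => {x | Valued.v x ≤ 1},
    prod_mem_nhds hN (set_pi_mem_nhds finite_univ fun s _ => int_mem_nhds (p s)), ?_⟩
  rintro x hx ⟨h1, h2⟩
  obtain ⟨z, rfl⟩ := HeightOneSpectrum.mem_integers_of_valuation_le_one (R := 𝓞 k) k x fun v => by
    by_cases hv : v ∈ range p
    · obtain ⟨s, rfl⟩ := hv
      rw [← (p s).valuedAdicCompletion_eq_valuation']
      exact h2 s trivial
    · exact hx v hv
  rw [hd z h1, map_zero]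

theorem coc_OS : ∃ C : Set (RS p), IsCompact C ∧ ∀ a, ∃ x ∈ OS p, a - dS p x ∈ C := by
  obtain ⟨C, hC, hc⟩ := coc_inf (k := k)
  refine ⟨C ×ˢ univ.pi fun s => {x | Valued.v x ≤ 1},
    hC.prod (isCompact_univ_pi fun s => isCompact_int (p s)), fun a => ?_⟩
  obtain ⟨x, hx, h1⟩ := approx_p p hp a.2 0
  obtain ⟨z, hz⟩ := hc (a.1 - mixedEmbedding k x)
  refine ⟨x + z, add_mem hx (int_mem_OS p z), ?_, fun s _ => ?_⟩
  · change a.1 - mixedEmbedding k (x + z) ∈ _
    rwa [map_add, ← sub_sub]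
  · change Valued.v (a.2 s - algebraMap k _ (x + z)) ≤ 1
    rw [map_add, ← sub_sub]
    refine Valuation.map_sub_le _ (by simpa using h1 s) ?_
    exact ((p s).valuedAdicCompletion_eq_valuation' _).trans_le (Asa.val_int _ z)

theorem sa_OS (H : AddSubgroup (RS p)) (hH : IsOpen (H : Set (RS p))) (a : RS p) :
    ∃ x ∈ OS p, a - dS p x ∈ H := by
  have h0 : (H : Set (RS p)) ∈ 𝓝 0 := hH.mem_nhds H.zero_mem
  have hinf : ∀ y : mixedSpace k, ((y, 0) : RS p) ∈ H := by
    intro y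
    have h1 : Tendsto (fun n : ℕ => ((((n + 1 : ℕ) : ℝ)⁻¹ • y, 0) : RS p)) atTop (𝓝 (0, 0)) := by
      refine Tendsto.prodMk_nhds ?_ tendsto_const_nhds
      simpa using ((tendsto_inv_atTop_nhds_zero_nat (𝕜 := ℝ)).comp
        (tendsto_add_atTop_nat 1)).smul_const y
    obtain ⟨n, hn⟩ := (h1.eventually h0).exists
    have h2 := H.nsmul_mem hn (n + 1)
    rwa [Prod.smul_mk, smul_zero, ← Nat.cast_smul_eq_nsmul ℝ, smul_inv_smul₀ (by positivity)] at h2
  choose x hx h1 using approx_p p hp a.2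
  have h2 : Tendsto (fun m => ((0, fun s => a.2 s - algebraMap k _ (x m)) : RS p)) atTop
      (𝓝 (0, 0)) :=
    tendsto_const_nhds.prodMk_nhds (tendsto_pi_nhds.2 fun s => tendsto_of_val _ fun m => h1 m s)
  obtain ⟨m, hm⟩ := (h2.eventually h0).exists
  refine ⟨x m, hx m, ?_⟩
  have h3 := add_mem (hinf (a.1 - mixedEmbedding k (x m))) hm
  rwa [Prod.mk_add_mk, add_zero, zero_add] at h3

theorem alat_OS : ALat ((OS p).toAddSubgroup.map (dS p : k →+ RS p)) := by
  obtain ⟨N, hN, hd⟩ := disc_OS p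
  obtain ⟨C, hC, hc⟩ := coc_OS p hp
  refine ⟨⟨N, hN, ?_⟩, ⟨C, hC, fun a => ?_⟩, fun H hH a => ?_⟩
  · rintro _ ⟨x, hx, rfl⟩ h
    rw [hd x hx h, map_zero]
  · obtain ⟨x, hx, h⟩ := hc a
    exact ⟨_, ⟨x, hx, rfl⟩, h⟩
  · obtain ⟨x, hx, h⟩ := sa_OS p hp H hH a
    exact ⟨_, ⟨x, hx, rfl⟩, h⟩

end Scalar

end Crest.Agent.T24.Coc
end

-- ▼ part T24/CocS_98

/-!
# Row 24: `S`-arithmetic subgroups of an anisotropic unitary group are cocompact lattices.
-/

set_option autoImplicit false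
set_option linter.unusedSectionVars false
set_option linter.style.haveILetI false

noncomputable section

namespace Crest.Agent.T24

open Module Csa Asa Set Filter Topology NumberField IsDedekindDomain BC Coc
open scoped NumberField

universe u v w

variable {k K B : Type*} [Field k] [NumberField k] [Field K] [NumberField K] [Algebra k K]
  [StarRing K] [Quad k K] [Ring B] [StarRing B] [Algebra K B] [StarModule K B]
  [Algebra.IsCentral K B] [IsSimpleRing B] [FiniteDimensional K B] [Algebra k B]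
  [IsScalarTower k K B]

theorem BC.isOpen_isUnit {R : Type*} [CommRing R] [Algebra k R] [TopologicalSpace R]
    [IsTopologicalRing R] (hR : IsOpen {r : R | IsUnit r}) :
    IsOpen {x : BC k K B R | IsUnit x} := by
  haveI := finite_kB k K B
  let b := bas k K B R (finBasis k B)
  haveI : Module.Free R (BC k K B R) := Module.Free.of_basis b
  have : {x : BC k K B R | IsUnit x} =
      (fun x => (Algebra.leftMulMatrix b x).det) ⁻¹' {r : R | IsUnit r} := by
    ext x
    simp only [mem_ofPred_eq, mem_preimage]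
    rw [← Algebra.norm_eq_matrix_det, Algebra.norm_apply, ← LinearMap.isUnit_iff_isUnit_det,
      ← Algebra.lmul_isUnit_iff (R := R)]
  rw [this]
  exact hR.preimage (IsModuleTopology.continuous_of_linearMap
    (Algebra.leftMulMatrix b).toLinearMap).matrix_det

instance : Nontrivial (Inf k) := inferInstanceAs (Nontrivial (mixedEmbedding.mixedSpace k))

namespace Ord
variable (Λ : Ord K B)

theorem int_smul (d : 𝓞 k) {x : B} (hx : x ∈ Λ.O) : (d : k) • x ∈ Λ.O := by
  have := Λ.O.mul_mem (Λ.int (algebraMap (𝓞 k) (𝓞 K) d)) hx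
  rwa [← Algebra.smul_def, show ((algebraMap (𝓞 k) (𝓞 K) d : 𝓞 K) : K) =
    algebraMap k K (d : k) from rfl, algebraMap_smul] at this

theorem le_At (v : Pl k) : Λ.O ≤ Λ.At v := fun x hx =>
  ⟨1, (Ideal.ne_top_iff_one _).1 v.isPrime.ne_top, by simpa using hx⟩

theorem smul_mem_At {v : Pl k} {c : k} (hc : v.valuation k c ≤ 1) {x : B} (hx : x ∈ Λ.At v) :
    c • x ∈ Λ.At v := by
  obtain ⟨n, d, h⟩ := v.exists_primeCompl_mul_eq_of_integer c hc
  obtain ⟨c', h1, h2⟩ := hx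
  refine ⟨d * c', fun h' => (v.isPrime.mem_or_mem h').elim d.2 h1, ?_⟩
  have := Λ.int_smul n h2
  rw [smul_smul] at this ⊢
  convert this using 2
  rw [show (n : k) = c * ((d : 𝓞 k) : k) from h.symm]
  push_cast; ring

theorem isIntegral {x : B} (hx : x ∈ Λ.O) : IsIntegral ℤ x :=
  IsIntegral.of_mem_of_fg (subalgebraOfSubring Λ.O)
    ((Submodule.fg_iff_addSubgroup_fg _).2 Λ.fg) x hx

theorem Nrd_mem {x : B} (hx : x ∈ Λ.O) : algebraMap K B (Nrd K x) ∈ Λ.O :=
  Λ.int ⟨Nrd K x, isIntegral_Nrd (R := ℤ) (Λ.isIntegral hx)⟩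

/-- the central part of an order -/
def ctr : Ord K K where
  O := Λ.O.comap (algebraMap K B)
  star_mem x hx := by
    rw [Subring.mem_comap, ← Csa.star_algebraMap]; exact Λ.star_mem _ hx
  fg := by
    have h : (AddSubgroup.toIntSubmodule Λ.O.toAddSubgroup).FG :=
      (Submodule.fg_iff_addSubgroup_fg _).2 Λ.fg
    let f : K →ₗ[ℤ] B := (algebraMap K B).toAddMonoidHom.toIntLinearMap
    have h2 : ((AddSubgroup.toIntSubmodule Λ.O.toAddSubgroup).comap f).FG :=
      Submodule.fg_of_fg_map_injective f (algebraMap K B).injective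
        (h.of_le (Submodule.map_comap_le _ _))
    exact (Submodule.fg_iff_addSubgroup_fg _).1 h2
  den x := by
    obtain ⟨n, h1, h2⟩ := Λ.den (algebraMap K B x)
    exact ⟨n, h1, by rwa [Subring.mem_comap, map_mul, map_natCast]⟩
  int c := Λ.int c

theorem Nrd_mem_At {v : Pl k} {x : B} (hx : x ∈ Λ.At v) : Nrd K x ∈ Λ.ctr.At v := by
  obtain ⟨c, h1, h2⟩ := hx
  refine ⟨c ^ deg K B, fun h => h1 (v.isPrime.mem_of_pow_mem _ h), ?_⟩
  have := Λ.Nrd_mem h2
  rw [← algebraMap_smul K, Nrd_smul, ← map_pow, ← Algebra.smul_def] at this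
  exact_mod_cast this

theorem Nrd_mem_Off {S : Finset (Pl k)} {x : B} (hx : x ∈ Λ.Off S) : Nrd K x ∈ Λ.ctr.Off S :=
  mem_Off.2 fun v hv => Λ.Nrd_mem_At (mem_Off.1 hx v hv)

theorem star_mem_Off {S : Finset (Pl k)} {x : B} (hx : x ∈ Λ.Off S) : star x ∈ Λ.Off S :=
  mem_Off.2 fun v hv => Λ.star_mem_At v (mem_Off.1 hx v hv)

/-- a basis inside the order -/
theorem exists_basis_in : ∃ e : Basis (Fin (finrank k B)) k B, ∀ i, e i ∈ Λ.O := by
  haveI := finite_kB k K B
  choose n h1 h2 using Λ.den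
  let e := finBasis k B
  refine ⟨e.unitsSMul fun i => Units.mk0 (n (e i) : k) (Nat.cast_ne_zero.2 (h1 _)), fun i => ?_⟩
  rw [Basis.unitsSMul_apply, Units.smul_def, Units.val_mk0, Nat.cast_smul_eq_nsmul, nsmul_eq_mul]
  exact h2 _

/-- a basis whose lattice contains the order -/
theorem exists_basis_out : ∃ e : Basis (Fin (finrank k B)) k B,
    ∀ x ∈ Λ.O, ∀ i, ∃ r : 𝓞 k, (r : k) = e.repr x i := by
  haveI := finite_kB k K B
  let e := finBasis k B
  obtain ⟨s, hs⟩ := Λ.fg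
  obtain ⟨d, h0, hd⟩ := exists_den (s ×ˢ Finset.univ) fun p : B × Fin (finrank k B) => e.repr p.1 p.2
  have hdk : (d : k) ≠ 0 := by simpa using h0
  refine ⟨e.unitsSMul fun _ => (Units.mk0 (d : k) hdk)⁻¹, fun x hx i => ?_⟩
  rw [Basis.repr_unitsSMul, inv_inv, Units.smul_def, Units.val_mk0, smul_eq_mul]
  have hx' : x ∈ AddSubgroup.closure (s : Set B) := by rw [hs]; exact hx
  clear hx
  induction hx' using AddSubgroup.closure_induction with
  | mem y hy => exact hd (y, i) (Finset.mem_product.2 ⟨hy, Finset.mem_univ _⟩)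
  | zero => exact ⟨0, by simp⟩
  | add y z _ _ hy hz =>
    obtain ⟨a, ha⟩ := hy
    obtain ⟨b, hb⟩ := hz
    exact ⟨a + b, by simp [ha, hb, mul_add]⟩
  | neg y _ hy =>
    obtain ⟨a, ha⟩ := hy
    exact ⟨-a, by simp [ha]⟩

end Ord

variable (k K B) in
/-- `B ⊗ k_S` -/
abbrev AS (S : Finset (Pl k)) : Type _ := BC k K B (Inf k) × ((v : S) → BC k K B (Kv v.1))

variable (k K B) in
/-- the diagonal embedding -/
def jA (S : Finset (Pl k)) : B →+* AS k K B S :=
  (inc k K B (Inf k)).toRingHom.prod (RingHom.pi fun v => (inc k K B (Kv v.1)).toRingHom)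

theorem jA_injective (S : Finset (Pl k)) : Function.Injective (jA k K B S) := fun _ _ h =>
  inc_injective k K B (Inf k) (congrArg Prod.fst h)

theorem star_jA (S : Finset (Pl k)) (x : B) : star (jA k K B S x) = jA k K B S (star x) := rfl

section Lat
variable (S : Finset (Pl k)) {ι : Type*} [Fintype ι] (e : Basis ι k B)

variable (K) in
/-- coordinates -/
def crdS : AS k K B S ≃ₜ+ (ι → RS (Subtype.val : S → Pl k)) where
  toFun a i := (crd k K B (Inf k) e a.1 i, fun v => crd k K B (Kv v.1) e (a.2 v) i)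
  invFun y := ((crd k K B (Inf k) e).symm fun i => (y i).1,
    fun v => (crd k K B (Kv v.1) e).symm fun i => (y i).2 v)
  left_inv _ := Prod.ext ((crd k K B (Inf k) e).symm_apply_apply _)
    (funext fun v => (crd k K B (Kv v.1) e).symm_apply_apply _)
  right_inv y := funext fun i => Prod.ext
    (congrFun ((crd k K B (Inf k) e).apply_symm_apply fun i => (y i).1) i)
    (funext fun v => congrFun ((crd k K B (Kv v.1) e).apply_symm_apply fun i => (y i).2 v) i)
  map_add' a b := funext fun i => Prod.ext (congrFun (map_add (crd k K B (Inf k) e) a.1 b.1) i)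
    (funext fun v => congrFun (map_add (crd k K B (Kv v.1) e) (a.2 v) (b.2 v)) i)
  continuous_toFun := continuous_pi fun i => Continuous.prodMk
    ((continuous_apply i).comp ((crd k K B (Inf k) e).continuous.comp continuous_fst))
    (continuous_pi fun v => (continuous_apply i).comp ((crd k K B (Kv v.1) e).continuous.comp
      ((continuous_apply v).comp continuous_snd)))
  continuous_invFun := Continuous.prodMk
    ((crd k K B (Inf k) e).symm.continuous.comp
      (continuous_pi fun i => continuous_fst.comp (continuous_apply i)))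
    (continuous_pi fun v => (crd k K B (Kv v.1) e).symm.continuous.comp (continuous_pi fun i =>
      (continuous_apply v).comp (continuous_snd.comp (continuous_apply i))))

theorem crdS_jA (x : B) (i : ι) :
    crdS K S e (jA k K B S x) i = dS (Subtype.val : S → Pl k) (e.repr x i) :=
  Prod.ext (repr_inc k K B (Inf k) e x i) (funext fun v => repr_inc k K B (Kv v.1) e x i)

/-- the `S`-integral span of a basis -/
def LB : AddSubgroup B where
  carrier := {x | ∀ i, e.repr x i ∈ OS (Subtype.val : S → Pl k)}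
  add_mem' hx hy i := by rw [map_add]; exact add_mem (hx i) (hy i)
  zero_mem' i := by rw [map_zero]; exact zero_mem _
  neg_mem' hx i := by rw [map_neg]; exact neg_mem (hx i)

theorem alat_LB : ALat ((LB S e).map (jA k K B S : B →+ AS k K B S)) := by
  refine ((alat_OS (Subtype.val : S → Pl k) Subtype.val_injective).pi ι).equiv (crdS K S e)
    fun a => ⟨?_, fun h => ?_⟩
  · rintro ⟨x, hx, rfl⟩ i -
    exact ⟨_, hx i, (crdS_jA S e x i).symm⟩
  · choose y h1 h2 using fun i => h i (mem_univ i)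
    refine ⟨e.equivFun.symm y, fun i => ?_, (crdS K S e).injective (funext fun i => ?_)⟩
    · rw [← Basis.equivFun_apply, LinearEquiv.apply_symm_apply]; exact h1 i
    · refine (crdS_jA S e _ i).trans ?_
      rw [← Basis.equivFun_apply, LinearEquiv.apply_symm_apply]; exact h2 i

variable (Λ : Ord K B)

theorem alat_Off : ALat ((Λ.Off S).map (jA k K B S)).toAddSubgroup := by
  obtain ⟨e₁, h₁⟩ := Λ.exists_basis_in (k := k)
  obtain ⟨e₂, h₂⟩ := Λ.exists_basis_out (k := k)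
  refine (alat_LB S e₁).sandwich (alat_LB S e₂) ?_ ?_
  · rintro _ ⟨x, hx, rfl⟩
    refine ⟨x, Ord.mem_Off.2 fun v hv => ?_, rfl⟩
    rw [← e₁.sum_repr x]
    exact sum_mem fun i _ => Λ.smul_mem_At (hx i v (by simpa using hv)) (Λ.le_At v (h₁ i))
  · rintro _ ⟨x, hx, rfl⟩
    refine ⟨x, fun i v hv => ?_, rfl⟩
    obtain ⟨c, h1, h2⟩ := Ord.mem_Off.1 hx v (by simpa using hv)
    obtain ⟨r, hr⟩ := h₂ _ h2 i
    have h3 := val_int v r
    have h4 : v.valuation k (c : k) = 1 := by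
      rw [show (c : k) = algebraMap (𝓞 k) k c from rfl, v.valuation_of_algebraMap]
      exact v.intValuation_eq_one_iff.2 h1
    rwa [hr, map_smul, Finsupp.smul_apply, smul_eq_mul, map_mul, h4, one_mul] at h3

theorem big_inf {C : Set (BC k K B (Inf k))} (hC : IsCompact C) :
    ∃ t, ∀ c ∈ C, IsUnit (t - c) := by
  have ho : IsOpen {x : BC k K B (Inf k) | IsUnit x} := BC.isOpen_isUnit Units.isOpen
  have : ∀ᶠ ε : ℝ in 𝓝 0, ∀ c ∈ C, IsUnit (1 - algebraMap ℝ (Inf k) ε • c) := by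
    refine hC.eventually_forall_of_forall_eventually fun c _ => ?_
    have hc : Continuous fun z : ℝ × BC k K B (Inf k) => 1 - algebraMap ℝ (Inf k) z.1 • z.2 := by
      have := continuous_algebraMap ℝ (Inf k)
      fun_prop
    exact hc.continuousAt.eventually (ho.mem_nhds (by simp))
  obtain ⟨ε, h1, h2⟩ := ((this.filter_mono nhdsWithin_le_nhds).and
    (self_mem_nhdsWithin (s := {0}ᶜ))).exists
  have h3 : ε ≠ 0 := h2
  refine ⟨algebraMap ℝ (Inf k) ε⁻¹ • 1, fun c hc => ?_⟩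
  have : algebraMap ℝ (Inf k) ε⁻¹ • 1 - c = algebraMap (Inf k) _ (algebraMap ℝ (Inf k) ε⁻¹) *
      (1 - algebraMap ℝ (Inf k) ε • c) := by
    rw [← Algebra.smul_def, smul_sub, smul_smul, ← map_mul, inv_mul_cancel₀ h3, map_one, one_smul]
  rw [this]
  exact (((inv_ne_zero h3).isUnit.map _).map _).mul (h1 c hc)

theorem lat_Off (hB : Aniso B) :
    Lat (starAddEquiv (R := AS k K B S)).toAddMonoidHom ((Λ.Off S).map (jA k K B S)) where
  cont := continuous_star
  mul := star_mul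
  inv := star_star
  mem := by rintro _ ⟨x, hx, rfl⟩; exact ⟨star x, Λ.star_mem_Off hx, rfl⟩
  disc := (alat_Off S Λ).disc
  coc := (alat_Off S Λ).coc
  sa := (alat_Off S Λ).sa
  ani := by
    rintro _ ⟨x, -, rfl⟩ h
    rw [hB x (jA_injective (k := k) (K := K) S (by rw [map_mul, map_zero]; exact h)), map_zero]
  big := by
    refine ⟨{a | IsUnit a.1}, fun g a hg ha => (hg.map (RingHom.fst _ _)).mul ha, ?_, fun C hC => ?_⟩
    · rintro _ ⟨x, -, rfl⟩ h
      exact (isUnit_of_map (K := K) (inc k K B (Inf k)).toRingHom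
        (inc_injective k K B (Inf k)) h).map _
    · obtain ⟨t, ht⟩ := big_inf (hC.image continuous_fst)
      exact ⟨(t, 0), fun c hc => ht _ ⟨c, hc, rfl⟩⟩

end Lat

section Grp
variable (S : Finset (Pl k))

variable (k K B) in
/-- the unitary group inside the algebra -/
def iU : US k K B S →* AS k K B S where
  toFun u := (u.1, fun v => u.2 v)
  map_one' := rfl
  map_mul' _ _ := rfl

theorem isEmbedding_iU : IsEmbedding (iU k K B S) :=
  IsEmbedding.subtypeVal.prodMap (IsEmbedding.piMap fun _ => IsEmbedding.subtypeVal)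

theorem mem_range_iU (a : AS k K B S) :
    a ∈ range (iU k K B S) ↔ star a * a = 1 ∧ a * star a = 1 :=
  ⟨by rintro ⟨u, rfl⟩
      exact ⟨Prod.ext u.1.2.1 (funext fun v => (u.2 v).2.1),
        Prod.ext u.1.2.2 (funext fun v => (u.2 v).2.2)⟩,
    fun ⟨h1, h2⟩ => ⟨(⟨a.1, congrArg Prod.fst h1, congrArg Prod.fst h2⟩, fun v =>
      ⟨a.2 v, congrFun (congrArg Prod.snd h1) v, congrFun (congrArg Prod.snd h2) v⟩), rfl⟩⟩

theorem iU_jU (γ : unitary B) : iU k K B S (jU k K B S γ) = jA k K B S γ := rfl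

variable (k K B) in
/-- the special unitary group inside the unitary group -/
def gU : GS k K B S →* US k K B S where
  toFun u := (u.1, fun v => u.2 v)
  map_one' := rfl
  map_mul' _ _ := rfl

theorem isEmbedding_gU : IsEmbedding (gU k K B S) :=
  IsEmbedding.subtypeVal.prodMap (IsEmbedding.piMap fun _ => IsEmbedding.subtypeVal)


variable (k K B) in
/-- the reduced norm on `B ⊗ k_S` -/
def nrdS : AS k K B S →* AS k K K S where
  toFun a := (nrdK k K B _ a.1, fun v => nrdK k K B _ (a.2 v))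
  map_one' := Prod.ext (map_one (nrdK k K B _)) (funext fun _ => map_one (nrdK k K B _))
  map_mul' a b := Prod.ext (map_mul (nrdK k K B _) a.1 b.1)
    (funext fun v => map_mul (nrdK k K B _) (a.2 v) (b.2 v))

theorem continuous_nrdS : Continuous (nrdS k K B S) :=
  ((continuous_nrdK k K B _).comp continuous_fst).prodMk (continuous_pi fun v =>
    (continuous_nrdK k K B _).comp ((continuous_apply v).comp continuous_snd))

theorem nrdS_jA (x : B) : nrdS k K B S (jA k K B S x) = jA k K K S (Nrd K x) :=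
  Prod.ext (nrdK_inc x) (funext fun _ => nrdK_inc x)

theorem mem_range_gU (u : US k K B S) :
    u ∈ range (gU k K B S) ↔ nrdS k K B S (iU k K B S u) = 1 :=
  ⟨by rintro ⟨g, rfl⟩
      exact Prod.ext ((mem_SUc_iff _).1 g.1.2) (funext fun v => (mem_SUc_iff _).1 (g.2 v).2),
    fun h => ⟨(⟨u.1, (mem_SUc_iff _).2 (congrArg Prod.fst h)⟩, fun v =>
      ⟨u.2 v, (mem_SUc_iff _).2 (congrFun (congrArg Prod.snd h) v)⟩), rfl⟩⟩

variable (Λ : Ord K B)

theorem exists_GamU {u : US k K B S} (h : iU k K B S u ∈ (Λ.Off S).map (jA k K B S)) :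
    ∃ γ ∈ Λ.GamU S, jU k K B S γ = u := by
  obtain ⟨x, hx, e⟩ := h
  obtain ⟨h1, h2⟩ := (mem_range_iU S _).1 ⟨u, e.symm⟩
  rw [star_jA, ← map_mul, ← map_one (jA k K B S), (jA_injective S).eq_iff] at h1 h2
  exact ⟨⟨x, h1, h2⟩, hx, (isEmbedding_iU S).injective e⟩

theorem exists_Gam {g : GS k K B S}
    (h : iU k K B S (gU k K B S g) ∈ (Λ.Off S).map (jA k K B S)) :
    ∃ γ ∈ Λ.Gam S, jS k K B S γ = g := by
  obtain ⟨γ, hγ, e⟩ := exists_GamU S Λ h
  have h1 := (mem_range_gU S _).1 ⟨g, e.symm⟩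
  rw [iU_jU, nrdS_jA, ← map_one (jA k K K S), (jA_injective S).eq_iff] at h1
  exact ⟨⟨γ, h1⟩, hγ, (isEmbedding_gU S).injective e⟩

theorem disc_GamU :
    ∃ V ∈ 𝓝 (1 : US k K B S), ∀ γ ∈ Λ.GamU S, jU k K B S γ ∈ V → γ = 1 := by
  obtain ⟨N, hN, h⟩ := (alat_Off S Λ).disc
  have hc : Continuous fun u => iU k K B S u - 1 := (isEmbedding_iU S).continuous.sub continuous_const
  refine ⟨_, hc.continuousAt.preimage_mem_nhds (by rwa [map_one, sub_self]), fun γ hγ hV => ?_⟩
  have := h _ ⟨(γ : B) - 1, (Λ.Off S).sub_mem hγ (Λ.Off S).one_mem, rfl⟩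
    (by rw [map_sub, map_one]; exact hV)
  rw [← map_zero (jA k K B S), (jA_injective S).eq_iff, sub_eq_zero] at this
  exact Subtype.ext this

theorem disc_Gam :
    ∃ V ∈ 𝓝 (1 : GS k K B S), ∀ γ ∈ Λ.Gam S, jS k K B S γ ∈ V → γ = 1 := by
  obtain ⟨V, hV, h⟩ := disc_GamU S Λ
  exact ⟨_, (isEmbedding_gU S).continuous.continuousAt.preimage_mem_nhds (by rwa [map_one]),
    fun γ hγ hV => Subtype.ext (h _ hγ hV)⟩

theorem coc_GamU (hB : Aniso B) : ∃ C : Set (US k K B S), IsCompact C ∧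
    ∀ x, ∃ γ ∈ Λ.GamU S, (jU k K B S γ)⁻¹ * x ∈ C := by
  obtain ⟨C, hC, h⟩ := (lat_Off S Λ hB).group (Z := Unit) 1 continuous_const
    (fun _ _ => toFinite _) (iU k K B S) (isEmbedding_iU S)
    (fun a => (mem_range_iU S a).trans ⟨fun h => ⟨h.1, h.2, rfl⟩, fun h => ⟨h.1, h.2.1⟩⟩)
  refine ⟨C, hC, fun x => ?_⟩
  obtain ⟨u, hu, c, hc, rfl⟩ := h x
  obtain ⟨γ, hγ, rfl⟩ := exists_GamU S Λ hu
  exact ⟨γ, hγ, by rwa [inv_mul_cancel_left]⟩

theorem coc_Gam (hB : Aniso B) : ∃ C : Set (GS k K B S), IsCompact C ∧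
    ∀ x, ∃ γ ∈ Λ.Gam S, (jS k K B S γ)⁻¹ * x ∈ C := by
  obtain ⟨C, hC, h⟩ := (lat_Off S Λ hB).group (nrdS k K B S) (continuous_nrdS S)
    (fun C hC => (finite_inter _ (alat_Off S Λ.ctr).disc hC).subset (inter_subset_inter_right _ (by
      rintro _ ⟨_, ⟨x, hx, rfl⟩, rfl⟩
      exact ⟨_, Λ.Nrd_mem_Off hx, (nrdS_jA S x).symm⟩)))
    ((iU k K B S).comp (gU k K B S)) ((isEmbedding_iU S).comp (isEmbedding_gU S))
    (fun a => ⟨by
      rintro ⟨g, rfl⟩
      obtain ⟨h1, h2⟩ := (mem_range_iU S _).1 ⟨gU k K B S g, rfl⟩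
      exact ⟨h1, h2, (mem_range_gU S _).1 ⟨g, rfl⟩⟩, fun ⟨h1, h2, h3⟩ => by
      obtain ⟨u, rfl⟩ := (mem_range_iU S a).2 ⟨h1, h2⟩
      obtain ⟨g, rfl⟩ := (mem_range_gU S u).2 h3
      exact ⟨g, rfl⟩⟩)
  refine ⟨C, hC, fun x => ?_⟩
  obtain ⟨u, hu, c, hc, rfl⟩ := h x
  obtain ⟨γ, hγ, rfl⟩ := exists_Gam S Λ hu
  exact ⟨γ, hγ, by rwa [inv_mul_cancel_left]⟩

open scoped Classical

variable (k K B) in
/-- forget the place `v` -/
def prS (v : Pl k) : GS k K B (insert v S) →* GS k K B S where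
  toFun g := (g.1, fun w => g.2 ⟨w.1, Finset.mem_insert_of_mem w.2⟩)
  map_one' := rfl
  map_mul' _ _ := rfl

variable (k K B) in
/-- the component at `v` -/
def prV (v : Pl k) : GS k K B (insert v S) →* SUc k K B (Kv v) where
  toFun g := g.2 ⟨v, Finset.mem_insert_self v S⟩
  map_one' := rfl
  map_mul' _ _ := rfl

theorem continuous_prS (v : Pl k) : Continuous (prS k K B S v) :=
  continuous_fst.prodMk (continuous_pi fun _ => (continuous_apply _).comp continuous_snd)

theorem continuous_prV (v : Pl k) : Continuous (prV k K B S v) :=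
  (continuous_apply _).comp continuous_snd

/-- extension by `1` -/
def ext1 (x : GS k K B S) (w : Pl k) : SUc k K B (Kv w) := if h : w ∈ S then x.2 ⟨w, h⟩ else 1

theorem ext1_pos (x : GS k K B S) {w : Pl k} (h : w ∈ S) : ext1 S x w = x.2 ⟨w, h⟩ := dif_pos h

theorem continuous_ext1 : Continuous (ext1 (k := k) (K := K) (B := B) S) := by
  refine continuous_pi fun w => ?_
  by_cases h : w ∈ S
  · simp only [ext1, dif_pos h]; fun_prop
  · simp only [ext1, dif_neg h]; fun_prop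

/-- add the place `v` -/
def glue (v : Pl k) (x : SUc k K B (Kv v) × GS k K B S) : GS k K B (insert v S) :=
  (x.2.1, fun w => Function.update (ext1 S x.2) v x.1 w.1)

theorem continuous_glue (v : Pl k) : Continuous (glue (k := k) (K := K) (B := B) S v) :=
  (continuous_fst.comp continuous_snd).prodMk (continuous_pi fun w => (continuous_apply w.1).comp
    (((continuous_ext1 S).comp continuous_snd).update v continuous_fst))

theorem prV_glue (v : Pl k) (x : SUc k K B (Kv v) × GS k K B S) :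
    prV k K B S v (glue S v x) = x.1 := (Function.update_self v x.1 (ext1 S x.2) :)

theorem prS_glue {v : Pl k} (hv : v ∉ S) (x : SUc k K B (Kv v) × GS k K B S) :
    prS k K B S v (glue S v x) = x.2 :=
  Prod.ext rfl (funext fun w => ((Function.update_of_ne (fun h : w.1 = v => hv (h ▸ w.2)) x.1
    (ext1 S x.2)).trans (ext1_pos S x.2 w.2) :))

theorem glue_pr (v : Pl k) (g : GS k K B (insert v S)) :
    glue S v (prV k K B S v g, prS k K B S v g) = g := by
  refine Prod.ext rfl (funext fun ⟨w, hw⟩ => ?_)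
  by_cases h : w = v
  · subst h; exact Function.update_self w (prV k K B S w g) (ext1 S (prS k K B S w g))
  · exact (Function.update_of_ne h (prV k K B S v g) (ext1 S (prS k K B S v g))).trans
      (ext1_pos S _ ((Finset.mem_insert.1 hw).resolve_left h))

end Grp

variable (k K B) in
theorem coc (hB : Aniso B) : Coc k K B := by
  classical
  intro Λ S
  refine ⟨disc_GamU S Λ, coc_GamU S Λ hB, coc_Gam S Λ hB, fun v hv s => ?_⟩
  obtain ⟨e, he⟩ := splIso k K B v s
  constructor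
  · obtain ⟨V, hV, h⟩ := disc_Gam (insert v S) Λ
    have hc : Continuous fun x : Matrix.SpecialLinearGroup (Fin (deg K B)) (Kv v) × GS k K B S =>
        glue S v (e.symm x.1, x.2) :=
      (continuous_glue S v).comp ((e.symm.continuous.comp continuous_fst).prodMk continuous_snd)
    have h1 : glue S v (e.symm 1, (1 : GS k K B S)) = 1 := by
      rw [map_one]; exact glue_pr S v 1
    obtain ⟨V₁, h₁, V₂, h₂, hs⟩ := mem_nhds_prod_iff.1
      (hc.continuousAt (x := (1, 1)).preimage_mem_nhds (by rwa [h1]))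
    refine ⟨V₁, h₁, V₂, h₂, fun γ hγ g1 g2 => h γ hγ ?_⟩
    have := hs (mk_mem_prod g1 g2)
    rw [mem_preimage, ← he, ContinuousMulEquiv.symm_apply_apply] at this
    rwa [← glue_pr S v (jS k K B (insert v S) γ)]
  · obtain ⟨C, hC, h⟩ := coc_Gam (insert v S) Λ hB
    refine ⟨e '' (prV k K B S v '' C), prS k K B S v '' C,
      (hC.image (continuous_prV S v)).image e.continuous, hC.image (continuous_prS S v),
      fun x₁ x₂ => ?_⟩
    obtain ⟨γ, hγ, hc⟩ := h (glue S v (e.symm x₁, x₂))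
    refine ⟨γ, hγ, ⟨_, ⟨_, hc, rfl⟩, ?_⟩, ⟨_, hc, ?_⟩⟩
    · rw [map_mul, map_inv, prV_glue, map_mul, map_inv, ContinuousMulEquiv.apply_symm_apply, ← he]
      rfl
    · rw [map_mul, map_inv, prS_glue S hv]
      rfl

theorem cocStmt : CocStmt.{u, v, w} := fun D => coc D.k D.K D.B

end Crest.Agent.T24
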