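import Crest.Agent.T24.HgtDefB_88

-- ▼ part T24/HgtLow_41
section

/-!
# Row 24, heights: the lower bound at a prime with a degree one idempotent (`LowStmt`) (helper41)
-/

set_option autoImplicit false
set_option linter.unusedSectionVars false

noncomputable section

namespace Crest.Agent.T24.Hgt

open Filter Topology Module Finset

universe u

namespace L41

/-! ## a finite ring with an idempotent of degree one -/

section abs

variable {R : Type*} [Ring R] {p : ℕ} {e θ : R} {σ : R →+ R}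

/-- the data modulo `p` -/
structure Dt (p : ℕ) (e θ : R) (σ : R →+ R) : Prop where
  prime : p.Prime
  ne2 : p ≠ 2
  ch : (p : R) = 0
  idem : e * e = e
  one : ∀ x, ∃ c : ℤ, e * x * e = c * e
  nd : ∀ x : R, (∀ w, ∃ a b, w * x = a * b ∧ b * a = 0) → x = 0
  cen : ∀ x, θ * x = x * θ
  unit : ∃ t, t * θ = 1
  mul : ∀ x y, σ (x * y) = σ y * σ x
  sur : Function.Surjective σ
  th : σ θ = -θ

theorem Dt.inv' (h : Dt p e θ σ) {c : ℤ} (hc : ¬ (p : ℤ) ∣ c) : ∃ k : ℤ, (k : R) * c = 1 := by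
  obtain ⟨a, b, hab⟩ := ((Nat.prime_iff_prime_int.1 h.prime).coprime_iff_not_dvd).2 hc
  refine ⟨b, ?_⟩
  have := congrArg (Int.cast : ℤ → R) hab
  push_cast at this
  rwa [h.ch, mul_zero, zero_add] at this

theorem Dt.inv (h : Dt p e θ σ) {c : ℤ} {x : R} (hc : (c : R) * x ≠ 0) : ∃ k : ℤ, (k : R) * c = 1 := by
  refine h.inv' fun ⟨d, hd⟩ => hc ?_
  rw [hd]; push_cast; rw [h.ch, zero_mul, zero_mul]

theorem Dt.small (h : Dt p e θ σ) (c : ℤ) : ∃ k ∈ range p, (c : R) = (k : ℕ) := by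
  have hp : (0 : ℤ) < p := by exact_mod_cast h.prime.pos
  have h1 := Int.emod_nonneg c hp.ne'
  have h2 := Int.emod_lt_of_pos c hp
  refine ⟨(c % p).toNat, mem_range.2 (by omega), ?_⟩
  have h3 := congrArg (Int.cast : ℤ → R) (Int.emod_add_mul_ediv c p)
  push_cast at h3
  rw [h.ch, zero_mul, add_zero] at h3
  rw [← h3, ← Int.cast_natCast (c % p).toNat, Int.toNat_of_nonneg h1]

theorem Dt.fib1 (h : Dt p e θ σ) {y z y' z' : R} (hy : y * e = y) (hz : e * z = z) (hy' : y' * e = y')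
    (h0 : y * z = y' * z') (h1 : z ≠ 0) : ∃ k ∈ range p, y = (k : ℕ) * y' := by
  obtain ⟨w, hw⟩ : ∃ w, z * (w * e) ≠ 0 := by
    by_contra h2
    push Not at h2
    exact h1 (h.nd z fun w => ⟨w * e, z, by rw [mul_assoc, hz], h2 w⟩)
  obtain ⟨c, hc⟩ := h.one (z * w)
  obtain ⟨c', hc'⟩ := h.one (z' * w)
  rw [← mul_assoc, hz, mul_assoc] at hc
  obtain ⟨k, hk⟩ := h.inv (hc ▸ hw)
  obtain ⟨j, hj, hj'⟩ := h.small (k * c')
  refine ⟨j, hj, ?_⟩
  have e1 : (c : R) * y = c' * y' := by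
    calc (c : R) * y = y * (c * e) := by rw [← mul_assoc, ← (Int.cast_commute c y).eq, mul_assoc, hy]
      _ = y' * e * z' * (w * e) := by rw [← hc, ← mul_assoc, h0, hy']
      _ = y' * (c' * e) := by rw [← hc']; simp only [mul_assoc]
      _ = _ := by rw [← mul_assoc, ← (Int.cast_commute c' y').eq, mul_assoc, hy']
  rw [← hj', Int.cast_mul, mul_assoc, ← e1, ← mul_assoc, hk, one_mul]

theorem Dt.fib2 (h : Dt p e θ σ) {y z : R} (hy : y * e = y) (hz : e * z = z) (h0 : y * z = 0)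
    (h1 : y ≠ 0) : z = 0 := by
  obtain ⟨w, hw⟩ : ∃ w, e * (w * y) ≠ 0 := by
    by_contra h2
    push Not at h2
    exact h1 (h.nd y fun w => ⟨w * y, e, by rw [mul_assoc, hy], h2 w⟩)
  obtain ⟨c, hc⟩ := h.one (w * y)
  rw [mul_assoc, mul_assoc, hy] at hc
  obtain ⟨k, hk⟩ := h.inv (hc ▸ hw)
  have : (c : R) * z = 0 := by
    rw [← hz, ← mul_assoc, ← hc, mul_assoc, mul_assoc, h0, mul_zero, mul_zero]
  rw [← one_mul z, ← hk, mul_assoc, this, mul_zero]

theorem Dt.inj (h : Dt p e θ σ) {y z y' z' : R} (hz : e * z = z) (hz' : e * z' = z')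
    (h0 : y * z - y' * z' + σ (y * z - y' * z') = 0) : y * z = y' * z' := by
  obtain ⟨l, hl⟩ := h.one θ
  rw [← h.cen, mul_assoc, h.idem] at hl
  have k : ∀ y z : R, e * z = z → θ * (y * z) = l * (y * z) := fun y z hz => by
    rw [← hz, ← mul_assoc, h.cen, mul_assoc, ← mul_assoc θ, hl, ← mul_assoc, ← mul_assoc,
      ← (Int.cast_commute l y).eq]
    simp only [mul_assoc]
  obtain ⟨x, hx⟩ : ∃ x, x = y * z - y' * z' := ⟨_, rfl⟩
  have k1 : θ * x = l * x := by rw [hx, mul_sub, mul_sub, k y z hz, k y' z' hz']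
  rw [← hx] at h0
  have k2 : θ * σ x = -(l * σ x) := by
    have := congrArg σ k1
    rw [h.mul, h.th, ← zsmul_eq_mul, map_zsmul, zsmul_eq_mul, mul_neg, ← h.cen] at this
    rw [← this, neg_neg]
  have k3 : ((2 : ℤ) : R) * (θ * x) = 0 := by
    have : (θ + l) * (x + σ x) = 0 := by rw [h0, mul_zero]
    rw [add_mul, mul_add, mul_add, k2, ← k1] at this
    rw [← this]; push_cast; noncomm_ring
  obtain ⟨j, hj⟩ := h.inv' (c := 2) fun h2 =>
    h.ne2 ((Nat.prime_dvd_prime_iff_eq h.prime Nat.prime_two).1 (by exact_mod_cast h2))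
  obtain ⟨t, ht⟩ := h.unit
  have k4 : θ * x = 0 := by rw [← one_mul (θ * x), ← hj, mul_assoc, k3, mul_zero]
  rw [← sub_eq_zero, ← hx, ← one_mul x, ← ht, mul_assoc, k4, mul_zero]

/-- `R e` -/
def Yg (e : R) : AddSubgroup R := (AddMonoidHom.mulRight e).eqLocus (AddMonoidHom.id R)
/-- `e R` -/
def Zg (e : R) : AddSubgroup R := (AddMonoidHom.mulLeft e).eqLocus (AddMonoidHom.id R)

theorem mem_Y {y : R} : y ∈ Yg e ↔ y * e = y := Iff.rfl
theorem mem_Z {z : R} : z ∈ Zg e ↔ e * z = z := Iff.rfl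

/-- the right ideal generated by `c (y z + (y z)*)` is small -/
theorem Dt.size [Finite R] (h : Dt p e θ σ) (y : Yg e) (z : Zg e) (c : R) (A : AddSubgroup R)
    (hA : ∀ a ∈ A, ∃ r, a = c * (y * z + σ (y * z)) * r) :
    Nat.card A ≤ Nat.card (Yg e) * Nat.card (Zg e) := by
  rw [← Nat.card_prod]
  have h1 : (A : Set R) ⊆ Set.range fun q : Yg e × Zg e => c * (y * q.2 + σ (q.1 * z)) := by
    intro a ha
    obtain ⟨r, rfl⟩ := hA a ha
    obtain ⟨r', rfl⟩ := h.sur r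
    refine ⟨(⟨r' * y, mem_Y.2 (by rw [mul_assoc, mem_Y.1 y.2])⟩,
      ⟨z * σ r', mem_Z.2 (by rw [← mul_assoc, mem_Z.1 z.2])⟩), ?_⟩
    simp only [mul_assoc, h.mul, add_mul]
  exact (Nat.card_mono (Set.toFinite _) h1).trans (Finite.card_range_le _)

theorem half {Y Z : Type*} [AddCommGroup Y] [AddCommGroup Z] [Fintype Y] [Fintype Z]
    (β : Y → AddChar Z ℂ) (hβ : ∀ y y', β (y + y') = β y + β y') (h : ∃ y, β y ≠ 0) :
    (Fintype.card Y * Fintype.card Z : ℝ) / 2 ≤ ∑ y, ∑ z, (1 - (β y z).re) := by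
  classical
  obtain ⟨y₀, h₀⟩ := h
  have k : ∀ y, ∑ z, (1 - (β y z).re) = if β y = 0 then 0 else (Fintype.card Z : ℝ) := fun y => by
    rw [sum_sub_distrib, ← Complex.re_sum, AddChar.sum_eq_ite]
    split_ifs <;> simp
  have k2 : ∑ y, ∑ z, (1 - (β (y + y₀) z).re) = ∑ y, ∑ z, (1 - (β y z).re) :=
    Equiv.sum_comp (Equiv.addRight y₀) fun y => ∑ z, (1 - (β y z).re)
  have k3 : ∑ _y : Y, (Fintype.card Z : ℝ) ≤
      ∑ y, (∑ z, (1 - (β (y + y₀) z).re) + ∑ z, (1 - (β y z).re)) := sum_le_sum fun y _ => by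
    rw [k, k, hβ]
    by_cases h1 : β y = 0
    · simp [h1, h₀]
    · rw [if_neg h1]; split_ifs <;> simp
  rw [sum_add_distrib, k2, sum_const, card_univ, nsmul_eq_mul] at k3
  linarith

theorem Dt.sum [Finite R] (h : Dt p e θ σ) {C : Type*} [AddCommGroup C] (τ : R →+ C) (χ : AddChar C ℂ)
    (h1 : ∀ t, (χ t).re ≤ 1) (hτ : ∀ x, τ x = 0 → x + σ x = 0)
    (hn : ∃ a b, χ (τ (a * e * (e * b))) ≠ 1) :
    ∃ F : Finset C, (∀ t ∈ F, ∃ (y : Yg e) (z : Zg e), τ (y * z) = t) ∧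
      (Nat.card (Yg e) * Nat.card (Zg e) : ℝ) / (2 * p) ≤ ∑ t ∈ F, (1 - (χ t).re) := by
  classical
  have := Fintype.ofFinite (Yg e)
  have := Fintype.ofFinite (Zg e)
  obtain ⟨g, hg⟩ : ∃ g : Yg e × Zg e → C, g = fun q => τ (q.1 * q.2) := ⟨_, rfl⟩
  refine ⟨univ.image g, fun t ht => ?_, ?_⟩
  · obtain ⟨q, -, rfl⟩ := mem_image.1 ht
    exact ⟨q.1, q.2, by rw [hg]⟩
  have k := half (Y := Yg e) (Z := Zg e)
    (fun y => χ.compAddMonoidHom (τ.comp ((AddMonoidHom.mulLeft (y : R)).comp (Zg e).subtype)))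
    (fun y y' => by ext z; simp [add_mul, AddChar.map_add_eq_mul]) (by
      obtain ⟨a, b, hab⟩ := hn
      refine ⟨⟨a * e, mem_Y.2 (by rw [mul_assoc, h.idem])⟩, fun h2 => hab ?_⟩
      simpa using DFunLike.congr_fun h2 ⟨e * b, mem_Z.2 (by rw [← mul_assoc, h.idem])⟩)
  have k2 : ∑ q : Yg e × Zg e, (1 - (χ (g q)).re) ≤ ∑ t ∈ univ.image g, p * (1 - (χ t).re) := by
    rw [sum_comp (fun t => 1 - (χ t).re) g]
    refine sum_le_sum fun t ht => ?_
    by_cases h0 : t = 0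
    · simp [h0]
    obtain ⟨q₀, -, rfl⟩ := mem_image.1 ht
    rw [nsmul_eq_mul]
    refine mul_le_mul_of_nonneg_right ?_ (by linarith [h1 (g q₀)])
    have e1 : ∀ q ∈ univ.filter fun q => g q = g q₀, (q.1 : R) * q.2 = q₀.1 * q₀.2 ∧ (q.1 : R) * q.2 ≠ 0 := by
      intro q hq
      have h2 := (mem_filter.1 hq).2
      refine ⟨h.inj q.2.2 q₀.2.2 (hτ _ ?_), fun h3 => h0 ?_⟩
      · rw [map_sub, sub_eq_zero]; simpa only [hg] using h2
      · rw [← h2, hg]; simp [h3]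
    have e2 := card_le_card_of_injOn (s := univ.filter fun q => g q = g q₀)
      (t := (range p).image fun k : ℕ => (k : R) * q₀.1) (fun q => (q.1 : R)) (fun q hq => by
        obtain ⟨k, hk, hk'⟩ := h.fib1 q.1.2 q.2.2 q₀.1.2 (e1 q hq).1 (right_ne_zero_of_mul (e1 q hq).2)
        exact mem_coe.2 (mem_image.2 ⟨k, hk, hk'.symm⟩)) fun q hq q' hq' h3 => by
        have h4 : (q.1 : R) = q'.1 := h3
        refine Prod.ext (Subtype.ext h4) (sub_eq_zero.1 (Subtype.ext ?_))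
        refine h.fib2 q.1.2 (q.2 - q'.2).2 ?_ (left_ne_zero_of_mul (e1 q hq).2)
        rw [AddSubgroupClass.coe_sub, mul_sub, (e1 q hq).1, h4, (e1 q' hq').1, sub_self]
    exact_mod_cast e2.trans (card_image_le.trans_eq (card_range p))
  have hp : (0 : ℝ) < p := by exact_mod_cast h.prime.pos
  rw [← mul_sum, Fintype.sum_prod_type] at k2
  rw [Nat.card_eq_fintype_card, Nat.card_eq_fintype_card, ← div_div, div_le_iff₀' hp]
  refine k.trans (le_trans (le_of_eq ?_) k2)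
  simp [hg]

end abs

/-! ## the order modulo `p` -/

variable {B : Type u} [Ring B] [Algebra ℚ B] [StarRing B] [FiniteDimensional ℚ B] {O : Subring B} {θ : B}
  {p : ℕ}

theorem le_Loc (O : Subring B) (p : ℕ) : O ≤ Loc O p := fun x hx => ⟨1, by simp, one_ne_zero, by simpa⟩

theorem bez {m p : ℕ} (h : m.Coprime p) : ∃ a b : ℤ, ∀ x : B, x = a * (m * x) + p * (b * x) := by
  obtain ⟨a, b, hab⟩ := Nat.isCoprime_iff_coprime.2 h
  refine ⟨a, b, fun x => ?_⟩
  have := congrArg (Int.cast : ℤ → B) hab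
  push_cast at this
  rw [← mul_assoc, ← mul_assoc, ← add_mul, (Nat.cast_commute p (b : B)).eq, this, one_mul]

theorem mem_O {x y : B} (hx : x ∈ O) (hy : y ∈ Loc O p) (h : x = p * y) : y ∈ O := by
  obtain ⟨m, hm, -, hy⟩ := hy
  obtain ⟨a, b, hab⟩ := bez (B := B) hm
  rw [hab y, ← mul_assoc (p : B), (Nat.cast_commute p (b : B)).eq, mul_assoc (b : B), ← h]
  exact add_mem (mul_mem (intCast_mem O a) hy) (mul_mem (intCast_mem O b) hx)

theorem exists_quot (O : Subring B) (p : ℕ) : ∃ (R : Type u) (_ : Ring R) (π : Loc O p →+* R),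
    Function.Surjective (π.comp (Subring.inclusion (le_Loc O p))) ∧
      ∀ x, π x = 0 ↔ ∃ y ∈ Loc O p, (x : B) = p * y := by
  have : (Ideal.span {(p : Loc O p)}).IsTwoSided := ⟨fun {a} b ha => by
    obtain ⟨c, rfl⟩ := Ideal.mem_span_singleton'.1 ha
    exact Ideal.mem_span_singleton'.2 ⟨c * b, by rw [mul_assoc, mul_assoc, (Nat.cast_commute p b).eq]⟩⟩
  have k : ∀ x : Loc O p, Ideal.Quotient.mk (Ideal.span {(p : Loc O p)}) x = 0 ↔
      ∃ y ∈ Loc O p, (x : B) = p * y := fun x => by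
    rw [Ideal.Quotient.eq_zero_iff_mem, Ideal.mem_span_singleton']
    refine ⟨fun ⟨a, ha⟩ => ⟨a, a.2, ?_⟩, fun ⟨y, hy, h⟩ => ⟨⟨y, hy⟩, Subtype.ext ?_⟩⟩
    · rw [← ha]; push_cast; exact (Nat.cast_commute p _).eq.symm
    · rw [h]; push_cast; exact (Nat.cast_commute p _).eq.symm
  refine ⟨_, inferInstance, Ideal.Quotient.mk (Ideal.span {(p : Loc O p)}), fun r => ?_, k⟩
  obtain ⟨x, rfl⟩ := Ideal.Quotient.mk_surjective r
  obtain ⟨m, hm, -, hx⟩ := x.2
  obtain ⟨a, b, hab⟩ := bez (B := B) hm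
  refine ⟨⟨a * (m * x), mul_mem (intCast_mem O a) hx⟩, ?_⟩
  rw [RingHom.comp_apply, eq_comm, ← sub_eq_zero, ← map_sub, k]
  exact ⟨b * x, mul_mem (intCast_mem _ b) x.2, sub_eq_of_eq_add' (hab x)⟩

theorem lift {G H K : Type*} [AddGroup G] [AddGroup H] [AddGroup K] (f : G →+ H)
    (hf : Function.Surjective f) (g : G →+ K) (h : ∀ x, f x = 0 → g x = 0) :
    ∃ k : H →+ K, ∀ x, k (f x) = g x :=
  ⟨f.liftOfSurjective hf ⟨g, h⟩, fun x => f.liftOfRightInverse_comp_apply _ _ _ x⟩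

theorem cast_mul (m : ℕ) (x : B) : (m : B) * x = (m : ℚ) • x := by
  rw [Nat.cast_smul_eq_nsmul, nsmul_eq_mul]

theorem mul_dv (hp : p ≠ 0) (x : B) : (p : B) * ((p : ℚ)⁻¹ • x) = x := by
  rw [cast_mul, smul_smul, mul_inv_cancel₀ (by exact_mod_cast hp), one_smul]

theorem dv_mul (hp : p ≠ 0) (x : B) : (p : ℚ)⁻¹ • ((p : B) * x) = x := by
  rw [cast_mul, smul_smul, inv_mul_cancel₀ (by exact_mod_cast hp), one_smul]

theorem tr_comm (x y : B) : tr B (x * y) = tr B (y * x) := by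
  simp only [tr, LinearMap.comp_apply, AlgHom.toLinearMap_apply, map_mul]
  exact LinearMap.trace_mul_comm _ _ _

theorem nr_p (hp : p.Prime) : nr p (p : B) = ((p : ℝ) ^ finrank ℚ B)⁻¹ := by
  have := Fact.mk hp
  rw [nr, ← map_natCast (algebraMap ℚ B), Algebra.norm_algebraMap, IsAbsoluteValue.abv_pow (padicNorm p),
    padicNorm.padicNorm_p hp.one_lt]
  simp

theorem idx (hI : IdxStmt.{u}) (hO : Ord O θ) (hp : p.Prime) (u : Loc O p) (hu : nr p (u : B) ≠ 0) :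
    ((AddMonoidHom.mulLeft u).range.index : ℝ) * nr p (u : B) = 1 := by
  have h := (hI B O θ hO p hp (Algebra.lmul ℚ B u) (fun x hx => mul_mem u.2 hx) fun h => hu (by
    rw [nr, Algebra.norm_apply, h]; simp)).1
  have e : ((Loc O p).toAddSubgroup.map (Algebra.lmul ℚ B u).toAddMonoidHom).relIndex
      (Loc O p).toAddSubgroup = (AddMonoidHom.mulLeft u).range.index := by
    refine congrArg AddSubgroup.index (AddSubgroup.ext fun x => ?_)
    exact ⟨fun ⟨y, hy, h⟩ => ⟨⟨y, hy⟩, Subtype.ext h⟩, fun ⟨y, h⟩ => ⟨y, y.2, congrArg Subtype.val h⟩⟩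
  rw [e] at h
  rw [nr, Algebra.norm_apply]
  exact_mod_cast h

theorem card_R (hI : IdxStmt.{u}) (hO : Ord O θ) (hp : p.Prime) {R : Type*} [Ring R] (π : Loc O p →+* R)
    (h1 : Function.Surjective π) (h2 : ∀ x, π x = 0 ↔ ∃ y ∈ Loc O p, (x : B) = p * y) :
    Nat.card R = p ^ finrank ℚ B := by
  have hp0 : (0 : ℝ) < p := by exact_mod_cast hp.pos
  have e0 : ((p : Loc O p) : B) = p := by simp
  have h := idx hI hO hp (p : Loc O p) (by rw [e0, nr_p hp]; positivity)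
  have e : (AddMonoidHom.mulLeft (p : Loc O p)).range = π.toAddMonoidHom.ker := AddSubgroup.ext fun x =>
    ⟨fun ⟨y, h⟩ => (h2 x).2 ⟨y, y.2, by rw [← h]; simp⟩, fun h => by
      obtain ⟨y, hy, h⟩ := (h2 x).1 h
      exact ⟨⟨y, hy⟩, Subtype.ext (by rw [h]; simp)⟩⟩
  rw [e, AddSubgroup.index_ker, AddMonoidHom.range_eq_top_of_surjective _ h1, AddSubgroup.card_top, e0,
    nr_p hp, mul_inv_eq_one₀ (by positivity)] at h
  exact_mod_cast h

theorem nr_le (hI : IdxStmt.{u}) (hO : Ord O θ) (hp : p.Prime) {R : Type*} [Ring R] (π : Loc O p →+* R)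
    (h1 : Function.Surjective π) (h2 : Nat.card R = p ^ finrank ℚ B) (u : Loc O p) {X : ℕ}
    (hX : ∀ A : AddSubgroup R, (∀ a ∈ A, ∃ r, a = π u * r) → Nat.card A ≤ X) :
    nr p (u : B) ≤ X * nr p (p : B) := by
  have hp0 : (0 : ℝ) < p := by exact_mod_cast hp.pos
  rw [nr_p hp]
  by_cases hu : nr p (u : B) = 0
  · rw [hu]; positivity
  have h := idx hI hO hp u hu
  have h3 := Nat.le_of_dvd (Nat.pos_of_ne_zero fun e => by rw [e] at h; simp at h)
    ((AddMonoidHom.mulLeft u).range.index_map_dvd (f := π.toAddMonoidHom) h1)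
  have h4 := ((AddMonoidHom.mulLeft u).range.map π.toAddMonoidHom).card_mul_index
  have h5 := hX ((AddMonoidHom.mulLeft u).range.map π.toAddMonoidHom) (by
    rintro _ ⟨_, ⟨y, rfl⟩, rfl⟩
    exact ⟨π y, map_mul π u y⟩)
  have h6 : (p : ℝ) ^ finrank ℚ B ≤ X * (AddMonoidHom.mulLeft u).range.index := by
    exact_mod_cast h2 ▸ h4 ▸ Nat.mul_le_mul h5 h3
  have h7 : 0 ≤ nr p (u : B) := by rw [nr]; exact_mod_cast padicNorm.nonneg _
  rw [← div_eq_mul_inv, le_div_iff₀ (by positivity)]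
  calc _ ≤ nr p (u : B) * (X * (AddMonoidHom.mulLeft u).range.index) := by gcongr
    _ = X := by rw [mul_left_comm, mul_comm (nr _ _), h, mul_one]

/-- `O ν O` contains a non-zero integer -/
theorem simple [IsSimpleRing B] (hO : Ord O θ) {ν : B} (hν : ν ≠ 0) : ∃ m : ℕ, m ≠ 0 ∧
    ∀ A : AddSubgroup B, (∀ a ∈ O, ∀ b ∈ O, a * ν * b ∈ A) → (m : B) ∈ A := by
  have sw : ∀ (k m : ℕ) (x y : B), ((k * m : ℕ) : B) * (x * y) = (k * x) * (m * y) := fun k m x y => by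
    rw [cast_mul, cast_mul k, cast_mul m, smul_mul_smul_comm, Nat.cast_mul]
  have sm : ∀ (k m : ℕ) (a x b : B), a * (((k * m : ℕ) : B) * x) * b = k • (a * (m * x) * b) :=
    fun k m a x b => by
      rw [cast_mul, cast_mul m, ← Nat.cast_smul_eq_nsmul ℚ k, Nat.cast_mul]
      simp only [mul_smul_comm, smul_mul_assoc, mul_smul]
  have h := IsSimpleRing.one_mem_of_ne_zero_mem (TwoSidedIdeal.mk' {x : B | ∃ m : ℕ, m ≠ 0 ∧
      ∀ A : AddSubgroup B, (∀ a ∈ O, ∀ b ∈ O, a * ν * b ∈ A) → ∀ a ∈ O, ∀ b ∈ O, a * (m * x) * b ∈ A}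
    ⟨1, one_ne_zero, fun A _ a _ b _ => by simp⟩
    (fun {x y} ⟨m, hm, hx⟩ ⟨k, hk, hy⟩ => ⟨k * m, mul_ne_zero hk hm, fun A hA a ha b hb => by
      rw [mul_add, mul_add, add_mul, sm, mul_comm k m, sm]
      exact add_mem (nsmul_mem (hx A hA a ha b hb) k) (nsmul_mem (hy A hA a ha b hb) m)⟩)
    (fun {x} ⟨m, hm, hx⟩ => ⟨m, hm, fun A hA a ha b hb => by
      rw [mul_neg, mul_neg, neg_mul]; exact neg_mem (hx A hA a ha b hb)⟩)
    (fun {x y} ⟨m, hm, hy⟩ => by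
      obtain ⟨k, hk, hx⟩ := hO.full x
      exact ⟨k * m, mul_ne_zero hk hm, fun A hA a ha b hb => by
        rw [sw, ← mul_assoc a]; exact hy A hA _ (mul_mem ha hx) b hb⟩)
    (fun {x y} ⟨m, hm, hx⟩ => by
      obtain ⟨k, hk, hy⟩ := hO.full y
      exact ⟨m * k, mul_ne_zero hm hk, fun A hA a ha b hb => by
        rw [sw, ← mul_assoc a, mul_assoc _ _ b]; exact hx A hA a ha _ (mul_mem hy hb)⟩)) hν
    ((TwoSidedIdeal.mem_mk' ..).2 ⟨1, one_ne_zero, fun A hA a ha b hb => by simpa using hA a ha b hb⟩)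
  obtain ⟨m, hm, h⟩ := (TwoSidedIdeal.mem_mk' ..).1 h
  exact ⟨m, hm, fun A hA => by simpa using h A hA 1 (one_mem _) 1 (one_mem _)⟩

theorem exists_nu (hT : ∀ x : B, (∀ w, tr B (w * x) = 0) → x = 0) (l : B →ₗ[ℚ] ℚ) :
    ∃ ν : B, ∀ x, tr B (x * ν) = l (x + star x) := by
  have h : Function.Injective ((LinearMap.mul ℚ B).flip.compr₂ (tr B)) :=
    (injective_iff_map_eq_zero _).2 fun x hx => hT x fun w => LinearMap.congr_fun hx w
  obtain ⟨ν, hν⟩ := (LinearMap.injective_iff_surjective_of_finrank_eq_finrank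
    Subspace.dual_finrank_eq.symm).1 h
    { toFun := fun x => l (x + star x)
      map_add' := fun x y => by rw [star_add, ← map_add]; congr 1; abel
      map_smul' := fun q x => by rw [star_rat_smul, ← smul_add, map_smul]; rfl }
  exact ⟨ν, fun x => LinearMap.congr_fun hν x⟩

/-- `x ↦ (x + x*) / p` -/
def tau (hO : Ord O θ) (hp : p ≠ 0) : O →+ Jn (OS O p) where
  toFun x := ⟨(p : ℚ)⁻¹ • ((x : B) + star (x : B)), by
    refine ⟨?_, 1, ?_⟩
    · show star _ = _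
      rw [star_rat_smul, star_add, star_star, add_comm]
    · rw [pow_one, mul_dv hp]; exact add_mem x.2 (hO.star_mem _ x.2)⟩
  map_zero' := Subtype.ext (by simp)
  map_add' x y := Subtype.ext (by
    simp only [Subring.coe_add, star_add, AddSubgroup.coe_add, smul_add]; abel)

theorem out_eq (a : Jn (OS O p)) : ∃ j ∈ Jn O, ((QuotientAddGroup.mk a : Cp O p).out : B) = a + j := by
  obtain ⟨j, hj⟩ := QuotientAddGroup.mk_out_eq_add ((Jn O).addSubgroupOf (Jn (OS O p))) a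
  exact ⟨_, j.2, congrArg Subtype.val hj⟩

theorem exp_out {l : B →ₗ[ℚ] ℚ} (hl : ∀ a ∈ Jn O, ∃ m : ℤ, l a = m) (a : Jn (OS O p)) :
    Complex.exp ((2 * Real.pi * (l ((QuotientAddGroup.mk a : Cp O p).out : B) : ℝ) : ℝ) * Complex.I) =
      Complex.exp ((2 * Real.pi * (l a : ℝ) : ℝ) * Complex.I) := by
  obtain ⟨j, hj, e⟩ := out_eq a
  obtain ⟨m, hm⟩ := hl j hj
  rw [e, map_add, hm, Complex.exp_eq_exp_iff_exists_int]
  exact ⟨m, by push_cast; ring⟩

/-- the character -/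
def chi (p : ℕ) {l : B →ₗ[ℚ] ℚ} (hl : ∀ a ∈ Jn O, ∃ m : ℤ, l a = m) : AddChar (Cp O p) ℂ where
  toFun t := Complex.exp ((2 * Real.pi * (l (t.out : B) : ℝ) : ℝ) * Complex.I)
  map_zero_eq_one' := (exp_out hl 0).trans (by simp)
  map_add_eq_mul' s t := by
    induction s using QuotientAddGroup.induction_on
    induction t using QuotientAddGroup.induction_on
    rw [← QuotientAddGroup.mk_add, exp_out hl, exp_out hl, exp_out hl, ← Complex.exp_add]
    congr 1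
    simp only [AddSubgroup.coe_add, map_add]
    push_cast; ring

/-- the star on `O` -/
def st (hO : Ord O θ) : O →+ O where
  toFun x := ⟨star (x : B), hO.star_mem _ x.2⟩
  map_zero' := Subtype.ext (by simp)
  map_add' x y := Subtype.ext (by simp)

theorem uni (hG : Gp O θ p) (hb : Bas O p) {x : B}
    (h : ∀ w ∈ O, ∃ v ∈ Loc O p, tr B (w * x) = tr B (p * v)) : ∃ v ∈ Loc O p, x = p * v := by
  refine ⟨(p : ℚ)⁻¹ • x, hG.uni _ fun w hw => ?_, (mul_dv hG.prime.ne_zero x).symm⟩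
  obtain ⟨v, hv, e⟩ := h w hw
  rw [mul_smul_comm, map_smul, e, ← map_smul, dv_mul hG.prime.ne_zero]
  exact hb.tr_le v hv

theorem dt [Nontrivial B] (hO : Ord O θ) (hG : Gp O θ p) (hb : Bas O p) {R : Type*} [Ring R]
    (π : Loc O p →+* R) (ρ : O →+* R) (hρ : ∀ x : O, ρ x = π ⟨x, le_Loc O p x.2⟩)
    (h1 : Function.Surjective ρ) (h2 : ∀ x, π x = 0 ↔ ∃ y ∈ Loc O p, (x : B) = p * y) {σ : R →+ R}
    (hσ : ∀ x, σ (ρ x) = ρ (st hO x)) {e : O} (he : ∃ y ∈ O, (e : B) * e - e = p * y)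
    (he' : ∀ x ∈ O, ∃ c : ℤ, ∃ y ∈ O, (e : B) * x * e - c * e = p * y) :
    Dt p (ρ e) (ρ ⟨θ, hO.th_mem⟩) σ := by
  have k : ∀ x : O, ρ x = 0 ↔ ∃ y ∈ Loc O p, (x : B) = p * y := fun x => by rw [hρ, h2]
  refine ⟨hG.prime, ?_, ?_, ?_, fun x => ?_, fun x hx => ?_, fun x => ?_, ?_, fun x y => ?_, fun x => ?_, ?_⟩
  · have := hG.big
    have := finrank_pos (R := ℚ) (M := B)
    omega
  · rw [← map_natCast ρ, k]; exact ⟨1, one_mem _, by simp⟩
  · obtain ⟨y, hy, h⟩ := he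
    rw [← sub_eq_zero, ← map_mul, ← map_sub, k]
    exact ⟨y, le_Loc O p hy, h⟩
  · obtain ⟨x, rfl⟩ := h1 x
    obtain ⟨c, y, hy, h⟩ := he' x x.2
    refine ⟨c, ?_⟩
    rw [← sub_eq_zero, ← map_mul, ← map_mul, ← map_intCast ρ, ← map_mul, ← map_sub, k]
    exact ⟨y, le_Loc O p hy, h⟩
  · obtain ⟨x, rfl⟩ := h1 x
    refine (k x).2 (uni hG hb fun w hw => ?_)
    obtain ⟨a, b, h3, h4⟩ := hx (ρ ⟨w, hw⟩)
    obtain ⟨a, rfl⟩ := h1 a
    obtain ⟨b, rfl⟩ := h1 b
    rw [← sub_eq_zero, ← map_mul, ← map_mul, ← map_sub, k] at h3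
    rw [← map_mul, k] at h4
    obtain ⟨u, hu, h3⟩ := h3
    obtain ⟨v, hv, h4⟩ := h4
    refine ⟨u + v, add_mem hu hv, ?_⟩
    rw [mul_add, map_add, ← h3, ← h4, Subring.coe_mul, tr_comm (b : B), ← map_add]
    simp
  · obtain ⟨x, rfl⟩ := h1 x
    rw [← map_mul, ← map_mul]
    exact congrArg ρ (Subtype.ext (hO.th_comm x))
  · obtain ⟨t, ht, h⟩ := hG.th
    refine ⟨π ⟨t, ht⟩, ?_⟩
    rw [hρ, ← map_mul, ← map_one π]
    exact congrArg π (Subtype.ext h)
  · obtain ⟨x, rfl⟩ := h1 x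
    obtain ⟨y, rfl⟩ := h1 y
    rw [← map_mul, hσ, hσ, hσ, ← map_mul]
    exact congrArg ρ (Subtype.ext (star_mul (x : B) y))
  · obtain ⟨x, rfl⟩ := h1 x
    exact ⟨ρ (st hO x), by rw [hσ]; exact congrArg ρ (Subtype.ext (star_star (x : B)))⟩
  · rw [hσ, ← map_neg]
    exact congrArg ρ (Subtype.ext hO.th_star)

end L41

open L41

theorem lowStmt (hB : BasStmt.{u}) (hT : TrStmt.{u}) (hI : IdxStmt.{u}) : LowStmt.{u} := by
  intro B _ _ _ _ _ O θ hO l hl ⟨a₀, ha₀, ha₁⟩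
  obtain ⟨ν, hν⟩ := exists_nu (hT B).2 l
  have hν0 : ν ≠ 0 := fun e => ha₁ (by
    have := hν a₀
    rw [e, mul_zero, map_zero, ha₀, map_add] at this
    linarith)
  obtain ⟨M, hM, hA⟩ := simple hO hν0
  refine ⟨M, hM, fun p hpM hG ⟨e, he, he0, he1, he2⟩ s hs => ?_⟩
  have hp := hG.prime
  have hp0 := hp.ne_zero
  have := Fact.mk hp
  have hb := hB B O θ hO p hp
  obtain ⟨R, _, π, h1, h2⟩ := exists_quot O p
  have h1' : Function.Surjective π := Function.Surjective.of_comp h1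
  obtain ⟨ρ, hρ'⟩ : ∃ ρ, ρ = π.comp (Subring.inclusion (le_Loc O p)) := ⟨_, rfl⟩
  rw [← hρ'] at h1
  have hρ : ∀ x : O, ρ x = π ⟨x, le_Loc O p x.2⟩ := fun x => by rw [hρ']; rfl
  have k : ∀ x : O, ρ x = 0 ↔ ∃ y ∈ O, (x : B) = p * y := fun x => by
    rw [hρ, h2]
    exact ⟨fun ⟨y, hy, h⟩ => ⟨y, mem_O x.2 hy h, h⟩, fun ⟨y, hy, h⟩ => ⟨y, le_Loc O p hy, h⟩⟩
  have st_p : ∀ y : B, star ((p : B) * y) = p * star y := fun y => by
    rw [cast_mul, cast_mul, star_rat_smul]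
  obtain ⟨σ, hσ⟩ := lift ρ.toAddMonoidHom h1 (ρ.toAddMonoidHom.comp (st hO)) fun x hx => by
    obtain ⟨y, hy, h⟩ := (k x).1 hx
    exact (k _).2 ⟨star y, hO.star_mem y hy, (congrArg star h).trans (st_p y)⟩
  have hσ' : ∀ x, σ (ρ x) = ρ (st hO x) := hσ
  obtain ⟨τ, hτ⟩ := lift (K := Cp O p) ρ.toAddMonoidHom h1
    ((QuotientAddGroup.mk' _).comp (tau hO hp0)) fun x hx => by
      obtain ⟨y, hy, h⟩ := (k x).1 hx
      refine (QuotientAddGroup.eq_zero_iff _).2 ⟨(tau hO hp0 x).2.1, ?_⟩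
      show (p : ℚ)⁻¹ • ((x : B) + star (x : B)) ∈ O
      rw [h, st_p, ← mul_add, dv_mul hp0]
      exact add_mem hy (hO.star_mem y hy)
  have hτ' : ∀ x, τ (ρ x) = QuotientAddGroup.mk (tau hO hp0 x) := hτ
  have D := dt hO hG hb π ρ hρ h1 h2 hσ' (e := ⟨e, he⟩) he1 he2
  have hc := card_R hI hO hp π h1' h2
  have : Finite R := Nat.finite_of_card_ne_zero (by rw [hc]; positivity)
  obtain ⟨F, hF, hF'⟩ := D.sum τ (chi p hl)
    (fun t => (Complex.exp_ofReal_mul_I_re _).trans_le (Real.cos_le_one _))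
    (fun x hx => by
      obtain ⟨x, rfl⟩ := h1 x
      rw [hτ', QuotientAddGroup.eq_zero_iff] at hx
      rw [hσ', ← map_add, k]
      exact ⟨_, hx.2, (mul_dv hp0 _).symm⟩)
    (by
      by_contra h3
      push Not at h3
      have h4 : ∀ b ∈ O, (p : ℚ)⁻¹ • (e * e) * (b * ν) ∈ Loc O p := fun b hb' => hG.uni _ fun a ha => by
        have h5 := h3 (ρ ⟨a, ha⟩) (ρ ⟨b, hb'⟩)
        rw [← map_mul, ← map_mul, ← map_mul, hτ'] at h5
        obtain ⟨m, hm⟩ := Complex.exp_eq_one_iff.1 ((exp_out hl _).symm.trans h5)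
        have h6 : l ((p : ℚ)⁻¹ • (a * e * (e * b) + star (a * e * (e * b)))) = m := by
          have h7 : ((2 * Real.pi * (l ((p : ℚ)⁻¹ • (a * e * (e * b) + star (a * e * (e * b)))) : ℝ) : ℝ) : ℂ)
              = (2 * Real.pi * (m : ℝ) : ℝ) :=
            mul_right_cancel₀ Complex.I_ne_zero (hm.trans (by push_cast; ring))
          exact_mod_cast mul_left_cancel₀ (by positivity) (Complex.ofReal_injective h7)
        rw [map_smul, ← hν] at h6
        rw [smul_mul_assoc, mul_smul_comm, map_smul,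
          show a * (e * e * (b * ν)) = a * e * (e * b) * ν by simp only [mul_assoc], h6]
        exact padicNorm.of_int m
      have h5 : (p : ℚ)⁻¹ • (e * e) * M ∈ Loc O p :=
        hA ((Loc O p).toAddSubgroup.comap (AddMonoidHom.mulLeft ((p : ℚ)⁻¹ • (e * e)))) fun a ha b hb' => by
          show _ * _ ∈ Loc O p
          rw [← mul_assoc]
          exact mul_mem (h4 a ha) (le_Loc O p hb')
      have h6 : ρ (⟨e, he⟩ * ⟨e, he⟩ * M) = 0 := by
        rw [hρ, h2]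
        exact ⟨_, h5, by rw [← mul_assoc, mul_dv hp0]; simp⟩
      obtain ⟨j, hj⟩ := D.inv' (c := M) (by exact_mod_cast hpM)
      rw [map_mul, map_mul, D.idem, map_natCast, ← (Nat.cast_commute M _).eq] at h6
      refine he0 ((k ⟨e, he⟩).1 ?_)
      rw [← one_mul (ρ _), ← hj, mul_assoc, Int.cast_natCast, h6, mul_zero])
  obtain ⟨X, hX⟩ : ∃ X, X = Nat.card (Yg (ρ ⟨e, he⟩)) * Nat.card (Zg (ρ ⟨e, he⟩)) := ⟨_, rfl⟩
  have hp1 : (0 : ℝ) < p := by exact_mod_cast hp.pos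
  have hH : ∀ t ∈ F, Hp O p (t.out : B) 1 ≤ X := fun t ht => by
    obtain ⟨y, z, rfl⟩ := hF t ht
    obtain ⟨x, hx⟩ := h1 (y * z)
    obtain ⟨j, hj, e1⟩ := out_eq (tau hO hp0 x)
    rw [← hx, hτ', e1, hb.add _ j (le_Loc O p hj.2)]
    have e2 : (tau hO hp0 x : B) * p = x + star (x : B) := by
      rw [← (Nat.cast_commute p _).eq]; exact mul_dv hp0 _
    have h3 := hb.Hp_le ((tau hO hp0 x : B) * p) (1 * p) (X * nr p (p : B)) fun c hc' d hd => by
      refine nr_le hI hO hp π h1' hc (⟨c, hc'⟩ * ⟨_, le_Loc O p (x + st hO x).2⟩ + ⟨d, hd⟩ * p) ?_ |>.trans_eq' ?_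
      · intro A hA'
        rw [hX]
        refine D.size y z (π ⟨c, hc'⟩) A fun a ha => ?_
        obtain ⟨r, hr⟩ := hA' a ha
        refine ⟨r, hr.trans ?_⟩
        rw [map_add, map_mul, map_mul, map_natCast, D.ch, mul_zero, add_zero, ← hρ, map_add, ← hσ', hx]
      · rw [e2, one_mul]; simp [st]
    rw [hb.mul_right] at h3
    exact le_of_mul_le_mul_right h3 (by rw [nr_p hp]; positivity)
  have hX0 : (0 : ℝ) < X := by rw [hX]; exact_mod_cast Nat.mul_pos Nat.card_pos Nat.card_pos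
  have hX1 : (X : ℝ) ≤ (p : ℝ) ^ ((2 * finrank ℚ B : ℕ) : ℝ) := by
    rw [Real.rpow_natCast, hX, two_mul, pow_add]
    exact_mod_cast hc ▸ Nat.mul_le_mul (AddSubgroup.card_le_card_addGroup _)
      (AddSubgroup.card_le_card_addGroup _)
  rw [← Nat.cast_mul, ← hX] at hF'
  refine ⟨F, ?_⟩
  calc _ ≤ (X : ℝ) ^ (1 - s) / (2 * p) := by
        rw [show (2 * finrank ℚ B : ℝ) = ((2 * finrank ℚ B : ℕ) : ℝ) by push_cast; rfl, Real.rpow_mul hp1.le]
        exact div_le_div_of_nonneg_right (Real.rpow_le_rpow_of_nonpos hX0 hX1 (by linarith)) (by positivity)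
    _ = (X : ℝ) ^ (-s) * (X / (2 * p)) := by
        rw [sub_eq_neg_add, Real.rpow_add hX0, Real.rpow_one, mul_div_assoc]
    _ ≤ (X : ℝ) ^ (-s) * ∑ t ∈ F, (1 - (chi p hl t).re) := by gcongr
    _ ≤ _ := by
        rw [mul_sum]
        refine sum_le_sum fun t ht => ?_
        rw [show (chi p hl t).re = _ from Complex.exp_ofReal_mul_I_re _]
        exact mul_le_mul_of_nonneg_right (Real.rpow_le_rpow_of_nonpos (one_pos.trans_le (hb.one_le _))
          (hH t ht) (by linarith)) (by linarith [Real.cos_le_one (2 * Real.pi * (l (t.out : B) : ℝ))])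

end Crest.Agent.T24.Hgt
end
end

-- ▼ part T24/HgtAsmA_91
section

/-!
# Row 24, heights: splitting of the classes at one prime (for the assembly of `HtStmt`)
-/

set_option autoImplicit false
set_option linter.unusedSectionVars false

noncomputable section

namespace Crest.Agent.T24.Hgt.A91

open Filter Topology Module Crest.Agent.T24.Hgt

variable {B : Type*} [Ring B] [Algebra ℚ B] [StarRing B]

theorem mem_Loc {O : Subring B} {M : ℕ} {x : B} :
    x ∈ Loc O M ↔ ∃ m : ℕ, m.Coprime M ∧ m ≠ 0 ∧ (m : B) * x ∈ O := Iff.rfl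


theorem mem_Jn {R : Subring B} {x : B} : x ∈ Jn R ↔ star x = x ∧ x ∈ R := Iff.rfl

theorem le_Loc (O : Subring B) (M : ℕ) {x : B} (hx : x ∈ O) : x ∈ Loc O M :=
  ⟨1, by simp, one_ne_zero, by simpa using hx⟩

theorem Loc_mono (O : Subring B) {M N : ℕ} (h : M ∣ N) {x : B} (hx : x ∈ Loc O N) :
    x ∈ Loc O M := by
  obtain ⟨m, hm, h0, hx⟩ := hx
  exact ⟨m, Nat.Coprime.coprime_dvd_right h hm, h0, hx⟩

theorem OS_Loc (O : Subring B) {p M : ℕ} (hp : p ≠ 0) (h : p.Coprime M) {x : B}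
    (hx : x ∈ OS O p) : x ∈ Loc O M := by
  obtain ⟨j, hx⟩ := hx
  exact ⟨p ^ j, Nat.Coprime.pow_left j h, pow_ne_zero j hp, by simpa using hx⟩

theorem gcd_mem (O : Subring B) {m n : ℕ} {x : B} (hm : (m : B) * x ∈ O) (hn : (n : B) * x ∈ O) :
    (Nat.gcd m n : B) * x ∈ O := by
  have h := Nat.gcd_eq_gcd_ab m n
  have h2 : ((Nat.gcd m n : ℕ) : B) = (Nat.gcdA m n : B) * m + (Nat.gcdB m n : B) * n := by
    have := congrArg (Int.cast : ℤ → B) h
    push_cast at this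
    rw [this, (Nat.cast_commute m _).eq, (Nat.cast_commute n _).eq]
  rw [h2, add_mul, mul_assoc, mul_assoc]
  exact O.add_mem (O.mul_mem (intCast_mem O _) hm) (O.mul_mem (intCast_mem O _) hn)

theorem mem_of_OS_Loc (O : Subring B) {p : ℕ} {x : B} (h1 : x ∈ OS O p) (h2 : x ∈ Loc O p) :
    x ∈ O := by
  obtain ⟨j, h1⟩ := h1
  obtain ⟨m, hm, -, h2⟩ := h2
  have h := gcd_mem O (n := p ^ j) h2 (by simpa using h1)
  rw [(Nat.Coprime.pow_right j hm).gcd_eq_one] at h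
  simpa using h

/-- the classes of hermitian elements of `R` modulo the integral ones -/
abbrev Qt (O R : Subring B) : Type _ := Jn R ⧸ (Jn O).addSubgroupOf (Jn R)

theorem mk_eq_iff {O R : Subring B} (a : Jn R) (t : Qt O R) :
    (QuotientAddGroup.mk a : Qt O R) = t ↔ (t.out : B) - a ∈ O := by
  conv_lhs => rw [← QuotientAddGroup.out_eq' t]
  rw [QuotientAddGroup.eq, AddSubgroup.mem_addSubgroupOf, mem_Jn]
  have h1 : ((-a + t.out : Jn R) : B) = (t.out : B) - a := by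
    push_cast; abel
  rw [h1]
  refine ⟨fun h => h.2, fun h => ⟨?_, h⟩⟩
  rw [star_sub, (mem_Jn.1 a.2).1, (mem_Jn.1 t.out.2).1]

theorem qt_eq_iff {O R : Subring B} (t u : Qt O R) : t = u ↔ (u.out : B) - t.out ∈ O := by
  rw [← mk_eq_iff, QuotientAddGroup.out_eq']

theorem eq_zero_iff {O R : Subring B} (t : Qt O R) : t = 0 ↔ (t.out : B) ∈ O := by
  rw [eq_comm, ← QuotientAddGroup.mk_zero, mk_eq_iff]
  simp

theorem zero_out {O R : Subring B} : (((0 : Qt O R).out : Jn R) : B) ∈ Jn O :=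
  mem_Jn.2 ⟨(mem_Jn.1 (Quotient.out (0 : Qt O R)).2).1, (eq_zero_iff _).1 rfl⟩

/-- the gluing map -/
def glue (O : Subring B) {M p : ℕ} (hp : p.Prime) (hM : ¬ p ∣ M) (q : Cp O p × Cl O (M * p)) :
    Cl O M :=
  QuotientAddGroup.mk ⟨(q.1.out : B) + (q.2.out : B), mem_Jn.2
    ⟨by rw [star_add, (mem_Jn.1 q.1.out.2).1, (mem_Jn.1 q.2.out.2).1],
     (Loc O M).add_mem
      (OS_Loc O hp.ne_zero ((Nat.Prime.coprime_iff_not_dvd hp).2 hM) (mem_Jn.1 q.1.out.2).2)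
      (Loc_mono O (Dvd.intro _ rfl) (mem_Jn.1 q.2.out.2).2)⟩⟩

theorem glue_out (O : Subring B) {M p : ℕ} (hp : p.Prime) (hM : ¬ p ∣ M)
    (q : Cp O p × Cl O (M * p)) :
    ((glue O hp hM q).out : B) - ((q.1.out : B) + (q.2.out : B)) ∈ O :=
  (mk_eq_iff _ _).1 rfl

theorem glue_inj (O : Subring B) {M p : ℕ} (hp : p.Prime) (hM : ¬ p ∣ M) :
    Function.Injective (glue O hp hM) := by
  rintro ⟨u, v⟩ ⟨u', v'⟩ h
  have h1 := glue_out O hp hM (u, v)
  have h2 := glue_out O hp hM (u', v')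
  rw [h] at h1
  have h3 : ((u'.out : B) - u.out) + ((v'.out : B) - v.out) ∈ O := by
    have := O.sub_mem h1 h2
    convert this using 1
    abel
  have h4 : (u'.out : B) - u.out ∈ O := by
    refine mem_of_OS_Loc O (p := p)
      ((OS O p).sub_mem (mem_Jn.1 u'.out.2).2 (mem_Jn.1 u.out.2).2) ?_
    have h5 : (v'.out : B) - v.out ∈ Loc O p :=
      Loc_mono O (Dvd.intro_left _ rfl)
        ((Loc O (M * p)).sub_mem (mem_Jn.1 v'.out.2).2 (mem_Jn.1 v.out.2).2)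
    have := (Loc O p).sub_mem (le_Loc O p h3) h5
    simpa using this
  have h5 : (v'.out : B) - v.out ∈ O := by
    have := O.sub_mem h3 h4
    simpa using this
  exact Prod.ext ((qt_eq_iff _ _).2 h4) ((qt_eq_iff _ _).2 h5)

theorem glue_surj (O : Subring B) {M p : ℕ} (hp : p.Prime) (hM : ¬ p ∣ M) :
    Function.Surjective (glue O hp hM) := by
  intro t
  obtain ⟨hs, m, hm, hm0, hma⟩ := mem_Jn.1 t.out.2
  set a : B := (t.out : B) with ha
  obtain ⟨j, m', hm', rfl⟩ := Nat.exists_eq_pow_mul_and_not_dvd hm0 p hp.ne_one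
  have hcop : Nat.Coprime (p ^ j) m' :=
    Nat.Coprime.pow_left j ((Nat.Prime.coprime_iff_not_dvd hp).2 hm')
  have h := Nat.gcd_eq_gcd_ab (p ^ j) m'
  rw [hcop.gcd_eq_one] at h
  set α := Nat.gcdA (p ^ j) m'
  set β := Nat.gcdB (p ^ j) m'
  have hsum : (β * m' : ℤ) • a + (α * p ^ j : ℤ) • a = a := by
    rw [← add_smul]
    have : β * m' + α * (p : ℤ) ^ j = 1 := by
      push_cast at h; linarith
    rw [this, one_smul]
  have hk : ∀ (k : ℕ) (c d : ℤ), (k : ℤ) * c = d * ((p ^ j * m' : ℕ) : ℤ) →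
      (k : B) * (c • a) ∈ O := by
    intro k c d hkc
    have e1 : (k : B) * (c • a) = (d : B) * (((p ^ j * m' : ℕ) : B) * a) := by
      rw [← nsmul_eq_mul, ← nsmul_eq_mul, ← zsmul_eq_mul, ← natCast_zsmul, ← natCast_zsmul,
        smul_smul, smul_smul, hkc]
    rw [e1]
    exact O.mul_mem (intCast_mem O _) hma
  have h1 : (β * m' : ℤ) • a ∈ Jn (OS O p) := by
    refine mem_Jn.2 ⟨by rw [star_zsmul, hs], j, ?_⟩
    have := hk (p ^ j) (β * m') β (by push_cast; ring)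
    simpa using this
  have h2 : (α * p ^ j : ℤ) • a ∈ Jn (Loc O (M * p)) := by
    refine mem_Jn.2 ⟨by rw [star_zsmul, hs], m', ?_, ?_, hk m' _ α (by push_cast; ring)⟩
    · exact Nat.Coprime.mul_right (Nat.Coprime.coprime_mul_left hm)
        ((Nat.Prime.coprime_iff_not_dvd hp).2 hm').symm
    · rintro rfl; exact hm' (dvd_zero p)
  refine ⟨(QuotientAddGroup.mk ⟨_, h1⟩, QuotientAddGroup.mk ⟨_, h2⟩), ?_⟩
  have e1 := (mk_eq_iff (O := O) ⟨_, h1⟩ _).1 rfl
  have e2 := (mk_eq_iff (O := O) ⟨_, h2⟩ _).1 rfl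
  refine (mk_eq_iff _ _).2 ?_
  have key : ∀ x y a₁ a₂ a : B, a₁ + a₂ = a → x - a₁ ∈ O → y - a₂ ∈ O → a - (x + y) ∈ O := by
    rintro x y a₁ a₂ a rfl hx hy
    have := O.neg_mem (O.add_mem hx hy)
    convert this using 1
    abel
  exact key _ _ _ _ _ hsum e1 e2

/-- the splitting of the classes at one prime -/
def glueE (O : Subring B) {M p : ℕ} (hp : p.Prime) (hM : ¬ p ∣ M) :
    Cp O p × Cl O (M * p) ≃ Cl O M :=
  Equiv.ofBijective (glue O hp hM) ⟨glue_inj O hp hM, glue_surj O hp hM⟩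

theorem glueE_out (O : Subring B) {M p : ℕ} (hp : p.Prime) (hM : ¬ p ∣ M)
    (q : Cp O p × Cl O (M * p)) :
    ∃ b ∈ Jn O, ((glueE O hp hM q).out : B) = (q.1.out : B) + (q.2.out : B) + b := by
  refine ⟨((glueE O hp hM q).out : B) - ((q.1.out : B) + (q.2.out : B)),
    mem_Jn.2 ⟨?_, glue_out O hp hM q⟩, by abel⟩
  rw [star_sub, star_add, (mem_Jn.1 q.1.out.2).1, (mem_Jn.1 q.2.out.2).1,
    (mem_Jn.1 (glueE O hp hM q).out.2).1]

/-! ## the height -/

theorem Out_eq {M p : ℕ} (hp : p.Prime) (hM : ¬ p ∣ M) : Out M = insert p (Out (M * p)) := by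
  ext q
  simp only [Out, Set.mem_ofPred_eq, Set.mem_insert_iff]
  constructor
  · rintro ⟨hq, hqM⟩
    by_cases h : q = p
    · exact Or.inl h
    · refine Or.inr ⟨hq, fun hd => ?_⟩
      rcases (Nat.Prime.dvd_mul hq).1 hd with h1 | h1
      · exact hqM h1
      · exact h ((Nat.prime_dvd_prime_iff_eq hq hp).1 h1)
  · rintro (rfl | ⟨hq, h⟩)
    · exact ⟨hp, hM⟩
    · exact ⟨hq, fun hd => h (hd.mul_right p)⟩

section height

variable {O : Subring B} {θ : B}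

theorem fin_supp (hO : Ord O θ) (hB : ∀ p : ℕ, p.Prime → Bas O p) (M : ℕ) (a : B) :
    (Out M ∩ Function.mulSupport fun p => Hp O p a 1).Finite := by
  obtain ⟨m, hm, ha⟩ := hO.full a
  refine (m.primeFactors.finite_toSet).subset ?_
  rintro q ⟨⟨hq, -⟩, h⟩
  by_contra hc
  refine h ((hB q hq).eq_one a ⟨m, ?_, hm, ha⟩)
  refine ((Nat.Prime.coprime_iff_not_dvd hq).2 fun hd => hc ?_).symm
  simp [hq, hd, hm]

theorem one_le_H (hB : ∀ p : ℕ, p.Prime → Bas O p) (M : ℕ) (a : B) : 1 ≤ H O M a :=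
  finprod_mem_induction (fun x : ℝ => 1 ≤ x) le_rfl
    (fun _ _ hx hy => one_le_mul_of_one_le_of_one_le hx hy) fun q hq => (hB q hq.1).one_le a

theorem H_add (hB : ∀ p : ℕ, p.Prime → Bas O p) (M : ℕ) (a : B) {b : B} (hb : b ∈ O) :
    H O M (a + b) = H O M a :=
  finprod_mem_congr rfl fun q hq => (hB q hq.1).add a b (le_Loc O q hb)

theorem H_int (hB : ∀ p : ℕ, p.Prime → Bas O p) (M : ℕ) {b : B} (hb : b ∈ O) : H O M b = 1 :=
  finprod_mem_of_eqOn_one fun q hq => (hB q hq.1).eq_one b (le_Loc O q hb)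

theorem H_split (hO : Ord O θ) (hB : ∀ p : ℕ, p.Prime → Bas O p) {M p : ℕ} (hp : p.Prime)
    (hM : ¬ p ∣ M) {a₁ a₂ : B} (h₁ : a₁ ∈ OS O p) (h₂ : a₂ ∈ Loc O (M * p)) :
    H O M (a₁ + a₂) = Hp O p a₁ 1 * H O (M * p) a₂ := by
  unfold H H2
  rw [Out_eq hp hM, finprod_mem_insert' _ (fun h => h.2 (Dvd.intro_left _ rfl))
    (fin_supp hO hB _ _), (hB p hp).add a₁ a₂ (Loc_mono O (Dvd.intro_left _ rfl) h₂)]
  congr 1
  refine finprod_mem_congr rfl fun q hq => ?_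
  rw [add_comm]
  refine (hB q hq.1).add a₂ a₁ (OS_Loc O hp.ne_zero ?_ h₁)
  refine (Nat.coprime_primes hp hq.1).2 ?_
  rintro rfl
  exact hq.2 (Dvd.intro_left _ rfl)

/-- the local weight -/
def wp (O : Subring B) (p : ℕ) (s : ℝ) (u : Cp O p) : ℝ := Hp O p (u.out : B) 1 ^ (-s)

theorem wp_nonneg (hB : ∀ p : ℕ, p.Prime → Bas O p) {p : ℕ} (hp : p.Prime) (s : ℝ) (u : Cp O p) :
    0 ≤ wp O p s u :=
  Real.rpow_nonneg (zero_le_one.trans ((hB p hp).one_le _)) _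

theorem wt_nonneg (hB : ∀ p : ℕ, p.Prime → Bas O p) (M : ℕ) (s : ℝ) (t : Cl O M) :
    0 ≤ wt O M s t :=
  Real.rpow_nonneg (zero_le_one.trans (one_le_H hB M _)) _

theorem wp_zero (hB : ∀ p : ℕ, p.Prime → Bas O p) {p : ℕ} (hp : p.Prime) (s : ℝ) :
    wp O p s 0 = 1 := by
  unfold wp
  rw [(hB p hp).eq_one _ (le_Loc O p (mem_Jn.1 zero_out).2), Real.one_rpow]

theorem wt_zero (hB : ∀ p : ℕ, p.Prime → Bas O p) (M : ℕ) (s : ℝ) : wt O M s 0 = 1 := by
  unfold wt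
  rw [H_int hB M (mem_Jn.1 zero_out).2, Real.one_rpow]

theorem wt_glueE (hO : Ord O θ) (hB : ∀ p : ℕ, p.Prime → Bas O p) {M p : ℕ} (hp : p.Prime)
    (hM : ¬ p ∣ M) (s : ℝ) (q : Cp O p × Cl O (M * p)) :
    wt O M s (glueE O hp hM q) = wp O p s q.1 * wt O (M * p) s q.2 := by
  obtain ⟨b, hb, e⟩ := glueE_out O hp hM q
  unfold wt wp
  rw [e, H_add hB M _ (mem_Jn.1 hb).2,
    H_split hO hB hp hM (mem_Jn.1 q.1.out.2).2 (mem_Jn.1 q.2.out.2).2,
    Real.mul_rpow (zero_le_one.trans ((hB p hp).one_le _)) (zero_le_one.trans (one_le_H hB _ _))]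

end height

/-! ## characters -/

/-- the character of a functional -/
def ch (l : B →ₗ[ℚ] ℚ) (a : B) : ℂ := Complex.exp (2 * Real.pi * Complex.I * ((l a : ℝ) : ℂ))

theorem ch_add (l : B →ₗ[ℚ] ℚ) (a b : B) : ch l (a + b) = ch l a * ch l b := by
  unfold ch
  rw [← Complex.exp_add, map_add]
  congr 1
  push_cast
  ring

theorem ch_int (l : B →ₗ[ℚ] ℚ) {a : B} (h : ∃ m : ℤ, l a = m) : ch l a = 1 := by
  obtain ⟨m, hm⟩ := h
  unfold ch
  rw [hm, ← Complex.exp_int_mul_two_pi_mul_I m]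
  congr 1
  push_cast
  ring

theorem ch_eq (l : B →ₗ[ℚ] ℚ) (a : B) :
    ch l a = Complex.exp (((2 * Real.pi * (l a : ℝ) : ℝ) : ℂ) * Complex.I) := by
  unfold ch
  congr 1
  push_cast
  ring

theorem norm_ch (l : B →ₗ[ℚ] ℚ) (a : B) : ‖ch l a‖ = 1 := by
  rw [ch_eq, Complex.norm_exp_ofReal_mul_I]

theorem re_ch (l : B →ₗ[ℚ] ℚ) (a : B) : (ch l a).re = Real.cos (2 * Real.pi * (l a : ℝ)) := by
  rw [ch_eq, Complex.exp_ofReal_mul_I_re]

theorem ch_glueE {O : Subring B} {M p : ℕ} (hp : p.Prime) (hM : ¬ p ∣ M) (l : B →ₗ[ℚ] ℚ)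
    (hl : ∀ a ∈ Jn O, ∃ m : ℤ, l a = m) (q : Cp O p × Cl O (M * p)) :
    ch l ((glueE O hp hM q).out : B) = ch l (q.1.out : B) * ch l (q.2.out : B) := by
  obtain ⟨b, hb, e⟩ := glueE_out O hp hM q
  rw [e, ch_add, ch_add, ch_int l (hl b hb), mul_one]

/-! ## the local inequality -/

theorem loc_ineq {S : ℂ} {z : ℝ} (h : ‖S - 1‖ ≤ z - 1) (h2 : z ≤ 2) :
    ‖S‖ ≤ z * Real.exp (-((z - S.re) / 4)) ∧ z - S.re ≤ 2 * (z - 1) ∧ 0 ≤ z - S.re := by
  have h0 : 0 ≤ z - 1 := (norm_nonneg _).trans h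
  have hre : |S.re - 1| ≤ z - 1 := by
    have := (Complex.abs_re_le_norm (S - 1)).trans h
    simpa using this
  obtain ⟨hr1, hr2⟩ := abs_le.1 hre
  refine ⟨?_, by linarith, by linarith⟩
  have h3 : ‖S - 1‖ ^ 2 ≤ (z - 1) ^ 2 := pow_le_pow_left₀ (norm_nonneg _) h 2
  rw [Complex.sq_norm, Complex.normSq_apply] at h3
  simp only [Complex.sub_re, Complex.one_re, Complex.sub_im, Complex.one_im, sub_zero] at h3
  have h4 : ‖S‖ ^ 2 ≤ z ^ 2 - 2 * (z - S.re) := by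
    rw [Complex.sq_norm, Complex.normSq_apply]; nlinarith
  have h5 : 1 - (z - S.re) / 2 ≤ Real.exp (-((z - S.re) / 4)) ^ 2 := by
    rw [← Real.exp_nat_mul]
    have := Real.add_one_le_exp (((2 : ℕ) : ℝ) * -((z - S.re) / 4))
    push_cast at this ⊢
    linarith
  refine (sq_le_sq₀ (norm_nonneg _) (mul_nonneg (by linarith) (Real.exp_pos _).le)).1 ?_
  rw [mul_pow]
  have h6 : z ^ 2 ≤ 4 := by nlinarith
  have h7 : z ^ 2 * (1 - (z - S.re) / 2) ≤ z ^ 2 * Real.exp (-((z - S.re) / 4)) ^ 2 :=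
    mul_le_mul_of_nonneg_left h5 (sq_nonneg z)
  have h8 : 0 ≤ z - S.re := by linarith
  nlinarith

theorem norm_tsum_sub_one {T : Type*} (o : T) {w : T → ℝ} {c : T → ℂ} (hw : ∀ t, 0 ≤ w t)
    (hs : Summable w) (h0 : w o = 1) (hc : ∀ t, ‖c t‖ = 1) (hc0 : c o = 1) :
    ‖(∑' t, (w t : ℂ) * c t) - 1‖ ≤ (∑' t, w t) - 1 := by
  classical
  have hn : ∀ t, ‖(w t : ℂ) * c t‖ = w t := fun t => by
    rw [norm_mul, hc, mul_one, Complex.norm_real, Real.norm_of_nonneg (hw t)]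
  have hs' : Summable fun t => (w t : ℂ) * c t := Summable.of_norm (by simpa only [hn] using hs)
  rw [hs'.tsum_eq_add_tsum_ite o, hs.tsum_eq_add_tsum_ite o, h0, hc0]
  simp only [Complex.ofReal_one, mul_one, add_sub_cancel_left]
  have hn2 : ∀ t, ‖(if t = o then 0 else (w t : ℂ) * c t)‖ = if t = o then 0 else w t := by
    intro t
    split_ifs
    · simp
    · exact hn t
  have hs2 : Summable fun t => if t = o then 0 else w t :=
    Summable.of_nonneg_of_le (fun t => by split_ifs <;> simp [hw t])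
      (fun t => by split_ifs <;> simp [hw t]) hs
  refine (norm_tsum_le_tsum_norm (by simpa only [hn2] using hs2)).trans (le_of_eq ?_)
  simp only [hn2]

theorem int_of_padic {q : ℚ} (h : ∀ p : ℕ, p.Prime → padicNorm p q ≤ 1) : ∃ m : ℤ, q = m := by
  by_cases hd : q.den = 1
  · exact ⟨q.num, (Rat.coe_int_num_of_den_eq_one hd).symm⟩
  exfalso
  obtain ⟨p, hp, hpd⟩ := Nat.exists_prime_and_dvd hd
  have := Fact.mk hp
  have h1 : padicNorm p (q.num : ℚ) < 1 := by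
    rw [← Rat.mul_den_eq_num, padicNorm.mul]
    have h2 : padicNorm p (q.den : ℚ) < 1 := (padicNorm.nat_lt_one_iff _).2 hpd
    have h3 := h p hp
    have h4 := padicNorm.nonneg (p := p) q
    have h5 := padicNorm.nonneg (p := p) (q.den : ℚ)
    nlinarith
  have h2 : p ∣ q.num.natAbs := Int.natCast_dvd.1 ((padicNorm.int_lt_one_iff _).1 h1)
  exact hp.one_lt.ne' (Nat.eq_one_of_dvd_coprimes q.reduced h2 hpd)

end Crest.Agent.T24.Hgt.A91
end
end

-- ▼ part T24/HgtAsm_91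
section

/-!
# Row 24, heights: the assembly `htStmt`
-/

set_option autoImplicit false
set_option linter.unusedSectionVars false

noncomputable section

namespace Crest.Agent.T24.Hgt.A91

open Filter Topology Module Crest.Agent.T24.Hgt

variable {B : Type*} [Ring B] [Algebra ℚ B] [StarRing B]

/-- the standing hypotheses -/
structure Cx (O : Subring B) (θ : B) (M₀ : ℕ) : Prop where
  ord : Ord O θ
  bas : ∀ p : ℕ, p.Prime → Bas O p
  gp : ∀ p : ℕ, p.Prime → ¬ p ∣ M₀ → Gp O θ p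
  up : ∀ p : ℕ, Gp O θ p → ∀ s : ℝ, 1 ≤ s → ∀ F : Finset (Cp O p), 0 ∉ F →
    ∑ t ∈ F, Hp O p (t.out : B) 1 ^ (-s) ≤ 2 * finrank ℚ B * (p : ℝ) ^ (-s)

/-- the local zeta function -/
def Zp (O : Subring B) (p : ℕ) (s : ℝ) : ℝ := ∑' u : Cp O p, wp O p s u

/-- the twisted local zeta function -/
def Sp (O : Subring B) (p : ℕ) (l : B →ₗ[ℚ] ℚ) (s : ℝ) : ℂ :=
  ∑' u : Cp O p, (wp O p s u : ℂ) * ch l (u.out : B)

/-- the twisted zeta function -/
def Sg (O : Subring B) (M : ℕ) (l : B →ₗ[ℚ] ℚ) (s : ℝ) : ℂ :=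
  ∑' t : Cl O M, (wt O M s t : ℂ) * ch l (t.out : B)

/-- the local oscillation -/
def Dp (O : Subring B) (p : ℕ) (l : B →ₗ[ℚ] ℚ) (s : ℝ) : ℝ := Zp O p s - (Sp O p l s).re

variable {O : Subring B} {θ : B} {M₀ : ℕ}

theorem Cx.sum_wp (h : Cx O θ M₀) {p : ℕ} (hp : Gp O θ p) {s : ℝ} (hs : 1 ≤ s)
    (F : Finset (Cp O p)) : ∑ u ∈ F, wp O p s u ≤ 1 + 2 * finrank ℚ B * (p : ℝ) ^ (-s) := by
  classical
  have h1 := h.up p hp s hs (F.erase 0) (Finset.notMem_erase _ _)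
  by_cases h0 : (0 : Cp O p) ∈ F
  · rw [← Finset.add_sum_erase F _ h0, wp_zero h.bas hp.prime]
    exact add_le_add le_rfl h1
  · rw [Finset.erase_eq_of_notMem h0] at h1
    exact h1.trans (le_add_of_nonneg_left zero_le_one)

theorem Cx.summable_wp (h : Cx O θ M₀) {p : ℕ} (hp : Gp O θ p) {s : ℝ} (hs : 1 ≤ s) :
    Summable (wp O p s) :=
  summable_of_sum_le (wp_nonneg h.bas hp.prime s) (h.sum_wp hp hs)

theorem Cx.Zp_le (h : Cx O θ M₀) {p : ℕ} (hp : Gp O θ p) {s : ℝ} (hs : 1 ≤ s) : Zp O p s ≤ 2 := by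
  refine (Real.tsum_le_of_sum_le (wp_nonneg h.bas hp.prime s) (h.sum_wp hp hs)).trans ?_
  have hp1 : (1 : ℝ) ≤ p := by exact_mod_cast hp.prime.one_lt.le
  have h1 : (p : ℝ) ^ (-s) ≤ (p : ℝ)⁻¹ := by
    rw [← Real.rpow_neg_one]
    exact Real.rpow_le_rpow_of_exponent_le hp1 (by linarith)
  have h2 : (2 * finrank ℚ B + 2 : ℝ) ≤ p := by exact_mod_cast hp.big
  have h3 : (2 * finrank ℚ B : ℝ) * (p : ℝ)⁻¹ ≤ 1 := by
    rw [← div_eq_mul_inv, div_le_one (by linarith)]; linarith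
  have h4 : (2 * finrank ℚ B : ℝ) * (p : ℝ) ^ (-s) ≤ (2 * finrank ℚ B : ℝ) * (p : ℝ)⁻¹ :=
    mul_le_mul_of_nonneg_left h1 (by positivity)
  linarith

theorem Cx.loc (h : Cx O θ M₀) {p : ℕ} (hp : Gp O θ p) {s : ℝ} (hs : 1 ≤ s) (l : B →ₗ[ℚ] ℚ)
    (hl : ∀ a ∈ Jn O, ∃ m : ℤ, l a = m) :
    ‖Sp O p l s‖ ≤ Zp O p s * Real.exp (-(Dp O p l s / 4)) ∧ Dp O p l s ≤ 2 * (Zp O p s - 1) ∧
      0 ≤ Dp O p l s :=
  loc_ineq (norm_tsum_sub_one (0 : Cp O p) (wp_nonneg h.bas hp.prime s) (h.summable_wp hp hs)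
    (wp_zero h.bas hp.prime s) (fun _ => norm_ch l _) (ch_int l (hl _ zero_out))) (h.Zp_le hp hs)

theorem norm_wc {T : Type*} {w : T → ℝ} (hw : ∀ t, 0 ≤ w t) (l : B →ₗ[ℚ] ℚ) (f : T → B) (t : T) :
    ‖(w t : ℂ) * ch l (f t)‖ = w t := by
  rw [norm_mul, norm_ch, mul_one, Complex.norm_real, Real.norm_of_nonneg (hw t)]

theorem Cx.sum_le_Dp (h : Cx O θ M₀) {p : ℕ} (hp : Gp O θ p) {s : ℝ} (hs : 1 ≤ s)
    (l : B →ₗ[ℚ] ℚ) (F : Finset (Cp O p)) :
    ∑ t ∈ F, Hp O p (t.out : B) 1 ^ (-s) * (1 - Real.cos (2 * Real.pi * (l (t.out : B) : ℝ))) ≤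
      Dp O p l s := by
  have hw := wp_nonneg h.bas hp.prime s
  have h1 := h.summable_wp hp hs
  have h2 : Summable fun u : Cp O p => (wp O p s u : ℂ) * ch l (u.out : B) :=
    Summable.of_norm (by simpa only [norm_wc hw l (fun u : Cp O p => (u.out : B))] using h1)
  have h3 : Summable fun u : Cp O p => ((wp O p s u : ℂ) * ch l (u.out : B)).re :=
    (Complex.hasSum_re h2.hasSum).summable
  unfold Dp Zp Sp
  rw [Complex.re_tsum h2, ← h1.tsum_sub h3]
  have e : ∀ u : Cp O p, wp O p s u - ((wp O p s u : ℂ) * ch l (u.out : B)).re =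
      Hp O p (u.out : B) 1 ^ (-s) * (1 - Real.cos (2 * Real.pi * (l (u.out : B) : ℝ))) := by
    intro u
    rw [Complex.re_ofReal_mul, re_ch, wp]; ring
  have h4 := h1.sub h3
  simp only [e] at h4 ⊢
  exact h4.sum_le_tsum F fun u _ => mul_nonneg (hw u) (sub_nonneg.2 (Real.cos_le_one _))

/-! ## summability -/

/-- the denominators of `a` lie in `P` -/
def Den (O : Subring B) (P : Finset ℕ) (a : B) : Prop :=
  ∃ D : ℕ, D ≠ 0 ∧ (∀ q : ℕ, q.Prime → q ∣ D → q ∈ P) ∧ (D : B) * a ∈ O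

theorem Cx.sum_wt (h : Cx O θ M₀) {s : ℝ} (hs : 1 ≤ s) (P : Finset ℕ) :
    ∀ M : ℕ, M₀ ∣ M → (∀ p ∈ P, p ∈ Out M) → ∀ F : Finset (Cl O M),
      (∀ t ∈ F, Den O P (t.out : B)) →
        ∑ t ∈ F, wt O M s t ≤ ∏ p ∈ P, (1 + 2 * finrank ℚ B * (p : ℝ) ^ (-s)) := by
  classical
  induction P using Finset.induction_on with
  | empty =>
    intro M _ _ F hF
    have h1 : F ⊆ {0} := by
      intro t ht
      obtain ⟨D, hD, hq, hDa⟩ := hF t ht
      have hD1 : D = 1 := by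
        by_contra hc
        obtain ⟨q, hq1, hq2⟩ := Nat.exists_prime_and_dvd hc
        simpa using hq q hq1 hq2
      subst hD1
      rw [Finset.mem_singleton]
      exact (eq_zero_iff t).2 (by simpa using hDa)
    refine (Finset.sum_le_sum_of_subset_of_nonneg h1 fun t _ _ => wt_nonneg h.bas M s t).trans ?_
    simp [wt_zero h.bas]
  | insert p P hpP ih =>
    intro M hM hP F hF
    obtain ⟨hp, hpM⟩ := hP p (Finset.mem_insert_self _ _)
    have hg : Gp O θ p := h.gp p hp fun hd => hpM (hd.trans hM)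
    set e := glueE O hp hpM with he
    set F₁ := F.image fun t => (e.symm t).1
    set F₂ := F.image fun t => (e.symm t).2
    have hP' : ∀ q ∈ P, q ∈ Out (M * p) := by
      intro q hq
      have h1 := hP q (Finset.mem_insert_of_mem hq)
      rw [Out_eq hp hpM] at h1
      exact h1.resolve_left fun hqp => hpP (hqp ▸ hq)
    have hF₂ : ∀ v ∈ F₂, Den O P (v.out : B) := by
      intro v hv
      obtain ⟨t, ht, rfl⟩ := Finset.mem_image.1 hv
      obtain ⟨D, hD, hq, hDa⟩ := hF t ht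
      obtain ⟨b, hb, eb⟩ := glueE_out O hp hpM (e.symm t)
      rw [← he, e.apply_symm_apply] at eb
      obtain ⟨j, hj⟩ := (mem_Jn.1 (e.symm t).1.out.2).2
      obtain ⟨m, hm, hm0, hma⟩ := (mem_Jn.1 (e.symm t).2.out.2).2
      have h1 : ((D * p ^ j : ℕ) : B) * ((e.symm t).2.out : B) ∈ O := by
        have e1 : ((e.symm t).2.out : B) = (t.out : B) - ((e.symm t).1.out : B) - b := by
          rw [eb]; abel
        rw [e1, mul_sub, mul_sub]
        refine O.sub_mem (O.sub_mem ?_ ?_) (O.mul_mem (natCast_mem O _) (mem_Jn.1 hb).2)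
        · rw [mul_comm D, Nat.cast_mul, mul_assoc]
          exact O.mul_mem (natCast_mem O _) hDa
        · rw [Nat.cast_mul, mul_assoc, Nat.cast_pow]
          exact O.mul_mem (natCast_mem O _) hj
      refine ⟨Nat.gcd (D * p ^ j) m, Nat.gcd_ne_zero_right hm0, fun q hq1 hq2 => ?_,
        gcd_mem O h1 hma⟩
      have hqp : q ≠ p := by
        rintro rfl
        exact hp.one_lt.ne' (Nat.eq_one_of_dvd_coprimes hm (hq2.trans (Nat.gcd_dvd_right _ _))
          (Dvd.intro_left _ rfl))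
      rcases (Nat.Prime.dvd_mul hq1).1 (hq2.trans (Nat.gcd_dvd_left _ _)) with h2 | h2
      · exact (Finset.mem_insert.1 (hq q hq1 h2)).resolve_left hqp
      · exact absurd ((Nat.prime_dvd_prime_iff_eq hq1 hp).1 (hq1.dvd_of_dvd_pow h2)) hqp
    have h1 : ∑ t ∈ F, wt O M s t =
        ∑ q ∈ F.map e.symm.toEmbedding, wp O p s q.1 * wt O (M * p) s q.2 := by
      rw [Finset.sum_map]
      refine Finset.sum_congr rfl fun t _ => ?_
      rw [← wt_glueE h.ord h.bas hp hpM, ← he]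
      simp
    have h2 : F.map e.symm.toEmbedding ⊆ F₁ ×ˢ F₂ := by
      intro q hq
      obtain ⟨t, ht, rfl⟩ := Finset.mem_map.1 hq
      exact Finset.mem_product.2 ⟨Finset.mem_image_of_mem _ ht, Finset.mem_image_of_mem _ ht⟩
    rw [h1, Finset.prod_insert hpP]
    refine (Finset.sum_le_sum_of_subset_of_nonneg h2 fun q _ _ =>
      mul_nonneg (wp_nonneg h.bas hp s _) (wt_nonneg h.bas _ s _)).trans ?_
    rw [Finset.sum_product, ← Finset.sum_mul_sum]
    exact mul_le_mul (h.sum_wp hg hs F₁) (ih (M * p) (hM.mul_right p) hP' F₂ hF₂)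
      (Finset.sum_nonneg fun v _ => wt_nonneg h.bas _ s v) (by positivity)

theorem Cx.summable_wt (h : Cx O θ M₀) {s : ℝ} (hs : 1 < s) {M : ℕ} (hM : M₀ ∣ M) :
    Summable (wt O M s) := by
  classical
  have hz : Summable fun k : ℕ => 2 * (finrank ℚ B : ℝ) * (k : ℝ) ^ (-s) :=
    (Real.summable_nat_rpow.2 (by linarith)).mul_left _
  refine summable_of_sum_le (c := Real.exp (∑' k : ℕ, 2 * (finrank ℚ B : ℝ) * (k : ℝ) ^ (-s)))
    (wt_nonneg h.bas M s) fun F => ?_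
  choose m hm hm0 hma using fun t : Cl O M => mem_Loc.1 (mem_Jn.1 t.out.2).2
  refine (h.sum_wt hs.le (F.biUnion fun t => (m t).primeFactors) M hM ?_ F ?_).trans ?_
  · intro p hp
    obtain ⟨t, -, ht⟩ := Finset.mem_biUnion.1 hp
    have hp1 := Nat.prime_of_mem_primeFactors ht
    exact ⟨hp1, fun hd => hp1.one_lt.ne'
      (Nat.eq_one_of_dvd_coprimes (hm t) (Nat.dvd_of_mem_primeFactors ht) hd)⟩
  · intro t ht
    exact ⟨m t, hm0 t, fun q hq hd => Finset.mem_biUnion.2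
      ⟨t, ht, Nat.mem_primeFactors.2 ⟨hq, hd, hm0 t⟩⟩, hma t⟩
  · refine (Real.prod_one_add_le_exp_sum _ fun k => by positivity).trans ?_
    exact Real.exp_le_exp.2 (hz.sum_le_tsum _ fun k _ => by positivity)

theorem Cx.one_le_Z (h : Cx O θ M₀) {s : ℝ} (hs : 1 < s) {M : ℕ} (hM : M₀ ∣ M) :
    1 ≤ Z O M s := by
  rw [← wt_zero h.bas M s]
  exact (h.summable_wt hs hM).le_tsum 0 fun t _ => wt_nonneg h.bas M s t

/-! ## Euler factors -/

theorem Cx.Z_split (h : Cx O θ M₀) {s : ℝ} (hs : 1 < s) {M p : ℕ} (hM : M₀ ∣ M) (hp : p.Prime)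
    (hpM : ¬ p ∣ M) : Z O M s = Zp O p s * Z O (M * p) s := by
  have hg : Gp O θ p := h.gp p hp fun hd => hpM (hd.trans hM)
  have h1 := h.summable_wp hg hs.le
  have h2 := h.summable_wt hs (hM.mul_right p)
  unfold Z Zp
  rw [h1.tsum_mul_tsum h2 (h1.mul_of_nonneg h2 (wp_nonneg h.bas hp s) (wt_nonneg h.bas _ s)),
    ← (glueE O hp hpM).tsum_eq]
  exact tsum_congr fun q => wt_glueE h.ord h.bas hp hpM s q

theorem Cx.S_split (h : Cx O θ M₀) {s : ℝ} (hs : 1 < s) {M p : ℕ} (hM : M₀ ∣ M) (hp : p.Prime)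
    (hpM : ¬ p ∣ M) (l : B →ₗ[ℚ] ℚ) (hl : ∀ a ∈ Jn O, ∃ m : ℤ, l a = m) :
    Sg O M l s = Sp O p l s * Sg O (M * p) l s := by
  have hg : Gp O θ p := h.gp p hp fun hd => hpM (hd.trans hM)
  have h1 := h.summable_wp hg hs.le
  have h2 := h.summable_wt hs (hM.mul_right p)
  unfold Sg Sp
  rw [tsum_mul_tsum_of_summable_norm
    (by simpa only [norm_wc (wp_nonneg h.bas hp s) l (fun u : Cp O p => (u.out : B))] using h1)
    (by simpa only [norm_wc (wt_nonneg h.bas _ s) l (fun u : Cl O (M * p) => (u.out : B))] using h2),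
    ← (glueE O hp hpM).tsum_eq]
  refine tsum_congr fun q => ?_
  rw [wt_glueE h.ord h.bas hp hpM s q, ch_glueE hp hpM l hl q]
  push_cast
  ring

theorem Cx.glob (h : Cx O θ M₀) {s : ℝ} (hs : 1 < s) (l : B →ₗ[ℚ] ℚ)
    (hl : ∀ a ∈ Jn O, ∃ m : ℤ, l a = m) (P : Finset ℕ) :
    ∀ M : ℕ, M₀ ∣ M → (∀ p ∈ P, p ∈ Out M) →
      ‖Sg O M l s‖ ≤ Z O M s * Real.exp (-((∑ p ∈ P, Dp O p l s) / 4)) ∧
        1 + (∑ p ∈ P, Dp O p l s) / 2 ≤ Z O M s := by
  classical
  induction P using Finset.induction_on with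
  | empty =>
    intro M hM _
    refine ⟨?_, by simpa using h.one_le_Z hs hM⟩
    have hn := norm_wc (wt_nonneg h.bas M s) l (fun u : Cl O M => (u.out : B))
    refine (norm_tsum_le_tsum_norm (by simpa only [hn] using h.summable_wt hs hM)).trans ?_
    simp only [hn]
    simp [Z]
  | insert p P hpP ih =>
    intro M hM hP
    obtain ⟨hp, hpM⟩ := hP p (Finset.mem_insert_self _ _)
    have hg : Gp O θ p := h.gp p hp fun hd => hpM (hd.trans hM)
    have hP' : ∀ q ∈ P, q ∈ Out (M * p) := by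
      intro q hq
      have h1 := hP q (Finset.mem_insert_of_mem hq)
      rw [Out_eq hp hpM] at h1
      exact h1.resolve_left fun hqp => hpP (hqp ▸ hq)
    obtain ⟨i1, i2⟩ := ih (M * p) (hM.mul_right p) hP'
    obtain ⟨l1, l2, l3⟩ := h.loc hg hs.le l hl
    have hD : 0 ≤ ∑ q ∈ P, Dp O q l s := Finset.sum_nonneg fun q hq =>
      (h.loc (h.gp q (hP' q hq).1 fun hd => (hP' q hq).2 (hd.trans (hM.mul_right p))) hs.le l hl).2.2
    rw [Finset.sum_insert hpP, h.Z_split hs hM hp hpM, h.S_split hs hM hp hpM l hl]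
    constructor
    · rw [norm_mul]
      refine (mul_le_mul l1 i1 (norm_nonneg _) ((norm_nonneg _).trans l1)).trans (le_of_eq ?_)
      rw [mul_mul_mul_comm, ← Real.exp_add]
      congr 2
      ring
    · have h1 : (1 + Dp O p l s / 2) * (1 + (∑ q ∈ P, Dp O q l s) / 2) ≤ Zp O p s * Z O (M * p) s :=
        mul_le_mul (by linarith) i2 (by linarith) (by linarith)
      nlinarith [mul_nonneg l3 hD]

theorem exists_finset {S : Set ℕ} (hS : ¬ Summable (S.indicator fun p : ℕ => (1 : ℝ) / p))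
    {N : ℕ} (hN : N ≠ 0) (K : ℝ) :
    ∃ P : Finset ℕ, (∀ p ∈ P, p ∈ S ∧ ¬ p ∣ N) ∧ K < ∑ p ∈ P, (1 : ℝ) / p := by
  classical
  by_contra hc
  push Not at hc
  refine hS (summable_of_sum_le (c := K + ∑ p ∈ N.divisors, (1 : ℝ) / p)
    (fun p => Set.indicator_nonneg (fun _ _ => by positivity) p) fun F => ?_)
  rw [← Finset.sum_filter_add_sum_filter_not F fun p => p ∈ S ∧ ¬ p ∣ N]
  refine add_le_add ?_ ?_
  · refine le_trans (le_of_eq ?_) (hc (F.filter fun p => p ∈ S ∧ ¬ p ∣ N) fun p hp =>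
      (Finset.mem_filter.1 hp).2)
    exact Finset.sum_congr rfl fun p hp => Set.indicator_of_mem (Finset.mem_filter.1 hp).2.1 _
  · rw [← Finset.sum_filter_add_sum_filter_not _ fun p => p ∈ S]
    have h1 : ∑ p ∈ (F.filter fun p => ¬ (p ∈ S ∧ ¬ p ∣ N)).filter (fun p => ¬ p ∈ S),
        S.indicator (fun p : ℕ => (1 : ℝ) / p) p = 0 :=
      Finset.sum_eq_zero fun p hp => Set.indicator_of_notMem (Finset.mem_filter.1 hp).2 _
    rw [h1, add_zero]
    refine le_trans (le_of_eq (Finset.sum_congr rfl fun p hp =>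
      Set.indicator_of_mem (Finset.mem_filter.1 hp).2 _)) ?_
    refine Finset.sum_le_sum_of_subset_of_nonneg (fun p hp => ?_) fun _ _ _ => by positivity
    obtain ⟨h2, h3⟩ := Finset.mem_filter.1 hp
    refine Nat.mem_divisors.2 ⟨?_, hN⟩
    by_contra h4
    exact (Finset.mem_filter.1 h2).2 ⟨h3, h4⟩

/-- the lower bound for the oscillation, as delivered by `LowStmt` -/
def Low (O : Subring B) (θ : B) (l : B →ₗ[ℚ] ℚ) : Prop :=
  ∃ M₁ : ℕ, M₁ ≠ 0 ∧ ∀ p : ℕ, ¬ p ∣ M₁ → Gp O θ p → Spl O p → ∀ s : ℝ, 1 ≤ s →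
    ∃ F : Finset (Cp O p), (p : ℝ) ^ (2 * finrank ℚ B * (1 - s)) / (2 * p) ≤
      ∑ t ∈ F, Hp O p (t.out : B) 1 ^ (-s) * (1 - Real.cos (2 * Real.pi * (l (t.out : B) : ℝ)))

theorem Cx.big (h : Cx O θ M₀) {l : B →ₗ[ℚ] ℚ} (hlow : Low O θ l)
    (hS : ¬ Summable ({p : ℕ | p.Prime ∧ Spl O p}.indicator fun p : ℕ => (1 : ℝ) / p))
    {M : ℕ} (hM0 : M ≠ 0) (hM : M₀ ∣ M) (K : ℝ) :
    ∀ᶠ s in 𝓝[>] (1 : ℝ), ∃ P : Finset ℕ, (∀ p ∈ P, p ∈ Out M) ∧ K ≤ ∑ p ∈ P, Dp O p l s := by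
  obtain ⟨M₁, hM₁, hlow⟩ := hlow
  obtain ⟨P, hP, hK⟩ := exists_finset hS (mul_ne_zero hM0 hM₁) (2 * K)
  have hc : ContinuousAt
      (fun s : ℝ => ∑ p ∈ P, (p : ℝ) ^ (2 * finrank ℚ B * (1 - s)) / (2 * p)) 1 := by
    refine tendsto_finsetSum _ fun p hp => ?_
    have hp0 : (p : ℝ) ≠ 0 := by exact_mod_cast (hP p hp).1.1.ne_zero
    exact ((Real.continuous_const_rpow hp0).comp (by fun_prop)).div_const _ |>.continuousAt
  have h1 : K < ∑ p ∈ P, (p : ℝ) ^ (2 * finrank ℚ B * (1 - (1 : ℝ))) / (2 * p) := by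
    have : ∑ p ∈ P, (p : ℝ) ^ (2 * finrank ℚ B * (1 - (1 : ℝ))) / (2 * p) =
        (∑ p ∈ P, (1 : ℝ) / p) / 2 := by
      rw [Finset.sum_div]
      refine Finset.sum_congr rfl fun p _ => ?_
      rw [sub_self, mul_zero, Real.rpow_zero, div_div, mul_comm]
    rw [this]; linarith
  have h2 := (hc.eventually (lt_mem_nhds h1)).filter_mono (nhdsWithin_le_nhds (s := Set.Ioi 1))
  filter_upwards [h2, self_mem_nhdsWithin] with s hs hs1
  refine ⟨P, fun p hp => ⟨(hP p hp).1.1, fun hd => (hP p hp).2 (hd.mul_right _)⟩,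
    hs.le.trans (Finset.sum_le_sum fun p hp => ?_)⟩
  have hg : Gp O θ p := h.gp p (hP p hp).1.1 fun hd => (hP p hp).2 ((hd.trans hM).mul_right _)
  obtain ⟨F, hF⟩ := hlow p (fun hd => (hP p hp).2 (hd.mul_left _)) hg (hP p hp).1.2 s (le_of_lt hs1)
  exact hF.trans (h.sum_le_Dp hg (le_of_lt hs1) l F)

theorem Cx.tendsto_Z (h : Cx O θ M₀) {l : B →ₗ[ℚ] ℚ} (hl : ∀ a ∈ Jn O, ∃ m : ℤ, l a = m)
    (hlow : Low O θ l)
    (hS : ¬ Summable ({p : ℕ | p.Prime ∧ Spl O p}.indicator fun p : ℕ => (1 : ℝ) / p))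
    {M : ℕ} (hM0 : M ≠ 0) (hM : M₀ ∣ M) : Tendsto (Z O M) (𝓝[>] 1) atTop := by
  refine tendsto_atTop.2 fun K => ?_
  filter_upwards [h.big hlow hS hM0 hM (2 * K), self_mem_nhdsWithin] with s hs hs1
  obtain ⟨P, hP, hK⟩ := hs
  have := (h.glob hs1 l hl P M hM hP).2
  linarith

theorem Cx.tendsto_S (h : Cx O θ M₀) {l : B →ₗ[ℚ] ℚ} (hl : ∀ a ∈ Jn O, ∃ m : ℤ, l a = m)
    (hlow : Low O θ l)
    (hS : ¬ Summable ({p : ℕ | p.Prime ∧ Spl O p}.indicator fun p : ℕ => (1 : ℝ) / p))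
    {M : ℕ} (hM0 : M ≠ 0) (hM : M₀ ∣ M) :
    Tendsto (fun s => Sg O M l s / (Z O M s : ℝ)) (𝓝[>] 1) (𝓝 0) := by
  refine Metric.tendsto_nhds.2 fun ε hε => ?_
  filter_upwards [h.big hlow hS hM0 hM (4 * (1 - Real.log ε)), self_mem_nhdsWithin] with s hs hs1
  obtain ⟨P, hP, hK⟩ := hs
  have h1 := (h.glob hs1 l hl P M hM hP).1
  have h2 : 0 < Z O M s := zero_lt_one.trans_le (h.one_le_Z hs1 hM)
  rw [dist_zero_right, norm_div, Complex.norm_real, Real.norm_of_nonneg h2.le, div_lt_iff₀ h2]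
  refine h1.trans_lt ?_
  rw [mul_comm]
  refine mul_lt_mul_of_pos_right ?_ h2
  rw [← Real.lt_log_iff_exp_lt hε]
  linarith

/-! ## unfolding -/

section unfold

variable {ι : Type} [Fintype ι] {be : ι → B} {co : B →ₗ[ℚ] ι → ℚ}

theorem lat_mem (hc : Co O be co) (m : ι → ℤ) : ∑ i, (m i : ℚ) • be i ∈ Jn O :=
  sum_mem fun i _ => by
    rw [Int.cast_smul_eq_zsmul]
    exact zsmul_mem (hc.mem i) _

/-- the unfolding map -/
def unf (hc : Co O be co) (M : ℕ) (q : Cl O M × (ι → ℤ)) : Jn (Loc O M) :=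
  ⟨(q.1.out : B) + ∑ i, (q.2 i : ℚ) • be i, add_mem q.1.out.2
    (mem_Jn.2 ⟨(mem_Jn.1 (lat_mem hc q.2)).1, le_Loc O M (mem_Jn.1 (lat_mem hc q.2)).2⟩)⟩

theorem unf_bij (hc : Co O be co) (M : ℕ) : Function.Bijective (unf hc M) := by
  constructor
  · rintro ⟨t, m⟩ ⟨t', m'⟩ h
    have h1 : (t.out : B) + ∑ i, (m i : ℚ) • be i = (t'.out : B) + ∑ i, (m' i : ℚ) • be i :=
      congrArg Subtype.val h
    have h2 : t = t' := by
      refine (qt_eq_iff t t').2 ?_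
      have : (t'.out : B) - t.out = ∑ i, (m i : ℚ) • be i - ∑ i, (m' i : ℚ) • be i := by
        rw [sub_eq_sub_iff_add_eq_add, ← h1, add_comm]
      rw [this]
      exact O.sub_mem (mem_Jn.1 (lat_mem hc m)).2 (mem_Jn.1 (lat_mem hc m')).2
    subst h2
    have h3 := congrArg co (add_left_cancel h1)
    rw [hc.co_be, hc.co_be] at h3
    refine Prod.ext rfl (funext fun i => ?_)
    exact_mod_cast congrFun h3 i
  · intro a
    set t : Cl O M := QuotientAddGroup.mk a with ht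
    have h1 : (t.out : B) - a ∈ O := (mk_eq_iff a t).1 rfl
    have h2 : (a : B) - t.out ∈ Jn O := mem_Jn.2
      ⟨by rw [star_sub, (mem_Jn.1 a.2).1, (mem_Jn.1 t.out.2).1], by simpa using O.neg_mem h1⟩
    choose m hm using hc.int _ h2
    refine ⟨(t, m), Subtype.ext ?_⟩
    have h3 := hc.be_co _ (mem_Jn.1 h2).1
    simp only [hm] at h3
    change (t.out : B) + ∑ i, (m i : ℚ) • be i = a
    rw [h3]; abel

theorem unf_term (hB : ∀ p : ℕ, p.Prime → Bas O p) (hc : Co O be co) (M : ℕ) (s : ℝ)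
    (ψ : (ι → ℝ) → ℝ) (q : Cl O M × (ι → ℤ)) :
    H O M (unf hc M q : B) ^ (-s) * ψ (fun i => (co (unf hc M q) i : ℝ)) =
      wt O M s q.1 * ψ ((fun i => (co (q.1.out : B) i : ℝ)) + fun i => (q.2 i : ℝ)) := by
  have e : (unf hc M q : B) = (q.1.out : B) + ∑ i, (q.2 i : ℚ) • be i := rfl
  rw [e, H_add hB M _ (mem_Jn.1 (lat_mem hc q.2)).2, map_add, hc.co_be]
  congr 2
  funext i
  simp

/-- the functional attached to a frequency -/
def frq (co : B →ₗ[ℚ] ι → ℚ) (m : ι → ℤ) : B →ₗ[ℚ] ℚ :=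
  ∑ i, (m i : ℚ) • (LinearMap.proj i).comp co

theorem frq_apply (co : B →ₗ[ℚ] ι → ℚ) (m : ι → ℤ) (a : B) :
    frq co m a = ∑ i, (m i : ℚ) * co a i := by
  simp [frq, LinearMap.sum_apply]

theorem frq_int (hc : Co O be co) (m : ι → ℤ) : ∀ a ∈ Jn O, ∃ k : ℤ, frq co m a = k := by
  intro a ha
  choose k hk using hc.int a ha
  exact ⟨∑ i, m i * k i, by simp [frq_apply, hk]⟩

theorem frq_ne (hc : Co O be co) {m : ι → ℤ} (hm : m ≠ 0) : ∃ a, star a = a ∧ frq co m a ≠ 0 := by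
  classical
  obtain ⟨i, hi⟩ := Function.ne_iff.1 hm
  refine ⟨be i, (mem_Jn.1 (hc.mem i)).1, ?_⟩
  have h := hc.co_be (Pi.single i 1)
  have e : ∑ j, (Pi.single i (1 : ℚ) : ι → ℚ) j • be j = be i := by
    simp [Pi.single_apply]
  rw [e] at h
  rw [frq_apply, h]
  simpa [Pi.single_apply] using hi

end unfold

end Crest.Agent.T24.Hgt.A91

namespace Crest.Agent.T24.Hgt

open Filter Topology Module A91

universe u

theorem htStmt (hBas : BasStmt.{u}) (hGp : GpStmt.{u}) (hUp : UpStmt.{u}) (hLow : LowStmt.{u})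
    (hSpl : SplStmt.{u}) (hW : WeylStmt.{u}) : HtStmt.{u} := by
  intro B _ _ _ _ _ O θ hO
  obtain ⟨M₀, hM₀, hgp⟩ := hGp B O θ hO
  have h : Cx O θ M₀ := ⟨hO, hBas B O θ hO, hgp, hUp B O θ hO⟩
  have hS := hSpl B O θ hO
  refine ⟨M₀, hM₀, fun M hM0 hM => ⟨fun s hs => ⟨h.summable_wt hs hM, h.one_le_Z hs hM⟩, ?_, ?_⟩⟩
  · have hl : ∀ a ∈ Jn O, ∃ m : ℤ, tr B a = m := fun a ha =>
      int_of_padic fun p hp => (h.bas p hp).tr_le a (le_Loc O p (mem_Jn.1 ha).2)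
    refine h.tendsto_Z hl (hLow B O θ hO _ hl ⟨1, star_one B, ?_⟩) hS hM0 hM
    have e : tr B 1 = finrank ℚ B := by
      simp only [tr, LinearMap.comp_apply, AlgHom.toLinearMap_apply, map_one, LinearMap.trace_one]
    rw [e]
    exact_mod_cast (finrank_pos (R := ℚ) (M := B)).ne'
  · intro ι _ be co hc ψ hψ hψc
    obtain ⟨w1, w2⟩ := hW (Cl O M) ι (𝓝[>] 1) (fun t i => (co (t.out : B) i : ℝ)) (wt O M)
      (by
        filter_upwards [self_mem_nhdsWithin] with s hs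
        exact ⟨wt_nonneg h.bas M s, h.summable_wt hs hM,
          zero_lt_one.trans_le (h.one_le_Z hs hM)⟩)
      (by
        intro m hm
        refine (h.tendsto_S (frq_int hc m) (hLow B O θ hO _ (frq_int hc m) (frq_ne hc hm)) hS hM0
          hM).congr fun s => ?_
        simp only [Sg, Z, ch, frq_apply, Rat.cast_sum, Rat.cast_mul, Rat.cast_intCast]) ψ hψ hψc
    set e := Equiv.ofBijective _ (unf_bij hc M) with he
    have ht : ∀ s : ℝ, (fun a : Jn (Loc O M) => H O M (a : B) ^ (-s) * ψ fun i => (co a i : ℝ)) ∘ e =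
        fun q => wt O M s q.1 * ψ ((fun i => (co (q.1.out : B) i : ℝ)) + fun i => (q.2 i : ℝ)) :=
      fun s => funext fun q => unf_term h.bas hc M s ψ q
    constructor
    · intro s hs
      obtain ⟨r, hr1, hr2⟩ := (w1.and (Ioo_mem_nhdsGT hs)).exists
      rw [← ht r, e.summable_iff] at hr1
      refine Summable.of_norm_bounded hr1.norm fun a => ?_
      have h1 := one_le_H h.bas M (a : B)
      rw [norm_mul, norm_mul, Real.norm_of_nonneg (Real.rpow_nonneg (by linarith) _),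
        Real.norm_of_nonneg (Real.rpow_nonneg (by linarith) _)]
      exact mul_le_mul_of_nonneg_right
        (Real.rpow_le_rpow_of_exponent_le h1 (by linarith [hr2.2])) (norm_nonneg _)
    · refine w2.congr fun s => ?_
      rw [← e.tsum_eq, ← ht s]
      rfl

end Crest.Agent.T24.Hgt
end
end

-- ▼ part T24/HgtIdx_84
section

/-!
# Row 24, heights: index and determinant (`IdxStmt`, helper84)
-/

set_option autoImplicit false

namespace Crest.Agent.T24.Hgt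

open Module

universe u

namespace Idx84

section grp
variable {G : Type*} [AddCommGroup G]

theorem bez {H : AddSubgroup G} {a b : ℕ} (h : a.Coprime b) {x : G} (ha : a • x ∈ H) (hb : b • x ∈ H) :
    x ∈ H := by
  obtain ⟨u, v, e⟩ := Nat.isCoprime_iff_coprime.2 h
  have : x = u • a • x + v • b • x := by
    rw [← natCast_zsmul, ← natCast_zsmul, smul_smul, smul_smul, ← add_smul, e, one_smul]
  rw [this]; exact H.add_mem (H.zsmul_mem ha u) (H.zsmul_mem hb v)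

theorem cauchy {A C : AddSubgroup G} (h : A.relIndex C ≠ 0) {q : ℕ} (hq : q.Prime)
    (hd : q ∣ A.relIndex C) : ∃ x ∈ C, x ∉ A ∧ q • x ∈ A := by
  have := Fact.mk hq
  have : Finite (C ⧸ A.addSubgroupOf C) := Nat.finite_of_card_ne_zero h
  obtain ⟨y, hy⟩ := exists_prime_addOrderOf_dvd_card' (G := C ⧸ A.addSubgroupOf C) q hd
  obtain ⟨x, rfl⟩ := QuotientAddGroup.mk_surjective y
  refine ⟨x, x.2, fun hx => hq.one_lt.ne' ?_, ?_⟩
  · rw [← hy, AddMonoid.addOrderOf_eq_one_iff, QuotientAddGroup.eq_zero_iff]; exact hx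
  · have := addOrderOf_nsmul_eq_zero (x : C ⧸ A.addSubgroupOf C)
    rwa [hy, ← QuotientAddGroup.mk_nsmul, QuotientAddGroup.eq_zero_iff] at this

/-- the index after localisation is the `p`-part -/
theorem loc_idx {A Λ A' L : AddSubgroup G} {p : ℕ} (hp : p.Prime) (h0 : A.relIndex Λ ≠ 0) (h1 : A ≤ Λ)
    (h2 : A ≤ A') (h3 : A' ≤ L) (h4 : Λ ≤ L) (hA : ∀ x ∈ A', ∃ m : ℕ, m.Coprime p ∧ m • x ∈ A)
    (hL : ∀ x ∈ L, ∃ m : ℕ, m.Coprime p ∧ m • x ∈ Λ)
    (hd : ∀ m : ℕ, m.Coprime p → ∀ x, m • x ∈ A' → x ∈ A') :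
    ∃ j d : ℕ, A'.relIndex L = p ^ j ∧ ¬ p ∣ d ∧ A.relIndex Λ = d * p ^ j := by
  have e := AddSubgroup.relIndex_mul_relIndex A (Λ ⊓ A') Λ (le_inf h1 h2) inf_le_left
  rw [← e, mul_ne_zero_iff] at h0
  have e2 := Nat.eq_prime_pow_of_unique_prime_dvd h0.2 (p := p) fun {q} hq hd' => by
    by_contra hne
    obtain ⟨x, hx, hx1, hx2⟩ := cauchy h0.2 hq hd'
    exact hx1 ⟨hx, hd q ((Nat.coprime_primes hq hp).2 hne) x hx2.2⟩
  refine ⟨_, _, ?_, fun h => ?_, by rw [← e, ← e2]⟩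
  · rw [← e2, AddSubgroup.inf_relIndex_left, ← AddSubgroup.relIndex_sup_right Λ A']
    congr 1
    refine le_antisymm (fun x hx => ?_) (sup_le h4 h3)
    obtain ⟨m, hm, hx'⟩ := hL x hx
    have := ((Λ ⊓ A').nsmul_relIndex_mem hx').2
    rw [e2, smul_comm] at this
    exact bez (hm.pow_right _) (AddSubgroup.mem_sup_left hx') (AddSubgroup.mem_sup_right (hd m hm _ this))
  · obtain ⟨x, hx, hx1, hx2⟩ := cauchy h0.1 hp h
    obtain ⟨m, hm, hx'⟩ := hA x hx.2
    exact hx1 (bez hm hx' hx2)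

theorem exists_basis [Module ℚ G] {Λ : AddSubgroup G} (hfg : Λ.FG)
    (hfull : ∀ x, ∃ m : ℕ, m ≠ 0 ∧ m • x ∈ Λ) :
    ∃ (n : ℕ) (b : Basis (Fin n) ℚ G), Λ = AddSubgroup.closure (Set.range b) := by
  have : Module.Finite ℤ Λ := Module.Finite.iff_addGroup_fg.2 ((AddGroup.fg_iff_addSubgroup_fg Λ).2 hfg)
  have : IsAddTorsionFree G := .of_module_rat G
  let c := Module.finBasis ℤ Λ
  have li : LinearIndependent ℚ fun i => (c i : G) := (LinearIndependent.iff_fractionRing ℤ ℚ).1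
    (c.linearIndependent.map' Λ.subtype.toIntLinearMap
      (LinearMap.ker_eq_bot.2 Subtype.val_injective))
  have cl : Λ = AddSubgroup.closure (Set.range fun i => (c i : G)) := by
    refine le_antisymm (fun x hx => ?_) ((AddSubgroup.closure_le _).2 (by rintro _ ⟨i, rfl⟩; exact (c i).2))
    have := congrArg (fun y : Λ => (y : G)) (c.sum_repr ⟨x, hx⟩)
    simp only [AddSubgroup.val_finsetSum, AddSubgroupClass.coe_zsmul] at this
    rw [← this]
    exact sum_mem fun i _ => AddSubgroup.zsmul_mem _ (AddSubgroup.subset_closure (Set.mem_range_self i)) _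
  refine ⟨_, Basis.mk li fun x _ => ?_, by rw [Basis.coe_mk]; exact cl⟩
  obtain ⟨m, hm, hx⟩ := hfull x
  have h1 : m • x ∈ Submodule.span ℚ (Set.range fun i => (c i : G)) :=
    (AddSubgroup.closure_le (Submodule.span ℚ (Set.range fun i => (c i : G))).toAddSubgroup).2
      Submodule.subset_span (cl ▸ hx)
  rwa [← Nat.cast_smul_eq_nsmul ℚ, Submodule.smul_mem_iff _ (Nat.cast_ne_zero.2 hm)] at h1

end grp

variable {B : Type*} [Ring B] {O : Subring B} {p : ℕ}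

theorem mem_loc {x : B} : x ∈ Loc O p ↔ ∃ m : ℕ, m.Coprime p ∧ m ≠ 0 ∧ m • x ∈ O := by
  simp only [nsmul_eq_mul]; rfl

theorem le_loc {x : B} (h : x ∈ O) : x ∈ Loc O p := mem_loc.2 ⟨1, by simp, one_ne_zero, by simpa⟩

theorem loc_div {m : ℕ} (hm : m.Coprime p) (h0 : m ≠ 0) {x : B} (h : m • x ∈ Loc O p) : x ∈ Loc O p := by
  obtain ⟨k, hk, k0, hx⟩ := mem_loc.1 h
  exact mem_loc.2 ⟨k * m, hk.mul_left hm, mul_ne_zero k0 h0, by rwa [mul_smul]⟩

variable [Algebra ℚ B]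

theorem loc_inv {m : ℕ} (hm : m.Coprime p) (h0 : m ≠ 0) {x : B} (h : x ∈ Loc O p) :
    (m : ℚ)⁻¹ • x ∈ Loc O p := loc_div hm h0 (by
  rwa [← Nat.cast_smul_eq_nsmul ℚ, smul_inv_smul₀ (Nat.cast_ne_zero.2 h0)])

theorem part1 (hfg : O.toAddSubgroup.FG) (hfull : ∀ x : B, ∃ m : ℕ, m ≠ 0 ∧ (m : B) * x ∈ O)
    (hp : p.Prime) (T : B →ₗ[ℚ] B) (hT : ∀ x ∈ Loc O p, T x ∈ Loc O p) (hd : LinearMap.det T ≠ 0) :
    (((Loc O p).toAddSubgroup.map T.toAddMonoidHom).relIndex (Loc O p).toAddSubgroup : ℚ) *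
      padicNorm p (LinearMap.det T) = 1 := by
  have := Fact.mk hp
  have ne : ∀ {m : ℕ}, m.Coprime p → m ≠ 0 := fun h e => hp.one_lt.ne' (by simpa [e] using h)
  obtain ⟨n, b, hb⟩ := exists_basis hfg (by simp only [nsmul_eq_mul]; exact hfull)
  have := Module.Finite.of_basis b
  have bO : ∀ i, b i ∈ O := fun i =>
    (hb ▸ AddSubgroup.subset_closure ⟨i, rfl⟩ : b i ∈ O.toAddSubgroup)
  choose k k1 _ k2 using fun i => mem_loc.1 (hT _ (le_loc (bO i)))
  set m := ∏ i, k i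
  have hm : m.Coprime p := Nat.Coprime.prod_left fun i _ => k1 i
  have m0 : (m : ℚ) ≠ 0 := Nat.cast_ne_zero.2 (ne hm)
  set S : B →ₗ[ℚ] B := (m : ℚ) • T with hS
  have Sx : ∀ x, S x = m • T x := fun x => Nat.cast_smul_eq_nsmul ℚ _ _
  have dS : LinearMap.det S = (m : ℚ) ^ finrank ℚ B * LinearMap.det T := LinearMap.det_smul _ _
  have dS0 : LinearMap.det S ≠ 0 := dS ▸ mul_ne_zero (pow_ne_zero _ m0) hd
  have hA : O.toAddSubgroup.map S.toAddMonoidHom =
      AddSubgroup.closure (Set.range (b.map (S.equivOfDetNeZero dS0))) := by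
    rw [hb, AddMonoidHom.map_closure, ← Set.range_comp]; rfl
  have h1 : O.toAddSubgroup.map S.toAddMonoidHom ≤ O.toAddSubgroup := by
    rw [hA, AddSubgroup.closure_le]
    rintro _ ⟨i, rfl⟩
    obtain ⟨c, hc⟩ := Finset.dvd_prod_of_mem k (Finset.mem_univ i)
    change S (b i) ∈ O
    rw [Sx, show m = c * k i by rw [mul_comm]; exact hc, mul_smul]
    exact nsmul_mem (k2 i) c
  have e := AddSubgroup.relIndex_eq_abs_det _ _ h1 _ b hA hb
  rw [show ⇑(b.map (S.equivOfDetNeZero dS0)) = S ∘ b from rfl, Basis.det_comp, Basis.det_self, mul_one] at e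
  obtain ⟨j, d, e1, e2, e3⟩ := loc_idx (A' := (Loc O p).toAddSubgroup.map T.toAddMonoidHom)
    (L := (Loc O p).toAddSubgroup) hp (fun h => dS0 (by simpa [h] using e.symm)) h1
    (by rintro _ ⟨x, hx, rfl⟩; exact ⟨m • x, nsmul_mem (le_loc hx) m, (map_nsmul T m x).trans (Sx x).symm⟩)
    (by rintro _ ⟨x, hx, rfl⟩; exact hT x hx) (fun x => le_loc)
    (by
      rintro _ ⟨x, hx, rfl⟩
      obtain ⟨c, c1, -, c2⟩ := mem_loc.1 hx
      exact ⟨m * c, hm.mul_left c1, c • x, c2, (Sx _).trans (by rw [map_nsmul, mul_smul]; rfl)⟩)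
    (fun x hx => let ⟨c, c1, _, c2⟩ := mem_loc.1 hx; ⟨c, c1, c2⟩)
    (by
      rintro c hc x ⟨y, hy, h⟩
      refine ⟨(c : ℚ)⁻¹ • y, loc_inv hc (ne hc) hy, ?_⟩
      change T y = _ at h
      change T _ = _
      rw [map_smul, h, ← Nat.cast_smul_eq_nsmul ℚ, inv_smul_smul₀ (Nat.cast_ne_zero.2 (ne hc))])
  have n1 : padicNorm p (LinearMap.det S) = padicNorm p (LinearMap.det T) := by
    rw [dS, padicNorm.mul, IsAbsoluteValue.abv_pow (padicNorm p), (padicNorm.nat_eq_one_iff m).2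
      (hp.coprime_iff_not_dvd.1 hm.symm), one_pow, one_mul]
  have n2 : padicNorm p |LinearMap.det S| = padicNorm p (LinearMap.det S) := by
    rcases abs_choice (LinearMap.det S) with h | h <;> rw [h]; exact padicNorm.neg _
  rw [← n1, ← n2, ← e, e1, e3, Nat.cast_mul, padicNorm.mul, (padicNorm.nat_eq_one_iff d).2 e2, Nat.cast_pow,
    IsAbsoluteValue.abv_pow (padicNorm p), padicNorm.padicNorm_p_of_prime, one_mul, ← mul_pow,
    mul_inv_cancel₀ (Nat.cast_ne_zero.2 hp.ne_zero), one_pow]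

variable [StarRing B] {θ : B}

theorem part2 [FiniteDimensional ℚ B] (hO : Ord O θ) (hG : Gp O θ p) (T : B →ₗ[ℚ] B)
    (h1 : ∀ x, T (star x) = star (T x)) (h2 : ∀ x, T (θ * x) = θ * T x) :
    ((Loc O p).toAddSubgroup.map T.toAddMonoidHom).relIndex (Loc O p).toAddSubgroup =
      ((Jn (Loc O p)).map T.toAddMonoidHom).relIndex (Jn (Loc O p)) ^ 2 := by
  obtain ⟨t, tL, ht⟩ := hG.th
  have ht' : θ * t = 1 := (hO.th_comm t).trans ht
  have st : ∀ x ∈ Loc O p, star x ∈ Loc O p := fun x hx =>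
    let ⟨c, c1, c0, c2⟩ := mem_loc.1 hx
    mem_loc.2 ⟨c, c1, c0, star_nsmul c x ▸ hO.star_mem _ c2⟩
  have hf : ∀ x ∈ Loc O p, (2 : ℚ)⁻¹ • x ∈ Loc O p := fun x hx => by
    rcases Nat.eq_zero_or_pos (finrank ℚ B) with h | h
    · have := Module.finrank_zero_iff.1 h
      rwa [Subsingleton.elim ((2 : ℚ)⁻¹ • x) x]
    · exact loc_inv (m := 2) ((Nat.coprime_primes Nat.prime_two hG.prime).2 (by have := hG.big; omega))
        two_ne_zero hx
  have sθ : ∀ {b : B}, star b = b → star (θ * b) = -(θ * b) := fun h => by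
    rw [star_mul, h, hO.th_star, mul_neg, hO.th_comm]
  have uniq : ∀ {a b a' b' : B}, star a = a → star b = b → star a' = a' → star b' = b' →
      a + θ * b = a' + θ * b' → a = a' ∧ b = b' := fun {a b a' b'} s1 s2 s3 s4 h => by
    have h' := congrArg star h
    rw [star_add, star_add, s1, s3, sθ s2, sθ s4] at h'
    have e : a = a' := smul_right_injective B (two_ne_zero : (2 : ℚ) ≠ 0) (by
      simp only [two_smul]
      calc a + a = (a + θ * b) + (a + -(θ * b)) := by abel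
        _ = _ := by rw [h, h']; abel)
    refine ⟨e, ?_⟩
    rw [e, add_right_inj] at h
    rw [← one_mul b, ← one_mul b', ← ht, mul_assoc, mul_assoc, h]
  have dec : ∀ w ∈ Loc O p, ∃ a ∈ Jn (Loc O p), ∃ b ∈ Jn (Loc O p), a + θ * b = w := fun w hw => by
    refine ⟨(2 : ℚ)⁻¹ • (w + star w), ⟨?_, hf _ (add_mem hw (st w hw))⟩,
      t * (2 : ℚ)⁻¹ • (w - star w), ⟨?_, (Loc O p).mul_mem tL (hf _ (sub_mem hw (st w hw)))⟩, ?_⟩
    · change star _ = _
      rw [star_rat_smul, star_add, star_star, add_comm]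
    · change star _ = _
      set y := t * (2 : ℚ)⁻¹ • (w - star w)
      have e1 : θ * y = (2 : ℚ)⁻¹ • (w - star w) := by rw [← mul_assoc, ht', one_mul]
      have e2 : θ * star y = θ * y := by
        rw [hO.th_comm, ← neg_inj, ← mul_neg, ← hO.th_star, ← star_mul, e1, star_rat_smul, star_sub,
          star_star, ← smul_neg, neg_sub]
      rw [← one_mul (star y), ← ht, mul_assoc, e2, ← mul_assoc, ht, one_mul]
    · rw [← mul_assoc, ht', one_mul, ← smul_add, add_add_sub_cancel, ← two_smul ℚ, inv_smul_smul₀ two_ne_zero]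
  let f : Jn (Loc O p) × Jn (Loc O p) →+ (Loc O p).toAddSubgroup := AddMonoidHom.mk'
    (fun x => ⟨x.1 + θ * x.2, add_mem x.1.2.2 ((Loc O p).mul_mem (le_loc hO.th_mem) x.2.2.2)⟩)
    fun x y => Subtype.ext (by simp [mul_add]; abel)
  have hs : Function.Surjective f := fun w =>
    let ⟨a, ha, b, hb, e⟩ := dec w w.2; ⟨(⟨a, ha⟩, ⟨b, hb⟩), Subtype.ext e⟩
  rw [AddSubgroup.relIndex, ← AddSubgroup.index_comap_of_surjective _ hs, pow_two, AddSubgroup.relIndex,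
    ← AddSubgroup.index_prod]
  congr 1
  ext ⟨a, b⟩
  refine ⟨?_, ?_⟩
  · rintro ⟨w, hw, e⟩
    obtain ⟨a', ha, b', hb, rfl⟩ := dec w hw
    change T _ = a + θ * b at e
    rw [map_add, h2] at e
    have := uniq ((h1 a').symm.trans (congrArg T ha.1)) ((h1 b').symm.trans (congrArg T hb.1)) a.2.1 b.2.1 e
    exact ⟨⟨a', ha, this.1⟩, ⟨b', hb, this.2⟩⟩
  · rintro ⟨⟨a', ha, e1⟩, ⟨b', hb, e2⟩⟩
    refine ⟨a' + θ * b', add_mem ha.2 ((Loc O p).mul_mem (le_loc hO.th_mem) hb.2), ?_⟩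
    change T a' = a at e1
    change T b' = b at e2
    change T _ = a + θ * b
    rw [map_add, h2, e1, e2]

end Idx84

theorem idxStmt : IdxStmt.{u} := fun _ _ _ _ _ _ _ hO _ hp T hT hd =>
  ⟨Idx84.part1 hO.fg hO.full hp T hT hd, fun hG h1 h2 => by
    rw [← Nat.cast_pow, ← Idx84.part2 hO hG T h1 h2]; exact Idx84.part1 hO.fg hO.full hp T hT hd⟩

end Crest.Agent.T24.Hgt
end

-- ▼ part T24/HgtTr_65

/-!
# Row 24, heights: the trace form and the good primes (`TrStmt`, `GpStmt`)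
-/

set_option autoImplicit false
set_option linter.unusedSectionVars false

noncomputable section

namespace Crest.Agent.T24.Hgt

open Module

universe u

namespace T65

variable {B : Type*} [Ring B] [Algebra ℚ B]

theorem tr_apply (x : B) : tr B x = LinearMap.trace ℚ B (LinearMap.mulLeft ℚ x) := rfl

theorem tr_comm (x y : B) : tr B (x * y) = tr B (y * x) := by
  rw [tr_apply, tr_apply, LinearMap.mulLeft_mul, LinearMap.mulLeft_mul]
  exact LinearMap.trace_mul_comm ℚ (LinearMap.mulLeft ℚ x) (LinearMap.mulLeft ℚ y)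

variable [FiniteDimensional ℚ B]

theorem tr_one : tr B 1 = finrank ℚ B := by
  rw [tr_apply, LinearMap.mulLeft_one]
  exact LinearMap.trace_id ℚ B

theorem tr_one_ne [Nontrivial B] : tr B 1 ≠ 0 := by
  rw [tr_one]
  exact_mod_cast (Module.finrank_pos (R := ℚ) (M := B)).ne'

/-- the radical of the trace form -/
def rad (B : Type*) [Ring B] [Algebra ℚ B] : TwoSidedIdeal B :=
  TwoSidedIdeal.mk' {x | ∀ w, tr B (w * x) = 0} (fun w => by simp)
    (fun {x y} hx hy w => by rw [mul_add, map_add, hx w, hy w, add_zero])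
    (fun {x} hx w => by rw [mul_neg, map_neg, hx w, neg_zero])
    (fun {x y} hy w => by rw [← mul_assoc]; exact hy _)
    (fun {x y} hx w => by rw [← mul_assoc, tr_comm, ← mul_assoc]; exact hx _)

theorem mem_rad (x : B) : x ∈ rad B ↔ ∀ w, tr B (w * x) = 0 := by
  unfold rad
  rw [TwoSidedIdeal.mem_mk']
  rfl

theorem nondeg [IsSimpleRing B] (x : B) (hx : ∀ w, tr B (w * x) = 0) : x = 0 := by
  rcases eq_bot_or_eq_top (rad B) with h | h
  · have : x ∈ rad B := (mem_rad x).2 hx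
    rw [h] at this
    simpa using this
  · have : (1 : B) ∈ rad B := by rw [h]; trivial
    have h1 := (mem_rad (1 : B)).1 this 1
    rw [mul_one] at h1
    exact absurd h1 tr_one_ne

/-- the trace form -/
def form (B : Type*) [Ring B] [Algebra ℚ B] : LinearMap.BilinForm ℚ B :=
  (LinearMap.mul ℚ B).compr₂ (tr B)

theorem form_apply (x y : B) : form B x y = tr B (x * y) := rfl

theorem form_nondeg [IsSimpleRing B] : (form B).Nondegenerate :=
  ⟨fun x hx => nondeg x fun w => by rw [tr_comm]; exact hx w, fun y hy => nondeg y fun w => hy w⟩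

/-- the trace of the right multiplication -/
def trR (B : Type*) [Ring B] [Algebra ℚ B] : Module.Dual ℚ B :=
  (LinearMap.trace ℚ B).comp (LinearMap.mul ℚ B).flip

theorem trR_apply (x : B) : trR B x = LinearMap.trace ℚ B (LinearMap.mulRight ℚ x) := rfl

theorem trR_comm (x y : B) : trR B (x * y) = trR B (y * x) := by
  rw [trR_apply, trR_apply, LinearMap.mulRight_mul, LinearMap.mulRight_mul]
  exact LinearMap.trace_mul_comm ℚ (LinearMap.mulRight ℚ y) (LinearMap.mulRight ℚ x)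

/-- a non-zero central element of a simple ring has a central inverse -/
theorem central_inv [IsSimpleRing B] {z : B} (hz : ∀ x, z * x = x * z) (h0 : z ≠ 0) :
    ∃ t : B, (∀ x, t * x = x * t) ∧ t * z = 1 := by
  have hm : z ∈ Subring.center B := Subring.mem_center_iff.2 fun x => (hz x).symm
  obtain ⟨t, ht⟩ := (IsSimpleRing.isField_center B).mul_inv_cancel (a := ⟨z, hm⟩)
    (fun h => h0 (congrArg Subtype.val h))
  refine ⟨t, fun x => (Subring.mem_center_iff.1 t.2 x).symm, ?_⟩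
  have := congrArg Subtype.val ht
  simp only [Subring.coe_mul, Subring.coe_one] at this
  rw [← hz]; exact this

/-- left and right traces agree on a simple algebra -/
theorem trR_eq [IsSimpleRing B] (x : B) : trR B x = tr B x := by
  set c : B := ((form B).toDual form_nondeg).symm (trR B) with hc
  have h1 : ∀ y, tr B (c * y) = trR B y := fun y =>
    LinearMap.BilinForm.apply_toDual_symm_apply (hB := form_nondeg) (trR B) y
  have h2 : ∀ a, c * a = a * c := by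
    intro a
    refine sub_eq_zero.1 (nondeg _ fun w => ?_)
    rw [mul_sub, map_sub, tr_comm w (c * a), mul_assoc, h1, trR_comm, ← h1, ← mul_assoc w,
      tr_comm (w * a) c, sub_self]
  by_cases h : c - 1 = 0
  · rw [← h1, sub_eq_zero.1 h, one_mul]
  · exfalso
    obtain ⟨t, ht, ht1⟩ := central_inv (z := c - 1)
      (fun y => by rw [sub_mul, mul_sub, h2, one_mul, mul_one]) h
    have h3 : trR B t = tr B t := by
      rw [trR_apply, tr_apply]
      congr 1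
      ext y
      simp [ht]
    have h4 : tr B (t * (c - 1)) = 0 := by
      rw [mul_sub, map_sub, mul_one, tr_comm t c, h1, h3, sub_self]
    rw [ht1] at h4
    exact tr_one_ne h4

variable [StarRing B]

/-- `star` as a `ℚ`-linear equivalence -/
def st (B : Type*) [Ring B] [Algebra ℚ B] [StarRing B] : B ≃ₗ[ℚ] B where
  toFun := star
  invFun := star
  map_add' := star_add
  map_smul' := fun q x => star_rat_smul q x
  left_inv := star_star
  right_inv := star_star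

theorem tr_star [IsSimpleRing B] (x : B) : tr B (star x) = tr B x := by
  rw [← trR_eq x, trR_apply, tr_apply, ← LinearMap.trace_conj' (LinearMap.mulRight ℚ x) (st B)]
  congr 1
  ext y
  simp [st, LinearEquiv.conj_apply]

theorem den_not_dvd {p : ℕ} (hp : p.Prime) {q : ℚ} (hq : padicNorm p q ≤ 1) : ¬ p ∣ q.den := by
  have := Fact.mk hp
  intro hd
  have h1 : padicNorm p (q.den : ℚ) < 1 := (padicNorm.nat_lt_one_iff _).2 hd
  have h2 : padicNorm p (q.num : ℚ) < 1 := by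
    rw [← Rat.mul_den_eq_num, padicNorm.mul]
    calc padicNorm p q * padicNorm p (q.den : ℚ) ≤ 1 * padicNorm p (q.den : ℚ) :=
          mul_le_mul_of_nonneg_right hq (padicNorm.nonneg _)
      _ < 1 := by rwa [one_mul]
  have h3 : (p : ℤ) ∣ q.num := (padicNorm.int_lt_one_iff _).1 h2
  have h4 : p ∣ q.num.natAbs := Int.natCast_dvd.1 h3
  have := Nat.dvd_gcd h4 hd
  rw [q.reduced] at this
  exact hp.one_lt.ne' (Nat.dvd_one.1 this)

theorem smul_mem_Loc {O : Subring B} {p : ℕ} (hp : p.Prime) {q : ℚ} (hq : padicNorm p q ≤ 1) {y : B}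
    (hy : y ∈ Loc O p) : q • y ∈ Loc O p := by
  obtain ⟨m, hm, hm0, hy⟩ := hy
  refine ⟨q.den * m, Nat.Coprime.mul_left ((hp.coprime_iff_not_dvd.2 (den_not_dvd hp hq)).symm) hm,
    mul_ne_zero q.den_nz hm0, ?_⟩
  have : ((q.den * m : ℕ) : B) * (q • y) = (q.num : B) * ((m : B) * y) := by
    rw [← nsmul_eq_mul, ← nsmul_eq_mul, ← zsmul_eq_mul, ← Nat.cast_smul_eq_nsmul ℚ,
      ← Nat.cast_smul_eq_nsmul ℚ, ← Int.cast_smul_eq_zsmul ℚ, smul_smul, smul_smul,
      ← Rat.mul_den_eq_num]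
    congr 1
    push_cast
    ring
  rw [this]
  exact O.mul_mem (intCast_mem O _) hy

theorem mem_Loc_of {O : Subring B} {p m : ℕ} (hp : p.Prime) (hm : ¬ p ∣ m) {y : B}
    (hy : (m : B) * y ∈ O) : y ∈ Loc O p :=
  ⟨m, (hp.coprime_iff_not_dvd.2 hm).symm, fun h => hm (h ▸ dvd_zero p), hy⟩

end T65

open T65

theorem trStmt : TrStmt.{u} := fun _ _ _ _ _ _ => ⟨tr_star, nondeg⟩

theorem gpStmt : GpStmt.{u} := by
  intro B _ _ _ _ _ O θ hO
  classical
  obtain ⟨t, -, ht⟩ := central_inv hO.th_comm hO.th_ne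
  obtain ⟨mt, hmt, hmtO⟩ := hO.full t
  let b := Module.finBasis ℚ B
  let d := (form B).dualBasis form_nondeg b
  choose mb hmb hmbO using fun i => hO.full (b i)
  choose md hmd hmdO using fun i => hO.full (d i)
  refine ⟨(2 * finrank ℚ B + 2).factorial * mt * ∏ i, (mb i * md i),
    mul_ne_zero (mul_ne_zero (Nat.factorial_ne_zero _) hmt)
      (Finset.prod_ne_zero_iff.2 fun i _ => mul_ne_zero (hmb i) (hmd i)), fun p hp hM => ?_⟩
  have := Fact.mk hp
  have h1 : ¬ p ∣ (2 * finrank ℚ B + 2).factorial := fun h =>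
    hM ((h.mul_right mt).mul_right _)
  have h2 : ¬ p ∣ mt := fun h => hM ((h.mul_left _).mul_right _)
  have h3 : ∀ i, ¬ p ∣ mb i * md i := fun i h =>
    hM ((h.trans (Finset.dvd_prod_of_mem (fun i => mb i * md i) (Finset.mem_univ i))).mul_left _)
  refine ⟨hp, ?_, ⟨t, mem_Loc_of hp h2 hmtO, ht⟩, fun x hx => ?_⟩
  · by_contra h
    exact h1 (hp.dvd_factorial.2 (by omega))
  · rw [← d.sum_repr x]
    refine Subring.sum_mem _ fun i _ => smul_mem_Loc hp ?_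
      (mem_Loc_of hp (fun h => h3 i (h.mul_left _)) (hmdO i))
    have e : d.repr x i = tr B (b i * x) := by
      rw [LinearMap.BilinForm.dualBasis_repr_apply, form_apply, tr_comm]
    have h4 := hx _ (hmbO i)
    rw [mul_assoc, ← nsmul_eq_mul, map_nsmul, nsmul_eq_mul, padicNorm.mul,
      (padicNorm.nat_eq_one_iff _).2 (fun h => h3 i (h.mul_right _)), one_mul] at h4
    rwa [e]

end Crest.Agent.T24.Hgt
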