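import Crest.Agent.T24.Kaz_16

-- ▼ part T24/NaVm_52
section

/-!
# Row 24: `t`-invariant vectors and vector measures (helper52)

`kt`: a vector close to a `K(m)`-fixed vector and almost fixed by a contracting element is almost
fixed by `SL_d (F)`. `vm`: an equivariant bounded vector measure is fixed by `SL_d (F)`.
-/

set_option autoImplicit false

namespace Crest.Agent.T24.Vm

open Finset Matrix Kaz
open scoped RealInnerProductSpace

variable {ι F : Type*} [Fintype ι] [DecidableEq ι] [Field F] {G : Type*} [Group G]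
  {V : Type*} [NormedAddCommGroup V] [InnerProductSpace ℝ V]

/-- `τ` contracts the row `i₀` and expands the column `i₀` by `c` -/
structure Ctr (J : SpecialLinearGroup ι F →* G) (i₀ : ι) (c : F) (τ : G) : Prop where
  row : ∀ j, j ≠ i₀ → ∀ s, τ * J (X i₀ j s) = J (X i₀ j (c * s)) * τ
  col : ∀ j, j ≠ i₀ → ∀ s, τ * J (X j i₀ (c * s)) = J (X j i₀ s) * τ

section disp
variable (π : G →* (V ≃ₗᵢ[ℝ] V)) (v : V)

theorem d_mul (g h : G) : ‖π (g * h) v - v‖ ≤ ‖π g v - v‖ + ‖π h v - v‖ := by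
  have : π (g * h) v - v = π g (π h v - v) + (π g v - v) := by
    rw [map_mul, map_sub]; simp
  rw [this, add_comm ‖π g v - v‖]
  exact (norm_add_le _ _).trans (by rw [LinearIsometryEquiv.norm_map])

theorem d_inv (g : G) : ‖π g⁻¹ v - v‖ = ‖π g v - v‖ := by
  rw [← (π g).norm_map, map_sub, norm_sub_rev]
  congr 2
  change (π g * π g⁻¹) v = v
  rw [← map_mul, mul_inv_cancel, map_one]; rfl

theorem d_pow (g : G) (n : ℕ) : ‖π (g ^ n) v - v‖ ≤ n * ‖π g v - v‖ := by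
  induction n with
  | zero => simp
  | succ n ih => rw [pow_succ]; push_cast; linarith [d_mul π v (g ^ n) g]

theorem d_conj (g a : G) : ‖π (a⁻¹ * g * a) v - v‖ ≤ ‖π g v - v‖ + 2 * ‖π a v - v‖ := by
  linarith [d_mul π v (a⁻¹ * g) a, d_mul π v a⁻¹ g, d_inv π v a]

theorem d_near (w : V) (g : G) : ‖π g v - v‖ ≤ ‖π g w - w‖ + 2 * ‖v - w‖ := by
  have : π g v - v = (π g w - w) + π g (v - w) - (v - w) := by rw [map_sub]; abel
  rw [this]
  linarith [norm_sub_le ((π g w - w) + π g (v - w)) (v - w), norm_add_le (π g w - w) (π g (v - w)),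
    (π g).norm_map (v - w)]

end disp

theorem Ctr.row_pow {J : SpecialLinearGroup ι F →* G} {i₀ : ι} {c : F} {τ : G} (h : Ctr J i₀ c τ)
    {j : ι} (hj : j ≠ i₀) (n : ℕ) (s : F) :
    J (X i₀ j s) = (τ ^ n)⁻¹ * J (X i₀ j (c ^ n * s)) * τ ^ n := by
  induction n with
  | zero => simp
  | succ n ih =>
    rw [ih, pow_succ' c, mul_assoc c, pow_succ' τ, _root_.mul_inv_rev]
    have := h.row j hj (c ^ n * s)
    rw [← eq_inv_mul_iff_mul_eq] at this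
    rw [this]; group

theorem Ctr.col_pow {J : SpecialLinearGroup ι F →* G} {i₀ : ι} {c : F} {τ : G} (h : Ctr J i₀ c τ)
    {j : ι} (hj : j ≠ i₀) (n : ℕ) (s : F) :
    J (X j i₀ s) = (τ⁻¹ ^ n)⁻¹ * J (X j i₀ (c ^ n * s)) * τ⁻¹ ^ n := by
  induction n with
  | zero => simp
  | succ n ih =>
    rw [ih, pow_succ' c, mul_assoc c, pow_succ' τ⁻¹, _root_.mul_inv_rev]
    have := h.col j hj (c ^ n * s)
    rw [← mul_inv_eq_iff_eq_mul] at this
    rw [← this]; group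

variable [CompleteSpace V] {O : Subring F} {p ϖ : F} {κ : Type*} [Fintype κ] {t : κ → F}

/-- KT -/
theorem kt (h : Dat O p t) (hϖ : ϖ ∈ O) (hp : p * ϖ = 1) (hκ : 5 ≤ Fintype.card κ)
    (hι : 3 ≤ Fintype.card ι) (π : G →* (V ≃ₗᵢ[ℝ] V)) {J : SpecialLinearGroup ι F →* G} {i₀ : ι}
    {c : F} (hc : ∃ o ∈ O, c = ϖ * o) {τ : G} (hτ : Ctr J i₀ c τ) (v w : V) {m : ℕ} {δ : ℝ}
    (hw : ∀ j, j ≠ i₀ → ∀ o ∈ O, ‖π (J (X i₀ j (ϖ ^ m * o))) w - w‖ ≤ δ ∧
      ‖π (J (X j i₀ (ϖ ^ m * o))) w - w‖ ≤ δ) (g : SpecialLinearGroup ι F) :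
    ‖π (J g) v - v‖ ≤
      32 * Fintype.card ι * (δ + 2 * ‖v - w‖ + 2 * (m + 1) * ‖π τ v - v‖) := by
  obtain ⟨o₀, ho₀, rfl⟩ := hc
  set η := δ + 2 * ‖v - w‖ + 2 * (m + 1) * ‖π τ v - v‖ with hη
  have e : ∀ o, (ϖ * o₀) ^ (m + 1) * (p * o) = ϖ ^ m * (o₀ ^ (m + 1) * o) := fun o => by
    linear_combination ϖ ^ m * o₀ ^ (m + 1) * o * hp
  have h1 : ∀ j, j ≠ i₀ → ∀ o ∈ O, ‖π (J (X i₀ j (p * o))) v - v‖ ≤ η ∧
      ‖π (J (X j i₀ (p * o))) v - v‖ ≤ η := fun j hj o ho => by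
    have h2 := hw j hj _ (O.mul_mem (O.pow_mem ho₀ (m + 1)) ho)
    have h3 := d_pow π v τ (m + 1)
    have h4 := d_pow π v τ⁻¹ (m + 1)
    rw [d_inv] at h4
    push_cast at h3 h4
    constructor
    · rw [hτ.row_pow hj (m + 1), e]
      linarith [d_conj π v (J (X i₀ j (ϖ ^ m * (o₀ ^ (m + 1) * o)))) (τ ^ (m + 1)),
        d_near π v w (J (X i₀ j (ϖ ^ m * (o₀ ^ (m + 1) * o)))), h2.1]
    · rw [hτ.col_pow hj (m + 1), e]
      linarith [d_conj π v (J (X j i₀ (ϖ ^ m * (o₀ ^ (m + 1) * o)))) (τ⁻¹ ^ (m + 1)),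
        d_near π v w (J (X j i₀ (ϖ ^ m * (o₀ ^ (m + 1) * o)))), h2.2]
  obtain ⟨j₀, hj₀, -⟩ := exists_third hι i₀ i₀
  have hη0 : 0 ≤ η := (norm_nonneg _).trans (h1 j₀ hj₀ 0 O.zero_mem).1
  obtain ⟨u, hu, hd⟩ := kazhdan (π.comp J) h ⟨ϖ, hϖ, hp⟩ hκ hι (v := v) (ε := 4 * η)
    fun i j hij o ho => by
      rw [← X_eq, MonoidHom.comp_apply]
      by_cases hi : i = i₀
      · subst hi; linarith [(h1 j hij.symm o ho).1]
      by_cases hj : j = i₀
      · subst hj; linarith [(h1 i hij o ho).2]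
      have h5 := X_heis hi (Ne.symm hj) hij (p * o) (p * ϖ)
      have h6 : J (X i j (p * o)) = (J (X i i₀ (p * o)))⁻¹ * ((J (X i₀ j (p * ϖ)))⁻¹ *
          J (X i i₀ (p * o)) * J (X i₀ j (p * ϖ))) := by
        have := congrArg J h5
        rw [hp, mul_one, ← hp] at this
        simp only [map_mul] at this
        rw [mul_assoc _ (J _) (J _), this]; group
      rw [h6]
      linarith [d_mul π v (J (X i i₀ (p * o)))⁻¹ ((J (X i₀ j (p * ϖ)))⁻¹ *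
          J (X i i₀ (p * o)) * J (X i₀ j (p * ϖ))), d_inv π v (J (X i i₀ (p * o))),
        d_conj π v (J (X i i₀ (p * o))) (J (X i₀ j (p * ϖ))), (h1 i hi o ho).2, (h1 j hj ϖ hϖ).1]
  have h7 := d_near π v u (J g)
  have h8 : π (J g) u = u := hu g
  rw [h8, sub_self, norm_zero] at h7
  have h9 : (3 : ℝ) ≤ Fintype.card ι := by exact_mod_cast hι
  have h10 : ‖v - u‖ ≤ 16 * Fintype.card ι * η :=
    (pow_le_pow_iff_left₀ (norm_nonneg _) (by positivity) two_ne_zero).1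
      (hd.trans (by nlinarith [sq_nonneg η, mul_nonneg (sq_nonneg η) (sub_nonneg.2 h9)]))
  linarith

omit [CompleteSpace V] in
/-- variance identity along uniform fibres -/
theorem var {A B : Type*} [Fintype A] [Fintype B] [DecidableEq B] (pr : A → B) {r : ℕ} (hr : r ≠ 0)
    (hf : ∀ y, #{x | pr x = y} = r) (a : A → V) (b : B → V)
    (hb : ∀ y, b y = ∑ x with pr x = y, a x) :
    (∑ x, ‖a x - (r : ℝ)⁻¹ • b (pr x)‖) ^ 2 ≤
      Fintype.card A * ∑ x, ‖a x‖ ^ 2 - Fintype.card B * ∑ y, ‖b y‖ ^ 2 := by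
  have hr' : (r : ℝ) ≠ 0 := by exact_mod_cast hr
  have hc : (Fintype.card A : ℝ) = r * Fintype.card B := by
    rw [← card_univ, card_eq_sum_card_fiberwise (f := pr) (t := univ) (fun _ _ => mem_univ _)]
    simp [hf, mul_comm]
  have h1 : ∑ x, ‖a x - (r : ℝ)⁻¹ • b (pr x)‖ ^ 2 = ∑ x, ‖a x‖ ^ 2 - (r : ℝ)⁻¹ * ∑ y, ‖b y‖ ^ 2 := by
    rw [← sum_fiberwise univ pr, ← sum_fiberwise univ pr (fun x => ‖a x‖ ^ 2), mul_sum,
      ← sum_sub_distrib]
    refine sum_congr rfl fun y _ => ?_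
    rw [sum_congr rfl (g := fun x => ‖a x‖ ^ 2 - 2 * (r : ℝ)⁻¹ * ⟪a x, b y⟫ + (r : ℝ)⁻¹ ^ 2 * ‖b y‖ ^ 2)
      fun x hx => by
        rw [(mem_filter.1 hx).2, norm_sub_sq_real, real_inner_smul_right, norm_smul, mul_pow,
          Real.norm_eq_abs, sq_abs]; ring]
    rw [sum_add_distrib, sum_sub_distrib, ← mul_sum, ← sum_inner, ← hb, real_inner_self_eq_norm_sq,
      sum_const, hf, nsmul_eq_mul]
    field_simp; ring
  refine (sq_sum_le_card_mul_sum_sq (s := univ)).trans (le_of_eq ?_)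
  rw [h1, card_univ, hc]; field_simp

omit [InnerProductSpace ℝ V] [CompleteSpace V] in
theorem near_of [NormedSpace ℝ V] {a b u : V} {n n' δ : ℝ} (h : ‖a‖ = ‖b‖) (hn : 0 ≤ n) (hn' : 0 ≤ n')
    (ha : ‖a - n • u‖ ≤ δ) (hb : ‖b - n' • u‖ ≤ δ) : ‖a - b‖ ≤ 4 * δ := by
  have h1 := abs_norm_sub_norm_le a (n • u)
  have h2 := abs_norm_sub_norm_le b (n' • u)
  rw [norm_smul, Real.norm_of_nonneg hn, abs_le] at h1
  rw [norm_smul, Real.norm_of_nonneg hn', abs_le] at h2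
  have h3 : ‖n • u - n' • u‖ ≤ 2 * δ := by
    rw [← sub_smul, norm_smul, Real.norm_eq_abs, ← abs_norm u, ← abs_mul, abs_le]
    constructor <;> nlinarith
  have : a - b = (a - n • u) + (n • u - n' • u) - (b - n' • u) := by abel
  rw [this]
  linarith [norm_sub_le ((a - n • u) + (n • u - n' • u)) (b - n' • u),
    norm_add_le (a - n • u) (n • u - n' • u)]

section vm
variable {Z : Type*} [AddCommGroup Z]

/-- the union of a set of cosets -/
def U (L : AddSubgroup Z) (s : Set (Z ⧸ L)) : Set Z := (QuotientAddGroup.mk : Z → Z ⧸ L) ⁻¹' s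

/-- the coset of `z` -/
def cell (L : AddSubgroup Z) (z : Z) : Set Z := {x | -z + x ∈ L}

theorem U_mk (L : AddSubgroup Z) (z : Z) : U L {(z : Z ⧸ L)} = cell L z := by
  ext x
  simp only [U, cell, Set.mem_preimage, Set.mem_singleton_iff, Set.mem_ofPred_eq]
  rw [eq_comm, QuotientAddGroup.eq]

/-- the parent -/
def pr {L L' : AddSubgroup Z} (h : L' ≤ L) : Z ⧸ L' →+ Z ⧸ L :=
  QuotientAddGroup.map L' L (.id _) (by rwa [AddSubgroup.comap_id])

theorem pr_mk {L L' : AddSubgroup Z} (h : L' ≤ L) (z : Z) : pr h (z : Z ⧸ L') = (z : Z ⧸ L) := rfl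

open scoped Classical in
theorem card_fib {L L' : AddSubgroup Z} (h : L' ≤ L) [Fintype (Z ⧸ L')] (y : Z ⧸ L) :
    #{x | pr h x = y} = L'.relIndex L := by
  obtain ⟨z, rfl⟩ := QuotientAddGroup.mk_surjective y
  have h1 : Nat.card (pr h).ker = L'.relIndex L := by
    rw [pr, QuotientAddGroup.ker_map, AddSubgroup.comap_id, ← AddSubgroup.relIndex_ker,
      QuotientAddGroup.ker_mk']
  rw [← h1, ← Fintype.card_subtype, ← Nat.card_eq_fintype_card]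
  exact Nat.card_congr ⟨fun x => ⟨x.1 - z, by
      rw [AddMonoidHom.mem_ker, map_sub, x.2, pr_mk, sub_self]⟩,
    fun x => ⟨x.1 + z, by rw [map_add, x.2, pr_mk, zero_add]⟩, fun x => by simp, fun x => by simp⟩

/-- VM -/
theorem vm (h : Dat O p t) (hϖ : ϖ ∈ O) (hp : p * ϖ = 1) (hκ : 5 ≤ Fintype.card κ)
    (hι : 3 ≤ Fintype.card ι) (π : G →* (V ≃ₗᵢ[ℝ] V)) {i₀ : ι} {c : F} (hc : ∃ o ∈ O, c = ϖ * o)
    (Λ : ℕ → AddSubgroup Z) (hΛ : Antitone Λ) (hfin : ∀ j, (Λ j).FiniteIndex) {a b : ℕ}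
    (hb : ∀ j, (Λ (j + a)).relIndex (Λ j) ≤ b) (Φ : Set Z → V)
    (hadd : ∀ j (s s' : Set (Z ⧸ Λ j)), Disjoint s s' → Φ (U _ (s ∪ s')) = Φ (U _ s) + Φ (U _ s'))
    {C : ℝ} (hC : ∀ j z, (Λ j).index * ‖Φ (cell (Λ j) z)‖ ≤ C)
    (J : ℕ → Z → (SpecialLinearGroup ι F →* G)) (T : ℕ → Z → G)
    (hT : ∀ j z, Ctr (J j z) i₀ c (T j z))
    (hS : ∀ j z, ∃ s : Set (Z ⧸ Λ (j + a + a)), U _ s ⊆ cell (Λ j) z ∧
      π (T j z) (Φ (cell (Λ (j + a)) z)) = Φ (U _ s))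
    (hK : ∀ j₁, ∃ m : ℕ, ∀ j z k, k ≠ i₀ → ∀ o ∈ O,
      π (J j z (X i₀ k (ϖ ^ m * o))) (Φ (cell (Λ j₁) z)) = Φ (cell (Λ j₁) z) ∧
      π (J j z (X k i₀ (ϖ ^ m * o))) (Φ (cell (Λ j₁) z)) = Φ (cell (Λ j₁) z))
    {g : G} (hg : ∀ j z, g ∈ (J j z).range) : π g (Φ Set.univ) = Φ Set.univ := by
  classical
  have : ∀ j, Fintype (Z ⧸ Λ j) := fun j => Fintype.ofFinite _
  set φ : ∀ j, Z ⧸ Λ j → V := fun j q => Φ (U _ {q}) with hφ
  have h0 : ∀ j (S : Finset (Z ⧸ Λ j)), Φ (U _ (S : Set (Z ⧸ Λ j))) = ∑ q ∈ S, φ j q := fun j S => by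
    induction S using Finset.induction_on with
    | empty => simpa using hadd j ∅ ∅ (by simp)
    | insert q S hq ih =>
      rw [sum_insert hq, coe_insert, Set.insert_eq, hadd _ _ _ (by simpa using hq), ih]
  have h1 : ∀ {j j'} (hj : j ≤ j') (y : Z ⧸ Λ j), φ j y = ∑ x with pr (hΛ hj) x = y, φ j' x :=
    fun hj y => by
      rw [← h0]; simp only [hφ]; congr 1; ext x; simp [U, pr_mk]
  have hr : ∀ j j', (Λ j').relIndex (Λ j) ≠ 0 := fun j j' =>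
    (AddSubgroup.instFiniteIndex_addSubgroupOf (Λ j') (Λ j)).index_ne_zero
  set e : ℕ → ℝ := fun j => Fintype.card (Z ⧸ Λ j) * ∑ x, ‖φ j x‖ ^ 2 with he
  have h2 : ∀ {j j'} (hj : j ≤ j'), (∑ x, ‖φ j' x - ((Λ j').relIndex (Λ j) : ℝ)⁻¹ •
      φ j (pr (hΛ hj) x)‖) ^ 2 ≤ e j' - e j := fun hj =>
    var _ (hr _ _) (card_fib _) _ _ (h1 hj)
  have h3 : ∀ j, e j ≤ C ^ 2 := fun j => by
    have hN : (0 : ℝ) < Fintype.card (Z ⧸ Λ j) := by exact_mod_cast Fintype.card_pos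
    have : ∀ x, ‖φ j x‖ ^ 2 ≤ (C / Fintype.card (Z ⧸ Λ j)) ^ 2 := fun x => by
      obtain ⟨z, rfl⟩ := QuotientAddGroup.mk_surjective x
      have := hC j z
      rw [AddSubgroup.index_eq_card, Nat.card_eq_fintype_card, mul_comm, ← le_div_iff₀ hN,
        ← U_mk] at this
      exact pow_le_pow_left₀ (norm_nonneg _) this 2
    refine (mul_le_mul_of_nonneg_left (sum_le_sum fun x _ => this x) hN.le).trans (le_of_eq ?_)
    rw [sum_const, card_univ, nsmul_eq_mul]; field_simp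
  have h4 : ∀ η : ℝ, 0 < η → ∃ j₁, ∀ j j' (hj : j ≤ j'), j₁ ≤ j →
      ∑ x, ‖φ j' x - ((Λ j').relIndex (Λ j) : ℝ)⁻¹ • φ j (pr (hΛ hj) x)‖ ≤ η := fun η hη => by
    have hbd : BddAbove (Set.range e) := ⟨_, by rintro _ ⟨j, rfl⟩; exact h3 j⟩
    obtain ⟨j₁, hj₁⟩ := exists_lt_of_lt_ciSup (f := e) (sub_lt_self (⨆ j, e j) (pow_pos hη 2))
    refine ⟨j₁, fun j j' hj hj' => (pow_le_pow_iff_left₀ (sum_nonneg fun _ _ => norm_nonneg _) hη.le
      two_ne_zero).1 ((h2 hj).trans ?_)⟩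
    linarith [le_ciSup hbd j', (sq_nonneg _).trans (h2 hj')]
  rw [← sub_eq_zero, ← norm_le_zero_iff]
  refine le_of_forall_pos_le_add fun ε hε => ?_
  have hι' : (0 : ℝ) < Fintype.card ι := by exact_mod_cast (by omega : 0 < Fintype.card ι)
  obtain ⟨j₁, hj₁⟩ := h4 (ε / (128 * Fintype.card ι)) (by positivity)
  obtain ⟨m, hm⟩ := hK j₁
  obtain ⟨j₂, hj₂⟩ := h4 (ε / (512 * Fintype.card ι * (m + 1) * (b + 1))) (by positivity)
  set j := max j₁ j₂ with hj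
  have l1 : j₁ ≤ j + a := (le_max_left _ _).trans (Nat.le_add_right _ _)
  have l2 : j ≤ j + a := Nat.le_add_right _ _
  have l3 : j + a ≤ j + a + a := Nat.le_add_right _ _
  set u : Z ⧸ Λ j → V := fun y => ((Λ (j + a + a)).relIndex (Λ j) : ℝ)⁻¹ • φ j y with hu
  set δ : Z ⧸ Λ j → ℝ := fun y => ∑ x with pr (hΛ (l2.trans l3)) x = y, ‖φ _ x - u y‖ with hδ
  have h5 : ∀ (y : Z ⧸ Λ j) (S : Finset (Z ⧸ Λ (j + a + a))), (∀ x ∈ S, pr (hΛ (l2.trans l3)) x = y) →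
      ‖Φ (U _ (S : Set (Z ⧸ Λ (j + a + a)))) - (#S : ℝ) • u y‖ ≤ δ y := fun y S hS => by
    rw [h0, Nat.cast_smul_eq_nsmul, ← sum_const, ← sum_sub_distrib]
    exact (norm_sum_le _ _).trans (sum_le_sum_of_subset_of_nonneg
      (fun x hx => mem_filter.2 ⟨mem_univ _, hS x hx⟩) fun _ _ _ => norm_nonneg _)
  have h6 : ∀ x : Z ⧸ Λ (j + a), ‖π g (φ _ x) - φ _ x‖ ≤ 32 * Fintype.card ι *
      (2 * ‖φ _ x - ((Λ (j + a)).relIndex (Λ j₁) : ℝ)⁻¹ • φ j₁ (pr (hΛ l1) x)‖ +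
        8 * (m + 1) * δ (pr (hΛ l2) x)) := fun x => by
    obtain ⟨z, rfl⟩ := QuotientAddGroup.mk_surjective x
    obtain ⟨g', rfl⟩ := hg j z
    obtain ⟨s, hs, hs'⟩ := hS j z
    have h7 := kt h hϖ hp hκ hι π hc (hT j z) (φ (j + a) z)
      (((Λ (j + a)).relIndex (Λ j₁) : ℝ)⁻¹ • φ j₁ z) (m := m) (δ := 0) (fun k hk o ho => by
        simp only [hφ, U_mk, map_smul, (hm j z k hk o ho).1, (hm j z k hk o ho).2, sub_self,
          norm_zero, le_refl, and_self]) g'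
    have h8 := h5 z s.toFinset fun x hx => by
      obtain ⟨z', rfl⟩ := QuotientAddGroup.mk_surjective x
      have : z' ∈ cell (Λ j) z := hs (show (z' : Z ⧸ Λ _) ∈ s from Set.mem_toFinset.1 hx)
      rw [pr_mk, eq_comm, QuotientAddGroup.eq]; exact this
    have h9 := h5 z {x | pr (hΛ l3) x = z} fun x hx => by
      obtain ⟨z', rfl⟩ := QuotientAddGroup.mk_surjective x
      have := congrArg (pr (hΛ l2)) (mem_filter.1 hx).2
      exact this
    rw [h0, ← h1 l3] at h9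
    rw [Set.coe_toFinset, ← hs', ← U_mk] at h8
    have h10 := near_of ((π (T j z)).norm_map _) (Nat.cast_nonneg _) (Nat.cast_nonneg _) h8 h9
    refine h7.trans (mul_le_mul_of_nonneg_left ?_ (by positivity))
    rw [pr_mk, pr_mk]
    have : (0 : ℝ) ≤ m + 1 := by positivity
    nlinarith
  have h11 : ∑ x : Z ⧸ Λ (j + a), δ (pr (hΛ l2) x) ≤
      b * (ε / (512 * Fintype.card ι * (m + 1) * (b + 1))) := by
    rw [← sum_fiberwise univ (pr (hΛ l2))]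
    rw [sum_congr rfl (g := fun y => ((Λ (j + a)).relIndex (Λ j) : ℝ) * δ y) fun y _ => by
      rw [sum_congr rfl (g := fun _ => δ y) fun x hx => by rw [(mem_filter.1 hx).2], sum_const,
        card_fib, nsmul_eq_mul], ← mul_sum]
    refine mul_le_mul (by exact_mod_cast hb j) (le_trans (le_of_eq ?_)
      (hj₂ j _ (l2.trans l3) (le_max_right _ _)))
      (sum_nonneg fun _ _ => sum_nonneg fun _ _ => norm_nonneg _) (Nat.cast_nonneg _)
    rw [← sum_fiberwise univ (pr (hΛ (l2.trans l3)))]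
    exact sum_congr rfl fun y _ => sum_congr rfl fun x hx => by rw [(mem_filter.1 hx).2]
  have h12 : Φ Set.univ = ∑ x, φ (j + a) x := by rw [← h0]; simp [U]
  rw [h12, map_sum, ← sum_sub_distrib, zero_add]
  refine (norm_sum_le _ _).trans ((sum_le_sum fun x _ => h6 x).trans ?_)
  rw [← mul_sum, sum_add_distrib, ← mul_sum, ← mul_sum]
  have h13 := hj₁ j₁ _ l1 le_rfl
  have h14 : (b : ℝ) * (ε / (512 * Fintype.card ι * (m + 1) * (b + 1))) ≤
      ε / (512 * Fintype.card ι * (m + 1)) := by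
    rw [← div_div, mul_div_assoc', div_le_iff₀ (by positivity)]
    have : 0 ≤ ε / (512 * Fintype.card ι * (m + 1)) := by positivity
    nlinarith
  calc _ ≤ 32 * Fintype.card ι * (2 * (ε / (128 * Fintype.card ι)) +
        8 * (m + 1) * (ε / (512 * Fintype.card ι * (m + 1)))) := by
        have := h11.trans h14
        gcongr
    _ = ε := by field_simp; ring

end vm

end Crest.Agent.T24.Vm
end

-- ▼ part T24/NaMx_52

/-!
# Row 24: cells of `M_d (O)`, the element `t`, the Newton step, vector measures on matrices (helper52)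
-/

set_option autoImplicit false

namespace Crest.Agent.T24.Vm

open Finset Matrix Kaz

section act
variable {ι F : Type*} [Fintype ι] [DecidableEq ι] [Field F] {G : Type*} [Group G]
  {V : Type*} [NormedAddCommGroup V] [InnerProductSpace ℝ V] [CompleteSpace V]
  {O : Subring F} {p ϖ : F} {κ : Type*} [Fintype κ] {t : κ → F} {M : Type*} [AddCommGroup M]

/-- stable under translation by `L` -/
def Sat (L : AddSubgroup M) (s : Set M) : Prop := ∀ x ∈ s, ∀ l ∈ L, x + l ∈ s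

theorem mem_cell {L : AddSubgroup M} {z x : M} : x ∈ cell L z ↔ x - z ∈ L := by
  rw [cell, Set.mem_ofPred_eq, neg_add_eq_sub]

theorem sat_cell (L : AddSubgroup M) (z : M) : Sat L (cell L z) := fun x hx l hl => by
  rw [mem_cell] at *; simpa [add_sub_right_comm] using L.add_mem hx hl

/-- VM for an additive action -/
theorem vmA (h : Dat O p t) (hϖ : ϖ ∈ O) (hp : p * ϖ = 1) (hκ : 5 ≤ Fintype.card κ)
    (hι : 3 ≤ Fintype.card ι) (π : G →* (V ≃ₗᵢ[ℝ] V)) {i₀ : ι} {c : F} (hc : ∃ o ∈ O, c = ϖ * o)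
    (L : ℕ → AddSubgroup M) (hL : Antitone L) (hfin : ∀ j, (L j).relIndex (L 0) ≠ 0) {a b : ℕ}
    (hb : ∀ j, (L (j + a)).relIndex (L j) ≤ b) (ρ : G →* (M ≃ₗ[ℤ] M)) (z₀ : M) (Ψ : Set M → V)
    (hadd : ∀ j s s', s ⊆ cell (L 0) z₀ → s' ⊆ cell (L 0) z₀ → Sat (L j) s → Sat (L j) s' →
      Disjoint s s' → Ψ (s ∪ s') = Ψ s + Ψ s')
    {C : ℝ} (hC : ∀ j, ∀ z ∈ cell (L 0) z₀, (L j).relIndex (L 0) * ‖Ψ (cell (L j) z)‖ ≤ C)
    (heq : ∀ g j, ∀ z ∈ cell (L 0) z₀, ρ g '' cell (L j) z ⊆ cell (L 0) z₀ →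
      π g (Ψ (cell (L j) z)) = Ψ (ρ g '' cell (L j) z))
    (J : ℕ → M → (SpecialLinearGroup ι F →* G)) (T : ℕ → M → G)
    (hT : ∀ j, ∀ z ∈ cell (L 0) z₀, Ctr (J j z) i₀ c (T j z) ∧ ρ (T j z) z - z ∈ L j ∧
      ∀ i, ∀ l ∈ L (i + a), ρ (T j z) l ∈ L i ∧ ρ (T j z)⁻¹ l ∈ L i)
    (hK : ∀ j₁, ∃ m : ℕ, ∀ j, ∀ z ∈ cell (L 0) z₀, ∀ k, k ≠ i₀ → ∀ o ∈ O, ∀ x ∈ cell (L 0) z₀,
      ρ (J j z (X i₀ k (ϖ ^ m * o))) x - x ∈ L j₁ ∧ ρ (J j z (X k i₀ (ϖ ^ m * o))) x - x ∈ L j₁)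
    {g : G} (hg : ∀ j, ∀ z ∈ cell (L 0) z₀, g ∈ (J j z).range) :
    π g (Ψ (cell (L 0) z₀)) = Ψ (cell (L 0) z₀) := by
  set f : L 0 → M := fun l => z₀ + l with hf
  have hf0 : ∀ l, f l ∈ cell (L 0) z₀ := fun l => by simp [mem_cell, hf]
  have hf1 : ∀ s, f '' s ⊆ cell (L 0) z₀ := by rintro s _ ⟨l, -, rfl⟩; exact hf0 l
  have hf2 : ∀ x ∈ cell (L 0) z₀, ∃ l, f l = x := fun x hx => ⟨⟨_, mem_cell.1 hx⟩, by simp [hf]⟩
  have hf3 : ∀ j z, f '' cell ((L j).addSubgroupOf (L 0)) z = cell (L j) (f z) := fun j z => by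
    ext x
    constructor
    · rintro ⟨l, hl, rfl⟩
      simpa [mem_cell, hf, AddSubgroup.mem_addSubgroupOf] using hl
    · intro hx
      obtain ⟨l, rfl⟩ := hf2 x (by
        rw [mem_cell] at *
        have := (L 0).add_mem (hL (Nat.zero_le j) hx) z.2
        rwa [hf, show x - (z₀ + z) + z = x - z₀ by abel] at this)
      exact ⟨l, by simpa [mem_cell, hf, AddSubgroup.mem_addSubgroupOf] using hx, rfl⟩
  have hf4 : ∀ j s, Sat (L j) (f '' U ((L j).addSubgroupOf (L 0)) s) := by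
    rintro j s _ ⟨x, hx, rfl⟩ l hl
    refine ⟨x + ⟨l, hL (Nat.zero_le j) hl⟩, ?_, by simp [hf, add_assoc]⟩
    change _ ∈ s at hx ⊢
    rwa [QuotientAddGroup.mk_add_of_mem _ (by exact hl)]
  have hsub : ∀ j, ∀ z ∈ cell (L 0) z₀, cell (L j) z ⊆ cell (L 0) z₀ := fun j z hz x hx => by
    rw [mem_cell] at *
    simpa using (L 0).add_mem (hL (Nat.zero_le j) hx) hz
  have hfix : ∀ (k : G) j, ∀ z ∈ cell (L 0) z₀, (∀ x ∈ cell (L 0) z₀, ρ k x - x ∈ L j) →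
      (∀ x ∈ cell (L 0) z₀, ρ k⁻¹ x - x ∈ L j) → π k (Ψ (cell (L j) z)) = Ψ (cell (L j) z) :=
    fun k j z hz h1 h2 => by
      have : ρ k '' cell (L j) z = cell (L j) z := by
        refine Set.Subset.antisymm ?_ fun x hx => ⟨ρ k⁻¹ x, ?_, ?_⟩
        · rintro _ ⟨x, hx, rfl⟩
          simpa using sat_cell _ _ x hx _ (h1 x (hsub j z hz hx))
        · simpa using sat_cell _ _ x hx _ (h2 x (hsub j z hz hx))
        · rw [← LinearEquiv.mul_apply, ← map_mul, mul_inv_cancel, map_one]; rfl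
      rw [heq k j z hz (this.symm ▸ hsub j z hz), this]
  have hu : f '' Set.univ = cell (L 0) z₀ :=
    (hf1 _).antisymm fun x hx => (hf2 x hx).imp fun _ h => ⟨trivial, h⟩
  rw [← hu]
  refine vm h hϖ hp hκ hι π (i₀ := i₀) hc (fun j => (L j).addSubgroupOf (L 0))
    (fun i j hij => AddSubgroup.comap_mono (hL hij)) (fun j => ⟨hfin j⟩) (a := a) (b := b)
    (fun j => ?_) (fun s => Ψ (f '' s)) (fun j s s' hs => ?_) (C := C) (fun j z => ?_)
    (fun j z => J j (f z)) (fun j z => T j (f z)) (fun j z => (hT j _ (hf0 z)).1) (fun j z => ?_)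
    (fun j₁ => (hK j₁).imp fun m hm j z k hk o ho => ?_) fun j z => hg j _ (hf0 z)
  · rw [AddSubgroup.relIndex_addSubgroupOf (hL (Nat.zero_le j))]; exact hb j
  · simp only [U, Set.preimage_union, Set.image_union]
    refine hadd j _ _ (hf1 _) (hf1 _) (hf4 j s) (hf4 j s') ?_
    exact (Set.disjoint_image_iff fun x y hxy => by simpa [hf] using hxy).2 (hs.preimage _)
  · rw [hf3]; exact hC j _ (hf0 z)
  · obtain ⟨-, h1, h2⟩ := hT j _ (hf0 z)
    have h3 : ρ (T j (f z)) '' cell (L (j + a)) (f z) ⊆ cell (L j) (f z) := by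
      rintro _ ⟨x, hx, rfl⟩
      rw [mem_cell] at *
      simpa using (L j).add_mem (h2 j _ hx).1 h1
    have h4 : f '' U ((L (j + a + a)).addSubgroupOf (L 0))
        {q | ∃ l : L 0, (l : _ ⧸ _) = q ∧ f l ∈ ρ (T j (f z)) '' cell (L (j + a)) (f z)} =
        ρ (T j (f z)) '' cell (L (j + a)) (f z) := by
      refine Set.Subset.antisymm ?_ fun x hx => ?_
      · rintro _ ⟨l, ⟨l', e, x, hx, e'⟩, rfl⟩
        rw [QuotientAddGroup.eq, AddSubgroup.mem_addSubgroupOf] at e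
        refine ⟨x + ρ (T j (f z))⁻¹ _, sat_cell _ _ x hx _ (h2 _ _ e).2, ?_⟩
        rw [map_add, e', ← LinearEquiv.mul_apply, ← map_mul, mul_inv_cancel, map_one]
        simp [hf]
      · obtain ⟨l, rfl⟩ := hf2 x (hsub j _ (hf0 z) (h3 hx))
        exact ⟨l, ⟨l, rfl, hx⟩, rfl⟩
    refine ⟨_, fun l hl => ?_, by
      rw [h4, hf3]; exact heq _ _ _ (hf0 z) (h3.trans (hsub j _ (hf0 z)))⟩
    have := h3 (h4 ▸ Set.mem_image_of_mem f hl)
    simpa [mem_cell, hf, AddSubgroup.mem_addSubgroupOf] using this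
  · rw [hf3]
    have h1 := hm j _ (hf0 z) k hk o ho
    have h2 := hm j _ (hf0 z) k hk _ (O.neg_mem ho)
    simp only [mul_neg, ← X_neg, map_inv (J j (f z))] at h2
    exact ⟨hfix _ _ _ (hf0 z) (fun x hx => (h1 x hx).1) fun x hx => (h2 x hx).1,
      hfix _ _ _ (hf0 z) (fun x hx => (h1 x hx).2) fun x hx => (h2 x hx).2⟩

end act

section mat
variable {ι F : Type*} [Fintype ι] [DecidableEq ι] [Field F] (O : Subring F) (ϖ : F)

/-- `ϖ ^ n O` -/
def Iv (n : ℕ) : AddSubgroup F where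
  carrier := {x | ∃ o ∈ O, x = ϖ ^ n * o}
  zero_mem' := ⟨0, O.zero_mem, by simp⟩
  add_mem' := by
    rintro _ _ ⟨o, ho, rfl⟩ ⟨o', ho', rfl⟩
    exact ⟨o + o', O.add_mem ho ho', by ring⟩
  neg_mem' := by
    rintro _ ⟨o, ho, rfl⟩
    exact ⟨-o, O.neg_mem ho, by ring⟩

/-- `ϖ ^ n M_d (O)` -/
def Lv (ι : Type*) (n : ℕ) : AddSubgroup (Matrix ι ι F) := (Iv O ϖ n).matrix

variable {O ϖ}


theorem Iv_mul {a b : ℕ} {x y : F} (hx : x ∈ Iv O ϖ a) (hy : y ∈ Iv O ϖ b) : x * y ∈ Iv O ϖ (a + b) := by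
  obtain ⟨o, ho, rfl⟩ := hx
  obtain ⟨o', ho', rfl⟩ := hy
  exact ⟨o * o', O.mul_mem ho ho', by ring⟩

omit [DecidableEq ι] in
theorem Lv_mul {a b : ℕ} {x y : Matrix ι ι F} (hx : x ∈ Lv O ϖ ι a) (hy : y ∈ Lv O ϖ ι b) :
    x * y ∈ Lv O ϖ ι (a + b) := fun i j => by
  rw [mul_apply]; exact (Iv O ϖ (a + b)).sum_mem fun k _ => Iv_mul (hx i k) (hy k j)

omit [DecidableEq ι] in
theorem Lv_mul_left {a : ℕ} {x y : Matrix ι ι F} (hx : x ∈ Lv O ϖ ι 0) (hy : y ∈ Lv O ϖ ι a) :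
    x * y ∈ Lv O ϖ ι a := by simpa using Lv_mul hx hy

omit [DecidableEq ι] in
theorem Lv_mul_right {a : ℕ} {x y : Matrix ι ι F} (hx : x ∈ Lv O ϖ ι a) (hy : y ∈ Lv O ϖ ι 0) :
    x * y ∈ Lv O ϖ ι a := by simpa using Lv_mul hx hy

omit [Fintype ι] [DecidableEq ι] in
theorem Lv_anti (hϖ : ϖ ∈ O) : Antitone (Lv O ϖ ι) := antitone_nat_of_succ_le fun n x hx i j => by
  obtain ⟨o, ho, e⟩ := hx i j
  exact ⟨ϖ * o, O.mul_mem hϖ ho, by rw [e]; ring⟩

omit [Fintype ι] in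
theorem single_mem_Lv {n : ℕ} (i j : ι) {o : F} (ho : o ∈ O) : single i j (ϖ ^ n * o) ∈ Lv O ϖ ι n :=
  fun k l => by
    rw [single_apply]; split_ifs
    exacts [⟨o, ho, rfl⟩, (Iv O ϖ n).zero_mem]

omit [Fintype ι] in
theorem diagonal_mem_Lv {f : ι → F} (hf : ∀ i, f i ∈ O) : diagonal f ∈ Lv O ϖ ι 0 := fun k l => by
  rw [diagonal_apply]; split_ifs
  exacts [⟨_, hf k, by simp⟩, (Iv O ϖ 0).zero_mem]

omit [Fintype ι] in
theorem one_mem_Lv : (1 : Matrix ι ι F) ∈ Lv O ϖ ι 0 := diagonal_mem_Lv fun _ => O.one_mem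

omit [Fintype ι] [DecidableEq ι] in
theorem Lv_cancel (h0 : ϖ ≠ 0) {a n : ℕ} {x : Matrix ι ι F} (h : ϖ ^ a • x ∈ Lv O ϖ ι (n + a)) :
    x ∈ Lv O ϖ ι n := fun i j => by
  obtain ⟨o, ho, e⟩ := h i j
  refine ⟨o, ho, mul_left_cancel₀ (pow_ne_zero a h0) ?_⟩
  rw [← smul_eq_mul, ← Matrix.smul_apply, e]; ring

omit [DecidableEq ι] in
/-- bounded distortion -/
theorem Lv_dist (h0 : ϖ ≠ 0) {a b n : ℕ} {g g' x : Matrix ι ι F} (hg : ϖ ^ a • g ∈ Lv O ϖ ι 0)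
    (hg' : ϖ ^ b • g' ∈ Lv O ϖ ι 0) (hx : x ∈ Lv O ϖ ι (n + (a + b))) : g * x * g' ∈ Lv O ϖ ι n := by
  refine Lv_cancel h0 (a := a + b) ?_
  have := Lv_mul_right (Lv_mul_left hg hx) hg'
  rwa [smul_mul_assoc, smul_mul_smul_comm, ← pow_add] at this

/-- an element of `SL_d (O)` -/
def InK (O : Subring F) (ϖ : F) (h : SpecialLinearGroup ι F) : Prop :=
  (h : Matrix ι ι F) ∈ Lv O ϖ ι 0 ∧ ((h⁻¹ : SpecialLinearGroup ι F) : Matrix ι ι F) ∈ Lv O ϖ ι 0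

theorem InK.mul {g h : SpecialLinearGroup ι F} (hg : InK O ϖ g) (hh : InK O ϖ h) : InK O ϖ (g * h) :=
  ⟨Lv_mul_left hg.1 hh.1, by rw [_root_.mul_inv_rev]; exact Lv_mul_left hh.2 hg.2⟩

theorem newton_step (hϖ : ϖ ∈ O) {e z b : Matrix ι ι F} (he0 : e ∈ Lv O ϖ ι 0)
    (hz : z - e ∈ Lv O ϖ ι 1) (hb : b ∈ Lv O ϖ ι 1) (hbb : b * b = 0) (hd : (1 - b).det = 1) :
    ∃ u : SpecialLinearGroup ι F, InK O ϖ u ∧ (u : Matrix ι ι F) = 1 - b ∧
      ((u⁻¹ : SpecialLinearGroup ι F) : Matrix ι ι F) = 1 + b ∧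
      (1 + b) * z * (1 - b) - e ∈ Lv O ϖ ι 1 := by
  have hb0 := Lv_anti hϖ zero_le_one hb
  have hz0 : z ∈ Lv O ϖ ι 0 := by simpa using add_mem (Lv_anti hϖ zero_le_one hz) he0
  obtain ⟨u, hu⟩ : ∃ u : SpecialLinearGroup ι F, (u : Matrix ι ι F) = 1 - b := ⟨⟨_, hd⟩, rfl⟩
  have h1 : ((u⁻¹ : SpecialLinearGroup ι F) : Matrix ι ι F) = 1 + b := by
    have h2 : (u : Matrix ι ι F) * (1 + b) = 1 := by
      rw [hu]; linear_combination (norm := noncomm_ring) -hbb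
    have h3 : ((u⁻¹ : SpecialLinearGroup ι F) : Matrix ι ι F) * u = 1 := by
      rw [← Matrix.SpecialLinearGroup.coe_mul, inv_mul_cancel]; rfl
    exact left_inv_eq_right_inv h3 h2
  refine ⟨u, ⟨hu ▸ sub_mem one_mem_Lv hb0, h1 ▸ add_mem one_mem_Lv hb0⟩, hu, h1, ?_⟩
  have : (1 + b) * z * (1 - b) - e = (z - e) + b * z - (1 + b) * z * b := by noncomm_ring
  rw [this]
  exact sub_mem (add_mem hz (Lv_mul_right hb hz0))
    (Lv_mul_left (Lv_mul_left (add_mem one_mem_Lv hb0) hz0) hb)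

/-- block diagonalisation modulo `ϖ ^ n` -/
theorem newton (hϖ : ϖ ∈ O) {e : Matrix ι ι F} (he : e * e = e) (he0 : e ∈ Lv O ϖ ι 0) (n : ℕ)
    {z : Matrix ι ι F} (hz : z - e ∈ Lv O ϖ ι 1) :
    ∃ h : SpecialLinearGroup ι F, InK O ϖ h ∧ ∀ y, y = (h⁻¹ : SpecialLinearGroup ι F) * z * h →
      y - e ∈ Lv O ϖ ι 1 ∧ e * y * (1 - e) ∈ Lv O ϖ ι (n + 1) ∧ (1 - e) * y * e ∈ Lv O ϖ ι (n + 1) := by
  have he1 : 1 - e ∈ Lv O ϖ ι 0 := sub_mem one_mem_Lv he0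
  have e1 : e * (1 - e) = 0 := by rw [mul_sub, mul_one, he, sub_self]
  have e2 : (1 - e) * e = 0 := by rw [sub_mul, one_mul, he, sub_self]
  induction n with
  | zero =>
    refine ⟨1, ⟨one_mem_Lv, by simpa using one_mem_Lv⟩, fun y hy => ?_⟩
    obtain rfl : y = z := by simpa using hy
    refine ⟨hz, ?_, ?_⟩
    · have : e * y * (1 - e) = e * (y - e) * (1 - e) := by rw [mul_sub e y, he, sub_mul, e1, sub_zero]
      rw [this]; exact Lv_mul_right (Lv_mul_left he0 hz) he1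
    · have : (1 - e) * y * e = (1 - e) * (y - e) * e := by rw [mul_sub _ y, e2, sub_zero]
      rw [this]; exact Lv_mul_right (Lv_mul_left he1 hz) he0
  | succ n ih =>
    obtain ⟨h, hh, h1⟩ := ih
    obtain ⟨h2, h3, h4⟩ := h1 _ rfl
    set y := ((h⁻¹ : SpecialLinearGroup ι F) : Matrix ι ι F) * z * h with hy
    have l : 1 ≤ n + 1 := Nat.le_add_left _ _
    obtain ⟨b, hb⟩ : ∃ b, b = e * y * (1 - e) := ⟨_, rfl⟩
    have b1 : b * e = 0 := by rw [hb, mul_assoc, e2, mul_zero]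
    have b2 : e * b = b := by rw [hb, ← mul_assoc, ← mul_assoc, he]
    obtain ⟨u, hu, u1, u2, u3⟩ := newton_step hϖ he0 h2 (b := b) (hb ▸ Lv_anti hϖ l h3)
      (by rw [← b2, ← mul_assoc, mul_assoc e, b1]; simp)
      (by rw [← b2, det_one_sub_mul_comm, b1]; simp)
    obtain ⟨y', hy'⟩ : ∃ y', y' = (1 + b) * y * (1 - b) := ⟨_, rfl⟩
    rw [← hy'] at u3
    have y0 := Lv_anti hϖ zero_le_one (hb ▸ Lv_anti hϖ l h3 : b ∈ Lv O ϖ ι 1)
    have h5 : (1 - e) * y' * e = (1 - e) * y * e := by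
      rw [hy', mul_assoc, mul_assoc, sub_mul 1 b, b1, ← mul_assoc, ← mul_assoc, mul_add, ← b2,
        ← mul_assoc _ e, e2]; simp
    have h6 : e * y' * (1 - e) = b * (y - e) * (1 - b) * (1 - e) - e * (y - e) * b := by
      have : e * y * (1 - e) = b := hb.symm
      rw [hy']
      linear_combination (norm := noncomm_ring) this + b2 * y * (1 - b) * (1 - e) + e * y * b1 +
        b1 * (1 - b) * (1 - e) - he * b - b2
    have h7 : e * y' * (1 - e) ∈ Lv O ϖ ι (n + 1 + 1) := by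
      rw [h6]
      refine sub_mem (Lv_mul_right (Lv_mul_right (Lv_mul (hb ▸ h3) h2) (sub_mem one_mem_Lv y0)) he1) ?_
      rw [add_comm (n + 1)]; exact Lv_mul (Lv_mul_left he0 h2) (hb ▸ h3)
    obtain ⟨c, hc⟩ : ∃ c, c = -((1 - e) * y' * e) := ⟨_, rfl⟩
    have c0 : c ∈ Lv O ϖ ι (n + 1) := by rw [hc, h5]; exact neg_mem h4
    have c1 : e * c = 0 := by rw [hc, mul_neg, ← mul_assoc, ← mul_assoc, e1]; simp
    have c2 : c * e = c := by rw [hc, neg_mul, mul_assoc, he]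
    obtain ⟨w, hw, w1, w2, w3⟩ := newton_step hϖ he0 u3 (b := c) (Lv_anti hϖ l c0)
      (by rw [← c2, mul_assoc, ← mul_assoc e, c1]; simp)
      (by rw [← c2, det_one_sub_mul_comm, c1]; simp)
    refine ⟨h * u * w, (hh.mul hu).mul hw, fun y'' hy'' => ?_⟩
    obtain rfl : y'' = (1 + c) * y' * (1 - c) := by
      rw [hy'', hy', hy, ← u1, ← u2, ← w1, ← w2]
      simp only [_root_.mul_inv_rev, Matrix.SpecialLinearGroup.coe_mul, mul_assoc]
    have z0 := Lv_anti hϖ (Nat.zero_le _) c0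
    refine ⟨w3, ?_, ?_⟩
    · have : e * ((1 + c) * y' * (1 - c)) * (1 - e) = e * y' * (1 - e) := by
        linear_combination (norm := noncomm_ring) c1 * y' * (1 - c) * (1 - e) + e * y' * c2
      rw [this]; exact h7
    · have : (1 - e) * ((1 + c) * y' * (1 - c)) * e =
          c * (y' - e) * (1 - c) * e - (1 - e) * (y' - e) * c := by
        have h8 : (1 - e) * y' * e = -c := by rw [hc, neg_neg]
        linear_combination (norm := noncomm_ring) h8 - c1 * y' * (1 - c) * e - (1 - e) * y' * c2 +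
          c * he - c * c1 * e + c2 - e2 * c
      rw [this]
      refine sub_mem (Lv_mul_right (Lv_mul_right (Lv_mul c0 u3) (sub_mem one_mem_Lv z0)) he0) ?_
      rw [add_comm (n + 1)]; exact Lv_mul (Lv_mul_left he1 u3) c0

/-- the contracting element -/
theorem exists_t {p : F} (hϖ : ϖ ∈ O) (hp : p * ϖ = 1) (i₀ : ι) : ∃ t : SpecialLinearGroup ι F,
    Ctr (MonoidHom.id _) i₀ (ϖ ^ Fintype.card ι) t ∧ ϖ ^ 1 • (t : Matrix ι ι F) ∈ Lv O ϖ ι 0 ∧
      ϖ ^ Fintype.card ι • ((t⁻¹ : SpecialLinearGroup ι F) : Matrix ι ι F) ∈ Lv O ϖ ι 0 ∧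
      ∃ a b : F, (t : Matrix ι ι F) = a • single i₀ i₀ 1 + b • (1 - single i₀ i₀ 1) := by
  obtain ⟨n, hn⟩ : ∃ n, Fintype.card ι = n + 1 :=
    Nat.exists_eq_add_one.2 (Fintype.card_pos_iff.2 ⟨i₀⟩)
  have hp' : ∀ m : ℕ, p ^ m * ϖ ^ m = 1 := fun m => by rw [← mul_pow, hp, one_pow]
  obtain ⟨t, ht⟩ : ∃ t : SpecialLinearGroup ι F, (t : Matrix ι ι F) =
      diagonal fun i => if i = i₀ then ϖ ^ n else p := ⟨⟨diagonal _, by
    rw [det_diagonal, ← mul_prod_erase _ _ (mem_univ i₀), if_pos rfl,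
      prod_congr rfl (g := fun _ => p) fun i hi => if_neg (ne_of_mem_erase hi), prod_const,
      card_erase_of_mem (mem_univ _), card_univ, hn, Nat.add_sub_cancel, mul_comm, hp']⟩, rfl⟩
  have ht' : ((t⁻¹ : SpecialLinearGroup ι F) : Matrix ι ι F) =
      diagonal fun i => if i = i₀ then p ^ n else ϖ := by
    have h3 : ((t⁻¹ : SpecialLinearGroup ι F) : Matrix ι ι F) * t = 1 := by
      rw [← Matrix.SpecialLinearGroup.coe_mul, inv_mul_cancel]; rfl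
    have h2 : (t : Matrix ι ι F) * diagonal (fun i => if i = i₀ then p ^ n else ϖ) = 1 := by
      rw [ht, diagonal_mul_diagonal, ← diagonal_one]
      congr 1; ext i; split_ifs
      exacts [by rw [mul_comm, hp'], hp]
    exact left_inv_eq_right_inv h3 h2
  refine ⟨t, ⟨fun j hj s => Subtype.ext ?_, fun j hj s => Subtype.ext ?_⟩, ?_, ?_, ϖ ^ n, p, ?_⟩
  · simp only [MonoidHom.id_apply, Matrix.SpecialLinearGroup.coe_mul, X_coe hj.symm, ht, mul_add,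
      add_mul, mul_one, one_mul, hn]
    congr 1; ext k l
    simp only [diagonal_mul, mul_diagonal, single_apply]
    split_ifs with h1 h2 h3 <;> try simp
    · exact absurd (h2.2.trans h3) hj
    · linear_combination -ϖ ^ n * s * hp
    all_goals exact absurd ‹i₀ = k ∧ j = l›.1.symm h1
  · simp only [MonoidHom.id_apply, Matrix.SpecialLinearGroup.coe_mul, X_coe hj, ht, mul_add,
      add_mul, mul_one, one_mul, hn]
    congr 1; ext k l
    simp only [diagonal_mul, mul_diagonal, single_apply]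
    split_ifs with h1 h2 h3 h4 h5 h6 <;> try simp
    · exact absurd (h2.1.trans h1) hj
    · exact absurd (h2.1.trans h1) hj
    · linear_combination ϖ ^ n * s * hp
    · exact absurd ‹j = k ∧ i₀ = l›.2.symm ‹_›
  · rw [ht, ← diagonal_smul]
    refine diagonal_mem_Lv fun i => ?_
    simp only [Pi.smul_apply, smul_eq_mul, pow_one]; split_ifs
    exacts [O.mul_mem hϖ (O.pow_mem hϖ n), by rw [mul_comm, hp]; exact O.one_mem]
  · rw [ht', ← diagonal_smul]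
    refine diagonal_mem_Lv fun i => ?_
    simp only [Pi.smul_apply, smul_eq_mul, hn]; split_ifs
    exacts [by rw [pow_succ', mul_assoc, mul_comm (ϖ ^ n), hp', mul_one]; exact hϖ,
      O.mul_mem (O.pow_mem hϖ _) hϖ]
  · rw [ht]; ext i j
    by_cases h1 : i = j <;> by_cases h2 : i = i₀ <;> simp_all [single_apply, one_apply, eq_comm]

theorem Ctr.map {G G' : Type*} [Group G] [Group G'] {J : SpecialLinearGroup ι F →* G} {i₀ : ι} {c : F}
    {τ : G} (h : Ctr J i₀ c τ) (f : G →* G') {σ : G'} (hσ : ∀ g, σ * f (J g) = f (J g) * σ) :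
    Ctr (f.comp J) i₀ c (f τ * σ) :=
  ⟨fun j hj s => by
    simp only [MonoidHom.comp_apply]
    rw [mul_assoc, hσ, ← mul_assoc, ← map_mul, h.row j hj, map_mul, mul_assoc],
   fun j hj s => by
    simp only [MonoidHom.comp_apply]
    rw [mul_assoc, hσ, ← mul_assoc, ← map_mul, h.col j hj, map_mul, mul_assoc]⟩

theorem coe_inv_mul (g : SpecialLinearGroup ι F) :
    ((g⁻¹ : SpecialLinearGroup ι F) : Matrix ι ι F) * g = 1 := by
  rw [← Matrix.SpecialLinearGroup.coe_mul, inv_mul_cancel]; rfl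

theorem coe_mul_inv (g : SpecialLinearGroup ι F) :
    (g : Matrix ι ι F) * (g⁻¹ : SpecialLinearGroup ι F) = 1 := by
  rw [← Matrix.SpecialLinearGroup.coe_mul, mul_inv_cancel]; rfl

/-- a contracting element which almost commutes with `z` -/
theorem exists_tau {p : F} (hϖ : ϖ ∈ O) (hp : p * ϖ = 1) (i₀ : ι) (n : ℕ) {z : Matrix ι ι F}
    (hz : z - single i₀ i₀ 1 ∈ Lv O ϖ ι 1) : ∃ h τ : SpecialLinearGroup ι F, InK O ϖ h ∧
      Ctr (MulAut.conj h).toMonoidHom i₀ (ϖ ^ Fintype.card ι) τ ∧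
      ϖ ^ 1 • (τ : Matrix ι ι F) ∈ Lv O ϖ ι 0 ∧
      ϖ ^ Fintype.card ι • ((τ⁻¹ : SpecialLinearGroup ι F) : Matrix ι ι F) ∈ Lv O ϖ ι 0 ∧
      (τ : Matrix ι ι F) * z * (τ⁻¹ : SpecialLinearGroup ι F) - z ∈ Lv O ϖ ι n := by
  have h0 : ϖ ≠ 0 := right_ne_zero_of_mul_eq_one hp
  obtain ⟨t, t1, t2, t3, a, b, t4⟩ := exists_t hϖ hp i₀
  obtain ⟨e, he'⟩ : ∃ e : Matrix ι ι F, e = single i₀ i₀ 1 := ⟨_, rfl⟩
  rw [← he'] at hz t4
  have he : e * e = e := by rw [he', single_mul_single_same, one_mul]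
  obtain ⟨h, hh, h1⟩ := newton hϖ he (by simpa [he'] using single_mem_Lv (n := 0) i₀ i₀ O.one_mem)
    (n + (1 + Fintype.card ι)) hz
  obtain ⟨-, h2, h3⟩ := h1 _ rfl
  set y := ((h⁻¹ : SpecialLinearGroup ι F) : Matrix ι ι F) * z * h with hy
  have h4 := Lv_anti hϖ (Nat.le_succ _) (add_mem h2 h3)
  set r := e * y * (1 - e) + (1 - e) * y * e with hr
  have h5 : (t : Matrix ι ι F) * (y - r) = (y - r) * t := by
    have : e * (y - r) = (y - r) * e := by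
      rw [hr]
      linear_combination (norm := noncomm_ring) -he * y + he * y * e + he * y * e - e * y * he -
        he * y * e + y * he - e * y * he + e * y * he - he * y * e + (he * y * e - e * y * he) +
        he * y * e
    rw [t4]
    simp only [add_mul, mul_add, smul_mul_assoc, mul_smul_comm, sub_mul, mul_sub (y - r), one_mul,
      mul_one, this]
  have h6 : (t : Matrix ι ι F) * y * (t⁻¹ : SpecialLinearGroup ι F) - y ∈ Lv O ϖ ι n := by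
    have : (t : Matrix ι ι F) * y * (t⁻¹ : SpecialLinearGroup ι F) - y =
        t * r * (t⁻¹ : SpecialLinearGroup ι F) - r := by
      linear_combination (norm := noncomm_ring) h5 * ((t⁻¹ : SpecialLinearGroup ι F) : Matrix ι ι F) +
        (y - r) * coe_mul_inv t
    rw [this]
    exact sub_mem (Lv_dist h0 t2 t3 h4) (Lv_anti hϖ (Nat.le_add_right _ _) h4)
  refine ⟨h, h * t * h⁻¹, hh, by simpa using t1.map (MulAut.conj h).toMonoidHom (σ := 1) (by simp),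
    ?_, ?_, ?_⟩
  · have := Lv_mul_right (Lv_mul_left hh.1 t2) hh.2
    rwa [mul_smul_comm, smul_mul_assoc] at this
  · have := Lv_mul_right (Lv_mul_left hh.1 t3) hh.2
    rw [mul_smul_comm, smul_mul_assoc] at this
    simpa only [_root_.mul_inv_rev, inv_inv, Matrix.SpecialLinearGroup.coe_mul, mul_assoc] using this
  · convert Lv_mul_right (Lv_mul_left hh.1 h6) hh.2 using 1
    simp only [hy, _root_.mul_inv_rev, inv_inv, Matrix.SpecialLinearGroup.coe_mul, mul_sub, sub_mul,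
      mul_assoc, coe_mul_inv, mul_one]
    rw [← mul_assoc (h : Matrix ι ι F) _ z, coe_mul_inv, one_mul]

/-- conjugated transvections of level `m` are in the congruence subgroup -/
theorem conj_X {h : SpecialLinearGroup ι F} (hh : InK O ϖ h) {i j : ι} (hij : i ≠ j) (m : ℕ) {o : F}
    (ho : o ∈ O) : ((h * X i j (ϖ ^ m * o) * h⁻¹ : SpecialLinearGroup ι F) : Matrix ι ι F) - 1 ∈
      Lv O ϖ ι m := by
  convert Lv_mul_right (Lv_mul_left hh.1 (single_mem_Lv (n := m) i j ho)) hh.2 using 1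
  simp only [Matrix.SpecialLinearGroup.coe_mul, X_coe hij, mul_add, add_mul, mul_one, coe_mul_inv]
  abel

theorem lr_sub (hϖ : ϖ ∈ O) {m : ℕ} {k k' x : Matrix ι ι F} (hk : k - 1 ∈ Lv O ϖ ι m)
    (hk' : k' - 1 ∈ Lv O ϖ ι m) (hx : x ∈ Lv O ϖ ι 0) : k * x * k' - x ∈ Lv O ϖ ι m := by
  have h1 : k' ∈ Lv O ϖ ι 0 := by simpa using add_mem (Lv_anti hϖ (Nat.zero_le m) hk') one_mem_Lv
  have : k * x * k' - x = (k - 1) * x * k' + x * (k' - 1) := by noncomm_ring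
  rw [this]
  exact add_mem (Lv_mul_right (Lv_mul_right hk hx) h1) (Lv_mul_left hx hk')

omit [Fintype ι] [DecidableEq ι] in
theorem relIndex_Lv (h0 : ϖ ≠ 0) (j a : ℕ) :
    (Lv O ϖ ι (j + a)).relIndex (Lv O ϖ ι j) = (Lv O ϖ ι a).relIndex (Lv O ϖ ι 0) := by
  let f : Matrix ι ι F →+ Matrix ι ι F := DistribSMul.toAddMonoidHom _ (ϖ ^ j)
  have h1 : ∀ n, (Lv O ϖ ι (n + j)).comap f = Lv O ϖ ι n := fun n => by
    ext x
    refine ⟨Lv_cancel h0, fun hx i k => ?_⟩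
    obtain ⟨o, ho, e⟩ := hx i k
    exact ⟨o, ho, by simp [f, e]; ring⟩
  rw [← h1 a, ← h1 0, AddSubgroup.relIndex_comap, AddSubgroup.map_comap_eq_self_of_surjective
    (fun x => ⟨(ϖ ^ j)⁻¹ • x, smul_inv_smul₀ (pow_ne_zero j h0) x⟩), zero_add, add_comm]


/-- `x ↦ g x g'⁻¹` -/
def lr : SpecialLinearGroup ι F × SpecialLinearGroup ι F →* (Matrix ι ι F ≃ₗ[ℤ] Matrix ι ι F) where
  toFun g :=
    { toFun x := g.1 * x * (g.2⁻¹ : SpecialLinearGroup ι F)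
      invFun x := (g.1⁻¹ : SpecialLinearGroup ι F) * x * g.2
      map_add' x y := by rw [mul_add, add_mul]
      map_smul' c x := by rw [mul_smul_comm, smul_mul_assoc]; rfl
      left_inv x := by
        simp only [← mul_assoc, coe_inv_mul, one_mul]; rw [mul_assoc, coe_inv_mul, mul_one]
      right_inv x := by
        simp only [← mul_assoc, coe_mul_inv, one_mul]; rw [mul_assoc, coe_mul_inv, mul_one] }
  map_one' := by ext1 x; simp
  map_mul' g h := by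
    ext1 x
    simp only [LinearEquiv.coe_mk, LinearEquiv.mul_apply, LinearMap.coe_mk, AddHom.coe_mk, Prod.fst_mul,
      Prod.snd_mul, _root_.mul_inv_rev, Matrix.SpecialLinearGroup.coe_mul, mul_assoc]

theorem lr_apply (g : SpecialLinearGroup ι F × SpecialLinearGroup ι F) (x : Matrix ι ι F) :
    lr g x = g.1 * x * (g.2⁻¹ : SpecialLinearGroup ι F) := rfl

variable {V : Type*} [NormedAddCommGroup V] [InnerProductSpace ℝ V] [CompleteSpace V]
  {p : F} {κ : Type*} [Fintype κ] {t : κ → F}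

/-- VM for the conjugation action on a cell in `E + ϖ M_d (O)` -/
theorem vm_conj (h : Dat O p t) (hϖ : ϖ ∈ O) (hp : p * ϖ = 1) (hκ : 5 ≤ Fintype.card κ)
    (hι : 3 ≤ Fintype.card ι) (hfin : ∀ j, (Lv O ϖ ι j).relIndex (Lv O ϖ ι 0) ≠ 0)
    (π : SpecialLinearGroup ι F →* (V ≃ₗᵢ[ℝ] V)) (i₀ : ι) {n : ℕ} (hn : 1 ≤ n) {z₀ : Matrix ι ι F}
    (hz₀ : z₀ - single i₀ i₀ 1 ∈ Lv O ϖ ι 1) (Ψ : Set (Matrix ι ι F) → V)
    (hadd : ∀ j s s', s ⊆ cell (Lv O ϖ ι n) z₀ → s' ⊆ cell (Lv O ϖ ι n) z₀ → Sat (Lv O ϖ ι j) s →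
      Sat (Lv O ϖ ι j) s' → Disjoint s s' → Ψ (s ∪ s') = Ψ s + Ψ s')
    {C : ℝ} (hC : ∀ j, ∀ z ∈ cell (Lv O ϖ ι n) z₀,
      (Lv O ϖ ι j).relIndex (Lv O ϖ ι 0) * ‖Ψ (cell (Lv O ϖ ι (n + j)) z)‖ ≤ C)
    (heq : ∀ (g : SpecialLinearGroup ι F) j, ∀ z ∈ cell (Lv O ϖ ι n) z₀,
      π g (Ψ (cell (Lv O ϖ ι (n + j)) z)) = Ψ ((fun x => g * x * (g⁻¹ : SpecialLinearGroup ι F)) ''
        cell (Lv O ϖ ι (n + j)) z)) (g : SpecialLinearGroup ι F) :
    π g (Ψ (cell (Lv O ϖ ι n) z₀)) = Ψ (cell (Lv O ϖ ι n) z₀) := by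
  have h0 : ϖ ≠ 0 := right_ne_zero_of_mul_eq_one hp
  have h1 : ∀ z ∈ cell (Lv O ϖ ι n) z₀, z - single i₀ i₀ 1 ∈ Lv O ϖ ι 1 := fun z hz => by
    simpa using add_mem (Lv_anti hϖ hn (mem_cell.1 hz)) hz₀
  have h2 : ∀ z ∈ cell (Lv O ϖ ι n) z₀, z ∈ Lv O ϖ ι 0 := fun z hz => by
    simpa using add_mem (Lv_anti hϖ zero_le_one (h1 z hz)) (single_mem_Lv (n := 0) i₀ i₀ O.one_mem)
  choose! hh τ k1 k2 k3 k4 k5 using fun j z hz => exists_tau hϖ hp i₀ (n + j) (h1 z hz)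
  refine vmA h hϖ hp hκ hι π (i₀ := i₀) (c := ϖ ^ Fintype.card ι)
    ⟨ϖ ^ (Fintype.card ι - 1), O.pow_mem hϖ _, by rw [← pow_succ']; congr 1; omega⟩
    (fun j => Lv O ϖ ι (n + j)) (fun i j hij => Lv_anti hϖ (by omega))
    (fun j => by simpa [relIndex_Lv h0] using hfin j) (a := 1 + Fintype.card ι)
    (fun j => by rw [← add_assoc, relIndex_Lv h0]) (lr.comp ((MonoidHom.id _).prod (MonoidHom.id _)))
    z₀ Ψ (fun j => hadd _) (C := C) (fun j z hz => by simpa [relIndex_Lv h0] using hC j z hz)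
    (fun g j z hz _ => heq g j z hz) (fun j z => (MulAut.conj (hh j z)).toMonoidHom) τ
    (fun j z hz => ⟨k2 j z hz, k5 j z hz, fun i l hl => ⟨Lv_dist h0 (k3 j z hz) (k4 j z hz)
      (by rwa [add_assoc]), ?_⟩⟩)
    (fun j₁ => ⟨n + j₁, fun j z hz k hk o ho x hx => ?_⟩)
    fun j z _ => (MulAut.conj (hh j z)).surjective g
  · change _ * l * (((τ j z)⁻¹⁻¹ : SpecialLinearGroup ι F) : Matrix ι ι F) ∈ _
    rw [inv_inv]
    exact Lv_dist h0 (k4 j z hz) (k3 j z hz) (by rwa [add_assoc, add_comm _ 1])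
  · have e : ∀ (i j' : ι) (s : F), (hh j z * X i j' (ϖ ^ (n + j₁) * s) * (hh j z)⁻¹)⁻¹ =
        hh j z * X i j' (ϖ ^ (n + j₁) * -s) * (hh j z)⁻¹ := fun i j' s => by
      rw [mul_neg, ← X_neg]; group
    exact ⟨lr_sub hϖ (conj_X (k1 j z hz) hk.symm _ ho)
        ((e _ _ _).symm ▸ conj_X (k1 j z hz) hk.symm _ (O.neg_mem ho)) (h2 x hx),
      lr_sub hϖ (conj_X (k1 j z hz) hk _ ho)
        ((e _ _ _).symm ▸ conj_X (k1 j z hz) hk _ (O.neg_mem ho)) (h2 x hx)⟩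


end mat

end Crest.Agent.T24.Vm
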