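import Crest.Agent.T24.HgtDef_88
import Crest.Agent.T24.HgtC_88
import Crest.Agent.T24.HgtUp_86
import Crest.Agent.T24.HgtTr_65_Mg
import Crest.Agent.T24.HgtSpl_12
import Crest.Agent.T24.NaOneA_37
import Crest.Agent.T24.NaPos_84
import Crest.Agent.T24.NaMx_52
import Crest.Agent.T24.NaInd_39

-- ▼ part T24/HgtWeyl_22
section

/-!
# Row 24 (helper22): `Hgt.weylStmt`, Weyl's criterion for weighted families, unfolded
-/

set_option autoImplicit false
set_option linter.unusedSectionVars false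

noncomputable section

namespace Crest.Agent.T24.Hgt

open Filter Topology MeasureTheory Set UnitAddTorus

universe u

namespace W22

variable {ι : Type} [Fintype ι] {ψ : (ι → ℝ) → ℝ}

/-- the lattice point -/
def lp (m : ι → ℤ) : ι → ℝ := fun i => (m i : ℝ)

/-- the projection to the torus -/
def pj (y : ι → ℝ) : UnitAddTorus ι := fun i => (y i : UnitAddCircle)

/-- Haar measure of the torus -/
def mu (ι : Type) [Fintype ι] : Measure (UnitAddTorus ι) :=
  Measure.pi fun _ => (AddCircle.haarAddCircle : Measure UnitAddCircle)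

theorem mu_prob (ι : Type) [Fintype ι] : IsProbabilityMeasure (mu ι) := by
  unfold mu; infer_instance

/-- the periodisation -/
def per (ψ : (ι → ℝ) → ℝ) (y : ι → ℝ) : ℝ := ∑' m : ι → ℤ, ψ (y + lp m)

theorem exists_fin (hc : HasCompactSupport ψ) (A : ℝ) :
    ∃ F : Finset (ι → ℤ), ∀ y : ι → ℝ, ‖y‖ ≤ A → ∀ m, m ∉ F → ψ (y + lp m) = 0 := by
  classical
  obtain ⟨R, hR⟩ := hc.isCompact.isBounded.exists_norm_le
  refine ⟨Fintype.piFinset fun _ => Finset.Icc (-⌈R + A⌉) ⌈R + A⌉, fun y hy m hm => ?_⟩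
  by_contra h
  refine hm (Fintype.mem_piFinset.2 fun i => ?_)
  have h1 := hR _ (subset_tsupport ψ h)
  have h2 : ‖lp m‖ ≤ R + A := by
    have := norm_sub_le (y + lp m) y
    rw [add_sub_cancel_left] at this
    linarith
  have h3 : |(m i : ℝ)| ≤ (⌈R + A⌉ : ℝ) :=
    ((norm_le_pi_norm (lp m) i).trans h2).trans (Int.le_ceil _)
  rw [Finset.mem_Icc, ← abs_le]
  exact_mod_cast h3

theorem summable_per (hc : HasCompactSupport ψ) (y : ι → ℝ) : Summable fun m : ι → ℤ => ψ (y + lp m) :=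
  let ⟨_, h⟩ := exists_fin hc ‖y‖
  summable_of_ne_finset_zero (h y le_rfl)

theorem continuous_per (h : Continuous ψ) (hc : HasCompactSupport ψ) : Continuous (per ψ) := by
  refine continuous_iff_continuousAt.2 fun y => ?_
  obtain ⟨F, hF⟩ := exists_fin hc (‖y‖ + 1)
  have h1 : Continuous fun z => ∑ m ∈ F, ψ (z + lp m) := by fun_prop
  refine h1.continuousAt.congr ?_
  filter_upwards [Metric.closedBall_mem_nhds y one_pos] with z hz
  refine (tsum_eq_sum (hF z ?_)).symm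
  have := norm_le_norm_add_norm_sub' z y
  rw [mem_closedBall_iff_norm] at hz
  linarith

omit [Fintype ι] in
theorem per_add (ψ : (ι → ℝ) → ℝ) (y : ι → ℝ) (k : ι → ℤ) : per ψ (y + lp k) = per ψ y := by
  rw [per, per, ← (Equiv.addLeft k).tsum_eq fun m => ψ (y + lp m)]
  refine tsum_congr fun m => ?_
  congr 1
  funext i
  simp [lp, add_assoc]

omit [Fintype ι] in
theorem per_congr (ψ : (ι → ℝ) → ℝ) {y z : ι → ℝ} (h : pj y = pj z) : per ψ y = per ψ z := by
  have h1 : ∀ i, ∃ k : ℤ, z i = y i + k := fun i => by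
    obtain ⟨k, hk⟩ := AddSubgroup.mem_zmultiples_iff.1 (QuotientAddGroup.eq.1 (congrFun h i))
    exact ⟨k, by rw [zsmul_one] at hk; linarith⟩
  choose k hk using h1
  rw [show z = y + lp k from funext hk, per_add]

omit [Fintype ι] in
theorem quot_pj : IsOpenQuotientMap (pj (ι := ι)) :=
  IsOpenQuotientMap.piMap fun _ => QuotientAddGroup.isOpenQuotientMap_mk

/-- the periodisation lives on the torus -/
theorem exists_tor (h : Continuous ψ) (hc : HasCompactSupport ψ) :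
    ∃ f : C(UnitAddTorus ι, ℝ), ∀ y, f (pj y) = per ψ y := by
  have hs := (quot_pj (ι := ι)).surjective
  have e : ∀ y, per ψ (Function.surjInv hs (pj y)) = per ψ y := fun y =>
    per_congr ψ (Function.surjInv_eq hs _)
  refine ⟨⟨fun a => per ψ (Function.surjInv hs a), ?_⟩, e⟩
  rw [quot_pj.isQuotientMap.continuous_iff]
  exact (continuous_per h hc).congr fun y => (e y).symm

/-- the cubes -/
def cube (m : ι → ℤ) : Set (ι → ℝ) := {y | ∀ i, y i ∈ Ioc (lp m i) (lp m i + 1)}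

theorem meas_cube (m : ι → ℤ) : MeasurableSet (cube m) :=
  MeasurableSet.univ_pi' fun _ => measurableSet_Ioc

omit [Fintype ι] in
theorem mem_cube {m : ι → ℤ} {y : ι → ℝ} : y ∈ cube m ↔ ∀ i, ⌈y i⌉ = m i + 1 := by
  simp only [cube, mem_ofPred_eq, Int.ceil_eq_iff, lp, mem_Ioc]
  push_cast
  simp only [add_sub_cancel_right]

theorem int_per (h : Continuous ψ) (hc : HasCompactSupport ψ) :
    ∫ y in cube 0, per ψ y = ∫ y, ψ y := by
  have hi := h.integrable_of_hasCompactSupport (μ := volume) hc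
  have hU : ⋃ m : ι → ℤ, cube m = univ :=
    eq_univ_of_forall fun y => mem_iUnion.2 ⟨fun i => ⌈y i⌉ - 1, mem_cube.2 fun i => by simp⟩
  have h1 := hasSum_integral_iUnion (μ := volume) (f := ψ) meas_cube
    (fun m m' hm => disjoint_left.2 fun y a b => hm (funext fun i => by
      have := mem_cube.1 a i
      have := mem_cube.1 b i
      omega)) hi.integrableOn
  rw [hU, Measure.restrict_univ] at h1
  have h2 : ∀ m : ι → ℤ, ∫ y in cube m, ψ y = ∫ y in cube 0, ψ (y + lp m) := fun m => by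
    rw [← (measurePreserving_add_right volume (lp m)).setIntegral_preimage_emb
      (measurableEmbedding_addRight _) ψ (cube m)]
    congr 2
    ext y
    simp only [mem_preimage, mem_cube, Pi.add_apply, lp, Int.ceil_add_intCast, Pi.zero_apply]
    exact forall_congr' fun i => by omega
  obtain ⟨F, hF⟩ := exists_fin hc 1
  have hb : ∀ y ∈ cube (0 : ι → ℤ), ‖y‖ ≤ 1 := fun y hy =>
    (pi_norm_le_iff_of_nonneg zero_le_one).2 fun i => by
      have := hy i
      simp only [lp, Pi.zero_apply, Int.cast_zero, zero_add, mem_Ioc] at this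
      rw [Real.norm_eq_abs, abs_le]
      constructor <;> linarith [this.1, this.2]
  simp only [h2] at h1
  rw [← h1.tsum_eq, tsum_eq_sum (s := F) fun m hm => setIntegral_eq_zero_of_forall_eq_zero
    fun y hy => hF y (hb y hy) m hm,
    ← integral_finsetSum F fun m _ => (hi.comp_add_right (lp m)).integrableOn]
  exact setIntegral_congr_fun (meas_cube 0) fun y hy => tsum_eq_sum (hF y (hb y hy))

theorem int_tor (h : Continuous ψ) (hc : HasCompactSupport ψ) {f : UnitAddTorus ι → ℝ}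
    (hf : ∀ y, f (pj y) = per ψ y) : ∫ a, f a ∂mu ι = ∫ y, ψ y := by
  rw [← int_per h hc, ← funext hf]
  exact integral_preimage f (lp 0)

theorem int_mF {m : ι → ℤ} (hm : m ≠ 0) : ∫ a, mFourier m a ∂mu ι = 0 := by
  have h := orthonormal_iff_ite.1 (orthonormal_mFourier (d := ι)) 0 m
  simp only [ContinuousMap.inner_toLp, mFourier_zero, ContinuousMap.one_apply, map_one, mul_one,
    if_neg hm.symm] at h
  exact h

theorem mF_pj (m : ι → ℤ) (y : ι → ℝ) : mFourier m (pj y) =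
    Complex.exp (2 * Real.pi * Complex.I * (∑ i, (m i : ℝ) * y i : ℝ)) := by
  simp only [mFourier, ContinuousMap.coe_mk, pj, fourier_coe_apply, ← Complex.exp_sum]
  congr 1
  push_cast
  rw [Finset.mul_sum]
  exact Finset.sum_congr rfl fun i _ => by ring

variable {T : Type u} {w : T → ℝ} {a : T → UnitAddTorus ι}

/-- the weighted mean -/
def av (w : T → ℝ) (a : T → UnitAddTorus ι) (f : C(UnitAddTorus ι, ℂ)) : ℂ :=
  (∑' t, (w t : ℂ) * f (a t)) / (∑' t, w t : ℝ)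

/-- a weight -/
def Wt (w : T → ℝ) : Prop := (∀ t, 0 ≤ w t) ∧ Summable w ∧ 0 < ∑' t, w t

theorem norm_le (h : Wt w) (f : C(UnitAddTorus ι, ℂ)) (t : T) : ‖(w t : ℂ) * f (a t)‖ ≤ w t * ‖f‖ := by
  rw [norm_mul, Complex.norm_real, Real.norm_of_nonneg (h.1 t)]
  exact mul_le_mul_of_nonneg_left (f.norm_coe_le_norm _) (h.1 t)

theorem summ (h : Wt w) (f : C(UnitAddTorus ι, ℂ)) : Summable fun t => (w t : ℂ) * f (a t) :=
  Summable.of_norm_bounded (h.2.1.mul_right ‖f‖) (norm_le h f)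

theorem av_add (h : Wt w) (f g : C(UnitAddTorus ι, ℂ)) : av w a (f + g) = av w a f + av w a g := by
  simp only [av, ContinuousMap.add_apply, mul_add]
  rw [(summ h f).tsum_add (summ h g), add_div]

theorem av_smul (c : ℂ) (f : C(UnitAddTorus ι, ℂ)) : av w a (c • f) = c * av w a f := by
  simp only [av, ContinuousMap.smul_apply, smul_eq_mul, mul_left_comm _ c]
  rw [tsum_mul_left, mul_div_assoc]

theorem norm_av (h : Wt w) (f : C(UnitAddTorus ι, ℂ)) : ‖av w a f‖ ≤ ‖f‖ := by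
  rw [av, norm_div, Complex.norm_real, Real.norm_of_nonneg h.2.2.le, div_le_iff₀ h.2.2, mul_comm,
    ← tsum_mul_right]
  exact tsum_of_norm_bounded (h.2.1.mul_right ‖f‖).hasSum (norm_le h f)

theorem av_one (h : Wt w) : av w a 1 = 1 := by
  simp only [av, ContinuousMap.one_apply, mul_one, ← Complex.ofReal_tsum]
  exact div_self (Complex.ofReal_ne_zero.2 h.2.2.ne')

theorem ig (f : C(UnitAddTorus ι, ℂ)) : Integrable f (mu ι) :=
  haveI := mu_prob ι
  f.continuous.integrable_of_hasCompactSupport (HasCompactSupport.of_compactSpace f)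

/-- Weyl's criterion on the torus -/
theorem weyl {l : Filter ℝ} {w : ℝ → T → ℝ} (hw : ∀ᶠ s in l, Wt (w s))
    (h : ∀ m : ι → ℤ, m ≠ 0 → Tendsto (fun s => av (w s) a (mFourier m)) l (𝓝 0))
    (f : C(UnitAddTorus ι, ℂ)) : Tendsto (fun s => av (w s) a f) l (𝓝 (∫ b, f b ∂mu ι)) := by
  haveI := mu_prob ι
  have h1 : ∀ g ∈ Submodule.span ℂ (range (mFourier (d := ι))),
      Tendsto (fun s => av (w s) a g) l (𝓝 (∫ b, g b ∂mu ι)) := fun g hg => by
    induction hg using Submodule.span_induction with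
    | mem g hg =>
      obtain ⟨m, rfl⟩ := hg
      by_cases hm : m = 0
      · subst hm
        rw [mFourier_zero]
        simp only [ContinuousMap.one_apply, integral_const, probReal_univ, one_smul]
        exact tendsto_const_nhds.congr' (hw.mono fun s hs => (av_one hs).symm)
      · rw [int_mF hm]
        exact h m hm
    | zero => simpa [av] using tendsto_const_nhds
    | add f g _ _ hf hg =>
      simp only [ContinuousMap.add_apply]
      rw [integral_add (ig f) (ig g)]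
      exact (hf.add hg).congr' (hw.mono fun s hs => (av_add hs f g).symm)
    | smul c f _ hf =>
      simp only [av_smul, ContinuousMap.smul_apply, smul_eq_mul, integral_const_mul]
      exact hf.const_mul c
  have h2 : f ∈ closure (Submodule.span ℂ (range (mFourier (d := ι))) : Set C(UnitAddTorus ι, ℂ)) := by
    rw [← Submodule.topologicalClosure_coe, span_mFourier_closure_eq_top]
    trivial
  refine Metric.tendsto_nhds.2 fun ε hε => ?_
  obtain ⟨g, hg, hfg⟩ := Metric.mem_closure_iff.1 h2 (ε / 3) (by positivity)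
  rw [dist_eq_norm] at hfg
  filter_upwards [hw, Metric.tendsto_nhds.1 (h1 g hg) (ε / 3) (by positivity)] with s hs h3
  have h4 : dist (av (w s) a f) (av (w s) a g) ≤ ‖f - g‖ := by
    have := av_add (a := a) hs (f - g) g
    rw [sub_add_cancel] at this
    rw [dist_eq_norm, this, add_sub_cancel_right]
    exact norm_av hs _
  have h5 : dist (∫ b, g b ∂mu ι) (∫ b, f b ∂mu ι) ≤ ‖f - g‖ := by
    rw [dist_comm, dist_eq_norm, ← integral_sub (ig f) (ig g)]
    simpa using norm_integral_le_of_norm_le_const (μ := mu ι)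
      (Eventually.of_forall fun b => (f - g).norm_coe_le_norm b)
  linarith [dist_triangle4 (av (w s) a f) (av (w s) a g) (∫ b, g b ∂mu ι) (∫ b, f b ∂mu ι)]

theorem summ_prod (h : Continuous ψ) (hc : HasCompactSupport ψ) (hw : Wt w) (x : T → ι → ℝ) :
    Summable fun q : T × (ι → ℤ) => w q.1 * ψ (x q.1 + lp q.2) := by
  obtain ⟨f, hf⟩ := exists_tor h.abs hc.abs
  refine Summable.of_abs ((summable_prod_of_nonneg fun q => abs_nonneg _).2 ⟨fun t =>
    ((summable_per hc (x t)).mul_left (w t)).abs, ?_⟩)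
  refine Summable.of_nonneg_of_le (fun t => tsum_nonneg fun _ => abs_nonneg _) (fun t => ?_)
    (hw.2.1.mul_right ‖f‖)
  simp only [abs_mul, abs_of_nonneg (hw.1 t), tsum_mul_left]
  refine mul_le_mul_of_nonneg_left ?_ (hw.1 t)
  exact (hf (x t)).symm.le.trans ((le_abs_self _).trans (f.norm_coe_le_norm _))

end W22

open W22

theorem weylStmt : WeylStmt.{u} := fun T ι _ l x w hw h ψ hψ hc => by
  refine ⟨hw.mono fun s hs => summ_prod hψ hc hs x, ?_⟩
  obtain ⟨f, hf⟩ := exists_tor hψ hc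
  have h1 := weyl (a := fun t => pj (x t)) hw (fun m hm => by simpa only [av, mF_pj] using h m hm)
    ⟨fun b => (f b : ℂ), by fun_prop⟩
  simp only [ContinuousMap.coe_mk, integral_complex_ofReal, int_tor hψ hc hf, av, hf,
    ← Complex.ofReal_mul, ← Complex.ofReal_tsum, ← Complex.ofReal_div, tendsto_ofReal_iff] at h1
  refine h1.congr' (hw.mono fun s hs => ?_)
  have h2 := (summ_prod hψ hc hs x).tsum_prod
  simp only [tsum_mul_left] at h2
  exact congrArg (· / ∑' t, w s t) h2.symm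

end Crest.Agent.T24.Hgt
end
end

-- ▼ part T24/Hgt_88
section

/-! # Row 24, heights: the unconditional output -/

set_option autoImplicit false

namespace Crest.Agent.T24.Hgt

universe u

theorem ht : HtStmt.{u} :=
  htStmt basStmt gpStmt (upStmt basStmt idxStmt (chartStmt trStmt)) (lowStmt basStmt trStmt idxStmt)
    splStmt weylStmt

theorem exists_Ht {B : Type u} [Ring B] [Algebra ℚ B] [StarRing B] [FiniteDimensional ℚ B] [IsSimpleRing B]
    {O : Subring B} {θ : B} (h : Ord O θ) : ∃ M₀ : ℕ, M₀ ≠ 0 ∧ ∀ M : ℕ, M ≠ 0 → M₀ ∣ M → Ht O M :=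
  ht B O θ h

end Crest.Agent.T24.Hgt
end

-- ▼ part T24/NaOne_37
section

/-!
# Row 24, module NA: one-point uniformity.
-/

set_option autoImplicit false
set_option linter.unusedSectionVars false

noncomputable section

namespace Crest.Agent.T24.Na

open Topology Filter MeasureTheory Ring

universe u v w

namespace One37

variable {S : Sys.{u, v, w}}

/-- first component -/
abbrev g1 (g : S.G) : S.A := ((g.1 : unitary S.A) : S.A)
/-- second component -/
abbrev g2 (g : S.G) : Mt S.d S.F := (g.2 : Mt S.d S.F)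
/-- rational points -/
abbrev bb (u : S.U₀) : S.B := ((u : unitary S.B) : S.B)

variable (S) in
/-- the domain of the chart -/
def Go : Set S.G := {g | IsUnit (g1 g - 1) ∧ IsUnit (g2 g - 1)}

theorem cont_g1 : Continuous (g1 : S.G → S.A) :=
  continuous_subtype_val.comp (continuous_subtype_val.comp continuous_fst)

theorem cont_g2 : Continuous (g2 : S.G → Mt S.d S.F) := Units.continuous_val.comp continuous_snd

/-- bound for the mass of `E` -/
def Bd (s : ℝ) (E : Set S.G) (c : ℝ) : Prop :=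
  ∀ T : Finset S.U₀, ∑ u ∈ T, S.wU s (bb u) * E.indicator 1 (S.ι u) ≤ c

open Classical in
/-- the coloured sums -/
def Tq (s : ℝ) (q : S.Q) (φ : S.G → ℝ) : ℝ :=
  ∑' u : S.U₀, S.wU s (bb u) * (if S.c u = q then 1 else 0) * φ (S.ι u)

theorem exists_bound {X : Type*} [TopologicalSpace X] {φ : X → ℝ} (hφ : Cc φ) :
    ∃ b : ℝ, 0 ≤ b ∧ ∀ g, |φ g| ≤ b * (tsupport φ).indicator 1 g := by
  obtain ⟨C, hC⟩ := hφ.1.bounded_above_of_compact_support hφ.2
  refine ⟨max C 0, le_max_right _ _, fun g => ?_⟩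
  by_cases hg : g ∈ tsupport φ
  · rw [Set.indicator_of_mem hg, Pi.one_apply, mul_one]
    exact (hC g).trans (le_max_left _ _)
  · simp [hg, image_eq_zero_of_notMem_tsupport hg]

variable (h : S.Ok)
include h

theorem ctB : Ct S.θ where
  comm y := h.inc_inj (by rw [map_mul, map_mul, h.th_comm])
  unit := by
    rw [← two_smul S.k, Algebra.smul_def]
    exact ((IsUnit.mk0 (2 : S.k) two_ne_zero).map _).mul h.th_unit

theorem ctA : Ct (S.inc S.θ) := ⟨h.th_comm, by rw [← map_add]; exact (ctB h).unit.map _⟩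

theorem ctM : Ct (S.ψ S.θ) := ⟨h.th_comm', by rw [← map_add]; exact (ctB h).unit.map _⟩

theorem thA : star (S.inc S.θ) = -S.inc S.θ := by rw [← h.inc_star, h.th_star, map_neg]

/-- the chart -/
def icZ (g : S.G) : S.Z :=
  (⟨ic (S.inc S.θ) (g1 g), star_ic h.th_comm (thA h) _⟩, ic (S.ψ S.θ) (g2 g))

/-- the chart on rational points -/
def icX (u : S.U₀) : S.X := ⟨ic S.θ (bb u), star_ic (ctB h).comm h.th_star _⟩

theorem isOpen_Go : IsOpen (Go S) :=
  (h.unit_open.preimage (cont_g1.sub continuous_const)).inter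
    (isOpen_unit.preimage (cont_g2.sub continuous_const))

theorem cont_inv1 : ContinuousOn (fun g : S.G => inverse (g1 g - 1)) (Go S) :=
  h.inv_cont.comp (cont_g1.sub continuous_const).continuousOn fun _ hg => hg.1

omit h in
theorem cont_inv2 : ContinuousOn (fun g : S.G => inverse (g2 g - 1)) (Go S) :=
  inv_cont.comp (cont_g2.sub continuous_const).continuousOn fun _ hg => hg.2

theorem cont_icZ : ContinuousOn (icZ h) (Go S) := by
  refine ContinuousOn.prodMk ?_ (continuousOn_const.mul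
    ((cont_g2.add continuous_const).continuousOn.mul cont_inv2))
  rw [Topology.IsInducing.subtypeVal.continuousOn_iff]
  exact continuousOn_const.mul ((cont_g1.add continuous_const).continuousOn.mul (cont_inv1 h))

theorem ch_icZ {g : S.G} (hg : g ∈ Go S) : S.Ch (icZ h g) := by
  refine ⟨unit_ic_sub (ctA h) hg.1, ⟨g.1, (cy_ic (ctA h) hg.1).symm⟩, unit_ic_sub (ctM h) hg.2, ?_⟩
  change IsUnit (ic _ _ + _)
  rw [ic_add (ctM h) hg.2]
  exact g.2.isUnit.mul (unit_ic_sub (ctM h) hg.2)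

theorem unit_of_inc {x : S.B} (hx : IsUnit (S.inc x)) : IsUnit x := by
  have h1 : ∀ y, x * y = 0 → y = 0 := fun y hy => h.inc_inj (by
    have := congrArg S.inc hy
    rw [map_mul, map_zero, hx.mul_right_eq_zero] at this
    rw [this, map_zero])
  have h2 : Function.Injective (LinearMap.mulLeft S.k x) := (injective_iff_map_eq_zero _).2 h1
  obtain ⟨y, hy⟩ := LinearMap.injective_iff_surjective.1 h2 1
  rw [LinearMap.mulLeft_apply] at hy
  refine ⟨⟨x, y, hy, sub_eq_zero.1 (h1 _ ?_)⟩, rfl⟩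
  rw [mul_sub, ← mul_assoc, hy, one_mul, mul_one, sub_self]

theorem unit_bb {u : S.U₀} (hu : S.ι u ∈ Go S) : IsUnit (bb u - 1) :=
  unit_of_inc h (by rw [map_sub, map_one, ← h.ι_fst]; exact hu.1)

theorem iJ_icX {u : S.U₀} (hu : S.ι u ∈ Go S) : S.iJ (icX h u) = icZ h (S.ι u) := by
  refine Prod.ext (Subtype.ext ?_) ?_
  · rw [h.iJ_fst]
    exact (map_ic S.inc (unit_bb h hu)).trans (by rw [← h.ι_fst]; rfl)
  · rw [h.iJ_snd]
    exact (map_ic S.ψ (unit_bb h hu)).trans (by rw [← h.ι_snd]; rfl)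

theorem cy_icX {u : S.U₀} (hu : S.ι u ∈ Go S) : cy S.θ (icX h u) = bb u :=
  cy_ic (ctB h) (unit_bb h hu)

theorem icX_inj {u u' : S.U₀} (hu : S.ι u ∈ Go S) (hu' : S.ι u' ∈ Go S) (e : icX h u = icX h u') :
    u = u' :=
  Subtype.ext (Subtype.ext ((cy_icX h hu).symm.trans (by rw [e]; exact cy_icX h hu')))

theorem wU_eq (s : ℝ) {u : S.U₀} (hu : S.ι u ∈ Go S) :
    S.wU s (bb u) = S.w s (icX h u) * S.Δ (icZ h (S.ι u)) ^ (-s) := by
  rw [← cy_icX h hu, h.wU_cy, iJ_icX h hu]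

omit h in
theorem ι_mul (γ : S.Γ) (u : S.U₀) : S.ι (γ * u) = S.ιΓ γ * S.ι u := map_mul _ _ _

omit h in
theorem ι_mul' (γ : S.Γ) (u : S.U₀) : S.ι (u * γ) = S.ι u * S.ιΓ γ := map_mul _ _ _

theorem wU_l (s : ℝ) (γ : S.Γ) (u : S.U₀) : S.wU s (bb (γ * u)) = S.wU s (bb u) := h.wU_left s γ _

theorem wU_r (s : ℝ) (γ : S.Γ) (u : S.U₀) : S.wU s (bb (u * γ)) = S.wU s (bb u) := h.wU_right s γ _

theorem wU_nonneg (s : ℝ) (u : S.U₀) : 0 ≤ S.wU s (bb u) := by
  obtain ⟨γ, hγ⟩ := h.chart (S.ι u)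
  have hg : S.ι (γ * u) ∈ Go S := by rw [ι_mul]; exact hγ
  rw [← wU_l h s γ, wU_eq h s hg]
  exact mul_nonneg (h.w_nonneg _ _) (Real.rpow_nonneg (h.Δ_pos _ (ch_icZ h hg)).le _)

theorem term_nonneg (s : ℝ) (E : Set S.G) (u : S.U₀) :
    0 ≤ S.wU s (bb u) * E.indicator 1 (S.ι u) :=
  mul_nonneg (wU_nonneg h s u) (Set.indicator_nonneg (fun _ _ => zero_le_one) _)

theorem Bd.mono {s c c' : ℝ} {E E' : Set S.G} (hE : Bd s E c) (h1 : E' ⊆ E) (h2 : c ≤ c') :
    Bd s E' c' := fun T => by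
  refine le_trans (Finset.sum_le_sum fun u _ => ?_) ((hE T).trans h2)
  refine mul_le_mul_of_nonneg_left ?_ (wU_nonneg h s u)
  exact Set.indicator_le_indicator_of_subset h1 (fun _ => zero_le_one) _

theorem Bd.union {s c c' : ℝ} {E E' : Set S.G} (hE : Bd s E c) (hE' : Bd s E' c') :
    Bd s (E ∪ E') (c + c') := fun T => by
  refine le_trans (Finset.sum_le_sum fun u _ => ?_)
    ((Finset.sum_add_distrib).trans_le (add_le_add (hE T) (hE' T)))
  rw [← mul_add]
  refine mul_le_mul_of_nonneg_left ?_ (wU_nonneg h s u)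
  by_cases h1 : S.ι u ∈ E <;> by_cases h2 : S.ι u ∈ E' <;> simp [h1, h2]

theorem cont_chart (γ : S.Γ) {K : Set S.G} (hγ : ∀ g ∈ K, S.ιΓ γ * g ∈ Go S) :
    ContinuousOn (fun g => icZ h (S.ιΓ γ * g)) K :=
  (cont_icZ h).comp (continuous_const_mul _).continuousOn hγ

theorem loc (γ : S.Γ) {K : Set S.G} (hK : IsCompact K) (hγ : ∀ g ∈ K, S.ιΓ γ * g ∈ Go S) :
    ∃ C : ℝ, 0 < C ∧ ∀ E ⊆ K, ∀ χ : S.Z → ℝ, Cc χ → (∀ z, 0 ≤ χ z) →
      (∀ g ∈ E, 1 ≤ χ (icZ h (S.ιΓ γ * g))) → ∀ η, ∫ z, χ z ∂S.lam < η →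
      ∀ᶠ s in 𝓝[>] (1 : ℝ), Bd s E (C * η) := by
  classical
  obtain ⟨δ, hδ, hδ'⟩ := hK.exists_forall_le' (a := 0)
    (h.Δ_cont.comp_continuousOn (cont_chart h γ hγ)) fun g hg => h.Δ_pos _ (ch_icZ h (hγ g hg))
  have hδ1 : 0 < min δ 1 := lt_min hδ one_pos
  refine ⟨min δ 1 ^ (-2 : ℝ), Real.rpow_pos_of_pos hδ1 _, fun E hE χ hχ h0 h1 η hη => ?_⟩
  filter_upwards [(h.w_eq χ hχ).eventually (gt_mem_nhds hη),
    Ioo_mem_nhdsGT (show (1 : ℝ) < 2 by norm_num)] with s hs hs' T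
  refine le_trans ?_ (mul_le_mul_of_nonneg_left hs.le (Real.rpow_nonneg hδ1.le _))
  have hgo : ∀ u ∈ T.filter fun u => S.ι u ∈ E, S.ι (γ * u) ∈ Go S := fun u hu => by
    rw [ι_mul]; exact hγ _ (hE (Finset.mem_filter.1 hu).2)
  calc ∑ u ∈ T, S.wU s (bb u) * E.indicator 1 (S.ι u)
      = ∑ u ∈ T.filter fun u => S.ι u ∈ E, S.wU s (bb u) := by
        rw [Finset.sum_filter]
        exact Finset.sum_congr rfl fun u _ => by by_cases hu : S.ι u ∈ E <;> simp [hu]
    _ ≤ ∑ u ∈ T.filter fun u => S.ι u ∈ E, min δ 1 ^ (-2 : ℝ) *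
          (S.w s (icX h (γ * u)) * χ (S.iJ (icX h (γ * u)))) := by
        refine Finset.sum_le_sum fun u hu => ?_
        have hu' := (Finset.mem_filter.1 hu).2
        rw [← wU_l h s γ, wU_eq h s (hgo u hu), iJ_icX h (hgo u hu), ι_mul, mul_comm]
        refine mul_le_mul ?_ (le_mul_of_one_le_right (h.w_nonneg _ _) (h1 _ hu'))
          (h.w_nonneg _ _) (Real.rpow_nonneg hδ1.le _)
        exact (Real.rpow_le_rpow_of_nonpos hδ1 ((min_le_left _ _).trans (hδ' _ (hE hu')))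
          (by linarith [hs'.1])).trans
          (Real.rpow_le_rpow_of_exponent_ge hδ1 (min_le_right _ _) (by linarith [hs'.2]))
    _ ≤ _ := by
        rw [← Finset.mul_sum]
        refine mul_le_mul_of_nonneg_left ?_ (Real.rpow_nonneg hδ1.le _)
        rw [← Finset.sum_image (g := fun u : S.U₀ => icX h (γ * u))
          (f := fun a : S.X => S.w s a * χ (S.iJ a))
          fun u hu u' hu' e => mul_left_cancel (icX_inj h (hgo u hu) (hgo u' hu') e)]
        exact (h.w_sum χ hχ s hs'.1).sum_le_tsum _ fun a _ => mul_nonneg (h.w_nonneg _ _) (h0 _)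

variable (S) in
/-- the two bounds -/
def PB (K : Set S.G) : Prop := ∃ C : ℝ, (∀ᶠ s in 𝓝[>] (1 : ℝ), Bd s K C) ∧
  ∀ (j : ℕ) (y₀ : Mt S.d S.F), ∀ᶠ s in 𝓝[>] (1 : ℝ),
    Bd s {g | g ∈ K ∧ g2 g - y₀ ∈ cell S.d S.O S.π j} (C / ncell S.d S.O S.π j)

theorem pb_loc (γ : S.Γ) {K : Set S.G} (hK : IsCompact K) (hγ : ∀ g ∈ K, S.ιΓ γ * g ∈ Go S) :
    PB S K := by
  obtain ⟨C, hC, hloc⟩ := loc h γ hK hγ
  have := h.haar
  have : LocallyCompactSpace (Mt S.d S.F) :=
    inferInstanceAs (LocallyCompactSpace (Fin S.d → Fin S.d → S.F))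
  have hK' := hK.image_of_continuousOn (cont_chart h γ hγ)
  obtain ⟨χ, χ1, -, χc, χ0⟩ := exists_continuous_one_zero_of_isCompact hK' isClosed_empty
    (Set.disjoint_empty _)
  obtain ⟨ξ, ξ1, -, ξc, ξ0⟩ := exists_continuous_one_zero_of_isCompact
    (hK'.image continuous_fst) isClosed_empty (Set.disjoint_empty _)
  have hξ : Cc ξ := ⟨ξ.continuous, ξc⟩
  have hI : 0 ≤ ∫ z, χ z ∂S.lam := integral_nonneg fun z => (χ0 z).1
  have hJ : 0 ≤ ∫ z, bump S.O S.π ξ 0 0 z ∂S.lam :=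
    integral_nonneg fun z => bump_nonneg (fun y => (ξ0 y).1) _ _ _
  have b1 := hloc K le_rfl χ ⟨χ.continuous, χc⟩ (fun z => (χ0 z).1)
    (fun g hg => (χ1 ⟨g, hg, rfl⟩).ge) _ (lt_add_one _)
  have ci : ContinuousOn (fun g => inverse (g2 (S.ιΓ γ * g) - 1)) K :=
    cont_inv2.comp (continuous_const_mul _).continuousOn hγ
  obtain ⟨c, hc⟩ := bdd h.lf ((hK.image_of_continuousOn ci).union (hK.image_of_continuousOn
    ((continuousOn_const (c := S.ψ S.θ + S.ψ S.θ)).mul ci |>.mul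
      (continuousOn_const (c := -g2 (S.ιΓ γ))))))
  set I := ∫ z, χ z ∂S.lam
  set J := ∫ z, bump S.O S.π ξ 0 0 z ∂S.lam
  have hn := fun j => ncell_pos (d := S.d) h.lf j
  have hn1 : (1 : ℝ) ≤ ncell S.d S.O S.π (c + c) := by
    exact_mod_cast Nat.pos_of_ne_zero (ncell_ne_zero h.lf _)
  have hle : ∀ j, (ncell S.d S.O S.π j : ℝ) ≤
      ncell S.d S.O S.π (c + c) * ncell S.d S.O S.π (j - (c + c)) := fun j => by
    exact_mod_cast ncell_le h.lf j (c + c)
  have hpos : 0 ≤ C * (I + J + 1) := by positivity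
  refine ⟨C * (I + J + 1) * ncell S.d S.O S.π (c + c), ?_, fun j y₀ => ?_⟩
  · filter_upwards [b1] with s hs
    refine hs.mono h le_rfl (le_trans ?_ (le_mul_of_one_le_right hpos hn1))
    exact mul_le_mul_of_nonneg_left (by linarith) hC.le
  rcases lt_or_ge j (c + c) with hj | hj
  · filter_upwards [b1] with s hs
    refine hs.mono h (fun g hg => hg.1) ?_
    have h1 := hle j
    rw [Nat.sub_eq_zero_of_le hj.le, show ncell S.d S.O S.π 0 = 1 from AddSubgroup.relIndex_self _,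
      Nat.cast_one, mul_one] at h1
    rw [le_div_iff₀ (hn j)]
    exact mul_le_mul (mul_le_mul_of_nonneg_left (by linarith) hC.le) h1 (hn j).le hpos
  rcases Set.eq_empty_or_nonempty {g | g ∈ K ∧ g2 g - y₀ ∈ cell S.d S.O S.π j} with he | ⟨g₀, hg₀⟩
  · refine Eventually.of_forall fun s T => ?_
    rw [he]
    simpa using div_nonneg (mul_nonneg hpos (hn _).le) (hn j).le
  have b2 := hloc {g | g ∈ K ∧ g2 g - y₀ ∈ cell S.d S.O S.π j} (fun g hg => hg.1) _
    (cc_bump h.lf hξ (j - (c + c)) (icZ h (S.ιΓ γ * g₀)).2)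
    (bump_nonneg (fun y => (ξ0 y).1) _ _) (fun g hg => by
      have e1 : ξ (icZ h (S.ιΓ γ * g)).1 = 1 := ξ1 ⟨_, ⟨g, hg.1, rfl⟩, rfl⟩
      have e2 : (icZ h (S.ιΓ γ * g)).2 - (icZ h (S.ιΓ γ * g₀)).2 ∈
          cell S.d S.O S.π (j - (c + c)) := by
        have h1 := sandwich h.lf (hc _ (Or.inr ⟨g, hg.1, rfl⟩)) (hc _ (Or.inl ⟨g₀, hg₀.1, rfl⟩))
          (sub_mem hg.2 hg₀.2) hj
        convert h1 using 1
        refine (ic_diff (hγ g hg.1).2 (hγ g₀ hg₀.1).2).trans ?_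
        simp only [g2, Prod.snd_mul, Units.val_mul, Pi.mul_apply]
        noncomm_ring
      rw [bump, e1, Set.indicator_of_mem e2]
      simp) ((J + 1) / ncell S.d S.O S.π (j - (c + c))) (by
      rw [int_bump S.lam h.lf hξ]
      exact div_lt_div_of_pos_right (lt_add_one _) (hn _))
  filter_upwards [b2] with s hs
  refine hs.mono h le_rfl ?_
  rw [← mul_div_assoc, div_le_div_iff₀ (hn _) (hn _), mul_assoc (C * (I + J + 1))]
  exact mul_le_mul (mul_le_mul_of_nonneg_left (by linarith) hC.le) (hle j) (hn j).le hpos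

theorem pb {K : Set S.G} (hK : IsCompact K) : PB S K := by
  refine hK.induction_on ⟨0, Eventually.of_forall fun s T => by simp,
    fun j y₀ => Eventually.of_forall fun s T => by simp⟩ ?_ ?_ ?_
  · rintro s t hst ⟨C, h1, h2⟩
    exact ⟨C, h1.mono fun _ hs => hs.mono h hst le_rfl, fun j y₀ => (h2 j y₀).mono fun _ hs =>
      hs.mono h (fun g hg => ⟨hst hg.1, hg.2⟩) le_rfl⟩
  · rintro s t ⟨C, h1, h2⟩ ⟨C', h1', h2'⟩
    refine ⟨C + C', (h1.and h1').mono fun _ hs => hs.1.union h hs.2, fun j y₀ =>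
      ((h2 j y₀).and (h2' j y₀)).mono fun _ hs => (hs.1.union h hs.2).mono h ?_ (add_div _ _ _).ge⟩
    rintro g ⟨hg | hg, hg'⟩
    exacts [Or.inl ⟨hg, hg'⟩, Or.inr ⟨hg, hg'⟩]
  · intro x _
    obtain ⟨γ, hγ⟩ := h.chart x
    obtain ⟨N, hN, hNc, hNs⟩ := exists_mem_nhds_isClosed_subset
      (((isOpen_Go h).preimage (continuous_const_mul (S.ιΓ γ))).mem_nhds (x := x) hγ)
    exact ⟨K ∩ N, inter_mem_nhdsWithin _ hN, pb_loc h γ (hK.inter_right hNc) fun g hg => hNs hg.2⟩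

open Classical in
theorem tq_bound {s c b : ℝ} {E : Set S.G} (hE : Bd s E c) (hb : 0 ≤ b) {φ : S.G → ℝ}
    (hφ : ∀ g, |φ g| ≤ b * E.indicator 1 g) (q : S.Q) :
    Summable (fun u : S.U₀ => S.wU s (bb u) * (if S.c u = q then 1 else 0) * φ (S.ι u)) ∧
      |Tq s q φ| ≤ b * c := by
  have h1 := summable_of_sum_le (fun u => term_nonneg h s E u) hE
  have h2 := Real.tsum_le_of_sum_le (fun u => term_nonneg h s E u) hE
  have h3 : ∀ u : S.U₀, ‖S.wU s (bb u) * (if S.c u = q then 1 else 0) * φ (S.ι u)‖ ≤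
      b * (S.wU s (bb u) * E.indicator 1 (S.ι u)) := by
    intro u
    split_ifs
    · rw [mul_one, Real.norm_eq_abs, abs_mul, abs_of_nonneg (wU_nonneg h s u), mul_left_comm]
      exact mul_le_mul_of_nonneg_left (hφ _) (wU_nonneg h s u)
    · simpa using mul_nonneg hb (term_nonneg h s E u)
  exact ⟨(h1.mul_left b).of_norm_bounded h3,
    (tsum_of_norm_bounded (h1.hasSum.mul_left b) h3).trans (mul_le_mul_of_nonneg_left h2 hb)⟩

open Classical in
theorem tq_ev {φ : S.G → ℝ} (hφ : Cc φ) (q : S.Q) : ∃ C : ℝ, ∀ᶠ s in 𝓝[>] (1 : ℝ),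
    Summable (fun u : S.U₀ => S.wU s (bb u) * (if S.c u = q then 1 else 0) * φ (S.ι u)) ∧
      |Tq s q φ| ≤ C := by
  obtain ⟨b, hb, hb'⟩ := exists_bound hφ
  obtain ⟨C, hC, -⟩ := pb h hφ.2.isCompact
  exact ⟨b * C, hC.mono fun s hs => tq_bound h hs hb hb' q⟩

omit h in
/-- the limit functionals -/
def nu (U : Ultrafilter ℝ) (q : S.Q) (φ : S.G → ℝ) : ℝ := limUnder U fun s => Tq s q φ

theorem tendsto_nu {U : Ultrafilter ℝ} (hU : (U : Filter ℝ) ≤ 𝓝[>] 1) {φ : S.G → ℝ} (hφ : Cc φ)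
    (q : S.Q) : Tendsto (fun s => Tq s q φ) U (𝓝 (nu U q φ)) := by
  obtain ⟨C, hC⟩ := tq_ev h hφ q
  obtain ⟨x, -, hx⟩ := (isCompact_Icc (a := -C) (b := C)).ultrafilter_le_nhds
    (U.map fun s => Tq s q φ) (le_principal_iff.2 (hU (hC.mono fun s hs => abs_le.1 hs.2)))
  exact tendsto_nhds_limUnder ⟨x, hx⟩

theorem posF_nu {U : Ultrafilter ℝ} (hU : (U : Filter ℝ) ≤ 𝓝[>] 1) (q : S.Q) : PosF (nu U q) where
  add φ χ hφ hχ := by
    refine tendsto_nhds_unique (tendsto_nu h hU ⟨hφ.1.add hχ.1, hφ.2.add hχ.2⟩ q)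
      (((tendsto_nu h hU hφ q).add (tendsto_nu h hU hχ q)).congr' ?_)
    obtain ⟨_, h1⟩ := tq_ev h hφ q
    obtain ⟨_, h2⟩ := tq_ev h hχ q
    filter_upwards [hU h1, hU h2] with s h1 h2
    rw [Tq, Tq, Tq, ← h1.1.tsum_add h2.1]
    simp only [Pi.add_apply, mul_add]
  smul c φ hφ := by
    refine tendsto_nhds_unique (tendsto_nu h hU ⟨hφ.1.const_smul c, hφ.2.smul_left⟩ q)
      (((tendsto_nu h hU hφ q).const_mul c).congr fun s => ?_)
    rw [Tq, Tq, ← tsum_mul_left]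
    simp only [Pi.smul_apply, smul_eq_mul, mul_left_comm c]
  pos φ hφ h0 := ge_of_tendsto' (tendsto_nu h hU hφ q) fun s => tsum_nonneg fun u =>
    mul_nonneg (mul_nonneg (wU_nonneg h s u) (by split_ifs <;> norm_num)) (h0 _)

open Classical in
theorem tq_left (s : ℝ) (q : S.Q) (γ : S.Γ) (φ : S.G → ℝ) :
    Tq s (S.c γ * q) φ = Tq s q fun g => φ (S.ιΓ γ * g) := by
  rw [Tq, Tq, ← (Equiv.mulLeft (γ : S.U₀)).tsum_eq]
  refine tsum_congr fun u => ?_
  have e : (S.c ((Equiv.mulLeft (γ : S.U₀)) u) = S.c γ * q) ↔ S.c u = q := by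
    rw [Equiv.coe_mulLeft, S.c.map_mul, mul_right_inj]
  rw [if_congr e rfl rfl, Equiv.coe_mulLeft, wU_l h, ι_mul]

open Classical in
theorem tq_right (s : ℝ) (q : S.Q) (γ : S.Γ) (φ : S.G → ℝ) :
    Tq s (q * S.c γ) φ = Tq s q fun g => φ (g * S.ιΓ γ) := by
  rw [Tq, Tq, ← (Equiv.mulRight (γ : S.U₀)).tsum_eq]
  refine tsum_congr fun u => ?_
  have e : (S.c ((Equiv.mulRight (γ : S.U₀)) u) = q * S.c γ) ↔ S.c u = q := by
    rw [Equiv.coe_mulRight, S.c.map_mul, mul_left_inj]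
  rw [if_congr e rfl rfl, Equiv.coe_mulRight, wU_r h, ι_mul']

theorem moore (hM : MooreStmt.{u, v, w}) {U : Ultrafilter ℝ} (hU : (U : Filter ℝ) ≤ 𝓝[>] 1)
    (q : S.Q) {f : S.Q} (hf : f ∈ S.M) {φ : S.G → ℝ} (hφ : Cc φ) : nu U (q * f) φ = nu U q φ := by
  have : SecondCountableTopology (unitary S.A) :=
    Topology.IsInducing.subtypeVal.secondCountableTopology
  have : SecondCountableTopology S.G₂ := Topology.IsInducing.subtypeVal.secondCountableTopology
  refine hM S.F S.O S.π S.d S.G₂ S.Γ S.ιΓ S.Q (S.c.comp S.Γ.subtype) S.M (nu U) h.lf h.hd h.latt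
    h.nrm (fun f hf W hW => ?_) (posF_nu h hU) (fun K hK => ?_) (fun q γ φ _ => ?_)
    (fun q γ φ _ => ?_) q f hf φ hφ
  · obtain ⟨γ, h1, h2, -⟩ := h.dens f hf 0 1 one_ne_zero W hW
    exact ⟨γ, h1, h2⟩
  · obtain ⟨C, -, hC⟩ := pb h hK
    refine ⟨C, fun q j y₀ φ hφ h0 h1 hs => le_of_tendsto (tendsto_nu h hU hφ q) ?_⟩
    filter_upwards [hU (hC j y₀)] with s hs'
    refine (le_abs_self _).trans ((tq_bound h hs' zero_le_one (fun g => ?_) q).2.trans_eq (one_mul _))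
    by_cases hg : g ∈ tsupport φ
    · rw [Set.indicator_of_mem (show g ∈ {g | g ∈ K ∧ g2 g - y₀ ∈ cell S.d S.O S.π j} from hs g hg),
        abs_of_nonneg (h0 g)]
      simpa using h1 g
    · rw [image_eq_zero_of_notMem_tsupport hg, abs_zero, one_mul]
      exact Set.indicator_nonneg (fun _ _ => zero_le_one) _
  · exact congrArg (limUnder (U : Filter ℝ)) (funext fun s => tq_left h s q γ φ)
  · exact congrArg (limUnder (U : Filter ℝ)) (funext fun s => tq_right h s q γ φ)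

/-- the Cayley transform on the chart -/
def cay (z : {z : S.Z // S.Ch z}) : S.G :=
  (z.2.2.1.choose, ⟨cy (S.ψ S.θ) z.1.2, (z.1.2 - S.ψ S.θ) * inverse (z.1.2 + S.ψ S.θ),
    (cy_mul_inv z.2.2.2.1 z.2.2.2.2).1, (cy_mul_inv z.2.2.2.1 z.2.2.2.2).2⟩)

omit h in
theorem g1_cay (z : {z : S.Z // S.Ch z}) : g1 (cay z) = cy (S.inc S.θ) z.1.1 := z.2.2.1.choose_spec

theorem cont_cay : Continuous (cay : {z : S.Z // S.Ch z} → S.G) := by
  have c1 : Continuous fun z : {z : S.Z // S.Ch z} => (z.1.1 : S.A) := by fun_prop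
  have c2 : Continuous fun z : {z : S.Z // S.Ch z} => z.1.2 := by fun_prop
  refine Continuous.prodMk ?_ (Units.continuous_iff.2 ⟨?_, ?_⟩)
  · rw [Topology.IsInducing.subtypeVal.continuous_iff, Topology.IsInducing.subtypeVal.continuous_iff]
    refine Continuous.congr ?_ fun z => (g1_cay z).symm
    exact (c1.add continuous_const).mul
      (h.inv_cont.comp_continuous (c1.sub continuous_const) fun z => z.2.1)
  · exact (c2.add continuous_const).mul
      (inv_cont.comp_continuous (c2.sub continuous_const) fun z => z.2.2.2.1)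
  · exact (c2.sub continuous_const).mul
      (inv_cont.comp_continuous (c2.add continuous_const) fun z => z.2.2.2.2)

theorem cay_mem (z : {z : S.Z // S.Ch z}) : cay z ∈ Go S :=
  ⟨by rw [g1_cay]; exact unit_cy_sub (ctA h) z.2.1, unit_cy_sub (ctM h) z.2.2.2.1⟩

theorem cay_icZ {g : S.G} (hg : g ∈ Go S) : cay ⟨icZ h g, ch_icZ h hg⟩ = g :=
  Prod.ext (Subtype.ext (Subtype.ext ((g1_cay _).trans (cy_ic (ctA h) hg.1))))
    (Units.ext (cy_ic (ctM h) hg.2))

theorem cc_ext {φ : S.Z → ℝ} (hφ : Cc φ) (hs : ∀ z ∈ tsupport φ, S.Ch z) :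
    Cc ((Go S).indicator fun g => φ (icZ h g)) := by
  have hK : IsCompact (cay '' (Subtype.val ⁻¹' tsupport φ : Set {z : S.Z // S.Ch z})) :=
    (Topology.IsInducing.subtypeVal.isCompact_preimage' hφ.2.isCompact
      fun z hz => ⟨⟨z, hs z hz⟩, rfl⟩).image (cont_cay h)
  have h0 : ∀ g ∉ cay '' (Subtype.val ⁻¹' tsupport φ : Set {z : S.Z // S.Ch z}),
      (Go S).indicator (fun g => φ (icZ h g)) g = 0 := by
    intro g hg
    by_contra h1
    have h2 := Set.mem_of_indicator_ne_zero h1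
    rw [Set.indicator_of_mem h2] at h1
    exact hg ⟨⟨icZ h g, ch_icZ h h2⟩, subset_tsupport _ h1, cay_icZ h h2⟩
  refine ⟨continuous_iff_continuousAt.2 fun g => ?_, HasCompactSupport.intro hK h0⟩
  by_cases hg : g ∈ Go S
  · have hn := (isOpen_Go h).mem_nhds hg
    refine ((hφ.1.comp_continuousOn (cont_icZ h)).continuousAt hn).congr ?_
    filter_upwards [hn] with x hx
    rw [Set.indicator_of_mem hx]; rfl
  · have hn := hK.isClosed.isOpen_compl.mem_nhds
      (show g ∉ _ from fun ⟨z, _, e⟩ => hg (e ▸ cay_mem h z))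
    refine (continuousAt_const (y := (0 : ℝ))).congr ?_
    filter_upwards [hn] with x hx
    exact (h0 x hx).symm

open Classical in
theorem tq_ext {φ : S.Z → ℝ} (hs : ∀ z ∈ tsupport φ, S.Ch z) (s : ℝ) (q : S.Q) :
    Tq s q ((Go S).indicator fun g => φ (icZ h g)) = ∑' a : S.X, S.w s a * S.Δ (S.iJ a) ^ (-s) *
      (if col S.c (cy S.θ a) = q then 1 else 0) * φ (S.iJ a) := by
  have h0 : (Function.support fun u : S.U₀ => S.wU s (bb u) * (if S.c u = q then 1 else 0) *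
      (Go S).indicator (fun g => φ (icZ h g)) (S.ι u)) ⊆ {u | S.ι u ∈ Go S} := fun u hu =>
    Set.mem_of_indicator_ne_zero (s := Go S) (right_ne_zero_of_mul hu)
  rw [Tq, ← tsum_subtype_eq_of_support_subset h0,
    ← Function.Injective.tsum_eq (g := fun u : {u | S.ι u ∈ Go S} => icX h u.1)
    (fun u u' e => Subtype.ext (icX_inj h u.2 u'.2 e))]
  · refine tsum_congr fun u => ?_
    rw [Set.indicator_of_mem (s := Go S) u.2, wU_eq h s u.2, iJ_icX h u.2, cy_icX h u.2, col_coe]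
  · intro a ha
    obtain ⟨-, ⟨g, hg⟩, -⟩ := hs _ (subset_tsupport _ (right_ne_zero_of_mul ha))
    have hu := h.aniso a
    have hc := unit_cy_sub (ctB h) hu
    refine ⟨⟨⟨⟨cy S.θ a, cy_mem (ctB h).comm h.th_star a.2 hu⟩, h.mem_U _ ⟨g, ?_⟩⟩, ?_, ?_⟩,
      Subtype.ext (ic_cy (ctB h) hu)⟩
    · rw [hg, h.iJ_fst]
      exact (map_cy S.inc hu).symm
    · simpa only [g1, h.ι_fst, map_sub, map_one] using hc.map S.inc
    · simpa only [g2, h.ι_snd, map_sub, map_one] using hc.map S.ψ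

open Classical in
theorem compare {φ : S.Z → ℝ} (hφ : Cc φ) (hs : ∀ z ∈ tsupport φ, S.Ch z) (q : S.Q) :
    Tendsto (fun s => Tq s q ((Go S).indicator fun g => (φ * S.Δ) (icZ h g)) -
      ∑' a : S.X, S.w s a * φ (S.iJ a) * (if col S.c (cy S.θ a) = q then 1 else 0))
      (𝓝[>] 1) (𝓝 0) ∧ ∀ s, 1 < s →
      Summable fun a : S.X => S.w s a * φ (S.iJ a) * (if col S.c (cy S.θ a) = q then 1 else 0) := by
  have ha : Cc fun z => |φ z| := ⟨hφ.1.abs, hφ.2.abs⟩
  have hsum : ∀ s, 1 < s →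
      Summable fun a : S.X => S.w s a * φ (S.iJ a) * (if col S.c (cy S.θ a) = q then 1 else 0) := by
    intro s hs1
    refine (h.w_sum _ ha s hs1).of_norm_bounded fun a => ?_
    split_ifs
    · rw [mul_one, Real.norm_eq_abs, abs_mul, abs_of_nonneg (h.w_nonneg _ _)]
    · simpa using mul_nonneg (h.w_nonneg _ _) (abs_nonneg _)
  refine ⟨Metric.tendsto_nhds.2 fun ε hε => ?_, hsum⟩
  have hI : 0 < ∫ z, |φ z| ∂S.lam + 1 :=
    add_pos_of_nonneg_of_pos (integral_nonneg fun z => abs_nonneg _) one_pos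
  have hη := div_pos hε hI
  have h1 : ∀ᶠ s in 𝓝 (1 : ℝ), ∀ z ∈ tsupport φ,
      |S.Δ z ^ (-s) * S.Δ z - 1| < ε / (∫ z, |φ z| ∂S.lam + 1) := by
    refine hφ.2.isCompact.eventually_forall_of_forall_eventually fun z hz => ?_
    have hp := h.Δ_pos z (hs z hz)
    have c1 : ContinuousAt (fun p : ℝ × S.Z => S.Δ p.2) (1, z) :=
      (h.Δ_cont.comp continuous_snd).continuousAt
    have c2 : ContinuousAt (fun p : ℝ × S.Z => |S.Δ p.2 ^ (-p.1) * S.Δ p.2 - 1|) (1, z) :=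
      (((c1.rpow continuous_fst.neg.continuousAt (Or.inl hp.ne')).mul c1).sub
        continuousAt_const).abs
    refine c2.eventually (gt_mem_nhds ?_)
    simpa [Real.rpow_neg_one, inv_mul_cancel₀ hp.ne'] using hη
  filter_upwards [nhdsWithin_le_nhds h1, self_mem_nhdsWithin,
    (h.w_eq _ ha).eventually (gt_mem_nhds (lt_add_one _))] with s h1 hs1 h2
  have h3 : ∀ a : S.X, ‖S.w s a * φ (S.iJ a) * (if col S.c (cy S.θ a) = q then 1 else 0) *
      (S.Δ (S.iJ a) ^ (-s) * S.Δ (S.iJ a) - 1)‖ ≤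
      ε / (∫ z, |φ z| ∂S.lam + 1) * (S.w s a * |φ (S.iJ a)|) := by
    intro a
    by_cases hz : S.iJ a ∈ tsupport φ
    · rw [Real.norm_eq_abs, abs_mul, mul_comm]
      refine mul_le_mul (h1 _ hz).le ?_ (abs_nonneg _) hη.le
      split_ifs
      · rw [mul_one, abs_mul, abs_of_nonneg (h.w_nonneg _ _)]
      · simpa using mul_nonneg (h.w_nonneg _ _) (abs_nonneg _)
    · simp [image_eq_zero_of_notMem_tsupport hz]
  have h4 := (h.w_sum _ ha s hs1).hasSum.mul_left (ε / (∫ z, |φ z| ∂S.lam + 1))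
  have h5 := (hsum s hs1).tsum_add (h4.summable.of_norm_bounded h3)
  rw [tq_ext h (φ := φ * S.Δ) fun z hz => hs z (tsupport_mul_subset_left hz), dist_zero_right,
    sub_eq_iff_eq_add'.2 ((tsum_congr fun a => by simp only [Pi.mul_apply]; ring).trans h5)]
  refine (tsum_of_norm_bounded h4 h3).trans_lt ?_
  exact (mul_lt_mul_of_pos_left h2 hη).trans_eq (div_mul_cancel₀ _ hI.ne')

end One37

open One37 in
/-- (1): one-point uniformity on the cosets of `M` -/
theorem oneStmt (hM : MooreStmt.{u, v, w}) : OneStmt.{u, v, w} := by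
  intro S h φ hφ hs q f hf
  rw [tendsto_iff_ultrafilter]
  intro U hU
  have hc : Cc ((Go S).indicator fun g => (φ * S.Δ) (icZ h g)) :=
    cc_ext h ⟨hφ.1.mul h.Δ_cont, hφ.2.mul_right⟩ fun z hz => hs z (tsupport_mul_subset_left hz)
  obtain ⟨c1, s1⟩ := compare h hφ hs (q * f)
  obtain ⟨c2, s2⟩ := compare h hφ hs q
  have t := (((tendsto_nu h hU hc (q * f)).sub (tendsto_nu h hU hc q)).sub
    (c1.mono_left hU)).add (c2.mono_left hU)
  rw [moore h hM hU q hf hc, sub_self, sub_self, add_zero] at t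
  refine t.congr' ?_
  filter_upwards [hU self_mem_nhdsWithin] with s hs1
  simp only [mul_sub]
  rw [(s1 s hs1).tsum_sub (s2 s hs1)]
  ring

end Crest.Agent.T24.Na
end
end

-- ▼ part T24/NaMoore_41

/-!
# Row 24, module NA: bi-equivariant functionals do not see `M` (`MooreStmt`).
-/

set_option autoImplicit false
set_option linter.unusedSectionVars false

noncomputable section

namespace Crest.Agent.T24.Na

universe u v w

namespace M41

open Topology Filter MeasureTheory Set P84 K39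

section E
variable {G : Type u} [Group G]

/-- two-sided translation of functions -/
def sh (k : G × G) (φ : G → ℝ) (x : G) : ℝ := φ (k.1⁻¹ * x * k.2)

theorem sh_mul (k k' : G × G) (φ : G → ℝ) : sh (k * k') φ = sh k (sh k' φ) := by
  funext x; simp [sh, mul_assoc]

theorem sh_one (φ : G → ℝ) : sh 1 φ = φ := by funext x; simp [sh]

variable [TopologicalSpace G] [IsTopologicalGroup G] {φ : G → ℝ}

theorem cc_sh (h : Cc φ) (k : G × G) : Cc (sh k φ) :=
  cc_comp h ((Homeomorph.mulLeft k.1⁻¹).trans (Homeomorph.mulRight k.2))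

theorem pos_sh {ν : (G → ℝ) → ℝ} (h : PosF ν) (k : G × G) : PosF fun φ => ν (sh k φ) :=
  ⟨fun _ _ h1 h2 => h.add _ _ (cc_sh h1 k) (cc_sh h2 k), fun c _ h1 => h.smul c _ (cc_sh h1 k),
    fun _ h1 h2 => h.pos _ (cc_sh h1 k) fun x => h2 (k.1⁻¹ * x * k.2)⟩

theorem tsupport_sh (k : G × G) : tsupport (sh k φ) ⊆ {x | k.1⁻¹ * x * k.2 ∈ tsupport φ} :=
  closure_minimal (fun _ hx => subset_tsupport φ hx) ((isClosed_tsupport φ).preimage (by fun_prop))

omit [Group G] [IsTopologicalGroup G] in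
theorem abs_bd {ν : (G → ℝ) → ℝ} (h : PosF ν) (hφ : Cc φ) {A B : ℝ} (hA : 0 < A)
    (h1 : ∀ x, |φ x| ≤ A)
    (hB : ∀ χ, Cc χ → 0 ≤ χ → χ ≤ 1 → tsupport χ ⊆ tsupport φ → ν χ ≤ B) : |ν φ| ≤ A * B := by
  have h2 : Function.support (A⁻¹ • fun x => |φ x|) ⊆ Function.support φ := fun x hx h0 =>
    hx (by simp [h0])
  have h3 : Cc (A⁻¹ • fun x => |φ x|) := ⟨hφ.1.abs.const_smul _, hφ.2.mono h2⟩
  refine (pos_abs_le h hφ (cc_smul A h3) fun x => by simp [hA.ne']).trans ?_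
  rw [h.smul _ _ h3]
  exact mul_le_mul_of_nonneg_left (hB _ h3 (fun x => by simp; positivity)
    (fun x => by simpa [inv_mul_le_one₀ hA] using h1 x) (closure_mono h2)) hA.le

variable [LocallyCompactSpace G] [T2Space G]

theorem cont_sh {ν : (G → ℝ) → ℝ} (h : PosF ν) (hφ : Cc φ) : Continuous fun k => ν (sh k φ) :=
  pos_cont h (by have := hφ.1; unfold sh; fun_prop) fun k₀ => by
    obtain ⟨C, hC, hC'⟩ := exists_compact_mem_nhds k₀
    refine ⟨(fun p : (G × G) × G => p.1.1 * p.2 * p.1.2⁻¹) '' (C ×ˢ tsupport φ),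
      (hC.prod hφ.2).image (by fun_prop), ?_⟩
    filter_upwards [hC'] with k hk x hx
    by_contra h0
    exact hx ⟨(k, k.1⁻¹ * x * k.2), ⟨hk, subset_tsupport _ h0⟩, by simp [mul_assoc]⟩

/-- the unitary model of a bi-equivariant family of functionals -/
theorem exists_E [SecondCountableTopology G] {Γ : Type*} [Group Γ] (ι : Γ →* G)
    (hd : ∃ U ∈ 𝓝 (1 : G), ∀ γ, ι γ ∈ U → γ = 1)
    (hc : ∃ C : Set G, IsCompact C ∧ ∀ g, ∃ γ, (ι γ)⁻¹ * g ∈ C) {Q : Type} [Group Q] [Finite Q]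
    (c : Γ →* Q) {ν : Q → (G → ℝ) → ℝ} (hν : ∀ q, PosF (ν q))
    (hL : ∀ q γ φ, Cc φ → ν (c γ * q) φ = ν q fun g => φ (ι γ * g))
    (hR : ∀ q γ φ, Cc φ → ν (q * c γ) φ = ν q fun g => φ (g * ι γ)) :
    ∃ (V : Type u) (_ : NormedAddCommGroup V) (_ : InnerProductSpace ℝ V) (_ : CompleteSpace V)
      (π : G × G →* (V ≃ₗᵢ[ℝ] V)) (E : (G → ℝ) → V) (C : Set (G × G)) (A : ℝ), IsCompact C ∧ 0 ≤ A ∧
      (∀ φ χ, Cc φ → Cc χ → E (φ + χ) = E φ + E χ) ∧ (∀ k φ, Cc φ → π k (E φ) = E (sh k φ)) ∧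
      (∀ φ B, Cc φ → 0 ≤ B → (∀ k ∈ C, ∀ q, |ν q (sh k φ)| ≤ B) → ‖E φ‖ ≤ A * B) ∧
      ∀ φ χ, Cc φ → Cc χ → E φ = E χ → ∀ q, ν q φ = ν q χ := by
  classical
  borelize (G × G)
  let _ : MeasurableSpace Q := ⊤
  have : DiscreteMeasurableSpace Q := ⟨fun _ => trivial⟩
  let _ : MulAction (Γ × Γ) Q :=
    { smul γ q := c γ.1 * q * c γ.2⁻¹
      one_smul q := by change c 1 * q * c 1⁻¹ = q; simp
      mul_smul a b q := by
        change c (a.1 * b.1) * q * c (a.2 * b.2)⁻¹ = c a.1 * (c b.1 * q * c b.2⁻¹) * c a.2⁻¹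
        simp [mul_assoc] }
  obtain ⟨U, hU, hd⟩ := hd
  obtain ⟨C₀, hC₀, hc⟩ := hc
  obtain ⟨h1, ⟨b, hb⟩, h2⟩ := exists_co (ι.prodMap ι)
    ⟨U ×ˢ U, prod_mem_nhds hU hU, fun γ h => Prod.ext (hd _ h.1) (hd _ h.2)⟩
    ⟨C₀ ×ˢ C₀, hC₀.prod hC₀, fun g => by
      obtain ⟨γ, h⟩ := hc g.1
      obtain ⟨γ', h'⟩ := hc g.2
      exact ⟨(γ, γ'), h, h'⟩⟩
  let μ : Measure (G × G) := Measure.haar
  have := h2 μ
  let ω : Measure Q := wm fun _ => 1
  have : SMulInvariantMeasure (Γ × Γ) Q ω := wm_inv fun _ _ => rfl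
  obtain ⟨C, hC, hF⟩ := hb.Fd_cpt
  have : IsFiniteMeasure ω := ⟨by
    have := Fintype.ofFinite Q
    rw [← lintegral_one, lintegral_wm]; simp⟩
  have : IsFiniteMeasure (μ.restrict (Fd b)) :=
    ⟨by rw [Measure.restrict_apply_univ]; exact (measure_mono hF).trans_lt hC.measure_lt_top⟩
  have : IsFiniteMeasure (mX b μ ω) := by unfold mX; infer_instance
  let Ψ : (G → ℝ) → (G × G) × Q → ℝ := fun φ p => ν p.2 (sh p.1 φ)
  have hI : ∀ φ, Cc φ → K39.Inv (ι.prodMap ι) (Ψ φ) := fun φ hφ γ p => by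
    change ν (c γ.1 * p.2 * c γ.2⁻¹) (sh (ι.prodMap ι γ * p.1) φ) = ν p.2 (sh p.1 φ)
    refine (hR _ _ _ (cc_sh hφ _)).trans ((hL _ _ _ (cc_comp (cc_sh hφ _)
      (Homeomorph.mulRight (ι γ.2⁻¹)))).trans (congrArg _ (funext fun x => ?_)))
    simp [sh, mul_assoc]
  have hm : ∀ φ, Cc φ → MemLp (Ψ φ) 2 (mX b μ ω) := fun φ hφ => by
    choose B hB using fun q => hC.exists_bound_of_continuousOn (cont_sh (hν q) hφ).continuousOn
    obtain ⟨B', hB'⟩ := Finite.exists_le B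
    refine MemLp.of_bound (measurable_from_prod_countable_left fun q =>
      (cont_sh (hν q) hφ).measurable).aestronglyMeasurable B' ?_
    filter_upwards [hb.ae_mem μ ω] with p hp using (hB _ _ (hF hp)).trans (hB' _)
  let E : (G → ℝ) → Lp ℝ 2 (mX b μ ω) := fun φ => if h : Cc φ then (hm φ h).toLp _ else 0
  have hE : ∀ φ, Cc φ → E φ =ᵐ[mX b μ ω] Ψ φ := fun φ h => by
    simp only [E, dif_pos h]; exact MemLp.coeFn_toLp _
  refine ⟨_, inferInstance, inferInstance, inferInstance, hb.kp μ ω, E, C,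
    (measureUnivNNReal (mX b μ ω) : ℝ) ^ (2 : ENNReal).toReal⁻¹, hC, by positivity,
    fun φ χ hφ hχ => Lp.ext ?_, fun k φ hφ => Lp.ext ?_, fun φ B hφ hB h => ?_,
    fun φ χ hφ hχ h q => ?_⟩
  · filter_upwards [hE _ (cc_add hφ hχ), hE _ hφ, hE _ hχ, Lp.coeFn_add (E φ) (E χ)] with p a1 a2 a3 a4
    rw [a1, a4, Pi.add_apply, a2, a3]
    exact (pos_sh (hν _) _).add _ _ hφ hχ
  · filter_upwards [hb.kp_inv μ ω k (hI φ hφ) (hE φ hφ), hE _ (cc_sh hφ k)] with p a1 a2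
    rw [a1, a2]
    exact congrArg (ν p.2) (sh_mul _ _ _)
  · refine Lp.norm_le_of_ae_bound hB ?_
    filter_upwards [hE _ hφ, hb.ae_mem μ ω] with p a1 a2
    rw [a1]; exact h _ (hF a2) _
  · have a1 : ∀ᵐ p ∂μ.prod ω, Ψ φ p = Ψ χ p :=
      hb.ae_of_mX μ ω (fun γ p => by rw [hI φ hφ γ, hI χ hχ γ])
        ((hE φ hφ).symm.trans (h ▸ hE χ hχ))
    have a2 : (fun k => ν q (sh k φ)) =ᵐ[μ] fun k => ν q (sh k χ) := by
      filter_upwards [Measure.ae_ae_of_ae_prod a1] with k hk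
      exact ae_iff_of_countable.1 hk q (by rw [wm_singleton]; simp)
    have := congrFun (((cont_sh (hν q) hφ).ae_eq_iff_eq μ (cont_sh (hν q) hχ)).1 a2) 1
    simpa only [sh_one] using this

end E

section Mat
variable {F : Type u} [Field F] {d : ℕ} {O : Subring F} {π : F} {G₂ : Type v} [Group G₂]

/-- the two-sided action on matrices -/
def lr (G₂ : Type v) [Group G₂] :
    (G₂ × GL (Fin d) F) × (G₂ × GL (Fin d) F) →* (Mt d F ≃ₗ[ℤ] Mt d F) where
  toFun k :=
    { toFun x := k.1.2 * x * (k.2.2⁻¹ : GL (Fin d) F)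
      invFun x := (k.1.2⁻¹ : GL (Fin d) F) * x * k.2.2
      map_add' x y := by rw [mul_add, add_mul]
      map_smul' c x := by rw [mul_smul_comm, smul_mul_assoc]; rfl
      left_inv x := by simp only [mul_assoc, Units.inv_mul, mul_one, Units.inv_mul_cancel_left]
      right_inv x := by simp only [mul_assoc, Units.mul_inv, mul_one, Units.mul_inv_cancel_left] }
  map_one' := by ext1 x; simp
  map_mul' g h := by
    ext1 x
    simp only [LinearEquiv.coe_mk, LinearEquiv.mul_apply, LinearMap.coe_mk, AddHom.coe_mk,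
      Prod.fst_mul, Prod.snd_mul, mul_inv_rev, Units.val_mul, mul_assoc]

theorem lr_apply (k : (G₂ × GL (Fin d) F) × (G₂ × GL (Fin d) F)) (x : Mt d F) :
    lr G₂ k x = k.1.2 * x * (k.2.2⁻¹ : GL (Fin d) F) := rfl

/-- `χ ⊗ 1_β` on the group -/
def tn (χ : G₂ → ℝ) (β : Set (Mt d F)) : G₂ × GL (Fin d) F → ℝ := tens χ (Units.val ⁻¹' β)

theorem sh_tn (χ : G₂ → ℝ) (β : Set (Mt d F)) {k : (G₂ × GL (Fin d) F) × (G₂ × GL (Fin d) F)}
    (h1 : k.1.1 = 1) (h2 : k.2.1 = 1) : sh k (tn χ β) = tn χ (lr G₂ k '' β) := by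
  funext x
  rw [LinearEquiv.image_eq_preimage_symm]
  simp only [sh, tn, tens, Prod.fst_mul, Prod.fst_inv, h1, h2, inv_one, one_mul, mul_one]
  rfl

theorem rel_cell (h0 : π ≠ 0) (i j : ℕ) :
    (cell d O π (i + j)).relIndex (cell d O π i) = ncell d O π j := by
  have h1 := AddSubgroup.relIndex_map_map_of_injective
    (f := DistribSMul.toAddMonoidHom (Mt d F) (π ^ i)) (cell d O π j) (cell d O π 0)
    (MulAction.injective₀ (pow_ne_zero i h0))
  rwa [One37.cell_map h0, One37.cell_map h0, zero_add, add_comm] at h1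

variable [TopologicalSpace F] [IsTopologicalDivisionRing F] [T2Space F]

theorem emb_val : IsEmbedding (Units.val : GL (Fin d) F → Mt d F) :=
  Units.isEmbedding_val_mk' One37.inv_cont fun u => Ring.inverse_unit u

theorem cpt_val {β : Set (Mt d F)} (h : IsCompact β) (hu : ∀ y ∈ β, IsUnit y) :
    IsCompact (Units.val ⁻¹' β : Set (GL (Fin d) F)) := emb_val.isInducing.isCompact_preimage' h hu

theorem sat_clopen (h : Lf O π) {j : ℕ} {s : Set (Mt d F)} (hs : Vm.Sat (cell d O π j) s) :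
    IsClopen s := by
  have key : ∀ s : Set (Mt d F), Vm.Sat (cell d O π j) s → IsOpen s := fun s hs =>
    isOpen_iff_mem_nhds.2 fun x hx => mem_of_superset
      (((cell_open h j).preimage (continuous_sub_right x)).mem_nhds (by simp))
      fun y hy => by simpa using hs x hx _ hy
  exact ⟨⟨key _ fun x hx l hl h' => hx (by simpa using hs _ h' _ (neg_mem hl))⟩, key s hs⟩

theorem cpt_cell (h : Lf O π) (j : ℕ) (y : Mt d F) : IsCompact (Vm.cell (cell d O π j) y) :=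
  (Homeomorph.addLeft (-y)).isCompact_preimage.2 (cell_compact h j)

variable [TopologicalSpace G₂] [T2Space G₂]

theorem cc_tn (h : Lf O π) {χ : G₂ → ℝ} (hχ : Cc χ) {i j : ℕ} {y : Mt d F} {s : Set (Mt d F)}
    (hu : ∀ z ∈ Vm.cell (cell d O π i) y, IsUnit z) (h1 : s ⊆ Vm.cell (cell d O π i) y)
    (hs : Vm.Sat (cell d O π j) s) : Cc (tn χ s) :=
  cc_tens hχ (cpt_val ((cpt_cell h i y).of_isClosed_subset (sat_clopen h hs).1 h1)
    fun z hz => hu z (h1 hz)) ((sat_clopen h hs).2.preimage Units.continuous_val)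

variable [LocallyCompactSpace F] [LocallyCompactSpace G₂]

open Classical in
/-- positive functionals are determined by their values on small cells -/
theorem ext_cell (h : Lf O π) {ν ν' : (G₂ × GL (Fin d) F → ℝ) → ℝ} (hν : PosF ν) (hν' : PosF ν')
    (n : ℕ) (he : ∀ χ, Cc χ → ∀ j y, (∀ z ∈ Vm.cell (cell d O π (j + n)) y, IsUnit z) →
      ν (tn χ (Vm.cell (cell d O π (j + n)) y)) = ν' (tn χ (Vm.cell (cell d O π (j + n)) y)))
    {φ : G₂ × GL (Fin d) F → ℝ} (hφ : Cc φ) : ν φ = ν' φ := by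
  let un : Mt d F → GL (Fin d) F := fun y => if h : IsUnit y then h.unit else 1
  have un1 : ∀ y, IsUnit y → (un y : Mt d F) = y := fun y h => by simp [un, h]
  have un2 : ∀ u : GL (Fin d) F, un u = u := fun u => Units.ext (un1 _ u.isUnit)
  have un3 : ∀ y, IsUnit y → ContinuousAt un y := fun y h =>
    emb_val.isInducing.continuousAt_iff.2 (continuousAt_id.congr
      (mem_of_superset (One37.isOpen_unit.mem_nhds h) fun z hz => (un1 z hz).symm))
  have hK₁ := hφ.2.isCompact.image continuous_fst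
  have hK₂ := hφ.2.isCompact.image continuous_snd
  set K₁ := Prod.fst '' tsupport φ
  set K₂ := Prod.snd '' tsupport φ
  have z1 : ∀ x : G₂ × GL (Fin d) F, x.1 ∉ K₁ → φ x = 0 := fun x hx =>
    by_contra fun h0 => hx ⟨x, subset_tsupport _ h0, rfl⟩
  have hP : ∀ ε : ℝ, 0 < ε → ∃ j, ∀ e ∈ cell d O π j, ∀ p ∈ K₁ ×ˢ K₂,
      IsUnit ((p.2 : Mt d F) + e) ∧ |φ (p.1, un (p.2 + e)) - φ p| < ε := fun ε hε =>
    cell_basis h ((hK₁.prod hK₂).eventually_forall_of_forall_eventually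
      (P := fun (e : Mt d F) p => IsUnit ((p.2 : Mt d F) + e) ∧ |φ (p.1, un (p.2 + e)) - φ p| < ε)
      fun p _ => by
        have a1 : Continuous fun z : Mt d F × G₂ × GL (Fin d) F => (z.2.2 : Mt d F) + z.1 := by
          fun_prop
        have a2 : ContinuousAt (fun z : Mt d F × G₂ × GL (Fin d) F => un (z.2.2 + z.1)) (0, p) :=
          ContinuousAt.comp (un3 _ (by simp)) a1.continuousAt
        refine (a1.continuousAt.eventually_mem (One37.isOpen_unit.mem_nhds (by simp))).and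
          (ContinuousAt.eventually_lt (ContinuousAt.abs ((hφ.1.continuousAt.comp
            (continuousAt_snd.fst.prodMk a2)).sub (hφ.1.continuousAt.comp continuousAt_snd)))
            continuousAt_const (by simpa [un2] using hε)))
  obtain ⟨j₁, hj₁⟩ := hP 1 one_pos
  have u1 : ∀ y ∈ K₂, ∀ e ∈ cell d O π j₁, IsUnit ((y : Mt d F) + e) := by
    rintro _ ⟨x, hx, rfl⟩ e he
    exact (hj₁ e he x ⟨⟨x, hx, rfl⟩, x, hx, rfl⟩).1
  obtain ⟨b, hb, hb0, -, hb1⟩ := exists_bump (hK₁.prod (cpt_val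
    ((hK₂.prod (cell_compact (d := d) h j₁)).image
      (f := fun p : GL (Fin d) F × Mt d F => (p.1 : Mt d F) + p.2) (by fun_prop))
    (by rintro _ ⟨p, hp, rfl⟩; exact u1 _ hp.1 _ hp.2)))
  have hb2 := hν.pos b hb hb0
  have hb3 := hν'.pos b hb hb0
  refine eq_of_forall_dist_le fun ε hε => ?_
  obtain ⟨j₂, hj₂⟩ := hP (ε / (ν b + ν' b + 1)) (by positivity)
  set L := cell d O π (j₁ + j₂ + n) with hL
  have l1 : L ≤ cell d O π j₁ := cell_anti h.pi_mem (by omega)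
  have l2 : L ≤ cell d O π j₂ := cell_anti h.pi_mem (by omega)
  have := QuotientAddGroup.discreteTopology (cell_open (d := d) h (j₁ + j₂ + n))
  have hT : ((fun y : GL (Fin d) F => ((y : Mt d F) : Mt d F ⧸ L)) '' K₂).Finite :=
    (hK₂.image (QuotientAddGroup.continuous_mk.comp Units.continuous_val)).finite_of_discrete
  choose! r r1 r2 using fun q (hq : q ∈ hT.toFinset) => hT.mem_toFinset.1 hq
  have u2 : ∀ q ∈ hT.toFinset, ∀ z ∈ Vm.cell L (r q), IsUnit z := fun q hq z hz => by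
    simpa using u1 _ (r1 q hq) _ (l1 hz)
  have c1 : ∀ q, Cc fun a => φ (a, r q) := fun q =>
    cc_of (hφ.1.comp (Continuous.prodMk_left _)) hK₁ fun a ha => z1 _ ha
  have c2 : ∀ q ∈ hT.toFinset, Cc (tn (fun a => φ (a, r q)) (Vm.cell L (r q))) := fun q hq =>
    cc_tn h (c1 q) (u2 q hq) Subset.rfl (Vm.sat_cell _ _)
  have m1 : ∀ q ∈ hT.toFinset, ∀ y : GL (Fin d) F,
      y ∈ Units.val ⁻¹' Vm.cell L (r q) ↔ q = (y : Mt d F) := fun q hq y => by
    conv_rhs => rw [← r2 q hq, QuotientAddGroup.eq]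
    rfl
  set ψ := ∑ q ∈ hT.toFinset, tn (fun a => φ (a, r q)) (Vm.cell L (r q)) with hψ
  have e1 : ν ψ = ν' ψ := by
    rw [pos_sum hν _ c2, pos_sum hν' _ c2]
    exact Finset.sum_congr rfl fun q hq => he _ (c1 q) _ _ (u2 q hq)
  have e2 : ∀ x, |(φ - ψ) x| ≤ ((ε / (ν b + ν' b + 1)) • b) x := fun x => by
    have p0 : 0 ≤ ((ε / (ν b + ν' b + 1)) • b) x := mul_nonneg (by positivity) (hb0 x)
    rw [Pi.sub_apply, hψ, Finset.sum_apply]
    by_cases hx : ((x.2 : Mt d F) : Mt d F ⧸ L) ∈ hT.toFinset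
    · have a1 := (m1 _ hx x.2).2 rfl
      rw [Finset.sum_eq_single_of_mem _ hx fun q hq hq' => by
        rw [tn, tens, indicator_of_notMem (mt (m1 q hq _).1 hq'), mul_zero],
        tn, tens, indicator_of_mem a1, Pi.one_apply, mul_one]
      by_cases hx1 : x.1 ∈ K₁
      · have a2 := (hj₂ _ (l2 a1) (x.1, r (x.2 : Mt d F)) ⟨hx1, r1 _ hx⟩).2
        rw [add_neg_cancel_left, un2] at a2
        rw [Pi.smul_apply, hb1 x ⟨hx1, (_, _), ⟨r1 _ hx, l1 a1⟩, add_neg_cancel_left _ _⟩,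
          smul_eq_mul, mul_one]
        exact a2.le
      · rwa [z1 _ hx1, z1 (x.1, r (x.2 : Mt d F)) hx1, sub_self, abs_zero]
    · rw [Finset.sum_eq_zero fun q hq => by
        rw [tn, tens, indicator_of_notMem fun h' => hx ((m1 q hq _).1 h' ▸ hq), mul_zero]]
      rwa [show φ x = 0 from by_contra fun h0 =>
        hx (hT.mem_toFinset.2 ⟨_, ⟨x, subset_tsupport _ h0, rfl⟩, rfl⟩), sub_self, abs_zero]
  have c3 := cc_sum _ c2
  have e3 := pos_abs_le hν (cc_sub hφ c3) (cc_smul _ hb) e2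
  have e4 := pos_abs_le hν' (cc_sub hφ c3) (cc_smul _ hb) e2
  rw [pos_sub hν hφ c3, hν.smul _ _ hb, abs_le] at e3
  rw [pos_sub hν' hφ c3, hν'.smul _ _ hb, abs_le] at e4
  have e5 : ε / (ν b + ν' b + 1) * (ν b + ν' b + 1) = ε := by field_simp
  have e6 : 0 < ε / (ν b + ν' b + 1) := by positivity
  rw [Real.dist_eq, abs_le]
  constructor <;> nlinarith

variable [IsTopologicalGroup G₂]

/-- the vectors of small cells are fixed by `SL_d` -/
theorem cell_inv (h : Lf O π) (hd : 3 ≤ d) {V : Type*} [NormedAddCommGroup V]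
    [InnerProductSpace ℝ V] [CompleteSpace V]
    (p : (G₂ × GL (Fin d) F) × (G₂ × GL (Fin d) F) →* (V ≃ₗᵢ[ℝ] V))
    (E : (G₂ × GL (Fin d) F → ℝ) → V) {C : Set ((G₂ × GL (Fin d) F) × (G₂ × GL (Fin d) F))} {A : ℝ}
    (hC : IsCompact C) {Q : Type*} {ν : Q → (G₂ × GL (Fin d) F → ℝ) → ℝ}
    (hν : ∀ q, PosF (ν q)) (e1 : ∀ φ χ, Cc φ → Cc χ → E (φ + χ) = E φ + E χ)
    (e2 : ∀ k φ, Cc φ → p k (E φ) = E (sh k φ))
    (e3 : ∀ φ B, Cc φ → 0 ≤ B → (∀ k ∈ C, ∀ q, |ν q (sh k φ)| ≤ B) → ‖E φ‖ ≤ A * B)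
    (hK : ∀ K : Set (G₂ × GL (Fin d) F), IsCompact K → ∃ C : ℝ, ∀ q (j : ℕ) (y₀ : Mt d F) φ, Cc φ →
      0 ≤ φ → φ ≤ 1 → (∀ g ∈ tsupport φ, g ∈ K ∧ (g.2 : Mt d F) - y₀ ∈ cell d O π j) →
      ν q φ ≤ C / ncell d O π j) :
    ∃ n, ∀ χ, Cc χ → ∀ j y, (∀ z ∈ Vm.cell (cell d O π (j + n)) y, IsUnit z) → ∀ s,
      p (jS G₂ s, 1) (E (tn χ (Vm.cell (cell d O π (j + n)) y))) =
        E (tn χ (Vm.cell (cell d O π (j + n)) y)) := by
  have h0 := h.loc.ne
  obtain ⟨n, hn⟩ := bounded_gl h ((hC.image (f := fun k => k.1.2) (by fun_prop)).union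
    (hC.image (f := fun k => k.2.2) (by fun_prop)))
  refine ⟨n, fun χ hχ j₀ y hu s => ?_⟩
  obtain ⟨r, r1, r2⟩ := h.loc.res
  have hp : π⁻¹ * π = 1 := inv_mul_cancel₀ h0
  have hD : Kaz.Dat O π⁻¹ r := ⟨r1, fun k l hkl => ⟨_, (r2 l k hkl.symm).2,
    inv_mul_cancel₀ (sub_ne_zero.2 (r2 l k hkl.symm).1)⟩, fun x => (h.loc.abs x).imp fun m hm =>
      ⟨_, hm, by rw [inv_pow, inv_mul_cancel_left₀ (pow_ne_zero m h0)]⟩⟩
  let i₀ : Fin d := ⟨0, by omega⟩
  obtain ⟨t, t1, -⟩ := Vm.exists_t h.pi_mem hp i₀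
  have hΩ := cpt_cell h (j₀ + n) y
  have hΩ' := cpt_val hΩ hu
  obtain ⟨a, ha⟩ := bounded_gl h ((hΩ'.image
    (f := fun u => u⁻¹ * Matrix.SpecialLinearGroup.toGL t * u) (by fun_prop)).insert
      (Matrix.SpecialLinearGroup.toGL t))
  obtain ⟨e, he⟩ := bounded h hΩ
  obtain ⟨B, hB⟩ := hK _ ((hC.prod (hχ.2.isCompact.prod hΩ')).image
    (f := fun z => z.1.1 * z.2 * z.1.2⁻¹) (by fun_prop))
  obtain ⟨A', hA'⟩ := hχ.1.bounded_above_of_compact_support hχ.2
  choose! u hu' using hu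
  have hu : ∀ z ∈ Vm.cell (cell d O π (j₀ + n)) y, IsUnit z := fun z hz => ⟨_, hu' z hz⟩
  have hsub : ∀ j, ∀ z ∈ Vm.cell (cell d O π (j₀ + n)) y,
      Vm.cell (cell d O π (j₀ + n + j)) z ⊆ Vm.cell (cell d O π (j₀ + n)) y := fun j z hz x hx => by
    rw [Vm.mem_cell] at *
    simpa using add_mem (cell_anti h.pi_mem (Nat.le_add_right _ j) hx) hz
  have hcc := fun j z hz => cc_tn h hχ hu (hsub j z hz) (Vm.sat_cell _ _)
  let φ : GL (Fin d) F × GL (Fin d) F →* (G₂ × GL (Fin d) F) × (G₂ × GL (Fin d) F) :=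
    (MonoidHom.inr _ _).prodMap (MonoidHom.inr _ _)
  let f := (MonoidHom.inl (GL (Fin d) F) (GL (Fin d) F)).comp
    (Matrix.SpecialLinearGroup.toGL (n := Fin d) (R := F))
  refine Vm.vmA hD h.pi_mem hp (by simp) (by simpa using hd) (p.comp φ) (i₀ := i₀)
    (c := π ^ Fintype.card (Fin d))
    ⟨π ^ (d - 1), O.pow_mem h.pi_mem _, by rw [← pow_succ', Fintype.card_fin]; congr 1; omega⟩
    (fun j => cell d O π (j₀ + n + j)) (fun i j hij => cell_anti h.pi_mem (by omega))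
    (fun j => by simpa [rel_cell h0] using ncell_ne h j) (a := a) (b := ncell d O π a)
    (fun j => by rw [← add_assoc, rel_cell h0]) ((lr G₂).comp φ) y (fun β => E (tn χ β))
    (fun j β β' b1 b2 b3 b4 b5 => ?_) (C := A * ((|A'| + 1) * (|B| / ncell d O π j₀)))
    (fun j z hz => ?_) (fun g j z hz _ => ?_) (fun _ _ => f.comp (MonoidHom.id _))
    (fun _ z => f t * (1, (u z)⁻¹ * Matrix.SpecialLinearGroup.toGL t * u z))
    (fun j z hz => ⟨t1.map f fun g => by simp [f], ?_, fun i l hl => ?_⟩)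
    (fun j₁ => ⟨j₀ + n + j₁ + e, fun j z hz k hk o ho x hx => ?_⟩) (g := f s) fun _ _ _ => ⟨s, rfl⟩
  · rw [← e1 _ _ (cc_tn h hχ hu b1 b3) (cc_tn h hχ hu b2 b4), tn, preimage_union,
      tens_union _ (b5.preimage _)]
    rfl
  · have n1 := One37.ncell_pos (d := d) h j
    have n2 := One37.ncell_pos (d := d) h j₀
    rw [add_zero, rel_cell h0]
    refine (mul_le_mul_of_nonneg_left (e3 _ ((|A'| + 1) * (|B| / ncell d O π (j₀ + j))) (hcc j z hz)
      (by positivity) fun k hk q => abs_bd (hν q) (cc_sh (hcc j z hz) k) (by positivity)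
        (fun x => ?_) fun ψ p1 p2 p3 p4 => (hB q _ (k.1.2 * z * (k.2.2⁻¹ : GL (Fin d) F)) ψ p1 p2 p3
          fun x hx => ?_).trans (by gcongr; exact le_abs_self _)) n1.le).trans (le_of_eq ?_)
    · rw [sh, tn, tens, abs_mul]
      refine (mul_le_of_le_one_right (abs_nonneg _) ?_).trans
        ((hA' _).trans (by linarith [le_abs_self A']))
      classical
      rw [indicator_apply]; split_ifs <;> simp
    · have a1 := tsupport_tens (cpt_val (cpt_cell h _ z) fun w hw => hu w (hsub j z hz hw))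
        (tsupport_sh k (p4 hx))
      refine ⟨⟨(k, k.1⁻¹ * x * k.2), ⟨hk, a1.1, hsub j z hz a1.2⟩, by simp [mul_assoc]⟩, ?_⟩
      have a2 := (hn _ (.inl ⟨k, hk, rfl⟩) _ (.inr ⟨k, hk, rfl⟩) _ _ (Vm.mem_cell.1 a1.2)).1
      rw [add_comm j₀, add_assoc, smul_mem_cell h0] at a2
      simpa [mul_sub, sub_mul, mul_assoc] using a2
    · rw [One37.ncell_add h0 h.pi_mem]; push_cast; field_simp
  · rw [MonoidHom.comp_apply, e2 _ _ (hcc j z hz), sh_tn _ _ rfl rfl]
    rfl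
  · have a1 : lr G₂ (φ (f t * (1, (u z)⁻¹ * Matrix.SpecialLinearGroup.toGL t * u z))) (u z) = u z := by
      rw [lr_apply, ← Units.val_mul, ← Units.val_mul]
      congr 1
      simp [φ, f, mul_assoc]
    rw [hu' z hz] at a1
    rw [MonoidHom.comp_apply, a1, sub_self]
    exact zero_mem _
  · have a1 := ha _ (mem_insert _ _) _ (mem_insert_of_mem _ ⟨u z, by
      rwa [mem_preimage, hu' z hz], rfl⟩) _ _ hl
    have a2 := ha _ (mem_insert_of_mem _ ⟨u z, by rwa [mem_preimage, hu' z hz], rfl⟩) _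
      (mem_insert _ _) _ _ hl
    rw [← add_assoc, add_comm _ a, smul_mem_cell h0, smul_mem_cell h0] at a1 a2
    exact ⟨by simpa [lr_apply, φ, f] using a1.1, by simpa [lr_apply, φ, f] using a2.2⟩
  · have key : ∀ i k : Fin d, i ≠ k → (lr G₂).comp φ (f.comp (MonoidHom.id _)
        (Kaz.X i k (π ^ (j₀ + n + j₁ + e) * o))) x - x ∈ cell d O π (j₀ + n + j₁) := fun i k hik => by
      have a1 := cell_mul (Vm.single_mem_Lv (n := j₀ + n + j₁ + e) i k ho) (he x hx)
      rw [mul_smul_comm, add_zero, add_comm _ e, smul_mem_cell h0, add_comm e] at a1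
      simpa [lr_apply, φ, f, Kaz.X_coe hik, add_mul] using a1
    exact ⟨key _ _ hk.symm, key _ _ hk⟩

end Mat

end M41

open M41 P84 K39 in
/-- (1), ergodic part -/
theorem mooreStmt : MooreStmt.{u, v, w} := by
  intro F _ _ _ _ _ _ O π d G₂ _ _ _ _ _ _ Γ _ ι Q _ _ c M ν h hd hι hM hN hν hK hL hR q f hf φ hφ
  obtain ⟨V, _, _, _, p, E, C, A, hC, -, e1, e2, e3, e4⟩ := exists_E ι hι.disc hι.coc c hν hL hR
  obtain ⟨n, hn⟩ := cell_inv h hd p E hC hν e1 e2 e3 hK
  have h1 : ∀ s ψ, Cc ψ → ν q (sh (jS G₂ s, 1) ψ) = ν q ψ := fun s ψ hψ =>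
    ext_cell h (pos_sh (hν q) _) (hν q) n (fun χ hχ j y hu => by
      have a1 := cc_tn h hχ hu subset_rfl (Vm.sat_cell _ _)
      exact e4 _ _ (cc_sh a1 _) a1 ((e2 _ _ a1).symm.trans (hn χ hχ j y hu s)) q) hψ
  have h2 : Continuous fun a : G₂ => ν q (sh ((a⁻¹, 1), 1) φ) :=
    (cont_sh (hν q) hφ).comp (by fun_prop)
  have h3 : (1 : G₂) ∈ closure {a : G₂ | ν q (sh ((a⁻¹, 1), 1) φ) = ν (q * f) φ} :=
    mem_closure_iff_nhds.2 fun W hW => by
      obtain ⟨γ, ⟨h4, h4'⟩, h5⟩ := hN _ (hM.conj_mem f hf q) W hW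
      obtain ⟨s, hs⟩ : ∃ s : Matrix.SpecialLinearGroup (Fin d) F, s.toGL = (ι γ).2 :=
        ⟨⟨_, h4⟩, Units.ext rfl⟩
      refine ⟨_, h4', ?_⟩
      have h6 := hL q γ φ hφ
      rw [h5, inv_mul_cancel_right] at h6
      rw [Set.mem_ofPred_eq, h6, ← h1 s⁻¹ _ (cc_sh hφ _), ← sh_mul]
      refine congrArg _ (funext fun x => congrArg φ ?_)
      rw [map_inv]
      simp only [Prod.fst_mul, Prod.snd_mul, mul_one, mul_inv_rev, inv_inv]
      congr 1
      exact Prod.ext (by simp) (by simp [hs])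
  have h4 := (isClosed_eq h2 continuous_const).closure_subset h3
  rw [Set.mem_ofPred_eq, inv_one] at h4
  exact h4.symm.trans (congrArg _ (sh_one φ))

end Crest.Agent.T24.Na
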