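import Crest.Agent.T24.NaCen_23_Mg
import Crest.Agent.T24.NaL_98
import Crest.Agent.T24.NaMoore_41_Mg
import Crest.Agent.T24.CfgB_24
import Crest.Agent.T24.TLink_31
import Crest.Agent.T24.SplEx_33
import Crest.Agent.T24.NaInstDef_3
import Crest.Agent.T24.HgtC_88
import Crest.Agent.T24.CocS_98
import Crest.Agent.T24.LocM_59
import Crest.Agent.T24.NaDef_18
import Crest.Agent.T24.BcB_98
import Crest.Agent.T24.Csa4_50
import Crest.Agent.T24.Pow_53
import Crest.Agent.T24.LocG_59
import Crest.Agent.T24.NstK_39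
import Crest.Agent.T24.NaAbs_56

-- ▼ part T24/NaInst_3
section

/-!
# Row 24, module NA + TW: the analytic step for the data of the row.
-/

set_option autoImplicit false
set_option linter.unusedSectionVars false

noncomputable section

namespace Crest.Agent.T24.Na

open Module Csa Asa Filter Topology NumberField IsDedekindDomain MeasureTheory
open scoped NumberField

universe u v w

namespace I3
variable {k K B : Type*} [Field k] [NumberField k] [Field K] [NumberField K] [Algebra k K]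
  [StarRing K] [Quad k K] [Ring B] [StarRing B] [Algebra K B] [StarModule K B]
  [Algebra.IsCentral K B] [IsSimpleRing B] [FiniteDimensional K B] [Algebra k B]
  [IsScalarTower k K B]

theorem cen_comm (S : Finset (Pl k)) (c : K) (y : AS k K B S) :
    jA k K B S (algebraMap K B c) * y = y * jA k K B S (algebraMap K B c) :=
  Prod.ext (BC.cen_comm k K B _ (BC.inc k K K (Inf k) c) y.1 :)
    (funext fun v => (BC.cen_comm k K B _ (BC.inc k K K (Kv v.1) c) (y.2 v) :))

theorem psi_comm {v : Pl k} (s : Spl K B v) (c : K) (y : Mt (deg K B) (Kv v)) :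
    s.ψ (algebraMap K B c) * y = y * s.ψ (algebraMap K B c) := by
  rw [s.compat]; exact Algebra.commutes _ _

theorem nrm {m : ℕ} {Q : Type} [Group Q] {c : Um K B m →* Q} {M : Subgroup Q} (h : Col m c M) :
    M.Normal := h.im m le_rfl ▸ Subgroup.Normal.map inferInstance c h.surj

theorem rh_tend (S : Finset (Pl k)) :
    Tendsto (fun R : ℕ => rh k K B S ((R : ℝ) + 1)⁻¹) atTop (𝓝 (rh k K B S 0)) := by
  have h : Continuous (rh k K B S) :=
    ((continuous_algebraMap _ _).comp (continuous_algebraMap ℝ (Inf k))).prodMk continuous_const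
  exact (h.tendsto 0).comp (by simpa using tendsto_one_div_add_atTop_nhds_zero_nat (𝕜 := ℝ))

variable [Algebra ℚ B]

theorem ok (I : Inp k K B) (h : I.Ok) (lam : Measure I.Z) (Δ : I.Z → ℝ) (hL : (I.sys lam Δ).OkL)
    (hW : (I.sys lam Δ).OkW) (hC : (I.sys lam Δ).ChartP) (hD : (I.sys lam Δ).DensP)
    (hE : (I.sys lam Δ).EscP) : (I.sys lam Δ).Ok :=
  { hL, hW with
    lf := h.lf
    hd := h.hd
    star_k := star_ksmul k K B
    inc_star := fun b => (star_jA I.S b).symm
    inc_inj := jA_injective I.S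
    k_comm := fun r y => IsScalarTower.algebraMap_apply k K B r ▸ cen_comm I.S _ y
    k_comm' := fun r y => IsScalarTower.algebraMap_apply k K B r ▸ psi_comm I.s _ y
    th_comm := cen_comm I.S _
    th_comm' := psi_comm I.s _
    th_star := (star_algebraMap I.θ).trans (by rw [h.th_star, map_neg])
    th_unit := h.th0.isUnit.map _
    aniso := fun a => by
      have := Cfg.unit_add h.an a.2 (c := -I.θ) fun e => h.th0 (by
        rw [star_neg, h.th_star, neg_neg] at e; linear_combination (1 / 2 : K) * e)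
      rwa [map_neg, ← sub_eq_add_neg] at this
    unit_open := G50.unit_open K B I.S
    inv_cont := G50.inv_cont K B I.S
    eps_comm := rh_comm k K B I.S 0
    eps_star := star_rh k K B I.S 0
    eps_idem := (rh_mul k K B I.S 0 0).symm.trans (by rw [mul_zero])
    rho_comm := fun _ => rh_comm k K B I.S _
    rho_eps := fun _ => (rh_mul k K B I.S _ 0).symm.trans (by rw [mul_zero])
    rho_tend := rh_tend I.S
    sc_fst := fun _ _ => rfl
    sc_snd := fun _ _ => rfl
    G_open := I.opn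
    ι_fst := fun _ => rfl
    ι_snd := fun _ => rfl
    mem_U := fun u ⟨g, e⟩ => (I.hG u).1 ((Subtype.ext e : (g : unitary _) = jAU k K B I.S u) ▸ g.2)
    iJ_fst := fun _ => rfl
    iJ_snd := fun _ => rfl
    nrm := nrm h.col
    N_ne := h.N0
    chart := hC
    dens := hD
    esc := hE }

theorem exists_ord (Λ : Ord K B) {θ : K} (h0 : θ ≠ 0) (hθ : star θ = -θ) :
    ∃ θ', Hgt.Ord Λ.O θ' := by
  obtain ⟨n, hn, h⟩ := Λ.den (algebraMap K B θ)
  rw [← map_natCast (algebraMap K B), ← map_mul] at h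
  exact ⟨_, Λ.fg, Λ.den, Λ.star_mem, h, (map_ne_zero _).2 (by simp [hn, h0]), Algebra.commutes _, by
    rw [star_algebraMap, star_mul, hθ, star_natCast, ← map_neg]; congr 1; ring⟩

theorem exists_inp (hd : 3 ≤ deg K B) (ha : Aniso B) (hS : Sa k K B) {m : ℕ} {Q : Type} [Group Q]
    [Finite Q] {c : Um K B m →* Q} {M : Subgroup Q} (hc : Col m c M) {θ : K} (h0 : θ ≠ 0)
    (hθ : star θ = -θ) {J : Type} [Finite J] (g : J → Aff k B) :
    ∃ Λ N v₀ s S π G₂ hG opn, (Inp.mk m Q c M θ Λ N v₀ s S π G₂ hG opn : Inp k K B).Ok ∧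
      ∀ j, (g j).In (Hgt.OS Λ.O N) := by
  classical
  have := finite_kB k K B
  have : FiniteDimensional ℚ B := Module.Finite.trans k B
  obtain ⟨⟨Λ⟩, hX⟩ := SplE.splEx k K B
  obtain ⟨v₀, hv₀, s, hs⟩ := hX Λ (finite_ne_one (x := (6 : k)) (by norm_num)).toFinset
  obtain ⟨π, -, hπ⟩ := G50.exists_lf v₀ (by simpa using hv₀)
  obtain ⟨θ', hO⟩ := exists_ord Λ h0 hθ
  obtain ⟨M₀, h₀, H₀⟩ := Hgt.exists_Ht hO
  obtain ⟨M₁, h₁, H₁⟩ := exists_OS Λ.den ![algebraMap K B θ, algebraMap K B θ⁻¹]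
  obtain ⟨M₂, h₂, H₂⟩ := exists_OS Λ.den fun j : J × Fin 5 => ![algebraMap k B (g j.1).κ,
    algebraMap k B ((g j.1).κ⁻¹ : kˣ), (g j.1).p, ((g j.1).p⁻¹ : Bˣ), (g j.1).b] j.2
  let T := insert v₀ (TL31.finite_Tk k K B (by omega)).toFinset
  let N := 2 * M₀ * M₁ * M₂ * ∏ v ∈ T, Ideal.absNorm v.asIdeal
  have hN : N ≠ 0 := mul_ne_zero (by positivity) (Finset.prod_ne_zero_iff.2 fun v _ =>
    Ideal.absNorm_eq_zero_iff.not.2 v.ne_bot)
  have hT : ∀ v ∈ T, (N : 𝓞 k) ∈ v.asIdeal := fun v hv => by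
    obtain ⟨a, e⟩ := (Finset.dvd_prod_of_mem (fun v : Pl k => Ideal.absNorm v.asIdeal) hv).mul_left
      (2 * M₀ * M₁ * M₂)
    rw [show N = _ from e, Nat.cast_mul]
    exact Ideal.mul_mem_right _ _ (Ideal.absNorm_mem _)
  have hf : {v : Pl k | (N : 𝓞 k) ∈ v.asIdeal}.Finite :=
    (Ideal.finite_factors (I := Ideal.span {(N : 𝓞 k)}) (by simpa using hN)).subset
      fun v hv => Ideal.dvd_span_singleton.2 hv
  have h1 : ∀ v, v ∈ insert v₀ (hf.toFinset.erase v₀) ↔ (N : 𝓞 k) ∈ v.asIdeal := fun v => by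
    rw [Finset.insert_erase (by simpa using hT v₀ (Finset.mem_insert_self _ _))]; simp
  have h2 : ∀ v ∈ Tk k K B, v ∈ hf.toFinset.erase v₀ := fun v hv =>
    Finset.mem_erase.2 ⟨fun e => s.notMem_Tk (by omega) (e ▸ hv),
      by simpa using hT v (Finset.mem_insert_of_mem (by simpa using hv))⟩
  obtain ⟨G₂, hG, opn⟩ := G50.exists_G2 (by omega) h2 m
  have d₁ : M₁ ∣ N := ((dvd_mul_left _ _).mul_right _).mul_right _
  have d₂ : M₂ ∣ N := (dvd_mul_left _ _).mul_right _
  exact ⟨Λ, N, v₀, s, _, _, G₂, hG, opn, ⟨hd, ha, hS, hc, h0, hθ, hN,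
    (((dvd_mul_right _ _).mul_right _).mul_right _).mul_right _, Finset.notMem_erase _ _, h1, h2, hs,
    hπ, Subring.ext fun x => (L98.mem_Off_iff Λ h1 x).trans (by simp only [nsmul_eq_mul, Nat.cast_pow]; rfl),
    H₁ N d₁ 0, H₁ N d₁ 1, H₀ N hN ((((dvd_mul_left _ _).mul_right _).mul_right _).mul_right _)⟩,
    fun j => ⟨H₂ N d₂ (j, 0), H₂ N d₂ (j, 1), H₂ N d₂ (j, 2), H₂ N d₂ (j, 3), H₂ N d₂ (j, 4)⟩⟩

end I3

theorem indepStmt (hA : AbsStmt.{u, max u w, w}) (hS : SaStmt.{u, v, w}) (hL : ILatStmt.{u, v, w})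
    (hW : IWtStmt.{u, v, w}) (hC : IChartStmt.{u, v, w}) (hD : IDensStmt.{u, v, w})
    (hE : IEscStmt.{u, v, w}) (hM : IAdmStmt.{u, v, w}) : IndepStmt.{u, v, w} := by
  intro D hd ha m Q _ _ c M hc θ h0 hθ T _ _ At h1 h2 J _ g
  let _ : Algebra ℚ D.B := ((algebraMap D.k D.B).comp (algebraMap ℚ D.k)).toAlgebra' fun _ _ =>
    Algebra.commutes _ _
  obtain ⟨Λ, N, v₀, s, S, π, G₂, hG, opn, h, hg⟩ := I3.exists_inp hd ha (hS D hd ha) hc h0 hθ g
  obtain ⟨lam, Δ, hw⟩ := hW D _ h
  have ok := I3.ok _ h lam Δ (hL D _ h _ _) hw (hC D _ h _ _) (hD D _ h _ _) (hE D _ h _ _)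
  obtain ⟨z₀, hz⟩ := exists_cen _ ok g
  exact hA _ ok T At ⟨fun γ a => h1 γ a, h2⟩ J g z₀ (fun j => hM D _ h _ _ _ (hg j)) hz

end Crest.Agent.T24.Na
end
end

-- ▼ part T24/NaLat_98
section

/-!
# Row 24, NA/TW instantiation: the lattice fields.
-/

set_option autoImplicit false

noncomputable section

namespace Crest.Agent.T24.Na

universe u v w

theorem iLatStmt : ILatStmt.{u, v, w} := by
  intro D _ I h lam Δ
  have e : rh D.k D.K D.B I.S 0 = L98.eps D.k D.K D.B I.S :=
    Prod.ext (by simp only [rh, map_zero]; rfl) rfl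
  have hS := fun v => (h.mem_S v).1
  exact
    { latt := L98.latt I.Λ h.v0 I.s h.an I.G₂ I.opn _ I.ι (fun _ => rfl) (fun _ => rfl)
        (fun u ⟨g, hg⟩ => (I.hG u).1 (by
          rw [show jAU D.k D.K D.B I.S u = g from Subtype.ext hg.symm]; exact g.2))
        _ fun _ => Iff.rfl
      L_iff := L98.L_iff I.Λ h.mem_S
      fg := L98.L₀_fg I.Λ
      full := L98.L₀_full I.Λ
      L_cj := fun γ _ hb => L98.L_cj I.Λ γ.2 hb
      L_fin := L98.L_fin I.Λ h.v0 I.s
      L_cov := by
        have := L98.L_cov I.Λ h.v0 I.s h.N0 hS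
        rw [← e] at this
        exact this
      L_small := by
        have := L98.L_small I.Λ I.s hS
        rw [← e] at this
        exact this
      L_link := by
        have := L98.L_link (S := I.S) I.Λ I.s
        rw [← e] at this
        exact this }

end Crest.Agent.T24.Na
end
end

-- ▼ part T24/HgtD_88
section

/-!
# Row 24, heights: the places over `M`, the local module `Δ`
-/

set_option autoImplicit false
set_option linter.unusedSectionVars false
set_option linter.style.haveILetI false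

noncomputable section

namespace Crest.Agent.T24.HgtI

open Module Csa Asa Set Filter Topology NumberField IsDedekindDomain BC WithZero
open scoped NumberField

section places
variable {k : Type*} [Field k] [NumberField k]

theorem not_coprime {v : Pl k} {a b : ℕ} (ha : (a : 𝓞 k) ∈ v.asIdeal) (hb : (b : 𝓞 k) ∈ v.asIdeal) :
    ¬ a.Coprime b := fun h => by
  obtain ⟨x, y, e⟩ := (Nat.isCoprime_iff_coprime.2 h).map (Int.castRingHom (𝓞 k))
  simp only [eq_intCast, Int.cast_natCast] at e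
  exact (Ideal.ne_top_iff_one _).1 v.isPrime.ne_top
    (e ▸ add_mem (Ideal.mul_mem_left _ _ ha) (Ideal.mul_mem_left _ _ hb))

theorem mem_of_dvd {v : Pl k} {a b : ℕ} (h : a ∣ b) (ha : (a : 𝓞 k) ∈ v.asIdeal) :
    (b : 𝓞 k) ∈ v.asIdeal := by
  obtain ⟨c, rfl⟩ := h
  rw [Nat.cast_mul]; exact Ideal.mul_mem_right _ _ ha


/-- an ideal prime to `M` contains an integer prime to `M` -/
theorem exists_nat (I : Ideal (𝓞 k)) (hI : I ≠ ⊥) {M : ℕ}
    (h : ∀ v : Pl k, (M : 𝓞 k) ∈ v.asIdeal → ¬ I ≤ v.asIdeal) :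
    ∃ m : ℕ, m.Coprime M ∧ m ≠ 0 ∧ (m : 𝓞 k) ∈ I := by
  obtain ⟨g, hg⟩ := (IsPrincipalIdealRing.principal (I.comap (algebraMap ℤ (𝓞 k)))).principal
  have h1 : g ∈ I.comap (algebraMap ℤ (𝓞 k)) := by rw [hg]; exact Submodule.mem_span_singleton_self g
  have h2 : g ≠ 0 := by
    rintro rfl
    have : ((Ideal.absNorm I : ℕ) : ℤ) ∈ I.comap (algebraMap ℤ (𝓞 k)) := by
      simpa using Ideal.absNorm_mem I
    rw [hg] at this
    exact hI (Ideal.absNorm_eq_zero_iff.1 (by simpa using this))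
  refine ⟨g.natAbs, ?_, Int.natAbs_ne_zero.2 h2, ?_⟩
  · by_contra hc
    obtain ⟨q, hq, q1, q2⟩ := Nat.Prime.not_coprime_iff_dvd.1 hc
    haveI : (Ideal.span {(q : ℤ)}).IsPrime :=
      (Ideal.span_singleton_prime (by exact_mod_cast hq.ne_zero)).2 (Nat.prime_iff_prime_int.1 hq)
    obtain ⟨Q, hQ, hQ', hQ''⟩ := Ideal.exists_ideal_over_prime_of_isIntegral (Ideal.span {(q : ℤ)}) I (by
      rw [hg]; exact Ideal.span_singleton_le_span_singleton.2 (Int.natCast_dvd.2 q1))
    have hq' : (q : 𝓞 k) ∈ Q := by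
      have : (q : ℤ) ∈ Q.comap (algebraMap ℤ (𝓞 k)) := by rw [hQ'']; exact Ideal.mem_span_singleton_self _
      simpa using this
    exact h ⟨Q, hQ', fun h0 => hI (le_bot_iff.1 (h0 ▸ hQ))⟩ (mem_of_dvd q2 hq') hQ
  · have : ((g.natAbs : ℕ) : ℤ) ∈ I.comap (algebraMap ℤ (𝓞 k)) := by
      rw [Int.natCast_natAbs]
      rcases abs_choice g with e | e <;> rw [e]
      exacts [h1, neg_mem h1]
    rwa [Ideal.mem_comap, map_natCast] at this

theorem val_eq_one {v : Pl k} {c : 𝓞 k} (h : c ∉ v.asIdeal) : v.valuation k (c : k) = 1 := by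
  rw [show (c : k) = algebraMap (𝓞 k) k c from rfl, v.valuation_of_algebraMap]
  exact v.intValuation_eq_one_iff.2 h

theorem val_lt_one {v : Pl k} {c : 𝓞 k} (h : c ∈ v.asIdeal) : v.valuation k (c : k) < 1 :=
  (v.valuation_lt_one_iff_mem c).2 h

theorem padicNorm_prod {p : ℕ} (hp : p.Prime) {T : Type*} (F : Finset T) {r : T → ℚ}
    (h : ∀ t ∈ F, padicNorm p (r t) = 1) : padicNorm p (∏ t ∈ F, r t) = 1 := by
  haveI := Fact.mk hp
  exact Finset.prod_induction r (fun x => padicNorm p x = 1)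
    (fun a b ha hb => by rw [padicNorm.mul, ha, hb, one_mul]) padicNorm.one h

/-- the `M`-part of the norm -/
theorem prod_places {M : ℕ} (hM : M ≠ 0) (S : Finset (Pl k)) (hS : ∀ v, v ∈ S ↔ (M : 𝓞 k) ∈ v.asIdeal)
    {c : k} (hc : c ≠ 0) : ∏ p ∈ M.primeFactors, ((padicNorm p (Algebra.norm ℚ c) : ℚ) : ℝ) =
      ∏ v ∈ S, ‖algebraMap k (Kv v) c‖ := by
  classical
  have h1 : ∀ v : Pl k, ∃ r : ℚ, ‖algebraMap k (Kv v) c‖ = r ∧
      ∀ q : ℕ, q.Prime → (q : 𝓞 k) ∉ v.asIdeal → padicNorm q r = 1 := by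
    intro v
    have e := FinitePlace.norm_embedding' v c
    rw [WithZeroMulInt.toNNReal_neg_apply _ (val_ne_zero v hc)] at e
    refine ⟨(Ideal.absNorm v.asIdeal : ℚ) ^ (Multiplicative.toAdd (unzero (val_ne_zero v hc))), ?_,
      fun q hq hv => ?_⟩
    · push_cast at e ⊢; exact e
    · haveI := Fact.mk hq
      haveI := v.isMaximal
      obtain ⟨p, n, -, p1, p2, p3⟩ := Ideal.exists_prime_and_absNorm_eq_pow v.asIdeal
      have : padicNorm q (Ideal.absNorm v.asIdeal : ℕ) = 1 := by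
        rw [padicNorm.nat_eq_one_iff, p3]
        intro hd
        exact hv (((Nat.prime_dvd_prime_iff_eq hq p2).1 (hq.dvd_of_dvd_pow hd)) ▸ p1)
      have e2 := map_zpow₀ (IsAbsoluteValue.abvHom (padicNorm q)) (Ideal.absNorm v.asIdeal : ℚ)
        (Multiplicative.toAdd (unzero (val_ne_zero v hc)))
      change padicNorm q _ = padicNorm q _ ^ _ at e2
      rw [e2, this, one_zpow]
  choose r r1 r2 using h1
  have hfin : (Function.mulSupport fun v : Pl k => ‖algebraMap k (Kv v) c‖).Finite := by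
    refine (finite_ne_one hc).subset fun v hv h => hv ?_
    have e := FinitePlace.norm_embedding' v c
    rw [h, map_one] at e
    exact e
  obtain ⟨T, hT⟩ : ∃ T : Finset (Pl k), ∀ v, ‖algebraMap k (Kv v) c‖ ≠ 1 → v ∈ T :=
    ⟨hfin.toFinset, fun v hv => hfin.mem_toFinset.2 hv⟩
  have h2 : ∏ v ∈ S ∪ T, ‖algebraMap k (Kv v) c‖ = |Algebra.norm ℚ c|⁻¹ := by
    rw [← FinitePlace.prod_eq_inv_abs_norm hc, ← finprod_comp_equiv FinitePlace.equivHeightOneSpectrum.symm]
    exact (finprod_eq_prod_of_mulSupport_subset _ fun v hv => by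
      simpa using Or.inr (hT v hv)).symm
  rw [← Finset.union_sdiff_self_eq_union, Finset.prod_union Finset.disjoint_sdiff] at h2
  simp only [r1] at h2 ⊢
  have h3 : (∏ v ∈ S, r v) * ∏ v ∈ T \ S, r v = |Algebra.norm ℚ c|⁻¹ := by
    refine Rat.cast_injective (α := ℝ) ?_
    rw [Rat.cast_mul, Rat.cast_prod, Rat.cast_prod]
    exact h2
  have hN : Algebra.norm ℚ c ≠ 0 := Algebra.norm_ne_zero_iff.2 hc
  have hf0 : 0 < ∏ v ∈ S, r v := Finset.prod_pos fun v _ => by
    have : (0 : ℝ) < r v := by rw [← r1]; exact norm_pos_iff.2 (by simpa using hc)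
    exact_mod_cast this
  have h4 := Hgt.nS_eq hM (z := ∏ v ∈ S, r v) hf0.ne'.isUnit
  have h5 : Hgt.nS M (∏ v ∈ S, r v) = 1 := finprod_mem_of_eqOn_one fun q hq => by
    have := padicNorm_prod hq.1 S (r := r) fun v hv => r2 v q hq.1 fun h =>
      not_coprime h ((hS v).1 hv) ((Nat.Prime.coprime_iff_not_dvd hq.1).2 hq.2)
    simp [Hgt.nr, this]
  have h6 : (∏ p ∈ M.primeFactors, ((padicNorm p (Algebra.norm ℚ c) : ℚ) : ℝ)) *
      ∏ p ∈ M.primeFactors, Hgt.nr p (∏ v ∈ S, r v) = 1 := by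
    rw [← Finset.prod_mul_distrib]
    refine Finset.prod_eq_one fun p hp => ?_
    have hp' := Nat.mem_primeFactors.1 hp
    haveI := Fact.mk hp'.1
    have e1 := padicNorm_prod hp'.1 (T \ S) (r := r) fun v hv => r2 v p hp'.1 fun h =>
      (Finset.mem_sdiff.1 hv).2 ((hS v).2 (mem_of_dvd hp'.2.1 h))
    have e2 : padicNorm p (|Algebra.norm ℚ c| * ((∏ v ∈ S, r v) * ∏ v ∈ T \ S, r v)) = 1 := by
      rw [h3, mul_inv_cancel₀ (abs_ne_zero.2 hN), padicNorm.one]
    have e3 : padicNorm p |Algebra.norm ℚ c| = padicNorm p (Algebra.norm ℚ c) := by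
      rcases abs_choice (Algebra.norm ℚ c) with e | e <;> rw [e]
      rw [padicNorm.neg]
    rw [padicNorm.mul, padicNorm.mul, e1, mul_one, e3] at e2
    simp only [Hgt.nr, Algebra.norm_self, MonoidHom.id_apply]
    exact_mod_cast e2
  rw [h5, one_mul, Algebra.norm_self, MonoidHom.id_apply, abs_of_pos (by exact_mod_cast hf0)] at h4
  have h7 : ∏ p ∈ M.primeFactors, Hgt.nr p (∏ v ∈ S, r v) ≠ 0 := right_ne_zero_of_mul_eq_one h6
  rw [← Rat.cast_prod S]
  exact mul_right_cancel₀ h7 (h6.trans h4.symm)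

end places

variable {k K B : Type*} [Field k] [NumberField k] [Field K] [NumberField K] [Algebra k K]
  [StarRing K] [Quad k K] [Ring B] [StarRing B] [Algebra K B] [StarModule K B]
  [Algebra.IsCentral K B] [IsSimpleRing B] [FiniteDimensional K B] [Algebra k B]
  [IsScalarTower k K B] [Algebra ℚ B]

variable (k K B) in
include k K in
theorem finite_rat : FiniteDimensional ℚ B :=
  haveI := finite_kB k K B
  Module.Finite.trans k B

/-- the order in the words of the height module -/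
theorem ord (Λ : Ord K B) {θ : K} (h0 : θ ≠ 0) (hθ : star θ = -θ) (hm : algebraMap K B θ ∈ Λ.O) :
    Hgt.Ord Λ.O (algebraMap K B θ) where
  fg := Λ.fg
  full := Λ.den
  star_mem := Λ.star_mem
  th_mem := hm
  th_ne := by simpa using h0
  th_comm x := Algebra.commutes θ x
  th_star := by rw [star_algebraMap, hθ, map_neg]

include k in
theorem exists_ord (Λ : Ord K B) : ∃ θ : B, Hgt.Ord Λ.O θ := by
  obtain ⟨θ, -, h0, hθ, -⟩ := exists_delta (k := k) (K := K)
  obtain ⟨n, hn, h⟩ := Λ.den (algebraMap K B θ)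
  exact ⟨_, ord Λ (θ := n * θ) (mul_ne_zero (Nat.cast_ne_zero.2 hn) h0) (by simp [hθ]) (by simpa using h)⟩

theorem mem_Loc (Λ : Ord K B) {M : ℕ} {x : B} :
    x ∈ Hgt.Loc Λ.O M ↔ ∀ v : Pl k, (M : 𝓞 k) ∈ v.asIdeal → x ∈ Λ.At v := by
  constructor
  · rintro ⟨m, hm, -, hx⟩ v hv
    refine ⟨m, fun h => not_coprime h hv hm, ?_⟩
    rwa [show ((m : 𝓞 k) : k) = m from rfl, Nat.cast_smul_eq_nsmul, nsmul_eq_mul]
  · intro h
    let I : Ideal (𝓞 k) :=
      { carrier := {c | (c : k) • x ∈ Λ.O}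
        zero_mem' := by simp
        add_mem' := fun {a b} ha hb => by simpa [add_smul] using Λ.O.add_mem ha hb
        smul_mem' := fun c a ha => by simpa [mul_smul] using Λ.int_smul c ha }
    have hn : ∀ m : ℕ, (m : 𝓞 k) ∈ I ↔ (m : B) * x ∈ Λ.O := fun m => by
      change ((m : 𝓞 k) : k) • x ∈ Λ.O ↔ _
      rw [show ((m : 𝓞 k) : k) = m from rfl, Nat.cast_smul_eq_nsmul, nsmul_eq_mul]
    obtain ⟨n, hn0, hx⟩ := Λ.den x
    obtain ⟨m, h1, h2, h3⟩ := exists_nat I (M := M)
      (fun h0 => by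
        have := (hn n).2 hx
        rw [h0] at this
        exact hn0 (by simpa using this))
      fun v hv hle => by
        obtain ⟨c, c1, c2⟩ := h v hv
        exact c1 (hle c2)
    exact ⟨m, h1, h2, (hn m).1 h3⟩



/-! ### the local module -/

section norm
variable {R : Type*} [CommRing R] [Algebra k R]

theorem norm_inc (x : B) : Algebra.norm R (inc k K B R x) = algebraMap k R (Algebra.norm k x) := by
  haveI := finite_kB k K B
  let e := finBasis k B
  rw [Algebra.norm_eq_matrix_det (bas k K B R e), Algebra.norm_eq_matrix_det e, RingHom.map_det]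
  congr 1
  ext i j
  rw [Algebra.leftMulMatrix_eq_repr_mul, bas_apply, ← map_mul, repr_inc, RingHom.mapMatrix_apply,
    Matrix.map_apply, Algebra.leftMulMatrix_eq_repr_mul]

theorem continuous_norm [TopologicalSpace R] [IsTopologicalRing R] :
    Continuous (Algebra.norm R : BC k K B R → R) := by
  haveI := finite_kB k K B
  let b := bas k K B R (finBasis k B)
  have : (Algebra.norm R : BC k K B R → R) = fun x => (Algebra.leftMulMatrix b x).det :=
    funext fun x => Algebra.norm_eq_matrix_det b x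
  rw [this]
  exact (IsModuleTopology.continuous_of_linearMap (Algebra.leftMulMatrix b).toLinearMap).matrix_det

end norm

/-- the module of `z - θ` -/
def Del (S : Finset (Pl k)) {v₀ : Pl k} (s : Spl K B v₀) (θ : B)
    (z : selfAdjoint (AS k K B S) × Matrix (Fin (deg K B)) (Fin (deg K B)) (Kv v₀)) : ℝ :=
  mixedEmbedding.norm (Algebra.norm (Inf k) ((z.1 : AS k K B S) - jA k K B S θ).1) *
    ((∏ v : S, ‖Algebra.norm (Kv v.1) (((z.1 : AS k K B S) - jA k K B S θ).2 v)‖) *
      ‖Algebra.norm (Kv v₀) (s.sm.mk' (z.2 - s.ψ θ) (z.2 + s.ψ θ))‖)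

variable (S : Finset (Pl k)) {v₀ : Pl k} (s : Spl K B v₀) (θ : B)

theorem continuous_Del : Continuous (Del S s θ) := by
  have h0 : Continuous fun z : selfAdjoint (AS k K B S) × Matrix (Fin (deg K B)) (Fin (deg K B)) (Kv v₀) =>
      (z.1 : AS k K B S) - jA k K B S θ := (continuous_subtype_val.comp continuous_fst).sub continuous_const
  haveI : IsModuleTopology (Kv v₀) (Matrix (Fin (deg K B)) (Fin (deg K B)) (Kv v₀)) :=
    inferInstanceAs (IsModuleTopology (Kv v₀) (Fin (deg K B) → Fin (deg K B) → Kv v₀))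
  have h1 := (continuous_norm (R := Inf k)).comp h0.fst
  refine ((mixedEmbedding.continuous_norm k).comp h1).mul
    ((continuous_finsetProd _ fun v _ => ?_).mul ?_)
  · exact (continuous_norm.comp ((continuous_apply v).comp h0.snd)).norm
  · exact (continuous_norm.comp (s.sm.continuous_mk'.comp
      ((continuous_snd.sub continuous_const).prodMk (continuous_snd.add continuous_const)))).norm

theorem Del_pos {z : selfAdjoint (AS k K B S) × Matrix (Fin (deg K B)) (Fin (deg K B)) (Kv v₀)}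
    (h1 : IsUnit ((z.1 : AS k K B S) - jA k K B S θ)) (h2 : IsUnit (z.2 - s.ψ θ))
    (h3 : IsUnit (z.2 + s.ψ θ)) : 0 < Del S s θ z := by
  refine mul_pos ?_ (mul_pos (Finset.prod_pos fun v _ => norm_pos_iff.2 ?_) (norm_pos_iff.2 ?_))
  · refine lt_of_le_of_ne (mixedEmbedding.norm_nonneg _) (Ne.symm ?_)
    have := ((h1.map (RingHom.fst _ _)).map (Algebra.norm (Inf k)))
    exact (IsUnit.map (mixedEmbedding.norm (K := k)) this).ne_zero
  · exact (((h1.map (RingHom.snd _ _)).map (Pi.evalRingHom _ v)).map (Algebra.norm (Kv v.1))).ne_zero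
  · exact (((s.sm.isUnit_iff _).2 ⟨by simpa using h2, by simpa using h3⟩).map (Algebra.norm (Kv v₀))).ne_zero

open scoped Classical in
theorem Del_eq {M : ℕ} (hM : M ≠ 0) (h₀ : v₀ ∉ S) (hS : ∀ v, v ∈ insert v₀ S ↔ (M : 𝓞 k) ∈ v.asIdeal)
    (hθ : star θ = -θ) {a : B} (ha : star a = a) (hu : IsUnit (a - θ))
    {z : selfAdjoint (AS k K B S) × Matrix (Fin (deg K B)) (Fin (deg K B)) (Kv v₀)}
    (h1 : (z.1 : AS k K B S) = jA k K B S a) (h2 : z.2 = s.ψ a) : Hgt.nS M (a - θ) * Del S s θ z = 1 := by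
  haveI := finite_kB k K B
  have hc : Algebra.norm k (a - θ) ≠ 0 := (hu.map (Algebra.norm k)).ne_zero
  have e1 : s.sm.mk' (z.2 - s.ψ θ) (z.2 + s.ψ θ) = inc k K B (Kv v₀) (a - θ) := by
    rw [← s.sm.mk'_hat (inc k K B (Kv v₀) (a - θ)), star_inc, SM.hat_inc, SM.hat_inc, star_sub, ha, hθ, h2,
      sub_neg_eq_add, map_sub, map_add]
    rfl
  rw [← Hgt.nS_eq hM hu, Del, h1, ← map_sub, e1]
  congr 2
  · change mixedEmbedding.norm (Algebra.norm (Inf k) (inc k K B (Inf k) (a - θ))) = _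
    rw [norm_inc, Inf.algebraMap_eq, mixedEmbedding.norm_eq_norm, Algebra.norm_norm, Rat.cast_abs]
  · have := prod_places hM _ hS hc
    rw [Algebra.norm_norm, Finset.prod_insert h₀, mul_comm] at this
    rw [norm_inc]
    refine Eq.trans ?_ this.symm
    congr 1
    rw [← Finset.prod_coe_sort S]
    exact Finset.prod_congr rfl fun v _ => congrArg _ (norm_inc _)

/-! ### coordinates on hermitian elements -/

variable (k K B) in
include K in
theorem exists_hbasis : ∃ (n m : ℕ) (e : Basis (Fin n ⊕ Fin m) k B),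
    (∀ i, star (e (.inl i)) = e (.inl i)) ∧ ∀ i, star (e (.inr i)) = -e (.inr i) := by
  haveI := finite_kB k K B
  let P : Submodule k B := LinearMap.ker (starL k K B - LinearMap.id)
  let Q : Submodule k B := LinearMap.ker (starL k K B + LinearMap.id)
  have hP : ∀ x, x ∈ P ↔ star x = x := fun x => by
    rw [LinearMap.mem_ker, LinearMap.sub_apply, sub_eq_zero]; rfl
  have hQ : ∀ x, x ∈ Q ↔ star x = -x := fun x => by
    rw [LinearMap.mem_ker, LinearMap.add_apply, add_eq_zero_iff_eq_neg]; rfl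
  have hc : IsCompl P Q := by
    refine ⟨Submodule.disjoint_def.2 fun x h1 h2 => ?_, codisjoint_iff.2 (eq_top_iff.2 fun x _ => ?_)⟩
    · have h3 : (2 : k) • x = 0 := by
        rw [two_smul]; nth_rewrite 1 [← (hP x).1 h1]; rw [(hQ x).1 h2, neg_add_cancel]
      exact (smul_eq_zero.1 h3).resolve_left two_ne_zero
    · have : x = (2 : k)⁻¹ • ((x + star x) + (x - star x)) := by
        rw [add_add_sub_cancel, ← two_smul k x, inv_smul_smul₀ two_ne_zero]
      rw [this]
      exact Submodule.smul_mem _ _ (Submodule.add_mem_sup ((hP _).2 (by rw [star_add, star_star, add_comm]))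
        ((hQ _).2 (by rw [star_sub, star_star, neg_sub])))
  refine ⟨_, _, ((finBasis k P).prod (finBasis k Q)).map (P.prodEquivOfIsCompl Q hc), fun i => ?_, fun i => ?_⟩
  · simpa using (hP _).1 (finBasis k P i).2
  · simpa using (hQ _).1 (finBasis k Q i).2

section crd
variable {I I' : Type} [Fintype I] [Fintype I'] (e : Basis (I ⊕ I') k B)
  (h1 : ∀ i, star (e (.inl i)) = e (.inl i)) (h2 : ∀ i, star (e (.inr i)) = -e (.inr i))
  (R : Type*) [CommRing R] [Algebra k R]

include h1 in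
theorem star_sum_inl (y : I → R) :
    star (∑ i, y i • bas k K B R e (.inl i)) = ∑ i, y i • bas k K B R e (.inl i) := by
  simp only [star_sum, star_rsmul, bas_apply, star_inc, h1]

include h1 h2 in
theorem herm_eq {x : BC k K B R} (hx : star x = x) :
    ∑ i, (bas k K B R e).repr x (.inl i) • bas k K B R e (.inl i) = x := by
  have a1 := (bas k K B R e).sum_repr x
  rw [Fintype.sum_sum_type] at a1
  have a2 := congrArg star a1
  rw [hx, star_add, star_sum_inl e h1] at a2
  simp only [star_sum, star_rsmul, bas_apply, star_inc, h2, map_neg, smul_neg, Finset.sum_neg_distrib] at a1 a2 ⊢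
  have a3 : (2 : k) • (∑ i, (bas k K B R e).repr x (.inl i) • inc k K B R (e (.inl i))) = (2 : k) • x := by
    rw [two_smul, two_smul]
    conv_rhs => enter [1]; rw [← a1]
    conv_rhs => enter [2]; rw [← a2]
    abel
  exact smul_right_injective _ two_ne_zero a3

theorem repr_sum_inl (y : I → R) (j : I) :
    (bas k K B R e).repr (∑ i, y i • bas k K B R e (.inl i)) (.inl j) = y j := by
  classical
  simp [Finsupp.single_apply]

variable [TopologicalSpace R] [IsTopologicalRing R]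

variable (K) in
/-- coordinates on hermitian elements -/
def crdJ : selfAdjoint (BC k K B R) ≃ₜ+ (I → R) where
  toFun x i := (bas k K B R e).repr x (.inl i)
  invFun y := ⟨∑ i, y i • bas k K B R e (.inl i), star_sum_inl e h1 R y⟩
  left_inv x := Subtype.ext (herm_eq e h1 h2 R x.2)
  right_inv y := funext (repr_sum_inl e R y)
  map_add' x y := by ext i; simp
  continuous_toFun := continuous_pi fun i =>
    (IsModuleTopology.continuous_of_linearMap ((bas k K B R e).coord (.inl i))).comp continuous_subtype_val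
  continuous_invFun := Continuous.subtype_mk (by fun_prop) _

end crd

/-- hermitian elements at the split place -/
def hatJ : selfAdjoint (BC k K B (Kv v₀)) ≃ₜ+ Matrix (Fin (deg K B)) (Fin (deg K B)) (Kv v₀) :=
  haveI : IsModuleTopology (Kv v₀) (Matrix (Fin (deg K B)) (Fin (deg K B)) (Kv v₀)) :=
    inferInstanceAs (IsModuleTopology (Kv v₀) (Fin (deg K B) → Fin (deg K B) → Kv v₀))
  { toFun := fun x => s.sm.hat x
    invFun := fun y => ⟨s.sm.mk' y y, s.sm.star_mk' y y⟩
    left_inv := fun x => Subtype.ext (s.sm.herm_ext (s.sm.star_mk' _ _) x.2 (s.sm.hat_mk' _ _))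
    right_inv := fun y => s.sm.hat_mk' y y
    map_add' := fun _ _ => map_add s.sm.hat _ _
    continuous_toFun := s.sm.continuous_hat.comp continuous_subtype_val
    continuous_invFun := Continuous.subtype_mk (s.sm.continuous_mk'.comp (continuous_id.prodMk continuous_id)) _ }

section split
variable {I I' : Type} [Fintype I] [Fintype I'] (e : Basis (I ⊕ I') k B)
  (h1 : ∀ i, star (e (.inl i)) = e (.inl i)) (h2 : ∀ i, star (e (.inr i)) = -e (.inr i))

/-- the splitting of the local space -/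
def splZ : (selfAdjoint (AS k K B S) × Matrix (Fin (deg K B)) (Fin (deg K B)) (Kv v₀)) ≃ₜ+
    (I → Inf k) × (((v : S) → I → Kv v.1) × (I → Kv v₀)) where
  toFun z := (crdJ K e h1 h2 (Inf k) ⟨z.1.1.1, congrArg Prod.fst z.1.2⟩,
    fun v => crdJ K e h1 h2 (Kv v.1) ⟨z.1.1.2 v, congrFun (congrArg Prod.snd z.1.2) v⟩,
    crdJ K e h1 h2 (Kv v₀) ((hatJ s).symm z.2))
  invFun y := (⟨((crdJ K e h1 h2 (Inf k)).symm y.1, fun v => (crdJ K e h1 h2 (Kv v.1)).symm (y.2.1 v)),
    Prod.ext ((crdJ K e h1 h2 (Inf k)).symm y.1).2 (funext fun v => ((crdJ K e h1 h2 (Kv v.1)).symm (y.2.1 v)).2)⟩,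
    hatJ s ((crdJ K e h1 h2 (Kv v₀)).symm y.2.2))
  left_inv z := Prod.ext (Subtype.ext (Prod.ext (by simp) (funext fun v => by simp))) (by simp)
  right_inv y := Prod.ext ((crdJ K e h1 h2 (Inf k)).apply_symm_apply y.1)
    (Prod.ext (funext fun v => (crdJ K e h1 h2 (Kv v.1)).apply_symm_apply (y.2.1 v)) (by simp))
  map_add' z z' := Prod.ext (funext fun i => DFunLike.congr_fun
      (map_add (bas k K B (Inf k) e).repr (z.1 : AS k K B S).1 (z'.1 : AS k K B S).1) (.inl i))
    (Prod.ext (funext fun v => funext fun i => DFunLike.congr_fun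
      (map_add (bas k K B (Kv v.1) e).repr ((z.1 : AS k K B S).2 v) ((z'.1 : AS k K B S).2 v)) (.inl i))
      (by simp))
  continuous_toFun := by
    have h0 : Continuous fun z : selfAdjoint (AS k K B S) × Matrix (Fin (deg K B)) (Fin (deg K B)) (Kv v₀) =>
      (z.1 : AS k K B S) := continuous_subtype_val.comp continuous_fst
    exact ((crdJ K e h1 h2 (Inf k)).continuous.comp (h0.fst.subtype_mk _)).prodMk
      ((continuous_pi fun v => (crdJ K e h1 h2 (Kv v.1)).continuous.comp
        (((continuous_apply v).comp h0.snd).subtype_mk _)).prodMk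
      ((crdJ K e h1 h2 (Kv v₀)).continuous.comp ((hatJ s).symm.continuous.comp continuous_snd)))
  continuous_invFun := by
    refine (Continuous.subtype_mk (Continuous.prodMk ?_ (continuous_pi fun v => ?_)) _).prodMk ?_
    · exact continuous_subtype_val.comp ((crdJ K e h1 h2 (Inf k)).symm.continuous.comp continuous_fst)
    · exact continuous_subtype_val.comp ((crdJ K e h1 h2 (Kv v.1)).symm.continuous.comp
        ((continuous_apply v).comp continuous_snd.fst))
    · exact (hatJ s).continuous.comp ((crdJ K e h1 h2 (Kv v₀)).symm.continuous.comp continuous_snd.snd)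

theorem splZ_apply {a : B} (ha : star a = a)
    {z : selfAdjoint (AS k K B S) × Matrix (Fin (deg K B)) (Fin (deg K B)) (Kv v₀)}
    (a1 : (z.1 : AS k K B S) = jA k K B S a) (a2 : z.2 = s.ψ a) :
    splZ S s e h1 h2 z = (fun i => algebraMap k _ (e.repr a (.inl i)),
      fun _ i => algebraMap k _ (e.repr a (.inl i)), fun i => algebraMap k _ (e.repr a (.inl i))) := by
  refine Prod.ext (funext fun i => ?_) (Prod.ext (funext fun v => funext fun i => ?_) (funext fun i => ?_))
  · change (bas k K B _ e).repr (z.1 : AS k K B S).1 _ = _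
    rw [a1]; exact repr_inc k K B _ e a _
  · change (bas k K B _ e).repr ((z.1 : AS k K B S).2 v) _ = _
    rw [a1]; exact repr_inc k K B _ e a _
  · change (bas k K B _ e).repr (s.sm.mk' z.2 z.2) _ = _
    have := s.sm.mk'_hat (inc k K B (Kv v₀) a)
    rw [star_inc, ha, SM.hat_inc] at this
    rw [a2, show s.sm.mk' (s.ψ a) (s.ψ a) = _ from this]; exact repr_inc k K B _ e a _

variable (K) in
/-- coordinates on rational hermitian elements -/
def crdQ : selfAdjoint B ≃ₗ[ℚ] (I → k) where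
  toFun x i := e.repr x (.inl i)
  invFun y := ⟨∑ i, y i • e (.inl i), by
    rw [selfAdjoint.mem_iff]; simp only [star_sum, star_ksmul k K B, h1]⟩
  left_inv x := Subtype.ext (inc_injective k K B (Inf k) (by
    have := herm_eq e h1 h2 (Inf k) (x := inc k K B (Inf k) x) (by rw [star_inc, x.2])
    simpa only [map_sum, map_smul, repr_inc, bas_apply, algebraMap_smul] using this))
  right_inv y := by
    classical
    ext j; simp [Finsupp.single_apply]
  map_add' x y := by ext i; simp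
  map_smul' r x := by ext i; simp [map_rat_smul e.repr]

/-- valuations of coordinates are bounded on the local order -/
theorem exists_bound (Λ : Ord K B) {ι : Type} [Fintype ι] (e : Basis ι k B) :
    ∃ d : 𝓞 k, d ≠ 0 ∧ ∀ (v : Pl k), ∀ x ∈ Λ.At v, ∀ i, v.valuation k ((d : k) * e.repr x i) ≤ 1 := by
  obtain ⟨e₂, h₂⟩ := Λ.exists_basis_out (k := k)
  obtain ⟨d, h0, hd⟩ := exists_den Finset.univ fun p : Fin (finrank k B) × ι => e.repr (e₂ p.1) p.2
  refine ⟨d, h0, fun v x hx i => ?_⟩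
  obtain ⟨c, c1, c2⟩ := hx
  rw [← e₂.sum_repr x, map_sum, Finsupp.finsetSum_apply, Finset.mul_sum]
  refine Valuation.map_sum_le _ fun j _ => ?_
  obtain ⟨r, hr⟩ := h₂ _ c2 j
  obtain ⟨t, ht⟩ := hd (j, i) (Finset.mem_univ _)
  have h3 := val_int v r
  rw [hr, map_smul, Finsupp.smul_apply, smul_eq_mul, map_mul, val_eq_one c1, one_mul] at h3
  rw [map_smul, Finsupp.smul_apply, smul_eq_mul, mul_left_comm, ← ht, map_mul]
  exact mul_le_one' h3 (val_int v t)

theorem ball_mem (v : Pl k) {c : k} (hc : c ≠ 0) :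
    {y : Kv v | Valued.v y ≤ v.valuation k c} ∈ 𝓝 (0 : Kv v) := by
  have h : Continuous fun y : Kv v => (algebraMap k (Kv v) c)⁻¹ * y := by fun_prop
  refine mem_of_superset (h.continuousAt.preimage_mem_nhds (by rw [mul_zero]; exact Coc.int_mem_nhds v))
    fun y hy => ?_
  have e : Valued.v (algebraMap k (Kv v) c) = v.valuation k c := v.valuedAdicCompletion_eq_valuation' c
  have h1 : Valued.v ((algebraMap k (Kv v) c)⁻¹ * y) ≤ 1 := hy
  rwa [map_mul, map_inv₀, e, inv_mul_le_iff₀ (zero_lt_iff.2 (val_ne_zero v hc)), mul_one] at h1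

/-- neighbourhoods of zero in the finite part -/
theorem fin_basis {N : Set (((v : S) → I → Kv v.1) × (I → Kv v₀))} (hN : N ∈ 𝓝 0) :
    ∃ m : ℕ, ∀ y : ((v : S) → I → Kv v.1) × (I → Kv v₀), (∀ v i, Valued.v (y.1 v i) ≤ exp (-(m : ℤ))) →
      (∀ i, Valued.v (y.2 i) ≤ exp (-(m : ℤ))) → y ∈ N := by
  by_contra hc
  push Not at hc
  choose y y1 y2 y3 using hc
  have t1 : Tendsto (fun m => (y m).1) atTop (𝓝 0) :=
    tendsto_pi_nhds.2 fun v => tendsto_pi_nhds.2 fun i => Coc.tendsto_of_val v.1 fun m => y1 m v i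
  have t2 : Tendsto (fun m => (y m).2) atTop (𝓝 0) :=
    tendsto_pi_nhds.2 fun i => Coc.tendsto_of_val v₀ fun m => y2 m i
  have : Tendsto y atTop (𝓝 0) := (Prod.tendsto_iff y 0).2 ⟨t1, t2⟩
  obtain ⟨m, hm⟩ := (this.eventually hN).exists
  exact y3 m hm

include h1 h2 in
open scoped Classical in
theorem adic (Λ : Ord K B) {M : ℕ} (hM : M ≠ 0) (hS : ∀ v, v ∈ insert v₀ S ↔ (M : 𝓞 k) ∈ v.asIdeal)
    (h₀ : v₀ ∉ S) (jf : selfAdjoint B →+ ((v : S) → I → Kv v.1) × (I → Kv v₀))
    (hj : ∀ a, jf a = (fun _ i => algebraMap k _ (e.repr a (.inl i)),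
      fun i => algebraMap k _ (e.repr a (.inl i)))) : Hgt.Adic Λ.O M jf := by
  have hv : ∀ (v : Pl k) (c : k), Valued.v (algebraMap k (Kv v) c) = v.valuation k c := fun v c =>
    v.valuedAdicCompletion_eq_valuation' c
  have hMk : (M : k) ≠ 0 := Nat.cast_ne_zero.2 hM
  refine ⟨fun y => mem_closure_iff_nhds.2 fun N hN => ?_, fun N hN => ?_, fun j => ?_⟩
  · have hc : ContinuousAt (fun u => y - u) 0 := by fun_prop
    obtain ⟨m, hm⟩ := fin_basis S (hc.preimage_mem_nhds (by rwa [sub_zero]))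
    let p : Option S → Pl k := fun o => o.elim v₀ Subtype.val
    have hp : Function.Injective p := by
      rintro (_ | a) (_ | b) h
      · rfl
      · exact absurd (show v₀ ∈ S from (show v₀ = b.1 from h) ▸ b.2) h₀
      · exact absurd (show v₀ ∈ S from (show a.1 = v₀ from h) ▸ a.2) h₀
      · exact congrArg some (Subtype.ext h)
    choose x _ hx using fun i : I => Coc.approx_p p hp
      (fun o => match o with | none => y.2 i | some v => y.1 v i) m
    have e1 : ∀ i, e.repr ((crdQ K e h1 h2).symm x : selfAdjoint B) (.inl i) = x i :=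
      congrFun ((crdQ K e h1 h2).apply_symm_apply x)
    refine ⟨jf ((crdQ K e h1 h2).symm x), ?_, _, rfl⟩
    have := hm (y - jf ((crdQ K e h1 h2).symm x)) (fun v i => by
      rw [hj]; simp only [Prod.fst_sub, Pi.sub_apply, e1]; exact hx i (some v)) (fun i => by
      rw [hj]; simp only [Prod.snd_sub, Pi.sub_apply, e1]; exact hx i none)
    simpa using this
  · obtain ⟨m, hm⟩ := fin_basis S hN
    obtain ⟨d, d0, hd⟩ := exists_bound Λ e
    have hdk : (d : k) ≠ 0 := by simpa using d0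
    choose t ht using fun v : Pl k => exists_exp_le (val_ne_zero v hdk)
    refine ⟨m + (insert v₀ S).sup t, ?_⟩
    rintro a ⟨x, hx, ea⟩
    have key : ∀ v ∈ insert v₀ S, ∀ i, v.valuation k (e.repr a (.inl i)) ≤ exp (-(m : ℤ)) := by
      intro v hvS i
      have b1 := hd v x ((mem_Loc (k := k) Λ).1 hx v ((hS v).1 hvS)) (.inl i)
      have b2 : v.valuation k (M : k) ≤ exp (-1 : ℤ) := by
        have := val_lt_one ((hS v).1 hvS)
        rw [show ((M : 𝓞 k) : k) = M from rfl, ← exp_log (val_ne_zero v hMk), ← exp_zero, exp_lt_exp] at this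
        rw [← exp_log (val_ne_zero v hMk), exp_le_exp]; omega
      have b3 : t v ≤ (insert v₀ S).sup t := Finset.le_sup hvS
      have b4 : v.valuation k ((M : k) ^ (m + (insert v₀ S).sup t)) ≤ exp (-(m : ℤ)) * v.valuation k (d : k) := by
        rw [map_pow]
        refine (pow_le_pow_left' b2 _).trans (le_trans ?_ (mul_le_mul_right (ht v) _))
        rw [← exp_nsmul, ← exp_add, exp_le_exp, nsmul_eq_mul]
        push_cast; omega
      rw [ea, ← Nat.cast_pow, ← nsmul_eq_mul, ← Nat.cast_smul_eq_nsmul k, map_smul, Finsupp.smul_apply,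
        smul_eq_mul, map_mul, Nat.cast_pow]
      refine (mul_le_mul_left b4 _).trans ?_
      rw [mul_assoc, ← map_mul]
      exact mul_le_of_le_one_right' b1
    refine hm _ (fun v i => ?_) fun i => ?_
    · rw [hj]; exact (hv _ _).trans_le (key v (Finset.mem_insert_of_mem v.2) i)
    · rw [hj]; exact (hv _ _).trans_le (key v₀ (Finset.mem_insert_self _ _) i)
  · choose n n1 n2 using fun i : I => Λ.den (e (.inl i))
    have hc : ∀ i, (M : k) ^ j * n i ≠ 0 := fun i => mul_ne_zero (pow_ne_zero _ hMk) (Nat.cast_ne_zero.2 (n1 i))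
    refine ⟨{y | ∀ v i, Valued.v (y v i) ≤ v.1.valuation k ((M : k) ^ j * n i)} ×ˢ
      {y | ∀ i, Valued.v (y i) ≤ v₀.valuation k ((M : k) ^ j * n i)}, prod_mem_nhds ?_ ?_, fun a ha => ?_⟩
    · refine eventually_all.2 fun v => eventually_all.2 fun i => ?_
      have : Continuous fun y : (v : S) → I → Kv v.1 => y v i := by fun_prop
      exact (this.tendsto 0).eventually (ball_mem v.1 (hc i))
    · refine eventually_all.2 fun i => ?_
      have : Continuous fun y : I → Kv v₀ => y i := continuous_apply i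
      exact (this.tendsto 0).eventually (ball_mem v₀ (hc i))
    · rw [hj] at ha
      refine ⟨∑ i, (e.repr a (.inl i) / ((M : k) ^ j * n i)) • ((n i : B) * e (.inl i)),
        (mem_Loc (k := k) Λ).2 fun v hvM => sum_mem fun i _ => Λ.smul_mem_At ?_ (Λ.le_At v (n2 i)), ?_⟩
      · rw [map_div₀, div_le_one₀ (zero_lt_iff.2 (val_ne_zero v (hc i)))]
        rcases Finset.mem_insert.1 ((hS v).2 hvM) with rfl | h
        · exact (hv _ _).symm.trans_le (ha.2 i)
        · exact (hv _ _).symm.trans_le (ha.1 ⟨v, h⟩ i)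
      · have e1 : (a : B) = ∑ i, e.repr a (.inl i) • e (.inl i) :=
          (congrArg Subtype.val ((crdQ K e h1 h2).symm_apply_apply a)).symm
        conv_lhs => rw [e1]
        rw [Finset.mul_sum]
        refine Finset.sum_congr rfl fun i _ => ?_
        rw [← Nat.cast_pow, ← nsmul_eq_mul, ← nsmul_eq_mul, ← Nat.cast_smul_eq_nsmul k,
          ← Nat.cast_smul_eq_nsmul k, smul_smul, smul_smul, Nat.cast_pow]
        congr 1
        have : (n i : k) ≠ 0 := Nat.cast_ne_zero.2 (n1 i)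
        field_simp

end split

open scoped Classical in
/-- equidistribution of the rational hermitian elements in the local space -/
theorem exists_lam (Λ : Ord K B) {M : ℕ} (hM : M ≠ 0) (h₀ : v₀ ∉ S)
    (hS : ∀ v, v ∈ insert v₀ S ↔ (M : 𝓞 k) ∈ v.asIdeal) (hH : Hgt.Ht Λ.O M)
    [MeasurableSpace (selfAdjoint (AS k K B S) × Matrix (Fin (deg K B)) (Fin (deg K B)) (Kv v₀))]
    [BorelSpace (selfAdjoint (AS k K B S) × Matrix (Fin (deg K B)) (Fin (deg K B)) (Kv v₀))]
    (iJ : selfAdjoint B →+ selfAdjoint (AS k K B S) × Matrix (Fin (deg K B)) (Fin (deg K B)) (Kv v₀))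
    (a1 : ∀ a, ((iJ a).1 : AS k K B S) = jA k K B S a) (a2 : ∀ a, (iJ a).2 = s.ψ a) :
    ∃ lam : MeasureTheory.Measure
        (selfAdjoint (AS k K B S) × Matrix (Fin (deg K B)) (Fin (deg K B)) (Kv v₀)),
      lam.IsAddHaarMeasure ∧ ∀ φ, Continuous φ → HasCompactSupport φ →
        Hgt.Gd Λ.O M (fun a => φ (iJ a)) (∫ z, φ z ∂lam) := by
  obtain ⟨θ, hθ⟩ := exists_ord (k := k) Λ
  obtain ⟨n, m, e, h1, h2⟩ := exists_hbasis k K B
  have hz := fun a : selfAdjoint B => splZ_apply S s e h1 h2 a.2 (a1 a) (a2 a)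
  refine Hgt.eq_abs hθ hM hH (splZ S s e h1 h2) iJ ?_ ?_
    (adic S e h1 h2 Λ hM hS h₀ _ fun a => congrArg Prod.snd (hz a))
  · refine eq_top_iff.2 fun y _ => ?_
    rw [← Finset.univ_sum_single y]
    refine Submodule.sum_mem _ fun i _ => ?_
    have b1 : y i ∈ Submodule.span ℝ (Set.range (algebraMap k (Inf k))) := by
      have := (mixedEmbedding.latticeBasis k).mem_span (y i)
      refine Submodule.span_mono ?_ this
      rintro _ ⟨j, rfl⟩
      exact ⟨_, (mixedEmbedding.latticeBasis_apply k j).symm⟩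
    have b2 := Submodule.mem_map_of_mem (f := LinearMap.single ℝ (fun _ : Fin n => Inf k) i) b1
    rw [Submodule.map_span] at b2
    refine Submodule.span_mono ?_ b2
    rintro _ ⟨_, ⟨c, rfl⟩, rfl⟩
    refine ⟨(crdQ K e h1 h2).symm (Pi.single i c), ?_⟩
    have e1 : ∀ j, e.repr ((crdQ K e h1 h2).symm (Pi.single i c) : selfAdjoint B) (.inl j) =
        (Pi.single i c : Fin n → k) j := congrFun ((crdQ K e h1 h2).apply_symm_apply _)
    simp only [hz, e1]
    ext j
    by_cases h : j = i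
    · subst h; simp
    · simp [h]
  · rw [(crdQ K e h1 h2).finrank_eq, finrank_pi_fintype, finrank_pi_fintype]
    exact Finset.sum_congr rfl fun _ _ => mixedEmbedding.finrank k

end Crest.Agent.T24.HgtI
end
end

-- ▼ part T24/NaWt_88
section

/-!
# Row 24, module NA + TW: the weight fields of the arithmetic system
-/

set_option autoImplicit false
set_option linter.unusedSectionVars false
set_option linter.style.haveILetI false

noncomputable section

namespace Crest.Agent.T24.Na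

open Module Csa Asa Filter Topology NumberField IsDedekindDomain MeasureTheory
open scoped NumberField

universe u v w

namespace W88

variable {B : Type*} [Ring B] [Algebra ℚ B] [StarRing B] {O : Subring B} {θ₀ : B} {M : ℕ}

theorem H_cayley (h : Hgt.Ord O θ₀) {θ t : B} (hθ : θ ∈ Hgt.OS O M) (ht : t ∈ Hgt.OS O M)
    (h2 : t * (2 * θ) = 1) {a u : B} (hu : u * (a - θ) = a + θ) (ha : IsUnit (a - θ)) :
    Hgt.H O M u * Hgt.nS M (a - θ) = Hgt.H O M a := by
  rw [Hgt.H, ← h.H2_mul_right M (c := 0) (d := 1) (by simp) ha, hu, one_mul]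
  refine h.H2_sim ⟨⟨1, Subring.one_mem _, θ, hθ, by simp⟩,
    ⟨1, Subring.one_mem _, -θ, Subring.neg_mem _ hθ, by simp [sub_eq_add_neg]⟩,
    ⟨t * θ, Subring.mul_mem _ ht hθ, t * θ, Subring.mul_mem _ ht hθ, ?_⟩,
    ⟨t, ht, -t, Subring.neg_mem _ ht, ?_⟩⟩
  · rw [show t * θ * (a + θ) + t * θ * (a - θ) = t * (2 * θ) * a by noncomm_ring, h2, one_mul]
  · rw [show t * (a + θ) + -t * (a - θ) = t * (2 * θ) by noncomm_ring, h2]

theorem isUnit_sub [FiniteDimensional ℚ B] (hB : Aniso B) {θ t : B} (hc : ∀ x, θ * x = x * θ)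
    (hθ : star θ = -θ) (h2 : t * (2 * θ) = 1) {a : B} (ha : star a = a) : IsUnit (a - θ) := by
  have hi : Function.Injective (Algebra.lmul ℚ B (a - θ)) := by
    rw [injective_iff_map_eq_zero]
    intro y hy
    have h1 : a * y = θ * y := by
      rw [← sub_eq_zero, ← sub_mul]; exact hy
    have h3 : star y * a = -(star y * θ) := by
      have := congrArg star h1
      rwa [star_mul, star_mul, ha, hθ, mul_neg] at this
    have h4 : θ * (star y * y) = -(θ * (star y * y)) := by
      conv_lhs => rw [← mul_assoc, hc, mul_assoc, ← h1, ← mul_assoc, h3, ← hc, neg_mul, mul_assoc]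
    refine hB y ?_
    rw [← one_mul (star y * y), ← h2, mul_assoc, mul_assoc, two_mul]
    nth_rewrite 1 [h4]
    rw [neg_add_cancel, mul_zero]
  exact Algebra.lmul_isUnit_iff.1 ((LinearMap.isUnit_iff_ker_eq_bot _).2 (LinearMap.ker_eq_bot.2 hi))

end W88

theorem iWtStmt : IWtStmt.{u, v, w} := by
  intro D _ I h
  haveI := HgtI.finite_rat D.k D.K D.B
  obtain ⟨θ₀, hO⟩ := HgtI.exists_ord (k := D.k) I.Λ
  obtain ⟨lam, hl, hE⟩ := HgtI.exists_lam I.S I.s I.Λ h.N0 h.v0 h.mem_S h.ht I.iJ (fun _ => rfl) fun _ => rfl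
  have hγ : ∀ γ : (I.Λ.GamU I.S₁).subgroupOf (Um D.K D.B I.m),
      (((γ : Um D.K D.B I.m) : unitary D.B) : D.B) ∈ Hgt.OS I.Λ.O I.N := fun γ => h.off ▸ γ.2
  have hθ : star (algebraMap D.K D.B I.θ) = -algebraMap D.K D.B I.θ := by
    rw [star_algebraMap, h.th_star, map_neg]
  have ht : algebraMap D.K D.B 2⁻¹ * algebraMap D.K D.B I.θ⁻¹ ∈ Hgt.OS I.Λ.O I.N := by
    refine Subring.mul_mem _ ⟨1, ?_⟩ h.th_inv
    obtain ⟨c, hc⟩ := h.two
    rw [pow_one, ← map_natCast (algebraMap D.K D.B), ← map_mul, hc,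
      show ((2 * c : ℕ) : D.K) * 2⁻¹ = c by push_cast; field_simp, map_natCast]
    exact natCast_mem _ _
  have h2 : algebraMap D.K D.B 2⁻¹ * algebraMap D.K D.B I.θ⁻¹ * (2 * algebraMap D.K D.B I.θ) = 1 := by
    rw [← map_ofNat (algebraMap D.K D.B) 2, ← map_mul, ← map_mul, ← map_mul, ← map_one (algebraMap D.K D.B)]
    congr 1
    have := h.th0
    field_simp
  refine ⟨lam, HgtI.Del I.S I.s (algebraMap D.K D.B I.θ), hl, hO.W_nonneg I.N, fun s a b hb => ?_,
    fun s γ a => ?_, fun φ hφ => (hE φ hφ.1 hφ.2).1, fun φ hφ => (hE φ hφ.1 hφ.2).2, fun s γ y => ?_,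
    fun s γ y => ?_, fun s a => ?_, HgtI.continuous_Del _ _ _, fun z hz => HgtI.Del_pos _ _ _ hz.1 hz.2.2.1 hz.2.2.2⟩
  · change Hgt.W _ _ s ((a : D.B) + b) = Hgt.W _ _ s (a : D.B)
    rw [Hgt.W, hO.H_add _ (h.off ▸ hb), Hgt.W]
  · change Hgt.W _ _ s (_ * (a : D.B) * star _) = Hgt.W _ _ s (a : D.B)
    rw [Hgt.W, hO.H_congr _ (hγ γ) (Hgt.star_mem_OS hO (hγ γ)) γ.1.1.2.1 γ.1.1.2.2, Hgt.W]
  · change Hgt.W _ _ s _ = Hgt.W _ _ s y
    rw [Hgt.W, hO.H_unit_mul _ (hγ γ) (Hgt.star_mem_OS hO (hγ γ)) γ.1.1.2.1, Hgt.W]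
  · change Hgt.W _ _ s _ = Hgt.W _ _ s y
    rw [Hgt.W, hO.H_mul_unit _ (hγ γ) (Hgt.star_mem_OS hO (hγ γ)) γ.1.1.2.1 γ.1.1.2.2, Hgt.W]
  · have hu := W88.isUnit_sub h.an (fun x => Algebra.commutes I.θ x) hθ h2 a.2
    have e1 := W88.H_cayley hO h.th_mem ht h2 (u := cy (algebraMap D.K D.B I.θ) a)
      (by rw [cy, mul_assoc, Ring.inverse_mul_cancel _ hu, mul_one]) hu
    have e2 := HgtI.Del_eq I.S I.s _ h.N0 h.v0 h.mem_S hθ a.2 hu (z := I.iJ a) rfl rfl
    have e3 := Hgt.nS_pos I.N hu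
    have e4 : 0 < HgtI.Del I.S I.s (algebraMap D.K D.B I.θ) (I.iJ a) :=
      (pos_iff_pos_of_mul_pos (one_pos.trans_eq e2.symm)).1 e3
    change Hgt.W _ _ s (cy (algebraMap D.K D.B I.θ) a) =
      Hgt.W _ _ s (a : D.B) * HgtI.Del I.S I.s (algebraMap D.K D.B I.θ) (I.iJ a) ^ (-s)
    rw [Hgt.W, Hgt.W, div_mul_eq_mul_div, ← Real.mul_rpow (hO.H_pos _ _).le e4.le, ← e1, mul_assoc, e2, mul_one]

theorem iAdmStmt : IAdmStmt.{u, v, w} := by
  intro D _ I _ lam Δ g hg
  obtain ⟨θ₀, hO⟩ := HgtI.exists_ord (k := D.k) I.Λ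
  refine ⟨fun s a => ?_⟩
  change Hgt.W _ _ s (g.ap (a : D.B)) = Hgt.W _ _ s (a : D.B)
  rw [Hgt.W, Hgt.W, Aff.ap, hO.H_add _ hg.b, Aff.lin, Algebra.smul_def,
    hO.H_unit_mul _ hg.κ hg.κ' (by rw [← map_mul]; simp),
    hO.H_mul_unit _ hg.p hg.p' (by simp) (by simp),
    hO.H_unit_mul _ (Hgt.star_mem_OS hO hg.p) (Hgt.star_mem_OS hO hg.p') (by rw [← star_mul]; simp)]

end Crest.Agent.T24.Na
end
end

-- ▼ part T24/NaChart_86
section

/-!
# Row 24, module NA: central `S`-units of infinite order, and the Cayley chart.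
-/

set_option autoImplicit false
set_option linter.unusedSectionVars false

noncomputable section

namespace Crest.Agent.T24.Na

namespace C86

open Module NumberField IsDedekindDomain WithZero Csa Asa
open scoped NumberField nonZeroDivisors

/-- in an Artinian ring, `h - z i` is a unit for almost all members of a separated central family -/
theorem fin_nonunit {C ι : Type*} [Ring C] [IsArtinianRing C] (h : C) (z : ι → C)
    (hc : ∀ i x, z i * x = x * z i) (hu : ∀ i j, i ≠ j → IsUnit (z i - z j)) :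
    {i | ¬ IsUnit (h - z i)}.Finite := by
  classical
  let N : ι → Submodule C C := fun i => LinearMap.ker (LinearMap.toSpanSingleton C C (h - z i))
  have hN : ∀ i x, x ∈ N i ↔ x * h = x * z i := fun i x => by
    simp [N, mul_sub, sub_eq_zero]
  have st : ∀ i a, ∀ x ∈ N i, LinearMap.toSpanSingleton C C (h - z a) x = (z i - z a) • x :=
    fun i a x hx => by
      rw [LinearMap.toSpanSingleton_apply, smul_eq_mul, smul_eq_mul, mul_sub, (hN _ _).1 hx,
        sub_mul, hc, hc]
  have key : ∀ (i : ι) (s : Finset ι), i ∉ s → ∀ x ∈ N i, x ∈ ⨆ j ∈ s, N j → x = 0 := by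
    intro i s
    induction s using Finset.induction_on with
    | empty => intro _ x _ hx; simpa using hx
    | insert a s ha ih =>
      intro hi x hx hx'
      rw [Finset.iSup_insert, Submodule.mem_sup] at hx'
      obtain ⟨y, hy, y', hy', e⟩ := hx'
      rw [Finset.mem_insert, not_or] at hi
      have h1 : (⨆ j ∈ s, N j) ≤ (⨆ j ∈ s, N j).comap (LinearMap.toSpanSingleton C C (h - z a)) :=
        iSup₂_le fun j hj t ht => (le_iSup₂_of_le j hj le_rfl : N j ≤ ⨆ j ∈ s, N j)
          (by rw [st j a t ht]; exact (N j).smul_mem _ ht)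
      have h2 := ih hi.2 ((z i - z a) • x) ((N i).smul_mem _ hx) (by
        rw [← st i a x hx, ← e, map_add, show LinearMap.toSpanSingleton C C (h - z a) y = 0 from hy,
          zero_add]
        exact h1 hy')
      exact (hu i a hi.1).mul_right_eq_zero.1 h2
  have ind : iSupIndep N := by
    intro i
    rw [Submodule.disjoint_def]
    intro x hx hx'
    obtain ⟨s, hs⟩ := Submodule.mem_iSup_iff_exists_finset.1 hx'
    refine key i (s.erase i) (Finset.notMem_erase i s) x hx ?_
    refine (iSup₂_le fun j hj => iSup_le fun hji => ?_ : _ ≤ ⨆ j ∈ s.erase i, N j) hs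
    exact le_iSup₂_of_le j (Finset.mem_erase.2 ⟨hji, hj⟩) le_rfl
  refine (WellFoundedLT.finite_ne_bot_of_iSupIndep ind).subset fun i hi h0 => hi ?_
  rw [IsArtinianRing.isUnit_iff_isRightRegular]
  exact LinearMap.ker_eq_bot.1 h0

section
variable {K : Type*} [Field K] [NumberField K]

/-- a generator of a power of a prime -/
theorem exists_gen (w₀ : Pl K) : ∃ p : 𝓞 K, p ≠ 0 ∧ w₀.valuation K (p : K) < 1 ∧
    ∀ w : Pl K, w ≠ w₀ → w.valuation K (p : K) = 1 := by
  have h0 : w₀.asIdeal ∈ (Ideal (𝓞 K))⁰ := mem_nonZeroDivisors_of_ne_zero w₀.ne_bot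
  have h1 := (ClassGroup.mk0_eq_one_iff (pow_mem h0 (Fintype.card (ClassGroup (𝓞 K))))).1 (by
    rw [← SubmonoidClass.mk_pow _ h0, map_pow, pow_card_eq_one])
  obtain ⟨p, hp⟩ := h1
  have hp' : w₀.asIdeal ^ Fintype.card (ClassGroup (𝓞 K)) = Ideal.span {p} := hp
  have hm : ∀ w : Pl K, p ∈ w.asIdeal ↔ w = w₀ := fun w => by
    rw [← Ideal.span_singleton_le_iff_mem, ← hp',
      w.isPrime.pow_le_iff Fintype.card_ne_zero]
    exact ⟨fun h => (HeightOneSpectrum.ext (w₀.isMaximal.eq_of_le w.isPrime.ne_top h)).symm,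
      fun h => h ▸ le_rfl⟩
  refine ⟨p, fun h => pow_ne_zero _ w₀.ne_bot (hp'.trans (by simp [h])),
    (w₀.valuation_lt_one_iff_mem p).2 ((hm _).2 rfl),
    fun w hw => (w.valuation_eq_one_iff_notMem (K := K)).2 (mt (hm w).1 hw)⟩

/-- a power of two units at `S` is near `1` at `S` -/
theorem exists_pow (S : Finset (Pl K)) (m : ℕ) (p q : 𝓞 K)
    (hp : ∀ w ∈ S, w.valuation K (p : K) = 1) (hq : ∀ w ∈ S, w.valuation K (q : K) = 1) :
    ∃ e : ℕ, e ≠ 0 ∧ ∀ w ∈ S, w.valuation K (((p : K) / q) ^ e - 1) ≤ exp (-(m : ℤ)) := by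
  obtain ⟨c, hc0, hc⟩ := exists_deep S m
  have : Finite (𝓞 K ⧸ Ideal.span {c}) := Ideal.finiteQuotientOfFreeOfNeBot _ (by simpa using hc0)
  let f : ℕ → (𝓞 K ⧸ Ideal.span {c}) × (𝓞 K ⧸ Ideal.span {c}) :=
    fun n => (Ideal.Quotient.mk _ (p ^ n), Ideal.Quotient.mk _ (q ^ n))
  obtain ⟨i, j, hij, e⟩ := Set.Finite.exists_lt_map_eq_of_forall_mem (f := f)
    (fun _ => Set.mem_univ _) Set.finite_univ
  obtain ⟨n, rfl⟩ := Nat.exists_eq_add_of_lt hij
  refine ⟨n + 1, n.succ_ne_zero, fun w hw => ?_⟩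
  have key : ∀ x : 𝓞 K, w.valuation K (x : K) = 1 →
      Ideal.Quotient.mk (Ideal.span {c}) (x ^ i) = Ideal.Quotient.mk _ (x ^ (i + n + 1)) →
      w.valuation K ((x : K) ^ (n + 1) - 1) ≤ exp (-(m : ℤ)) := fun x hx h => by
    obtain ⟨a, ha⟩ := Ideal.mem_span_singleton'.1 (Ideal.Quotient.eq.1 h.symm)
    have h1 : (a : K) * c = (x : K) ^ i * ((x : K) ^ (n + 1) - 1) := by
      have := congrArg (fun y : 𝓞 K => (y : K)) ha
      push_cast at this
      rw [this]; ring
    have h2 := congrArg (w.valuation K) h1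
    rw [map_mul, map_mul, map_pow, hx, one_pow, one_mul] at h2
    rw [← h2]
    exact (mul_le_of_le_one_left' (val_int w a)).trans (hc w hw)
  have hq0 : (q : K) ≠ 0 := fun h => by simpa [h] using hq w hw
  have h3 : ((p : K) / q) ^ (n + 1) - 1 =
      (((p : K) ^ (n + 1) - 1) - ((q : K) ^ (n + 1) - 1)) / (q : K) ^ (n + 1) := by
    rw [div_pow, sub_sub_sub_cancel_right, sub_div, div_self (pow_ne_zero _ hq0)]
  rw [h3, map_div₀, map_pow, hq w hw, one_pow, div_one]
  exact Valuation.map_sub_le _ (key p (hp w hw) (congrArg Prod.fst e))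
    (key q (hq w hw) (congrArg Prod.snd e))

end

variable {k K B : Type*} [Field k] [NumberField k] [Field K] [NumberField K] [Algebra k K]
  [StarRing K] [Quad k K] [Ring B] [StarRing B] [Algebra K B] [StarModule K B]
  [Algebra.IsCentral K B] [IsSimpleRing B] [FiniteDimensional K B] [Algebra k B]
  [IsScalarTower k K B]

theorem exists_above (v : Pl k) : ∃ w : Pl K, below k w = v := by
  have := v.isMaximal
  obtain ⟨Q, h1, h2⟩ := Ideal.exists_maximal_ideal_liesOver_of_isIntegral (S := 𝓞 K) v.asIdeal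
  exact ⟨⟨Q, h1.isPrime, Ideal.ne_bot_of_liesOver_of_ne_bot v.ne_bot Q⟩,
    HeightOneSpectrum.ext h2.over.symm⟩

theorem below_conj {w w' : Pl K} (h : ∀ x, w'.valuation K x = w.valuation K (star x)) :
    below k w' = below k w :=
  HeightOneSpectrum.ext (Ideal.ext fun a => by
    rw [← HeightOneSpectrum.valuation_lt_one_iff_mem (K := k),
      ← HeightOneSpectrum.valuation_lt_one_iff_mem (K := k), ← below_lt_one, ← below_lt_one, h,
      Quad.star_k])

/-- a norm one element of infinite order, integral off `v₀` and near `1` at `S` -/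
theorem exists_zeta {v₀ : Pl k} (i : K →ₐ[k] Kv v₀) (S : Finset (Pl K))
    (hS : ∀ w ∈ S, below k w ≠ v₀) (m : ℕ) : ∃ ζ : K, star ζ * ζ = 1 ∧
      Function.Injective (fun n : ℕ => ζ ^ n) ∧
      (∀ w ∈ S, w.valuation K (ζ - 1) ≤ exp (-(m : ℤ))) ∧
      ∃ (c : k) (a : 𝓞 K), ζ = c • (a : K) ∧ ∀ v ≠ v₀, v.valuation k c ≤ 1 := by
  obtain ⟨w₀, rfl, ⟨x, hx⟩, -⟩ := Loc.place_of_hom i
  obtain ⟨p, hp0, hp1, hp⟩ := exists_gen w₀
  let q : 𝓞 K := RingOfIntegers.mapRingEquiv (starRingAut : RingAut K) p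
  have hq : (q : K) = star (p : K) := rfl
  have hp0' : (p : K) ≠ 0 := by simpa using hp0
  have hq0 : (q : K) ≠ 0 := by rw [hq]; simpa using hp0'
  have h1 : ∀ w : Pl K, below k w ≠ below k w₀ → w.valuation K (p : K) = 1 :=
    fun w hw => hp w (mt (congrArg _) hw)
  have h2 : ∀ w : Pl K, below k w ≠ below k w₀ → w.valuation K (q : K) = 1 := fun w hw => by
    obtain ⟨w', h⟩ := Loc.exists_conj_place (starRingAut : RingAut K) w
    exact (h _).symm.trans (h1 w' (by rwa [below_conj (k := k) h]))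
  have h3 : w₀.valuation K (q : K) = 1 := by
    obtain ⟨w', h⟩ := Loc.exists_conj_place (starRingAut : RingAut K) w₀
    exact (h _).symm.trans (hp w' fun e => hx (by subst e; exact (h x).symm))
  obtain ⟨e, he, h4⟩ := exists_pow S m p q (fun w hw => h1 w (hS w hw)) fun w hw => h2 w (hS w hw)
  obtain ⟨c, hc⟩ := fixed (Quad.fr (k := k)) (sig_ne k K) (x := (p : K) * q)
    (by rw [sig_apply, hq, star_mul, star_star])
  refine ⟨((p : K) / q) ^ e, ?_, fun a b hab => ?_, h4, c⁻¹ ^ e, (p * p) ^ e, ?_, fun v hv => ?_⟩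
  · rw [star_pow, ← mul_pow, star_div₀, ← hq, hq, star_star, ← hq, div_mul_div_cancel₀ hp0',
      div_self hq0, one_pow]
  · have h5 : w₀.valuation K (((p : K) / q) ^ e) < 1 := by
      rw [map_pow, map_div₀, h3, div_one]; exact pow_lt_one₀ zero_le hp1 he
    have h6 : 0 < w₀.valuation K (((p : K) / q) ^ e) :=
      zero_lt_iff.2 (val_ne_zero _ (pow_ne_zero _ (div_ne_zero hp0' hq0)))
    have h7 := congrArg (w₀.valuation K) hab
    simp only [map_pow (w₀.valuation K) (_ ^ e)] at h7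
    exact pow_right_injective₀ h6 h5.ne h7
  · rw [Algebra.smul_def, map_pow, map_inv₀, hc]
    push_cast
    rw [← mul_pow]; congr 1; field_simp
  · obtain ⟨w, rfl⟩ := exists_above (K := K) v
    have : (below k w).valuation k c = 1 := by
      rw [← below_eq_one, hc, map_mul, h1 w hv, h2 w hv, one_mul]
    rw [map_pow, map_inv₀, this, inv_one, one_pow]

instance : IsArtinianRing (Inf k) := .of_finite ℝ _

instance {R : Type*} [CommRing R] [Algebra k R] [IsArtinianRing R] :
    IsArtinianRing (BC k K B R) := .of_finite R _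

/-- the Cayley chart: a central element of the arithmetic group removes the eigenvalue `1` -/
theorem chart (hd : 2 ≤ deg K B) (Λ : Ord K B) {v₀ : Pl k} (s : Spl K B v₀) (m : ℕ)
    (S : Finset (Pl k)) (g : AS k K B S) (h : Matrix (Fin (deg K B)) (Fin (deg K B)) (Kv v₀)) :
    ∃ u : unitary B, u ∈ Um K B m ∧ (∀ S' : Finset (Pl k), v₀ ∈ S' → u ∈ Λ.GamU S') ∧
      IsUnit (jA k K B S u * g - 1) ∧ IsUnit (s.ψ u * h - 1) := by
  obtain ⟨ζ, h1, h2, h3, c, a, h4, h5⟩ := exists_zeta s.ι (Loc.finite_TT hd).toFinset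
    (fun w hw e => s.notMem_Tk hd ⟨w, by simpa using hw, e⟩) (m + 1)
  let u : unitary B := ⟨algebraMap K B ζ, by
    constructor <;> rw [star_algebraMap, ← map_mul] <;> simp [h1, mul_comm ζ]⟩
  have hU : u ∈ Um K B m := fun w hw => by
    have : (u : B) - 1 = algebraMap K B (ζ - 1) := by simp [u]
    have h6 := h3 w (by simpa using hw)
    rw [this, val, Nrd_algebraMap, map_pow]
    refine (pow_le_of_le_one zero_le (h6.trans (exp_neg_le_one _)) (by omega)).trans_lt
      (h6.trans_lt ?_)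
    rw [exp_lt_exp]; push_cast; omega
  have hG : ∀ S' : Finset (Pl k), v₀ ∈ S' → u ∈ Λ.GamU S' := fun S' hS' =>
    Ord.mem_Off.2 fun v hv => by
      have : (u : B) = c • algebraMap K B a := by
        rw [← algebraMap_smul K, Algebra.smul_def, ← map_mul, ← Algebra.smul_def, ← h4]
      rw [this]
      exact Λ.smul_mem_At (h5 v fun e => hv (e ▸ hS')) (Λ.le_At v (Λ.int a))
  let φ : B →+* AS k K B S × Matrix (Fin (deg K B)) (Fin (deg K B)) (Kv v₀) :=
    (jA k K B S).prod s.ψ
  have hc : ∀ (t : K) x, φ (algebraMap K B t) * x = x * φ (algebraMap K B t) := fun t x =>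
    Prod.ext (Prod.ext (BC.cen_comm k K B _ (BC.inc k K K _ t) x.1.1)
      (funext fun v => BC.cen_comm k K B _ (BC.inc k K K _ t) (x.1.2 v)))
      (by simp [φ, s.compat, Algebra.commutes])
  obtain ⟨n, hn⟩ := (fin_nonunit (g, h) (fun n : ℕ => φ (algebraMap K B (ζ ^ n)⁻¹))
    (fun n => hc _) fun i j hij => by
      rw [← map_sub, ← map_sub]
      exact ((IsUnit.mk0 _ (sub_ne_zero.2 fun e => hij (h2 (inv_injective e)))).map _).map _
    ).exists_notMem
  have h0 : ζ ^ n ≠ 0 := pow_ne_zero _ (right_ne_zero_of_mul_eq_one h1)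
  have h7 : IsUnit (φ (u ^ n : unitary B) * (g, h) - 1) := by
    have e : ((u ^ n : unitary B) : B) = algebraMap K B (ζ ^ n) := by simp [u]
    have := (((IsUnit.mk0 _ h0).map (algebraMap K B)).map φ).mul (not_not.1 hn)
    rwa [mul_sub, ← map_mul, ← map_mul, mul_inv_cancel₀ h0, map_one, map_one, ← e] at this
  exact ⟨u ^ n, pow_mem hU n, fun S' hS' => pow_mem (hG S' hS') n,
    h7.map (RingHom.fst _ _), h7.map (RingHom.snd _ _)⟩

end C86

universe u v w

/-- (f) -/
theorem iChartStmt : IChartStmt.{u, v, w} := fun D _ I h _ _ g => by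
  obtain ⟨u, h1, h2, h3⟩ := C86.chart (le_trans (by norm_num) h.hd) I.Λ I.s I.m I.S
    g.1.1.1 g.2.1
  exact ⟨⟨⟨u, h1⟩, h2 _ (by classical exact Finset.mem_insert_self _ _)⟩, h3⟩

end Crest.Agent.T24.Na
end
end

-- ▼ part T24/NaEsc_24
section

/-!
# Row 24, module NA + TW (helper24): intermediate subspaces escape under the near elements
-/

set_option autoImplicit false
set_option linter.unusedSectionVars false

noncomputable section

namespace Crest.Agent.T24.Na.E24

open Module NumberField IsDedekindDomain Csa Asa Topology Filter Matrix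
open scoped NumberField Valued

section Lie
variable {F n : Type*} [Field F] [CharZero F] [Fintype n] [DecidableEq n]

theorem of_smul {W : Submodule F (Matrix n n F)} {c : F} (hc : c ≠ 0) {x : Matrix n n F}
    (h : c • x ∈ W) : x ∈ W := (W.smul_mem_iff hc).1 h

/-- Lie ideals of the matrix algebra -/
theorem lie_top (W : Submodule F (Matrix n n F))
    (h : ∀ i j, i ≠ j → ∀ x ∈ W, single i j 1 * x - x * single i j 1 ∈ W) (h1 : 1 ∈ W)
    {x : Matrix n n F} (hx : x ∈ W) (hx' : ∀ c : F, x ≠ c • 1) : W = ⊤ := by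
  have r1 : ∀ a b, a ≠ b → single a b (1 : F) ∈ W → single b b 1 - single a a (1 : F) ∈ W :=
    fun a b hab H => by simpa using h b a hab.symm _ H
  have r2 : ∀ a b, a ≠ b → single a b (1 : F) ∈ W → single b a (1 : F) ∈ W := fun a b hab H => by
    refine of_smul (c := -2) (by norm_num) ?_
    convert h b a hab.symm _ (r1 a b hab H) using 1
    simp only [mul_sub, sub_mul, single_mul_single_same, mul_one, single_mul_single_of_ne _ _ _ _ hab]
    module
  have r3 : ∀ a b c, c ≠ a → c ≠ b → single a b (1 : F) ∈ W → single c b (1 : F) ∈ W :=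
    fun a b c h1 h2 H => by simpa [single_mul_single_of_ne _ _ _ _ h2.symm] using h c a h1 _ H
  have r4 : ∀ a b, a ≠ b → single a b (1 : F) ∈ W → ∀ c d, c ≠ d → single c d (1 : F) ∈ W := by
    intro a b hab H c d hcd
    obtain ⟨y, hy⟩ : ∃ y, single y d (1 : F) ∈ W := by
      by_cases h1 : d = b
      · exact ⟨a, h1 ▸ H⟩
      by_cases h2 : d = a
      · exact ⟨b, h2 ▸ r2 a b hab H⟩
      exact ⟨b, r2 d b h1 (r3 a b d h2 h1 H)⟩
    by_cases h3 : c = y
    · exact h3 ▸ hy
    exact r3 y d c h3 hcd hy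
  have r5 : ∀ c d, c ≠ d → single c d (1 : F) ∈ W := by
    intro c d hcd
    by_contra hn
    have hn' : ∀ a b, a ≠ b → single a b (1 : F) ∉ W := fun a b hab H => hn (r4 a b hab H c d hcd)
    have off : ∀ a b, a ≠ b → x b a = 0 := fun a b hab => by
      by_contra h0
      refine hn' a b hab (of_smul (c := -2 * x b a) (by simpa using h0) ?_)
      convert h a b hab _ (h a b hab x hx) using 1
      have e1 : single a b (1 : F) * single a b 1 = 0 := single_mul_single_of_ne _ _ _ _ hab.symm _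
      have e2 : single a b (1 : F) * x * single a b 1 = x b a • single a b 1 := by
        rw [single_mul_mul_single]; simp
      rw [mul_sub, sub_mul, ← mul_assoc, ← mul_assoc, e1, mul_assoc x, e1, e2, zero_mul, mul_zero]
      module
    have dia : ∀ a b, x a a = x b b := fun a b => by
      by_contra h0
      have hab : a ≠ b := fun e => h0 (e ▸ rfl)
      refine hn' a b hab (of_smul (c := x b b - x a a) (sub_ne_zero.2 (Ne.symm h0)) ?_)
      convert h a b hab x hx using 1
      ext i j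
      by_cases hi : i = a <;> by_cases hj : j = b
      · subst hi hj; simp
      · subst hi; simp [hj, Ne.symm hj, off j b hj]
      · subst hj; simp [hi, Ne.symm hi, off a i (Ne.symm hi)]
      · simp [hi, hj, Ne.symm hi]
    refine hx' (x c c) ?_
    ext i j
    by_cases hij : i = j
    · subst hij; simp [dia i c]
    · simp [hij, off j i (Ne.symm hij)]
  have r6 : ∀ c, single c c (1 : F) ∈ W := fun c => by
    have : Nonempty n := ⟨c⟩
    refine of_smul (c := (Fintype.card n : F)) (Nat.cast_ne_zero.2 Fintype.card_ne_zero) ?_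
    have h2 : ∑ d, (single c c 1 - single d d (1 : F)) ∈ W := W.sum_mem fun d _ => by
      by_cases hd : d = c
      · simp [hd]
      · exact r1 d c hd (r5 d c hd)
    convert W.add_mem h2 h1 using 1
    rw [Finset.sum_sub_distrib, sum_single_one, sub_add_cancel, Finset.sum_const,
      Nat.cast_smul_eq_nsmul, Finset.card_univ]
  refine eq_top_iff.2 fun y _ => ?_
  rw [matrix_eq_sum_single y]
  refine W.sum_mem fun i _ => W.sum_mem fun j _ => ?_
  rw [← mul_one (y i j), ← smul_eq_mul, ← smul_single]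
  refine W.smul_mem _ ?_
  by_cases hij : i = j
  · exact hij ▸ r6 i
  · exact r5 i j hij

theorem tv_pow {i j : n} (h : i ≠ j) (b : F) (N : ℕ) :
    SpecialLinearGroup.transvection h b ^ N = SpecialLinearGroup.transvection h (N * b) := by
  induction N with
  | zero => simp
  | succ N ih => rw [pow_succ, ih, ← SpecialLinearGroup.transvection_add]; congr 1; push_cast; ring

theorem lie_of_tv {W : Submodule F (Matrix n n F)} {i j : n} (h : i ≠ j) {N : ℕ} (hN : N ≠ 0)
    {x : Matrix n n F} (H : ∀ b : F, b = 1 ∨ b = -1 →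
      (SpecialLinearGroup.transvection h b ^ N).1 * x *
        ((SpecialLinearGroup.transvection h b ^ N)⁻¹).1 ∈ W) :
    single i j 1 * x - x * single i j 1 ∈ W := by
  have h1 := W.sub_mem (H 1 (.inl rfl)) (H (-1) (.inr rfl))
  simp only [tv_pow, SpecialLinearGroup.transvection_inv] at h1
  refine of_smul (c := (2 * N : F)) (by simpa using hN) ?_
  convert h1 using 1
  have e : ∀ b : F, (SpecialLinearGroup.transvection h b).1 = 1 + b • single i j 1 := fun b => by
    rw [smul_single, smul_eq_mul, mul_one]; rfl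
  simp only [e, mul_add, add_mul, mul_one, one_mul, mul_smul_comm, smul_mul_assoc]
  module

end Lie

theorem pigeon {G Y : Type*} [Group G] [MulAction G Y] {Φ : Set Y} (hΦ : Φ.Finite) (g : G) (y : Y)
    (h : ∀ i ≤ hΦ.toFinset.card, (g ^ i)⁻¹ • y ∈ Φ) : g ^ hΦ.toFinset.card.factorial • y = y := by
  have key : ∀ i j, i < j → j ≤ hΦ.toFinset.card → (g ^ i)⁻¹ • y = (g ^ j)⁻¹ • y →
      g ^ hΦ.toFinset.card.factorial • y = y := fun i j hij hj e => by
    have h1 : g ^ (j - i) ∈ MulAction.stabilizer G y := by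
      rw [MulAction.mem_stabilizer_iff, pow_sub _ hij.le, mul_smul, e, smul_inv_smul]
    obtain ⟨q, hq⟩ := Nat.dvd_factorial (Nat.sub_pos_of_lt hij) ((Nat.sub_le j i).trans hj)
    rw [hq, pow_mul]
    exact pow_mem h1 q
  obtain ⟨i, hi, j, hj, hij, e⟩ := Finset.exists_ne_map_eq_of_card_lt_of_maps_to
    (s := Finset.range (hΦ.toFinset.card + 1)) (t := hΦ.toFinset) (f := fun i => (g ^ i)⁻¹ • y)
    (by simp) fun i hi => by simpa using h i (by simpa [Nat.lt_succ_iff] using hi)
  rw [Finset.mem_range, Nat.lt_succ_iff] at hi hj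
  rcases lt_or_gt_of_ne hij with h' | h'
  · exact key i j h' hj e
  · exact key j i h' hi e.symm

/-- conjugation of subspaces is an action -/
@[reducible] def cjA (k R : Type*) [Field k] [Ring R] [StarRing R] [Algebra k R] :
    MulAction (unitary R) (Submodule k R) where
  smul := cjV
  one_smul V := by
    change cjV 1 V = V
    ext x; simp [cjV]
  mul_smul g h V := by
    change cjV (g * h) V = cjV g (cjV h V)
    rw [cjV, cjV, cjV, ← Submodule.map_comp]; congr 1; ext; simp [mul_assoc]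

variable {k K B : Type*} [Field k] [NumberField k] [Field K] [NumberField K] [Algebra k K]
  [StarRing K] [Quad k K] [Ring B] [StarRing B] [Algebra K B] [StarModule K B]
  [Algebra.IsCentral K B] [IsSimpleRing B] [FiniteDimensional K B] [Algebra k B]
  [IsScalarTower k K B]

open scoped Classical in
/-- an intermediate subspace has infinitely many conjugates under the near elements -/
theorem core (hA : Sa k K B) (hP : Pow K B) (hT : (Tk k K B).Finite) (Λ : Ord K B)
    (S : Finset (Pl k)) {v₀ : Pl k} (hv₀ : v₀ ∉ S) (s₀ : Nonempty (Spl K B v₀)) (V : Submodule k B)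
    (h1 : ∀ y ∈ V, star y = y) (h2 : 1 ∈ V) (h3 : ∃ y ∈ V, ∀ r : k, y ≠ r • 1)
    (h4 : ∃ y, star y = y ∧ y ∉ V) {U : Set (GS k K B S)} (hU : U ∈ 𝓝 (1 : GS k K B S)) :
    {V' | ∃ γ ∈ Λ.Gam (insert v₀ S), jS k K B S γ ∈ U ∧ cjV (γ : unitary B) V' = V}.Infinite := by
  intro hΦ
  let := cjA k B
  have := finite_kB k K B
  set N := hΦ.toFinset.card with hN
  obtain ⟨v₁, hv₁, s, hs⟩ := (SplE.splEx k K B).2 Λ (insert v₀ S ∪ hT.toFinset)
  rw [Finset.mem_union, not_or, Finset.mem_insert, not_or] at hv₁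
  obtain ⟨e, he⟩ := splIso k K B v₁ s
  have : CharZero (Kv v₁) := algebraRat.charZero _
  have : Nonempty (Fin (deg K B)) := ⟨⟨0, deg_pos K B⟩⟩
  obtain ⟨x, hx₀, g, hg, hxg⟩ := (hP 0 1 one_ne_zero).2
  obtain ⟨V₀, -, hVt, hcl⟩ := hA (SU K B) ⟨le_rfl, fun g hg x hx => mul_mem (mul_mem hg hx) (inv_mem hg),
    x, hx₀.1, g, hg, by simpa using hxg⟩ Λ v₀ s₀
  let b := finBasis k V
  let W := Submodule.span (Kv v₁) (Set.range fun i => s.ψ (b i))
  have hW : ∀ y ∈ V, s.ψ y ∈ W := fun y hy => by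
    have := congrArg (fun z : V => s.sm.ψ z) (b.sum_repr ⟨y, hy⟩)
    simp only [Submodule.coe_sum, Submodule.coe_smul, map_sum, map_smul] at this
    rw [← s.sm_ψ, ← this]
    exact W.sum_mem fun i _ => W.smul_of_tower_mem _ (Submodule.subset_span ⟨i, rfl⟩)
  let S' := insert v₁ S
  have hm : v₁ ∈ S' := Finset.mem_insert_self _ _
  let r : GS k K B S' → GS k K B S := fun y => (y.1, fun v => y.2 ⟨v.1, Finset.mem_insert_of_mem v.2⟩)
  have hr : Continuous r := continuous_fst.prodMk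
    (continuous_pi fun v => (continuous_apply _).comp continuous_snd)
  let p : GS k K B S' → SpecialLinearGroup (Fin (deg K B)) (Kv v₁) := fun y => e (y.2 ⟨v₁, hm⟩)
  have hp : Continuous p := e.continuous.comp ((continuous_apply _).comp continuous_snd)
  have key : ∀ u : SpecialLinearGroup (Fin (deg K B)) (Kv v₁),
      (∀ i j, u.1 i j ∈ v₁.adicCompletionIntegers k) →
      (∀ i j, (u⁻¹).1 i j ∈ v₁.adicCompletionIntegers k) → ∀ y ∈ W,
      (u ^ N.factorial).1 * y * ((u ^ N.factorial)⁻¹).1 ∈ W := by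
    intro u hu hu' y hy
    let h : GS k K B S' := (1, Pi.mulSingle ⟨v₁, hm⟩ (e.symm u))
    have hph : p h = u := by simp [p, h]
    have hrh : r h = 1 := Prod.ext rfl (funext fun v => Pi.mulSingle_eq_of_ne
      (fun h' => hv₁.1.2 (by rw [← show v.1 = v₁ from congrArg Subtype.val h']; exact v.2)) _)
    have c1 := hcl S' (by simp [S', hv₀, Ne.symm hv₁.1.1]) h fun v => by
      by_cases hv : v = ⟨v₁, hm⟩
      · subst hv
        rw [hVt v₁ fun h' => hv₁.2 (by simpa using h')]; trivial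
      · simp only [h, Pi.mulSingle_eq_of_ne hv]
        exact (V₀ v).one_mem
    have hO := Valued.isOpen_valuationSubring (Kv v₁)
    have ce : ∀ i j, Continuous fun z : SpecialLinearGroup (Fin (deg K B)) (Kv v₁) => z.1 i j :=
      fun i j => continuous_subtype_val.matrix_elem i j
    have c2 : ∀ᶠ z in 𝓝 h, (∀ i ∈ Finset.range (N + 1), r z ^ i ∈ U) ∧
        (∀ i j, (p z).1 i j ∈ v₁.adicCompletionIntegers k) ∧
        ∀ i j, ((p z)⁻¹).1 i j ∈ v₁.adicCompletionIntegers k := by
      refine ((eventually_all_finset _).2 fun i _ => ?_).and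
        ((eventually_all.2 fun i => eventually_all.2 fun j => ?_).and
          (eventually_all.2 fun i => eventually_all.2 fun j => ?_))
      · exact (hr.pow i).continuousAt.preimage_mem_nhds (by rwa [Pi.pow_apply, hrh, one_pow])
      · exact ((ce i j).comp hp).continuousAt.preimage_mem_nhds
          (hO.mem_nhds (by rw [Function.comp_apply, hph]; exact hu i j))
      · exact ((ce i j).comp hp.inv).continuousAt.preimage_mem_nhds
          (hO.mem_nhds (by rw [Function.comp_apply, Pi.inv_apply, hph]; exact hu' i j))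
    have c3 : h ∈ closure (_ ∩ _) := mem_closure_iff_nhds.2 fun t ht => by
      obtain ⟨z, hz, hz'⟩ := mem_closure_iff_nhds.1 c1 _ (inter_mem ht c2)
      exact ⟨z, hz.1, hz.2, hz'⟩
    have c4 := map_mem_closure (t := W) (f := fun z => (p z ^ N.factorial).1 * y *
      ((p z ^ N.factorial)⁻¹).1) (((continuous_subtype_val.comp (hp.pow _)).mul
        continuous_const).mul (continuous_subtype_val.comp (hp.pow _).inv)) c3 (by
      rintro _ ⟨⟨d1, d2, d3⟩, γ, ⟨d4, -⟩, rfl⟩
      have e1 : p (jS k K B S' γ) = s.toSL γ := he γ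
      beta_reduce
      rw [e1] at d2 d3 ⊢
      rw [← map_inv] at d3
      have d5 : γ ∈ Λ.Gam (insert v₀ S) := Ord.mem_Off.2 fun v hv => by
        by_cases hv' : v = v₁
        · exact hv' ▸ (hs _).2 ⟨d2, d3⟩
        · exact Ord.mem_Off.1 d4 v (by simpa [S', hv'] using hv)
      have d6 := pigeon hΦ (γ : unitary B) V fun i hi => ⟨γ ^ i, pow_mem d5 i, by
        rw [map_pow]; exact d1 i (Finset.mem_range.2 (Nat.lt_succ_of_le hi)),
        smul_inv_smul ((γ : unitary B) ^ i) V⟩
      rw [← map_pow, ← map_inv]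
      refine (Submodule.span_le (p := W.comap ((LinearMap.mulRight _ _).comp
        (LinearMap.mulLeft _ _)))).2 ?_ hy
      rintro _ ⟨i, rfl⟩
      have d7 := hW _ (d6.le ⟨b i, (b i).2, rfl⟩)
      change s.ψ (_ * _ * _) ∈ W at d7
      rw [map_mul, map_mul] at d7
      exact d7)
    rwa [W.closed_of_finiteDimensional.closure_eq, hph] at c4
  obtain ⟨y, hy, hy'⟩ := h3
  have htop := lie_top W (fun i j hij x hx => lie_of_tv hij N.factorial_ne_zero fun b hb => by
      have t : ∀ b : Kv v₁, b = 1 ∨ b = -1 → ∀ i' j', (SpecialLinearGroup.transvection hij b).1 i' j' ∈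
          v₁.adicCompletionIntegers k := fun b hb i' j' => by
        change ((1 : Matrix _ _ (Kv v₁)) + single i j b : Matrix _ _ (Kv v₁)) i' j' ∈ _
        rw [Matrix.add_apply, one_apply, single_apply]
        refine add_mem ?_ ?_ <;> split_ifs <;> rcases hb with rfl | rfl <;> simp
      refine key _ (t b hb) ?_ x hx
      rw [SpecialLinearGroup.transvection_inv]
      exact t _ (hb.symm.imp (fun h => by rw [h, neg_neg]) fun h => by rw [h]))
    (map_one s.ψ ▸ hW 1 h2) (hW y hy) fun c hc => by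
      have : y ∈ Subalgebra.center K B := Subalgebra.mem_center_iff.2 fun z => s.ψ.injective (by
        rw [map_mul, map_mul, hc]; simp)
      obtain ⟨a, rfl⟩ := Algebra.IsCentral.out this
      obtain ⟨r, rfl⟩ := SplE.fixed' k (x := a) ((algebraMap K B).injective (by
        rw [← Csa.star_algebraMap]; exact h1 _ hy))
      exact hy' r (by
        change algebraMap K B _ = _
        rw [← IsScalarTower.algebraMap_apply, Algebra.algebraMap_eq_smul_one])
  have f1 : finrank (Kv v₁) W ≤ finrank k V := by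
    exact (finrank_range_le_card (R := Kv v₁) fun i => s.ψ (b i)).trans (by simp)
  obtain ⟨z, hz, hz'⟩ := h4
  have f2 := Submodule.finrank_lt_finrank_of_lt (lt_of_le_of_ne
    (show V ≤ herm (K := K) k Quad.star_k from h1) fun h => hz' (h.ge hz))
  rw [finrank_herm _ (fun c hc => SplE.fixed' k hc) (Quad.ne (k := k))] at f2
  rw [htop, finrank_top, s.sm.fr] at f1
  omega

open scoped Classical in
/-- the same with a neighbourhood in the unitary group -/
theorem coreU (hA : Sa k K B) (hP : Pow K B) (hT : (Tk k K B).Finite) (Λ : Ord K B)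
    (S : Finset (Pl k)) {v₀ : Pl k} (hv₀ : v₀ ∉ S) (s₀ : Nonempty (Spl K B v₀)) (V : Submodule k B)
    (h1 : ∀ y ∈ V, star y = y) (h2 : 1 ∈ V) (h3 : ∃ y ∈ V, ∀ r : k, y ≠ r • 1)
    (h4 : ∃ y, star y = y ∧ y ∉ V) {U : Set (US k K B S)} (hU : U ∈ 𝓝 (1 : US k K B S)) :
    {V' | ∃ γ : unitary B, γ ∈ SU K B ∧ γ ∈ Λ.GamU (insert v₀ S) ∧ jU k K B S γ ∈ U ∧
      cjV γ V' = V}.Infinite := by
  let f : GS k K B S → US k K B S := fun y => (y.1.1, fun v => (y.2 v).1)
  have hf : Continuous f := (continuous_subtype_val.comp continuous_fst).prodMk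
    (continuous_pi fun v => continuous_subtype_val.comp ((continuous_apply v).comp continuous_snd))
  refine (core hA hP hT Λ S hv₀ s₀ V h1 h2 h3 h4 (U := f ⁻¹' U)
    (hf.continuousAt.preimage_mem_nhds hU)).mono ?_
  rintro V' ⟨γ, p1, p2, p3⟩
  exact ⟨γ, γ.2, p1, p2, p3⟩

end Crest.Agent.T24.Na.E24
end
end

-- ▼ part T24/NaEs_24
section

/-!
# Row 24, module NA + TW (helper24): the field `esc` of the arithmetic system
-/

set_option autoImplicit false
set_option linter.unusedSectionVars false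

noncomputable section

namespace Crest.Agent.T24.Na

open Module Csa Asa Filter Topology NumberField IsDedekindDomain

universe u v w

namespace E24

variable {k K B : Type*} [Field k] [NumberField k] [Field K] [NumberField K] [Algebra k K]
  [StarRing K] [Quad k K] [Ring B] [StarRing B] [Algebra K B] [StarModule K B]
  [Algebra.IsCentral K B] [IsSimpleRing B] [FiniteDimensional K B] [Algebra k B]
  [IsScalarTower k K B]

/-- the product of the unitary groups in the unitary group of the product -/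
def pr (S : Finset (Pl k)) (y : US k K B S) : unitary (AS k K B S) :=
  ⟨(y.1.1, fun v => (y.2 v).1), Prod.ext y.1.2.1 (funext fun v => (y.2 v).2.1),
    Prod.ext y.1.2.2 (funext fun v => (y.2 v).2.2)⟩

theorem continuous_pr (S : Finset (Pl k)) : Continuous (pr (K := K) (B := B) S) :=
  Continuous.subtype_mk ((continuous_subtype_val.comp continuous_fst).prodMk (continuous_pi fun v =>
    continuous_subtype_val.comp ((continuous_apply v).comp continuous_snd))) _

theorem near (I : Inp k K B) {W : Set I.G₂} (hW : W ∈ 𝓝 (1 : I.G₂)) :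
    ∃ U ∈ 𝓝 (1 : US k K B I.S), ∀ γ : unitary B, jU k K B I.S γ ∈ U →
      ∃ h : γ ∈ Um K B I.m, (I.ι ⟨γ, h⟩).1 ∈ W := by
  refine ⟨pr I.S ⁻¹' (Subtype.val '' W), (continuous_pr I.S).continuousAt.preimage_mem_nhds
    (I.opn.isOpenMap_subtype_val.image_mem_nhds hW), ?_⟩
  rintro γ ⟨g, hg, e⟩
  have e' : (g : unitary (AS k K B I.S)) = jAU k K B I.S γ := e
  refine ⟨(I.hG γ).1 (e' ▸ g.2), ?_⟩
  convert hg using 1
  exact Subtype.ext e'.symm

end E24

theorem iEscStmt : IEscStmt.{u, v, w} := fun D _ I h _ _ V h1 h2 h3 h4 W hW => by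
  have hd : 2 ≤ deg D.K D.B := le_trans (by norm_num) h.hd
  obtain ⟨U, hU, hU'⟩ := E24.near I hW
  refine (E24.coreU h.sa (powStmt Loc.valStmt Loc.cofStmt D hd) (I.S.finite_toSet.subset h.T_sub)
    I.Λ I.S h.v0 ⟨I.s⟩ V h1 h2 h3 h4 hU).mono ?_
  rintro V' ⟨γ, p1, p2, p3, p4⟩
  obtain ⟨q1, q2⟩ := hU' γ p3
  exact ⟨⟨⟨γ, q1⟩, p2⟩, ⟨(I.s.toSL ⟨γ, p1⟩).2, q2⟩, p4⟩

end Crest.Agent.T24.Na
end
end

-- ▼ part T24/NaD_13
section

/-! Row 24, module NA + TW (helper13): density of the colours in the `S`-arithmetic group. -/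

set_option autoImplicit false
set_option linter.unusedSectionVars false

noncomputable section

namespace Crest.Agent.T24.Na.D13

open NumberField WithZero Csa Asa Topology Filter NstK39

variable {k K B : Type*} [Field k] [NumberField k] [Field K] [NumberField K] [Algebra k K]
  [StarRing K] [Quad k K] [Ring B] [StarRing B] [Algebra K B] [StarModule K B]
  [Algebra.IsCentral K B] [IsSimpleRing B] [FiniteDimensional K B] [Algebra k B]
  [IsScalarTower k K B]

theorem exists_nc (hP : Pow K B) {m : ℕ} {Q : Type*} [Group Q] [Finite Q] (c : Um K B m →* Q) :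
    ∃ N : Subgroup (unitary B), NC K N ∧ ∀ x ∈ N, ∃ h : x ∈ Um K B m, c ⟨x, h⟩ = 1 := by
  let H : Subgroup (unitary B) := c.ker.map (Um K B m).subtype ⊓ SU K B
  obtain ⟨-, x, hx, g, hg, hne⟩ := hP m (Nat.card Q) Nat.card_pos.ne'
  refine ⟨H.normalCore, ⟨H.normalCore_le.trans inf_le_right,
    fun g _ x hx => H.normalCore_normal.conj_mem x hx g, _, fun b => ?_, g, hg, hne⟩,
    fun x hx => ?_⟩
  · have h1 : b * x * b⁻¹ ∈ SUm K B m := Subgroup.Normal.conj_mem inferInstance x hx b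
    rw [← conj_pow]
    exact ⟨⟨⟨_, h1.2⟩ ^ Nat.card Q, by rw [SetLike.mem_coe, MonoidHom.mem_ker, map_pow,
      pow_card_eq_one'], rfl⟩, pow_mem h1.1 _⟩
  · obtain ⟨⟨y, hy, rfl⟩, -⟩ := H.normalCore_le hx
    exact ⟨y.2, hy⟩

theorem exists_depth (hT : TLink k K B) (hf : (Tk k K B).Finite)
    (V : (v : Pl k) → Subgroup (SUc k K B (Kv v)))
    (hV : ∀ v, IsOpen (V v : Set (SUc k K B (Kv v)))) :
    ∃ m, ∀ g : SU K B, (g : unitary B) ∈ Um K B m → ∀ v ∈ Tk k K B, toG k K B (Kv v) g ∈ V v := by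
  have h : ∀ v ∈ Tk k K B, ∀ᶠ m in atTop, ∀ g : SU K B, (g : unitary B) ∈ Um K B m →
      toG k K B (Kv v) g ∈ V v := fun v hv => by
    have h1 := (hV v).mem_nhds (V v).one_mem
    rw [nhds_subtype_eq_comap, nhds_subtype_eq_comap, comap_comap, mem_comap] at h1
    obtain ⟨U, hU, hUV⟩ := h1
    obtain ⟨m, hm⟩ := (hT v hv).2.1 ((· + 1) ⁻¹' U)
      ((continuous_add_const _).continuousAt.preimage_mem_nhds (by simpa using hU))
    filter_upwards [eventually_ge_atTop m] with m' hm' g hg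
    have := hm _ fun w hw _ => Um_anti hm' hg w hw
    exact hUV (by simpa using this)
  obtain ⟨m, hm⟩ := ((eventually_all_finite hf).2 h).exists
  exact ⟨m, fun g hg v hv => hm v hv g hg⟩

theorem cont_conj {R : Type*} [CommRing R] [Algebra k R] [TopologicalSpace R] [IsTopologicalRing R]
    (r : k) (a : B) : Continuous fun y : BC k K B R =>
      r • (y * BC.inc k K B R a * star y - BC.inc k K B R a) := by
  simp only [← algebraMap_smul R r]
  fun_prop

theorem ev_At (Λ : Ord K B) (S : Finset (Pl k)) (r : k) (a : B) :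
    ∃ U ∈ 𝓝 (1 : GS k K B S), ∀ g : SU K B, jS k K B S g ∈ U → ∀ v ∈ S,
      ((g : unitary B) : B) ∈ Λ.At v ∧
      r • (((g : unitary B) : B) * a * star ((g : unitary B) : B) - a) ∈ Λ.At v := by
  choose U hU hUA using fun v : Pl k => At_nhds (K := K) (B := B) Λ v
  let ev : ∀ v : S, GS k K B S → BC k K B (Kv v.1) := fun v y => ((y.2 v : Uc k K B (Kv v.1)) : _)
  have hev : ∀ v, Continuous (ev v) := fun v => continuous_subtype_val.comp
    (continuous_subtype_val.comp ((continuous_apply v).comp continuous_snd))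
  have hnb : ∀ᶠ y : GS k K B S in 𝓝 1, ∀ v : S, ev v y - 1 ∈ U v ∧
      r • (ev v y * BC.inc k K B _ a * star (ev v y) - BC.inc k K B _ a) ∈ U v := by
    refine eventually_all.2 fun v => .and ?_ ?_
    · exact ((continuous_sub_right 1).comp (hev v)).tendsto' 1 0 (by simp [ev]) (hU v)
    · exact ((cont_conj r a).comp (hev v)).tendsto' 1 0 (by simp [ev]) (hU v)
  refine ⟨_, hnb, fun g hg v hv => ?_⟩
  obtain ⟨h2, h3⟩ := hg ⟨v, hv⟩
  have e : ev ⟨v, hv⟩ (jS k K B S g) = BC.inc k K B _ ((g : unitary B) : B) := rfl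
  rw [e] at h2 h3
  rw [← map_one (BC.inc k K B (Kv v)), ← map_sub] at h2
  rw [BC.star_inc, ← map_mul, ← map_mul, ← map_sub, ← map_smul] at h3
  exact ⟨by simpa using (Λ.At v).add_mem (hUA v _ h2) (Λ.At v).one_mem, hUA v _ h3⟩

theorem ev_res {S S' : Finset (Pl k)} (h : ∀ v ∈ S, v ∈ S') {W : Set (US k K B S)} (hW : W ∈ 𝓝 1) :
    ∃ U ∈ 𝓝 (1 : GS k K B S'), ∀ g : SU K B, jS k K B S' g ∈ U → jU k K B S g ∈ W := by
  let rs : GS k K B S' → US k K B S := fun y => (y.1, fun v => y.2 ⟨v, h v v.2⟩)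
  have hrs : Continuous rs := (continuous_subtype_val.comp continuous_fst).prodMk (continuous_pi
    fun v => continuous_subtype_val.comp ((continuous_apply _).comp continuous_snd))
  exact ⟨_, (hrs.continuousAt (x := 1)).preimage_mem_nhds hW, fun g hg => hg⟩

theorem of_closure {G H : Type*} [Group G] [Group H] [TopologicalSpace H] [IsTopologicalGroup H]
    (j : G →* H) {T : Set G} {g : G} (h : j g⁻¹ ∈ closure (j '' T)) {U : Set H} (hU : U ∈ 𝓝 1) :
    ∃ n ∈ T, j (g * n) ∈ U := by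
  have ht : Tendsto (fun y => j g * y) (𝓝 (j g⁻¹)) (𝓝 1) :=
    (continuous_const_mul (j g)).tendsto' _ _ (by rw [← map_mul, mul_inv_cancel, map_one])
  obtain ⟨_, hy, n, hn, rfl⟩ := mem_closure_iff_nhds.1 h _ (ht hU)
  exact ⟨n, hn, by rw [map_mul]; exact hy⟩

open scoped Classical in
/-- every colour of `M` is taken close to `1` in the congruence subgroups -/
theorem dens (hP : Pow K B) (hT : TLink k K B) (hf : (Tk k K B).Finite) (hA : Sa k K B)
    (Λ : Ord K B) {v₀ : Pl k} (s : Spl K B v₀) {S : Finset (Pl k)} (hS : v₀ ∉ S) {m : ℕ}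
    {Q : Type} [Group Q] [Finite Q] {c : Um K B m →* Q} {M : Subgroup Q} (hc : Col m c M) {f : Q}
    (hM : f ∈ M) (a : B) (r : k) {W : Set (US k K B S)} (hW : W ∈ 𝓝 1) :
    ∃ γ : Um K B m, (γ : unitary B) ∈ SU K B ∧ (γ : unitary B) ∈ Λ.GamU (insert v₀ S) ∧
      jU k K B S γ ∈ W ∧ c γ = f ∧ r • (((γ : unitary B) : B) * a * star ((γ : unitary B) : B) - a) ∈
        Λ.Off (insert v₀ S) := by
  obtain ⟨N, hN, hNc⟩ := exists_nc hP c
  obtain ⟨V, hVo, hV, hcl⟩ := hA N hN Λ v₀ ⟨s⟩
  obtain ⟨m', hm'⟩ := exists_depth hT hf V hVo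
  obtain ⟨⟨g, hgm⟩, hg, rfl⟩ := (hc.im _ (le_max_left m m')).ge hM
  have hg1 : g ∈ SU K B := hg.1
  have hg2 : g ∈ Um K B m' := Um_anti (le_max_right m m') hg.2
  obtain ⟨S', h0, hSS, hS'⟩ : ∃ S' : Finset (Pl k), v₀ ∉ S' ∧ (∀ v ∈ S, v ∈ S') ∧
      ∀ v ∉ S', v ≠ v₀ → (g : B) ∈ Λ.At v ∧ r • a ∈ Λ.At v :=
    ⟨(S ∪ (finite_not_At (k := k) Λ (g : B)).toFinset ∪
      (finite_not_At (k := k) Λ (r • a)).toFinset).erase v₀, Finset.notMem_erase _ _,
      fun v hv => Finset.mem_erase.2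
        ⟨fun h => hS (h ▸ hv), Finset.mem_union_left _ (Finset.mem_union_left _ hv)⟩,
      fun v hv h => by
        simp only [Finset.mem_erase, Finset.mem_union, Set.Finite.mem_toFinset, Set.mem_ofPred_eq,
          ne_eq, h, not_false_eq_true, true_and, not_or, not_not] at hv
        exact ⟨hv.1.2, hv.2⟩⟩
  have h2 : ∀ v, toG k K B (Kv v) (⟨g, hg1⟩ : SU K B)⁻¹ ∈ V v := fun v => by
    by_cases hv : v ∈ Tk k K B
    · exact hm' (⟨g, hg1⟩ : SU K B)⁻¹ (show g⁻¹ ∈ Um K B m' from inv_mem hg2) v hv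
    · rw [hV v hv]; trivial
  have h1 := hcl S' h0 (jS k K B S' (⟨g, hg1⟩ : SU K B)⁻¹) fun v => h2 v
  obtain ⟨U, hU, hUA⟩ := ev_At Λ S' r a
  obtain ⟨U', hU', hUW⟩ := ev_res hSS hW
  obtain ⟨n, ⟨hn1, hn2⟩, hy, hy'⟩ := of_closure _ h1 (inter_mem hU hU')
  obtain ⟨hnm, hnc⟩ := hNc n hn2
  have key : ∀ v ∉ insert v₀ S, ((g * n : unitary B) : B) ∈ Λ.At v ∧
      r • (((g * n : unitary B) : B) * a * star ((g * n : unitary B) : B) - a) ∈ Λ.At v := by
    intro v hv
    rw [Finset.mem_insert, not_or] at hv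
    by_cases hv' : v ∈ S'
    · exact hUA _ hy v hv'
    · obtain ⟨h1, h2⟩ := hS' v hv' hv.1
      have h3 : ((g * n : unitary B) : B) ∈ Λ.At v :=
        (Λ.At v).mul_mem h1 (Ord.mem_Off.1 hn1 v (by simp [hv.1, hv']))
      refine ⟨h3, ?_⟩
      rw [smul_sub, ← smul_mul_assoc, ← mul_smul_comm]
      exact sub_mem (mul_mem (mul_mem h3 h2) (Λ.star_mem_At v h3)) h2
  refine ⟨⟨g * n, mul_mem hgm hnm⟩, mul_mem hg1 n.2, Ord.mem_Off.2 fun v hv => (key v hv).1,
    hUW _ hy', ?_, Ord.mem_Off.2 fun v hv => (key v hv).2⟩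
  exact (c.map_mul ⟨g, hgm⟩ ⟨n, hnm⟩).trans (by rw [hnc, mul_one])

end Crest.Agent.T24.Na.D13
end
end

-- ▼ part T24/NaDens_13
section

/-! Row 24, module NA + TW (helper13): the field `dens` of the arithmetic system. -/

set_option autoImplicit false

noncomputable section

namespace Crest.Agent.T24.Na

open Module Csa Asa Filter Topology NumberField IsDedekindDomain

universe u v w

theorem iDensStmt : IDensStmt.{u, v, w} := fun D _ I h _ _ f hf a m hm W hW => by
  classical
  have hd : 2 ≤ deg D.K D.B := le_trans (by norm_num) h.hd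
  obtain ⟨U, hU, hU'⟩ := E24.near I hW
  obtain ⟨γ, p1, p2, p3, p4, p5⟩ := D13.dens (powStmt Loc.valStmt Loc.cofStmt D hd)
    (tLinkStmt D hd) (I.S.finite_toSet.subset h.T_sub) h.sa I.Λ I.s h.v0 h.col hf (a : D.B)
    (m : D.k)⁻¹ hU
  obtain ⟨q1, q2⟩ := hU' γ p3
  have h1 : star ((m : D.k)⁻¹ • (((γ : unitary D.B) • a - a : selfAdjoint D.B) : D.B)) =
      (m : D.k)⁻¹ • (((γ : unitary D.B) • a - a : selfAdjoint D.B) : D.B) := by
    rw [star_ksmul D.k D.K D.B, ((γ : unitary D.B) • a - a : selfAdjoint D.B).2]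
  refine ⟨⟨γ, p2⟩, ⟨(I.s.toSL ⟨γ, p1⟩).2, q2⟩, p4, ⟨_, h1⟩, p5, Subtype.ext ?_⟩
  change _ = (a : D.B) + m • ((m : D.k)⁻¹ • (_ - (a : D.B)))
  rw [← Nat.cast_smul_eq_nsmul D.k, smul_inv_smul₀ (Nat.cast_ne_zero.2 hm), add_sub_cancel]

end Crest.Agent.T24.Na
end
end

-- ▼ part T24/NaInstAll_3

/-! # Row 24, module NA + TW: the analytic step from orthogonality and strong approximation -/

set_option autoImplicit false

namespace Crest.Agent.T24.Na

universe u v w

theorem indep_of (hO : OrthStmt.{u, max u w, w}) (hS : SaStmt.{u, v, w}) : IndepStmt.{u, v, w} :=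
  indepStmt (absStmt (oneStmt mooreStmt) hO) hS iLatStmt iWtStmt iChartStmt iDensStmt iEscStmt iAdmStmt

end Crest.Agent.T24.Na
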