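import Crest.Agent.T24.NaOrDef_18
import Crest.Agent.T24.NaPos_84
import Mathlib
import Crest.Agent.T24.NaAbs_56
import Crest.Agent.T24.NaKoop_39
import Crest.Agent.T24.NaInd_39
import Crest.Agent.T24.NaMx_52

-- ▼ part T24/NaOrth_18
section

/-! Row 24, module NA + TW: orthogonality for different lines from the limit model (helper18). -/

set_option autoImplicit false
set_option linter.unusedSectionVars false

noncomputable section

namespace Crest.Agent.T24.Na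

open Topology Filter MeasureTheory
open scoped RealInnerProductSpace

universe u v w

namespace Or18

theorem lin_smul {k R : Type*} [Field k] [Ring R] [StarRing R] [Algebra k R] (g : Aff k R) (r : k)
    (a : R) : g.lin (r • a) = r • g.lin a := by
  simp only [Aff.lin, mul_smul_comm, smul_mul_assoc]
  rw [smul_comm]

theorem not_scalar {k R : Type*} [Field k] [Ring R] [StarRing R] [Algebra k R] {g g' : Aff k R}
    (h : g.Dif g') {b : R} (hb : g'.lin b = 1) (r : k) : g.lin b ≠ r • 1 := fun hr => by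
  have hu : IsUnit (star (g'.p : R)) := g'.p.isUnit.star
  have h1 : b * ((g'.κ : k) • ((g'.p : R) * star (g'.p : R))) = 1 := by
    apply hu.mul_left_cancel
    have := congrArg (· * star (g'.p : R)) hb
    simp only [Aff.lin, smul_mul_assoc, one_mul, mul_assoc] at this
    simp only [mul_smul_comm, mul_one, this]
  have h2 : (g.κ : k) • ((g.p : R) * star (g.p : R) * b) = r • 1 := by
    apply g.p.isUnit.mul_right_cancel
    have := congrArg ((g.p : R) * ·) hr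
    simp only [Aff.lin, mul_smul_comm, mul_one] at this
    simp only [smul_mul_assoc, one_mul, ← this, mul_assoc]
  apply h ((g.κ : k)⁻¹ * r * g'.κ)
  have h3 : (g.p : R) * star (g.p : R) * b = ((g.κ : k)⁻¹ * r) • 1 := by
    rw [mul_smul, ← h2, smul_smul, inv_mul_cancel₀ g.κ.ne_zero, one_smul]
  calc (g.p : R) * star (g.p : R)
      = (g.p : R) * star (g.p : R) * (b * ((g'.κ : k) • ((g'.p : R) * star (g'.p : R)))) := by
        rw [h1, mul_one]
    _ = _ := by rw [← mul_assoc, h3, smul_mul_assoc, one_mul, smul_smul]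

variable {S : Sys.{u, v, w}} {H : Type w} [NormedAddCommGroup H] [InnerProductSpace ℝ H]
  [CompleteSpace H]

theorem bd_lab {T : Type} [Finite T] {X : Type*} (φ : T → ℝ) (f : X → T) : Bd fun a => φ (f a) := by
  obtain ⟨C, hC⟩ := (Set.finite_range fun t => |φ t|).bddAbove
  exact ⟨C, fun a => hC ⟨f a, rfl⟩⟩

/-- label vectors are smooth along the scalars -/
theorem vec_mem (hS : S.Ok) (m : Mod S H) {F : S.Z → ℝ} (hF : Cc F) {h : S.X → ℝ} (hh : Bd h)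
    (hs : ∀ (a e : S.X) (r : S.k), (e : S.B) = r • 1 → h (a + e) = h a) :
    m.vec F h ∈ Pj.Sm m.T (S.Vx (S.k ∙ (1 : S.B)) ⊓ S.L₀) := fun η hη => by
  obtain ⟨n, hn⟩ := m.vec_T F h hF hh η hη
  refine ⟨S.N ^ n, pow_ne_zero _ hS.N_ne, fun e he => hn e he.2 fun a => ?_⟩
  obtain ⟨r, hr⟩ := Submodule.mem_span_singleton.1 (show (e : S.B) ∈ S.k ∙ (1 : S.B) from he.1)
  refine hs a _ (((S.N ^ n : ℕ) : S.k) * r) ?_
  rw [mul_smul, hr, Nat.cast_smul_eq_nsmul]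
  rfl

theorem sm_map {X : Type*} [AddCommGroup X] (T : Multiplicative X →* (H ≃ₗᵢ[ℝ] H))
    (W : H ≃ₗᵢ[ℝ] H) (α : X ≃+ X) (h : ∀ b x, W (Pj.tr T (α b) x) = Pj.tr T b (W x))
    {L : AddSubgroup X} {x : H} (hx : x ∈ Pj.Sm T L) :
    W x ∈ Pj.Sm T (L.comap α.toAddMonoidHom) := fun η hη => by
  obtain ⟨n, hn, h1⟩ := hx η hη
  refine ⟨n, hn, fun e he => ?_⟩
  rw [← h, ← map_sub, W.norm_map, map_nsmul]
  exact h1 _ he

end Or18

open Or18

theorem orthStmt (hM : ModStmt.{u, v, w}) (hJ : JgStmt.{u, v, w}) (hT : TypStmt.{u, v, w}) :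
    OrthStmt.{u, v, w} := by
  intro S hS T _ _ At hAt g g' hg hg' hd φ χ hφ β hβ hβd β₀ h0 h0' h0'' η hη
  by_contra hne
  rw [← eventually_curry_iff (p := fun i : ℕ × ℝ => |∑' a : S.X, S.w i.2 a * β (S.pos i.1 a) *
    (φ (At (g.ap a)) * χ (At (g'.ap a)))| ≤ η * ∫ z, β₀ (S.sc i.1 z) ∂S.lam), not_eventually,
    frequently_iff_neBot] at hne
  obtain ⟨𝒱, hV⟩ := Ultrafilter.exists_le _ (h := hne)
  obtain ⟨H, _, _, _, m, hm⟩ := hM S hS β₀ h0 h0' h0'' 𝒱 (hV.trans inf_le_left)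
  obtain ⟨W, σ, α, μ, hσ, hα, hμ, hWT, hWv⟩ := m.W g hg
  obtain ⟨W', σ', α', μ', hσ', hα', -, hWT', hWv'⟩ := m.W g' hg'
  have : LocallyCompactSpace (Mt S.d S.F) := Pi.locallyCompactSpace_of_finite
  obtain ⟨c, hc, -, -, hc1⟩ := P84.exists_bump hβ.2.isCompact
  have hF : Cc fun z => β (μ.symm z) := P84.cc_comp hβ μ.symm
  have hG : Cc fun z => c (μ'.symm z) := P84.cc_comp hc μ'.symm
  have hs : ∀ (a e : S.X) (r : S.k), (e : S.B) = r • 1 → At (a + e : S.X) = At a :=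
    fun a e r he => by rw [AddSubgroup.coe_add, he, hAt.tr]
  set x := m.vec (fun z => β (μ.symm z)) fun a : S.X => φ (At a) with hx
  set y := m.vec (fun z => c (μ'.symm z)) fun a : S.X => χ (At a) with hy
  set l := S.Vx (S.k ∙ (1 : S.B)) ⊓ S.L₀ with hl
  have x1 : x ∈ Pj.Sm m.T l := vec_mem hS m hF (bd_lab _ _) fun a e r he => by rw [hs a e r he]
  have y1 : y ∈ Pj.Sm m.T l := vec_mem hS m hG (bd_lab _ _) fun a e r he => by rw [hs a e r he]
  -- the plane spanned by the two lines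
  have hone : ∀ r : S.k, r • (1 : S.B) ∈ selfAdjoint S.B := fun r => by
    rw [selfAdjoint.mem_iff, hS.star_k, star_one]
  set b₀ : S.X := α'.symm ⟨1, by simpa using hone 1⟩ with hb₀
  have hb : g'.lin b₀ = 1 := by rw [← hα', hb₀, α'.apply_symm_apply]
  set V : Submodule S.k S.B := Submodule.span S.k {1, (α b₀ : S.B)} with hVd
  have hV0 : Pj.E m.T (S.Vx V ⊓ S.L₀) x = 0 := by
    have := hT S hS H m T At hAt φ (hJ S hS H m T At hAt φ hφ) V (fun z hz => by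
      obtain ⟨r, r', rfl⟩ := Submodule.mem_span_pair.1 hz
      rw [star_add, hS.star_k, hS.star_k, star_one, (α b₀).2.star_eq])
      (Submodule.subset_span (by simp))
      ⟨α b₀, Submodule.subset_span (by simp), fun r => hα b₀ ▸ not_scalar hd hb r⟩ _ hF
      (fun z hz => by
        have := hβd (μ.symm z) (tsupport_comp_subset_preimage β μ.symm.continuous hz)
        rwa [← hμ, μ.apply_symm_apply] at this) 1
    simpa only [inv_one, one_smul] using this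
  have key : ⟪W x, W' y⟫ = 0 := by
    refine Pj.inner_eq_zero m.T (sm_map m.T W α hWT x1) (sm_map m.T W' α' hWT' y1) ?_
    set L := l.comap α.toAddMonoidHom ⊔ l.comap α'.toAddMonoidHom with hL
    have e1 : (L.comap α.symm.toAddMonoidHom).map α.symm.toAddMonoidHom = L :=
      AddSubgroup.map_comap_eq_self_of_surjective α.symm.surjective _
    rw [Pj.E_conj m.T W α.symm (fun e v => by rw [← hWT, α.apply_symm_apply])
      (L := L.comap α.symm.toAddMonoidHom) (.of_le e1.le) (.of_le e1.ge)]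
    have e2 : Pj.Le (S.Vx V ⊓ S.L₀) (L.comap α.symm.toAddMonoidHom) := by
      refine .of_fg (Pj.fg_of_le hS.fg inf_le_right) fun e he => ?_
      obtain ⟨r, r', hr⟩ := Submodule.mem_span_pair.1 (show (e : S.B) ∈ V from he.1)
      obtain ⟨n, hn, h1⟩ := hS.full ⟨_, hone r⟩
      obtain ⟨n', hn', h1'⟩ := hS.full ⟨_, hone r'⟩
      have hl1 : ∀ (r : S.k) (j : ℕ), j • (⟨_, hone r⟩ : S.X) ∈ S.L₀ → j • (⟨_, hone r⟩ : S.X) ∈ l :=
        fun r j hj => ⟨AddSubgroup.nsmul_mem _ (show r • (1 : S.B) ∈ S.k ∙ (1 : S.B) from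
          Submodule.smul_mem _ _ (Submodule.mem_span_singleton_self _)) _, hj⟩
      have e3 : e = ⟨_, hone r⟩ + α (α'.symm ⟨_, hone r'⟩) := by
        have : α'.symm ⟨_, hone r'⟩ = ⟨r' • (b₀ : S.B), by
            rw [selfAdjoint.mem_iff, hS.star_k, b₀.2.star_eq]⟩ := by
          rw [AddEquiv.symm_apply_eq]
          exact Subtype.ext (by rw [hα', lin_smul, hb])
        refine Subtype.ext ?_
        rw [AddSubgroup.coe_add, this, hα, lin_smul, ← hα, hr]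
      refine ⟨n * n', mul_ne_zero hn hn', ?_⟩
      change α.symm ((n * n') • e) ∈ L
      rw [e3, smul_add, map_add]
      refine AddSubgroup.add_mem_sup ?_ ?_
      · change α (α.symm _) ∈ l
        rw [α.apply_symm_apply, mul_comm, mul_smul]
        exact l.nsmul_mem (hl1 r n h1) _
      · change α' (α.symm _) ∈ l
        rw [← map_nsmul, α.symm_apply_apply, map_nsmul, α'.apply_symm_apply, mul_smul]
        exact l.nsmul_mem (hl1 r' n' h1') _
    have e4 := Pj.E_eq m.T (Pj.Sm_anti m.T e2 (Pj.E_mem m.T (L.comap α.symm.toAddMonoidHom) x))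
    have e5 := Pj.inner_E_self m.T (L.comap α.symm.toAddMonoidHom) x
    rw [← e4, Pj.E_symm, hV0, inner_zero_right, e4] at e5
    rw [norm_eq_zero.1 (pow_eq_zero_iff two_ne_zero |>.1 e5.symm), map_zero]
  rw [hx, hy, hWv _ _ hF (bd_lab _ _), hWv' _ _ hG (bd_lab _ _)] at key
  simp only [Homeomorph.symm_apply_apply, hσ, hσ'] at key
  have lim := hm β c _ _ hβ hc (bd_lab φ fun a : S.X => At (g.ap a))
    (bd_lab χ fun a : S.X => At (g'.ap a))
  rw [key] at lim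
  have hβc : ∀ z, β z * c z = β z := fun z => by
    by_cases hz : z ∈ tsupport β
    · rw [hc1 z hz, mul_one]
    · rw [image_eq_zero_of_notMem_tsupport hz, zero_mul]
  simp only [hβc] at lim
  have h1 := (Metric.tendsto_nhds.1 lim η hη).and (hV.trans inf_le_right (mem_principal_self _))
  obtain ⟨i, h2, h3⟩ := h1.exists
  have := hS.haar
  have hpos : 0 < ∫ z, β₀ (S.sc i.1 z) ∂S.lam := by
    obtain ⟨z, hz⟩ := Function.ne_iff.1 h0''
    have hc := P84.cc_comp h0 (S.sc i.1).toHomeomorph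
    exact hc.1.integral_pos_of_hasCompactSupport_nonneg_nonzero hc.2 (fun z => h0' (S.sc i.1 z))
      (x := (S.sc i.1).symm z) (by simpa using hz)
  rw [dist_zero_right, Real.norm_eq_abs, abs_div, abs_of_pos hpos, div_lt_iff₀ hpos] at h2
  exact h3 h2.le

end Crest.Agent.T24.Na
end
end

-- ▼ part T24/NaUlt_34
section

/-!
# Row 24, module NA: the ultrapower of a real inner product space.
-/

set_option autoImplicit false
set_option linter.unusedSectionVars false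

noncomputable section

namespace Crest.Agent.T24.Na.Ul

open Filter Topology UniformSpace
open scoped RealInnerProductSpace

variable {J : Type*} (𝒰 : Ultrafilter J) {V : Type*} [NormedAddCommGroup V] [InnerProductSpace ℝ V]

/-- eventually bounded families -/
def Bd (ξ : J → V) : Prop := ∃ C : ℝ, ∀ᶠ j in 𝒰, ‖ξ j‖ ≤ C

variable {𝒰}

theorem Bd.zero : Bd 𝒰 (0 : J → V) := ⟨0, Eventually.of_forall fun _ => by simp⟩

theorem Bd.add {ξ η : J → V} (h : Bd 𝒰 ξ) (h' : Bd 𝒰 η) : Bd 𝒰 (ξ + η) := by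
  obtain ⟨C, h⟩ := h
  obtain ⟨C', h'⟩ := h'
  exact ⟨C + C', by
    filter_upwards [h, h'] with j a b using (norm_add_le _ _).trans (add_le_add a b)⟩

theorem Bd.smul (c : ℝ) {ξ : J → V} (h : Bd 𝒰 ξ) : Bd 𝒰 (c • ξ) := by
  obtain ⟨C, h⟩ := h
  exact ⟨‖c‖ * C, by
    filter_upwards [h] with j a
    rw [Pi.smul_apply, norm_smul]; exact mul_le_mul_of_nonneg_left a (norm_nonneg _)⟩

theorem Bd.sub {ξ η : J → V} (h : Bd 𝒰 ξ) (h' : Bd 𝒰 η) : Bd 𝒰 (ξ - η) := by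
  obtain ⟨C, h⟩ := h
  obtain ⟨C', h'⟩ := h'
  exact ⟨C + C', by
    filter_upwards [h, h'] with j a b using (norm_sub_le _ _).trans (add_le_add a b)⟩

theorem Bd.of_le {ξ η : J → V} (h : Bd 𝒰 ξ) (C : ℝ) (h' : ∀ᶠ j in 𝒰, ‖η j‖ ≤ C * ‖ξ j‖) :
    Bd 𝒰 η := by
  obtain ⟨D, h⟩ := h
  exact ⟨|C| * D, by
    filter_upwards [h, h'] with j a b
    exact b.trans ((mul_le_mul_of_nonneg_right (le_abs_self C) (norm_nonneg _)).trans
      (mul_le_mul_of_nonneg_left a (abs_nonneg _)))⟩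

theorem Bd.of_tendsto {ξ : J → V} {f : J → ℝ} {r : ℝ} (h : ∀ᶠ j in 𝒰, ‖ξ j‖ ^ 2 ≤ f j)
    (hf : Tendsto f 𝒰 (𝓝 r)) : Bd 𝒰 ξ :=
  ⟨|r| + 2, by
    filter_upwards [h, hf.eventually (gt_mem_nhds (show r < |r| + 1 by linarith [le_abs_self r]))]
      with j a b
    nlinarith [norm_nonneg (ξ j), abs_nonneg r]⟩

theorem exists_lim {f : J → ℝ} {C : ℝ} (h : ∀ᶠ j in 𝒰, |f j| ≤ C) :
    ∃ r, Tendsto f 𝒰 (𝓝 r) := by
  obtain ⟨r, -, hr⟩ := (isCompact_Icc (a := -C) (b := C)).ultrafilter_le_nhds (𝒰.map f)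
    (le_principal_iff.2 (by
      change ∀ᶠ j in 𝒰, f j ∈ Set.Icc (-C) C
      filter_upwards [h] with j a using abs_le.1 a))
  exact ⟨r, hr⟩

theorem exists_lim_inner {ξ η : J → V} (h : Bd 𝒰 ξ) (h' : Bd 𝒰 η) :
    ∃ r, Tendsto (fun j => ⟪ξ j, η j⟫) 𝒰 (𝓝 r) := by
  obtain ⟨C, h⟩ := h
  obtain ⟨C', h'⟩ := h'
  refine exists_lim (C := C * C') ?_
  filter_upwards [h, h'] with j a b
  exact (abs_real_inner_le_norm _ _).trans
    (mul_le_mul a b (norm_nonneg _) ((norm_nonneg _).trans a))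

variable (𝒰 V) in
/-- the space of eventually bounded families -/
def sub : Submodule ℝ (J → V) where
  carrier := {ξ | Bd 𝒰 ξ}
  zero_mem' := Bd.zero
  add_mem' := Bd.add
  smul_mem' c _ h := Bd.smul c h

variable (𝒰 V) in
/-- the pre-Hilbert space -/
def Pre : Type _ := sub 𝒰 V

instance : AddCommGroup (Pre 𝒰 V) := inferInstanceAs (AddCommGroup (sub 𝒰 V))
instance : Module ℝ (Pre 𝒰 V) := inferInstanceAs (Module ℝ (sub 𝒰 V))

/-- a bounded family as an element -/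
def pm (ξ : J → V) (h : Bd 𝒰 ξ) : Pre 𝒰 V := ⟨ξ, h⟩

/-- the limit inner product -/
def ip (ξ η : Pre 𝒰 V) : ℝ := limUnder 𝒰 fun j => ⟪ξ.1 j, η.1 j⟫

theorem tendsto_ip (ξ η : Pre 𝒰 V) : Tendsto (fun j => ⟪ξ.1 j, η.1 j⟫) 𝒰 (𝓝 (ip ξ η)) :=
  tendsto_nhds_limUnder (exists_lim_inner ξ.2 η.2)

instance core : PreInnerProductSpace.Core ℝ (Pre 𝒰 V) where
  inner := ip
  conj_inner_symm x y := by
    simp only [conj_trivial]
    exact tendsto_nhds_unique (tendsto_ip y x)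
      ((tendsto_ip x y).congr fun j => real_inner_comm _ _)
  re_inner_nonneg x := ge_of_tendsto' (tendsto_ip x x) fun _ => real_inner_self_nonneg
  add_left x y z := tendsto_nhds_unique (tendsto_ip (x + y) z)
    (((tendsto_ip x z).add (tendsto_ip y z)).congr fun j => (inner_add_left _ _ _).symm)
  smul_left x y r := tendsto_nhds_unique (tendsto_ip (r • x) y)
    (((tendsto_ip x y).const_mul r).congr fun j => (real_inner_smul_left _ _ _).symm)

instance : SeminormedAddCommGroup (Pre 𝒰 V) :=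
  InnerProductSpace.Core.toSeminormedAddCommGroup (𝕜 := ℝ)
instance : InnerProductSpace ℝ (Pre 𝒰 V) := InnerProductSpace.ofCore core

variable (𝒰 V) in
/-- the ultrapower -/
def UP : Type _ := Completion (Pre 𝒰 V)

instance : NormedAddCommGroup (UP 𝒰 V) := inferInstanceAs (NormedAddCommGroup (Completion (Pre 𝒰 V)))
instance : InnerProductSpace ℝ (UP 𝒰 V) :=
  inferInstanceAs (InnerProductSpace ℝ (Completion (Pre 𝒰 V)))
instance : CompleteSpace (UP 𝒰 V) := inferInstanceAs (CompleteSpace (Completion (Pre 𝒰 V)))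

/-- the class of an element of the pre-Hilbert space -/
def co (ξ : Pre 𝒰 V) : UP 𝒰 V := ((ξ : Pre 𝒰 V) : Completion (Pre 𝒰 V))

theorem co_add (ξ η : Pre 𝒰 V) : co (ξ + η) = co ξ + co η := Completion.coe_add ξ η
theorem inner_co (ξ η : Pre 𝒰 V) : ⟪co ξ, co η⟫ = ip ξ η := Completion.inner_coe ξ η
theorem norm_co (ξ : Pre 𝒰 V) : ‖co ξ‖ = ‖ξ‖ := Completion.norm_coe ξ
theorem dense_co : DenseRange (co : Pre 𝒰 V → UP 𝒰 V) := Completion.denseRange_coe

variable (𝒰) in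
open Classical in
/-- the class of a family (zero if it is not eventually bounded) -/
def mk (ξ : J → V) : UP 𝒰 V := if h : Bd 𝒰 ξ then co (pm ξ h) else 0

theorem mk_eq {ξ : J → V} (h : Bd 𝒰 ξ) : mk 𝒰 ξ = co (pm ξ h) := dif_pos h

theorem mk_val (ξ : Pre 𝒰 V) : mk 𝒰 ξ.1 = co ξ := mk_eq ξ.2

theorem mk_add {ξ η : J → V} (h : Bd 𝒰 ξ) (h' : Bd 𝒰 η) : mk 𝒰 (ξ + η) = mk 𝒰 ξ + mk 𝒰 η := by
  rw [mk_eq h, mk_eq h', mk_eq (h.add h'), ← co_add]; rfl


theorem mk_sub {ξ η : J → V} (h : Bd 𝒰 ξ) (h' : Bd 𝒰 η) : mk 𝒰 (ξ - η) = mk 𝒰 ξ - mk 𝒰 η := by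
  rw [eq_sub_iff_add_eq, ← mk_add (h.sub h') h', sub_add_cancel]


theorem tendsto_inner {ξ η : J → V} (h : Bd 𝒰 ξ) (h' : Bd 𝒰 η) :
    Tendsto (fun j => ⟪ξ j, η j⟫) 𝒰 (𝓝 ⟪mk 𝒰 ξ, mk 𝒰 η⟫) := by
  rw [mk_eq h, mk_eq h', inner_co]; exact tendsto_ip (pm ξ h) (pm η h')

theorem tendsto_norm_sq {ξ : J → V} (h : Bd 𝒰 ξ) :
    Tendsto (fun j => ‖ξ j‖ ^ 2) 𝒰 (𝓝 (‖mk 𝒰 ξ‖ ^ 2)) := by
  simpa only [real_inner_self_eq_norm_sq] using tendsto_inner h h

theorem tendsto_norm {ξ : J → V} (h : Bd 𝒰 ξ) :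
    Tendsto (fun j => ‖ξ j‖) 𝒰 (𝓝 ‖mk 𝒰 ξ‖) := by
  simpa only [Real.sqrt_sq (norm_nonneg _)] using (tendsto_norm_sq h).sqrt


theorem norm_mk_le_mul {ξ η : J → V} (h : Bd 𝒰 ξ) {C : ℝ} (h' : ∀ᶠ j in 𝒰, ‖η j‖ ≤ C * ‖ξ j‖) :
    ‖mk 𝒰 η‖ ≤ C * ‖mk 𝒰 ξ‖ :=
  le_of_tendsto_of_tendsto (tendsto_norm (h.of_le C h')) ((tendsto_norm h).const_mul C) h'


/-- families which are asymptotically equal have the same class -/
theorem mk_eq_of_tendsto {ξ η : J → V} (h : Bd 𝒰 ξ)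
    (h' : Tendsto (fun j => ‖η j - ξ j‖) 𝒰 (𝓝 0)) : Bd 𝒰 η ∧ mk 𝒰 η = mk 𝒰 ξ := by
  have h1 : Bd 𝒰 (η - ξ) := ⟨1, by
    filter_upwards [h'.eventually (gt_mem_nhds one_pos)] with j a using a.le⟩
  have h2 : Bd 𝒰 η := by simpa using h1.add h
  refine ⟨h2, ?_⟩
  rw [← sub_eq_zero, ← mk_sub h2 h, ← norm_eq_zero]
  exact tendsto_nhds_unique (tendsto_norm h1) h'

theorem mk_congr {ξ η : J → V} (h : ∀ᶠ j in 𝒰, ξ j = η j) : mk 𝒰 ξ = mk 𝒰 η := by
  by_cases hb : Bd 𝒰 η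
  · refine (mk_eq_of_tendsto hb (tendsto_const_nhds.congr' ?_)).2
    filter_upwards [h] with j a; simp [a]
  · rw [mk, mk, dif_neg hb, dif_neg]
    exact fun hb' => hb (hb'.of_le 1 (by filter_upwards [h] with j a; simp [a]))

theorem exists_mk (v : UP 𝒰 V) {η : ℝ} (hη : 0 < η) : ∃ ξ, Bd 𝒰 ξ ∧ ‖mk 𝒰 ξ - v‖ < η := by
  obtain ⟨ξ, h⟩ := dense_co.exists_dist_lt v hη
  exact ⟨ξ.1, ξ.2, by rw [mk_val, ← dist_eq_norm, dist_comm]; exact h⟩

/-- closed properties are checked on classes of families -/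
@[elab_as_elim] theorem ind {p : UP 𝒰 V → Prop} (v : UP 𝒰 V) (hp : IsClosed {v | p v})
    (h : ∀ ξ, Bd 𝒰 ξ → p (mk 𝒰 ξ)) : p v :=
  dense_co.induction_on v hp fun ξ => by have := h ξ.1 ξ.2; rwa [mk_val] at this

variable (𝒰) in
/-- an eventually bounded family of linear maps -/
def Ob (S : J → V →ₗ[ℝ] V) : Prop := ∃ C : ℝ, ∀ᶠ j in 𝒰, ∀ v, ‖S j v‖ ≤ C * ‖v‖

theorem Ob.bd {S : J → V →ₗ[ℝ] V} (hS : Ob 𝒰 S) {ξ : J → V} (h : Bd 𝒰 ξ) :
    Bd 𝒰 fun j => S j (ξ j) := by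
  obtain ⟨C, hC⟩ := hS
  exact h.of_le C (by filter_upwards [hC] with j a using a _)

/-- the operator on the pre-Hilbert space -/
def opP {S : J → V →ₗ[ℝ] V} (hS : Ob 𝒰 S) : Pre 𝒰 V →L[ℝ] Pre 𝒰 V :=
  LinearMap.mkContinuousOfExistsBound
    { toFun := fun ξ => pm (fun j => S j (ξ.1 j)) (hS.bd ξ.2)
      map_add' := fun ξ η => Subtype.ext (funext fun j => map_add (S j) _ _)
      map_smul' := fun c ξ => Subtype.ext (funext fun j => map_smul (S j) _ _) }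
    (by
      obtain ⟨C, hC⟩ := id hS
      refine ⟨C, fun ξ => ?_⟩
      have := norm_mk_le_mul (η := fun j => S j (ξ.1 j)) ξ.2 (C := C)
        (by filter_upwards [hC] with j a using a _)
      rwa [mk_eq (hS.bd ξ.2), mk_val, norm_co, norm_co] at this)

/-- the operator on the completion -/
def opC {S : J → V →ₗ[ℝ] V} (hS : Ob 𝒰 S) : UP 𝒰 V →L[ℝ] UP 𝒰 V := (opP hS).completion

variable (𝒰) in
open Classical in
/-- the operator defined by a family (zero if it is not eventually bounded) -/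
def op (S : J → V →ₗ[ℝ] V) : UP 𝒰 V →L[ℝ] UP 𝒰 V :=
  if h : Ob 𝒰 S then opC h else 0

theorem op_mk {S : J → V →ₗ[ℝ] V} (hS : Ob 𝒰 S) {ξ : J → V} (h : Bd 𝒰 ξ) :
    op 𝒰 S (mk 𝒰 ξ) = mk 𝒰 fun j => S j (ξ j) := by
  rw [op, dif_pos hS, mk_eq h, mk_eq (hS.bd h)]
  exact ContinuousLinearMap.completion_apply_coe (opP hS) (pm ξ h)



theorem ob_iso (U : V ≃ₗᵢ[ℝ] V) : Ob 𝒰 fun _ => U.toLinearEquiv.toLinearMap :=
  ⟨1, Eventually.of_forall fun _ v => by simp⟩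

theorem Bd.iso (U : V ≃ₗᵢ[ℝ] V) {ξ : J → V} (h : Bd 𝒰 ξ) : Bd 𝒰 fun j => U (ξ j) :=
  (ob_iso U).bd h

variable (𝒰) in
/-- a fixed isometry acts on the ultrapower -/
def iso (U : V ≃ₗᵢ[ℝ] V) : UP 𝒰 V ≃ₗᵢ[ℝ] UP 𝒰 V where
  toFun := op 𝒰 fun _ => U.toLinearEquiv.toLinearMap
  invFun := op 𝒰 fun _ => U.symm.toLinearEquiv.toLinearMap
  map_add' := map_add _
  map_smul' := map_smul _
  left_inv v := by
    refine ind v (isClosed_eq (by fun_prop) (by fun_prop)) fun ξ h => ?_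
    rw [op_mk (ob_iso U) h, op_mk (ob_iso U.symm) ((ob_iso U).bd h)]
    simp
  right_inv v := by
    refine ind v (isClosed_eq (by fun_prop) (by fun_prop)) fun ξ h => ?_
    rw [op_mk (ob_iso U.symm) h, op_mk (ob_iso U) ((ob_iso U.symm).bd h)]
    simp
  norm_map' v := by
    change ‖op 𝒰 (fun _ => U.toLinearEquiv.toLinearMap) v‖ = ‖v‖
    refine ind v (isClosed_eq (by fun_prop) (by fun_prop)) fun ξ h => ?_
    rw [op_mk (ob_iso U) h]
    exact tendsto_nhds_unique (tendsto_norm ((ob_iso U).bd h))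
      ((tendsto_norm h).congr fun j => by simp)

theorem iso_mk (U : V ≃ₗᵢ[ℝ] V) {ξ : J → V} (h : Bd 𝒰 ξ) :
    iso 𝒰 U (mk 𝒰 ξ) = mk 𝒰 fun j => U (ξ j) := op_mk (ob_iso U) h

variable (𝒰) in
/-- isometries act on the ultrapower -/
def isoHom : (V ≃ₗᵢ[ℝ] V) →* (UP 𝒰 V ≃ₗᵢ[ℝ] UP 𝒰 V) where
  toFun := iso 𝒰
  map_one' := by
    ext v
    refine ind v (isClosed_eq (by fun_prop) (by fun_prop)) fun ξ h => ?_
    rw [iso_mk _ h]; rfl
  map_mul' U U' := by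
    ext v
    refine ind v (isClosed_eq (by fun_prop) (by fun_prop)) fun ξ h => ?_
    rw [LinearIsometryEquiv.coe_mul, Function.comp_apply, iso_mk _ h, iso_mk _ h,
      iso_mk _ (h.iso U')]
    rfl

theorem isoHom_mk (U : V ≃ₗᵢ[ℝ] V) {ξ : J → V} (h : Bd 𝒰 ξ) :
    isoHom 𝒰 U (mk 𝒰 ξ) = mk 𝒰 fun j => U (ξ j) := iso_mk U h


/-! ### square summable functions -/

section L2
variable {Y : Type*}

/-- square summable real functions -/
abbrev L2 (Y : Type*) : Type _ := lp (fun _ : Y => ℝ) 2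

theorem mem_iff {f : Y → ℝ} : Memℓp f 2 ↔ Summable fun y => f y ^ 2 := by
  rw [memℓp_gen_iff (by norm_num)]
  simp

theorem summable_sq (f : L2 Y) : Summable fun y => f y ^ 2 := mem_iff.1 f.2

theorem norm_sq_eq (f : L2 Y) : ‖f‖ ^ 2 = ∑' y, f y ^ 2 := by
  have := lp.norm_rpow_eq_tsum (p := 2) (by norm_num) f
  simpa using this

theorem inner_eq (f g : L2 Y) : ⟪f, g⟫ = ∑' y, f y * g y := by
  rw [lp.inner_eq_tsum]; simp [mul_comm]

theorem norm_le_of {f g : L2 Y} {C : ℝ} (hC : 0 ≤ C) (h : ∀ y, |f y| ≤ C * |g y|) :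
    ‖f‖ ≤ C * ‖g‖ := by
  refine abs_le_of_sq_le_sq' ?_ (by positivity) |>.2
  rw [mul_pow, norm_sq_eq, norm_sq_eq, ← tsum_mul_left]
  refine (summable_sq f).tsum_le_tsum (fun y => ?_) ((summable_sq g).mul_left _)
  rw [← mul_pow, ← sq_abs (f y), ← sq_abs (C * g y), abs_mul, abs_of_nonneg hC]
  exact pow_le_pow_left₀ (abs_nonneg _) (h y) 2

open Classical in
/-- a function as a vector (zero if it is not square summable) -/
def vc (f : Y → ℝ) : L2 Y := if h : Summable fun y => f y ^ 2 then ⟨f, mem_iff.2 h⟩ else 0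

theorem vc_apply {f : Y → ℝ} (h : Summable fun y => f y ^ 2) (y : Y) : vc f y = f y := by
  rw [vc, dif_pos h]

theorem summable_of_le {f : Y → ℝ} (g : L2 Y) (C : ℝ) (h : ∀ y, |f y| ≤ C * |g y|) :
    Summable fun y => f y ^ 2 :=
  ((summable_sq g).mul_left (C ^ 2)).of_nonneg_of_le (fun _ => sq_nonneg _) fun y => by
    rw [← mul_pow, ← sq_abs (f y), ← sq_abs (C * g y), abs_mul]
    exact pow_le_pow_left₀ (abs_nonneg _)
      ((h y).trans (mul_le_mul_of_nonneg_right (le_abs_self C) (abs_nonneg _))) 2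

/-- multiplication by a bounded function -/
def mulL (m : Y → ℝ) (C : ℝ) (h : ∀ y, |m y| ≤ C) : L2 Y →ₗ[ℝ] L2 Y where
  toFun f := ⟨fun y => m y * f y, mem_iff.2 (summable_of_le f C fun y => by
    rw [abs_mul]; exact mul_le_mul_of_nonneg_right (h y) (abs_nonneg _))⟩
  map_add' f g := by ext y; exact mul_add _ _ _
  map_smul' c f := by ext y; exact mul_left_comm _ _ _

@[simp] theorem mulL_apply (m : Y → ℝ) (C : ℝ) (h : ∀ y, |m y| ≤ C) (f : L2 Y) (y : Y) :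
    mulL m C h f y = m y * f y := rfl

theorem norm_mulL_le (m : Y → ℝ) {C : ℝ} (hC : 0 ≤ C) (h : ∀ y, |m y| ≤ C) (f : L2 Y) :
    ‖mulL m C h f‖ ≤ C * ‖f‖ :=
  norm_le_of hC fun y => by
    rw [mulL_apply, abs_mul]; exact mul_le_mul_of_nonneg_right (h y) (abs_nonneg _)


/-- composition with a bijection -/
def cmp (σ : Y ≃ Y) : L2 Y ≃ₗᵢ[ℝ] L2 Y where
  toFun f := ⟨fun y => f (σ y), mem_iff.2 ((σ.summable_iff (f := fun y => f y ^ 2)).2 (summable_sq f))⟩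
  invFun f := ⟨fun y => f (σ.symm y),
    mem_iff.2 ((σ.symm.summable_iff (f := fun y => f y ^ 2)).2 (summable_sq f))⟩
  map_add' f g := by ext y; rfl
  map_smul' c f := by ext y; rfl
  left_inv f := by ext y; simp
  right_inv f := by ext y; simp
  norm_map' f := by
    refine (sq_eq_sq₀ (norm_nonneg _) (norm_nonneg _)).1 ?_
    rw [norm_sq_eq, norm_sq_eq]
    exact σ.tsum_eq fun y => f y ^ 2

@[simp] theorem cmp_apply (σ : Y ≃ Y) (f : L2 Y) (y : Y) : cmp σ f y = f (σ y) := rfl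

end L2

end Crest.Agent.T24.Na.Ul
end
end

-- ▼ part T24/NaUl2_34
section

/-!
# Row 24, module NA: ultrapowers exist; the calculus of the projections `EV`.
-/

set_option autoImplicit false
set_option linter.unusedSectionVars false

noncomputable section

namespace Crest.Agent.T24.Na

open Filter Topology MeasureTheory
open scoped RealInnerProductSpace

universe u v w

namespace Ul

theorem vc_coe {Y : Type*} (f : L2 Y) : vc (f : Y → ℝ) = f := by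
  ext y; exact vc_apply (summable_sq f) y

/-- permutations act on `ℓ²` -/
def cmpHom (Y : Type*) : Equiv.Perm Y →* (L2 Y ≃ₗᵢ[ℝ] L2 Y) where
  toFun σ := cmp σ.symm
  map_one' := by ext f y; rfl
  map_mul' σ τ := by ext f y; rfl

open Classical in
/-- multiplication by a function (zero if it is not bounded) -/
def mulF {Y : Type*} (m : Y → ℝ) : L2 Y →ₗ[ℝ] L2 Y :=
  if h : ∃ C, ∀ y, |m y| ≤ C then mulL m h.choose h.choose_spec else 0

theorem mulF_eq {Y : Type*} {m : Y → ℝ} {C : ℝ} (h : ∀ y, |m y| ≤ C) : mulF m = mulL m C h := by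
  rw [mulF, dif_pos ⟨C, h⟩]; rfl

theorem bd_vc {I X : Type*} {𝒱 : Ultrafilter I} {ξ : I → X → ℝ} (h : Bf 𝒱 ξ) :
    Bd 𝒱 fun i => vc (ξ i) := by
  obtain ⟨C, h⟩ := h
  refine Bd.of_tendsto (f := fun _ => C) ?_ tendsto_const_nhds
  filter_upwards [h] with i a
  rw [norm_sq_eq]
  simpa only [vc_apply a.1] using a.2

end Ul

open Ul in
theorem ultStmt : UltStmt.{w} := fun I X 𝒱 => by
  refine ⟨UP 𝒱 (L2 X), inferInstance, inferInstance, inferInstance, ⟨{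
    cl := fun ξ => mk 𝒱 fun i => vc (ξ i)
    P := (isoHom 𝒱).comp (cmpHom X)
    Mu := fun μ => op 𝒱 fun i => mulF (μ i)
    inn := fun ξ η hξ hη => ?_
    dense := ?_
    P_cl := fun σ ξ hξ => ?_
    Mu_cl := fun μ C ξ hμ hξ => ?_ }⟩⟩
  · refine (tendsto_inner (bd_vc hξ) (bd_vc hη)).congr' ?_
    obtain ⟨C, hξ⟩ := hξ
    obtain ⟨C', hη⟩ := hη
    filter_upwards [hξ, hη] with i a b
    rw [inner_eq]
    simp only [vc_apply a.1, vc_apply b.1]
  · refine Metric.dense_iff.2 fun v η hη => ?_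
    obtain ⟨ξ, ⟨C, hC⟩, h⟩ := exists_mk v hη
    refine ⟨mk 𝒱 ξ, by rwa [Metric.mem_ball, dist_eq_norm], fun i => ξ i, ⟨C ^ 2, ?_⟩, ?_⟩
    · filter_upwards [hC] with i a
      exact ⟨summable_sq _, by rw [← norm_sq_eq]; exact pow_le_pow_left₀ (norm_nonneg _) a 2⟩
    · simp only [vc_coe]
  · rw [MonoidHom.comp_apply, isoHom_mk _ (bd_vc hξ)]
    obtain ⟨C, hξ⟩ := hξ
    refine mk_congr ?_
    filter_upwards [hξ] with i a
    ext y
    rw [vc_apply ((σ.symm.summable_iff (f := fun y => ξ i y ^ 2)).2 a.1)]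
    exact vc_apply a.1 _
  · have hO : Ob 𝒱 fun i => mulF (μ i) := ⟨|C|, by
      filter_upwards [hμ] with i a v
      rw [mulF_eq fun y => (a y).trans (le_abs_self C)]
      exact norm_mulL_le _ (abs_nonneg C) _ v⟩
    rw [op_mk hO (bd_vc hξ)]
    obtain ⟨C', hξ⟩ := hξ
    refine mk_congr ?_
    filter_upwards [hξ, hμ] with i a b
    ext y
    rw [mulF_eq b, mulL_apply, vc_apply a.1, vc_apply]
    refine summable_of_le (vc (ξ i)) C fun y => ?_
    rw [vc_apply a.1, abs_mul]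
    exact mul_le_mul_of_nonneg_right (b y) (abs_nonneg _)

namespace Pj

section
variable {H : Type*} [NormedAddCommGroup H] [InnerProductSpace ℝ H] [CompleteSpace H]
  {X : Type*} [AddCommGroup X] (T : Multiplicative X →* (H ≃ₗᵢ[ℝ] H)) {L₀ : AddSubgroup X}

/-- a finitely generated full subgroup -/
structure Lt (L₀ : AddSubgroup X) : Prop where
  fg : L₀.FG
  full : ∀ b : X, ∃ m : ℕ, m ≠ 0 ∧ m • b ∈ L₀

theorem fg_map {L : AddSubgroup X} (h : L.FG) (f : X →+ X) : (L.map f).FG := by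
  classical
  obtain ⟨s, rfl⟩ := h
  exact ⟨s.image f, by rw [Finset.coe_image, AddMonoidHom.map_closure]⟩

theorem Lt.fg_inf (h : Lt L₀) (V : AddSubgroup X) : (V ⊓ L₀).FG := fg_of_le h.fg inf_le_right

/-- the projection of type `V` -/
abbrev EV (L₀ V : AddSubgroup X) : H →L[ℝ] H := E T (V ⊓ L₀)

theorem EV_mul (h : Lt L₀) (V W : AddSubgroup X) (v : H) :
    EV T L₀ V (EV T L₀ W v) = EV T L₀ (V ⊔ W) v := by
  refine E_mul' T (.of_le (sup_le (inf_le_inf_right _ le_sup_left) (inf_le_inf_right _ le_sup_right)))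
    (Le.of_fg (h.fg_inf _) fun e he => ?_) v
  obtain ⟨x, hx, y, hy, rfl⟩ := AddSubgroup.mem_sup.1 he.1
  obtain ⟨m, hm, h1⟩ := h.full x
  obtain ⟨n, hn, h2⟩ := h.full y
  refine ⟨m * n, mul_ne_zero hm hn, ?_⟩
  rw [smul_add]
  refine AddSubgroup.add_mem_sup ⟨V.nsmul_mem hx _, ?_⟩ ⟨W.nsmul_mem hy _, ?_⟩
  · rw [mul_comm, mul_smul]; exact L₀.nsmul_mem h1 n
  · rw [mul_smul]; exact L₀.nsmul_mem h2 m


theorem sum_EV_le (h : Lt L₀) {ι : Type*} (s : Finset ι) (V : ι → AddSubgroup X) (v : H)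
    (h0 : ∀ i ∈ s, ∀ j ∈ s, i ≠ j → EV T L₀ (V i ⊔ V j) v = 0) :
    ∑ i ∈ s, ‖EV T L₀ (V i) v‖ ^ 2 ≤ ‖v‖ ^ 2 :=
  bessel s (fun i => EV T L₀ (V i) v) v (fun i _ => inner_E_self T _ v) fun i hi j hj hne => by
    rw [E_symm, EV_mul T h, h0 i hi j hj hne, inner_zero_right]

theorem EV_comm (S : H →L[ℝ] H) (hS : ∀ x y, ⟪S x, y⟫ = ⟪x, S y⟫)
    (hc : ∀ η : ℝ, 0 < η → ∃ n : ℕ, n ≠ 0 ∧ ∀ e ∈ L₀, ∀ v,
      ‖tr T (n • e) (S v) - S (tr T (n • e) v)‖ ≤ η * ‖v‖) (V : AddSubgroup X) (v : H) :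
    EV T L₀ V (S v) = S (EV T L₀ V v) := by
  refine E_comm T S hS (fun η hη => ?_) v
  obtain ⟨n, hn, hc⟩ := hc η hη
  exact ⟨n, hn, fun e he => hc e he.2⟩

theorem EV_conj (h : Lt L₀) (U : H ≃ₗᵢ[ℝ] H) (α : X ≃+ X)
    (hU : ∀ b x, U (tr T (α b) x) = tr T b (U x)) {V V' : AddSubgroup X}
    (hV : ∀ b, α b ∈ V' ↔ b ∈ V) (v : H) : EV T L₀ V (U v) = U (EV T L₀ V' v) := by
  refine E_conj T U α.symm (fun e x => ?_) (Le.of_fg (fg_map (h.fg_inf V') _) ?_)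
    (Le.of_fg (h.fg_inf V) fun e he => ?_) v
  · have := hU (α.symm e) x
    rwa [α.apply_symm_apply] at this
  · rintro _ ⟨e, he, rfl⟩
    obtain ⟨n, hn, h1⟩ := h.full (α.symm e)
    exact ⟨n, hn, V.nsmul_mem ((hV _).1 (by simpa using he.1)) n, h1⟩
  · obtain ⟨n, hn, h1⟩ := h.full (α e)
    exact ⟨n, hn, n • α e, ⟨V'.nsmul_mem ((hV e).2 he.1) n, h1⟩, by simp⟩

end

variable {S : Sys.{u, v, w}} {H : Type w} [NormedAddCommGroup H] [InnerProductSpace ℝ H]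
  [CompleteSpace H]

theorem lt_of (h : S.Ok) : Lt S.L₀ := ⟨h.fg, h.full⟩

/-- conjugation as an additive automorphism -/
def cjA (γ : S.Γ) : S.X ≃+ S.X :=
  { S.cjP γ with
    map_add' := fun a b => Subtype.ext (by
      change ((((γ : S.U₀) : unitary S.B) • (a + b) : S.X) : S.B) =
        ((((γ : S.U₀) : unitary S.B) • a : S.X) : S.B) + ((((γ : S.U₀) : unitary S.B) • b : S.X) : S.B)
      simp only [coe_cj, AddSubgroup.coe_add, mul_add, add_mul]) }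


theorem EV_M (h : S.Ok) (m : Mod S H) {F : S.Z → ℝ} (hF : Cc F) (V : AddSubgroup S.X) (x : H) :
    EV m.T S.L₀ V (m.M F x) = m.M F (EV m.T S.L₀ V x) :=
  EV_comm m.T _ (m.M_adj F hF) (fun η hη => by
    obtain ⟨n, hn⟩ := m.M_T F hF η hη
    exact ⟨_, pow_ne_zero n h.N_ne, hn⟩) V x

theorem EV_J (h : S.Ok) (m : Mod S H) (γ : S.Γ) {V V' : AddSubgroup S.X}
    (hV : ∀ b, S.cjP γ b ∈ V' ↔ b ∈ V) (x : H) : EV m.T S.L₀ V (m.J γ x) = m.J γ (EV m.T S.L₀ V' x) :=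
  EV_conj m.T (lt_of h) _ (cjA γ) (m.J_T γ) hV x


theorem bd_lab {T : Type} [Finite T] (φ : T → ℝ) : ∃ C, ∀ t, |φ t| ≤ C := by
  obtain ⟨C, hC⟩ := (Set.finite_range fun t => |φ t|).bddAbove
  exact ⟨C, fun t => hC ⟨t, rfl⟩⟩

end Pj

end Crest.Agent.T24.Na
end
end

-- ▼ part T24/NaTyp_34
section

/-!
# Row 24, module NA: the intermediate types vanish (`TypStmt`).
-/

set_option autoImplicit false
set_option linter.unusedSectionVars false

noncomputable section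

namespace Crest.Agent.T24.Na

open Filter Topology MeasureTheory Module
open scoped RealInnerProductSpace

universe u v w

namespace T34

section Cj
variable {k R : Type*} [Field k] [Ring R] [StarRing R] [Algebra k R]

/-- conjugation as a linear equivalence -/
def cjE (u : unitary R) : R ≃ₗ[k] R :=
  { (LinearMap.mulRight k (star (u : R))).comp (LinearMap.mulLeft k (u : R)) with
    invFun := fun y => star (u : R) * y * u
    left_inv := fun y => by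
      change star (u : R) * ((u : R) * y * star (u : R)) * u = y
      rw [← mul_assoc, ← mul_assoc, u.2.1, one_mul, mul_assoc, u.2.1, mul_one]
    right_inv := fun y => by
      change (u : R) * (star (u : R) * y * u) * star (u : R) = y
      rw [← mul_assoc, ← mul_assoc, u.2.2, one_mul, mul_assoc, u.2.2, mul_one] }

theorem cjE_apply (u : unitary R) (y : R) : cjE (k := k) u y = (u : R) * y * star (u : R) := rfl


theorem cj_mem {u : unitary R} {V : Submodule k R} {y : R} :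
    (u : R) * y * star (u : R) ∈ cjV u V ↔ y ∈ V :=
  ⟨fun ⟨_, hz, e⟩ => (cjE (k := k) u).injective e ▸ hz, fun h => ⟨y, h, rfl⟩⟩

theorem cjV_one (V : Submodule k R) : cjV 1 V = V := by
  ext y
  simpa using cj_mem (u := (1 : unitary R)) (V := V) (y := y)

theorem cjV_mul (u u' : unitary R) (V : Submodule k R) : cjV (u * u') V = cjV u (cjV u' V) := by
  ext y
  obtain ⟨y, rfl⟩ := (cjE (k := k) (u * u')).surjective y
  rw [cjE_apply, cj_mem, show ((u * u' : unitary R) : R) * y * star ((u * u' : unitary R) : R) =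
    u * (u' * y * star (u' : R)) * star (u : R) by simp [mul_assoc], cj_mem, cj_mem]

/-- hermitian subspaces which strictly contain the scalars -/
structure Gd (V : Submodule k R) : Prop where
  herm : ∀ y ∈ V, star y = y
  one : 1 ∈ V
  ns : ∃ y ∈ V, ∀ r : k, y ≠ r • 1

theorem Gd.sup {V W : Submodule k R} (h : Gd V) (h' : Gd W) : Gd (V ⊔ W) where
  herm y hy := by
    obtain ⟨a, ha, b, hb, rfl⟩ := Submodule.mem_sup.1 hy
    rw [star_add, h.herm a ha, h'.herm b hb]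
  one := Submodule.mem_sup_left h.one
  ns := let ⟨y, hy, h1⟩ := h.ns; ⟨y, Submodule.mem_sup_left hy, h1⟩

theorem star_cj (u : unitary R) {y : R} (h : star y = y) :
    star ((u : R) * y * star (u : R)) = (u : R) * y * star (u : R) := by
  simp [h, mul_assoc]

theorem Gd.cj {V : Submodule k R} (h : Gd V) (u : unitary R) : Gd (cjV u V) where
  herm := by rintro _ ⟨y, hy, rfl⟩; exact star_cj u (h.herm y hy)
  one := by simpa [u.2.2] using (cj_mem (u := u)).2 h.one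
  ns := by
    obtain ⟨y, hy, h1⟩ := h.ns
    refine ⟨_, cj_mem.2 hy, fun r e => h1 r ((cjE (k := k) u).injective ?_)⟩
    rw [cjE_apply, e, map_smul, cjE_apply, mul_one, u.2.2]

variable (k R) in
/-- the proper types of dimension `r` -/
def Ty (r : ℕ) : Type _ :=
  {V : Submodule k R // Gd V ∧ (∃ y, star y = y ∧ y ∉ V) ∧ finrank k V = r}

instance (r : ℕ) : MulAction (unitary R) (Ty k R r) where
  smul u V := ⟨cjV u V.1, V.2.1.cj u,
    let ⟨_, h1, h2⟩ := V.2.2.1; ⟨_, star_cj u h1, fun h => h2 (cj_mem.1 h)⟩,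
    ((cjE u).finrank_map_eq V.1).trans V.2.2.2⟩
  one_smul V := Subtype.ext (cjV_one V.1)
  mul_smul u u' V := Subtype.ext (cjV_mul u u' V.1)


instance [FiniteDimensional k R] [Countable R] (r : ℕ) : Countable (Ty k R r) := by
  have : Countable (Submodule k R) :=
    Function.Surjective.countable (f := fun s : Finset R => Submodule.span k (s : Set R))
      fun V => IsNoetherian.noetherian V
  exact Subtype.countable

end Cj

theorem cc_sqrt {X : Type*} [TopologicalSpace X] {φ : X → ℝ} (h : Cc φ) : Cc fun x => √(φ x) :=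
  ⟨h.1.sqrt, h.2.mono fun x hx h0 => hx (by simp [h0])⟩

theorem tsupport_sqrt {X : Type*} [TopologicalSpace X] (φ : X → ℝ) :
    tsupport (fun x => √(φ x)) ⊆ tsupport φ :=
  closure_mono fun x hx h0 => hx (by simp [h0])

theorem sqrt_mul {X : Type*} {φ : X → ℝ} (h : 0 ≤ φ) :
    (fun x => √(φ x)) * (fun x => √(φ x)) = φ := funext fun x => Real.mul_self_sqrt (h x)

variable {S : Sys.{u, v, w}} {H : Type w} [NormedAddCommGroup H] [InnerProductSpace ℝ H]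
  [CompleteSpace H]

instance : LocallyCompactSpace (Mt S.d S.F) :=
  inferInstanceAs (LocallyCompactSpace (Fin S.d → Fin S.d → S.F))

theorem exists_one {K : Set S.Z} (hK : IsCompact K) :
    ∃ G : S.Z → ℝ, Cc G ∧ ∀ F : S.Z → ℝ, tsupport F ⊆ K → G * F = F := by
  obtain ⟨χ, h1, -, -, h2⟩ := P84.exists_bump hK
  refine ⟨χ, h1, fun F hF => funext fun z => ?_⟩
  by_cases hz : F z = 0
  · simp [hz]
  · simp [h2 z (hF (subset_tsupport _ hz))]

open Classical in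
/-- a test function equal to one on the support of `F` -/
def bmp (F : S.Z → ℝ) : S.Z → ℝ :=
  if h : Cc F then (exists_one h.2.isCompact).choose else 0

theorem bmp_spec {F : S.Z → ℝ} (h : Cc F) : Cc (bmp F) ∧ bmp F * F = F := by
  rw [bmp, dif_pos h]
  exact ⟨(exists_one h.2.isCompact).choose_spec.1,
    (exists_one h.2.isCompact).choose_spec.2 F subset_rfl⟩

variable (m : Mod S H) (f : S.Q → S.X → ℝ)

/-- the bilinear form of type `V` -/
def Bl [Fintype S.Q] (V : AddSubgroup S.X) (F G : S.Z → ℝ) : ℝ :=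
  ∑ q, ⟪Pj.EV m.T S.L₀ V (m.vec F (f q)), m.vec G (f q)⟫

/-- the functional of type `V` -/
def mu [Fintype S.Q] (V : AddSubgroup S.X) (F : S.Z → ℝ) : ℝ := Bl m f V F (bmp F)

variable {m f} [Fintype S.Q] (h : S.Ok) (hf : ∀ q, Bd (f q))
include h hf

theorem Bl_mul (V : AddSubgroup S.X) {ρ F G : S.Z → ℝ} (hρ : Cc ρ) (hF : Cc F) (hG : Cc G) :
    Bl m f V (ρ * F) G = Bl m f V F (ρ * G) :=
  Finset.sum_congr rfl fun q _ => by
    rw [← m.M_vec ρ F _ hρ hF (hf q), Pj.EV_M h m hρ, m.M_adj ρ hρ, m.M_vec ρ G _ hρ hG (hf q)]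

theorem mu_eq (V : AddSubgroup S.X) {F G : S.Z → ℝ} (hF : Cc F) (hG : Cc G) (e : G * F = F) :
    mu m f V F = Bl m f V F G := by
  obtain ⟨h1, h2⟩ := bmp_spec hF
  have a := Bl_mul (m := m) h hf V hG hF h1
  have b := Bl_mul (m := m) h hf V h1 hF hG
  rw [e] at a
  rw [h2] at b
  rw [mu, a, b, mul_comm]

theorem mu_sq (V : AddSubgroup S.X) {F : S.Z → ℝ} (hF : Cc F) :
    mu m f V (F * F) = ∑ q, ‖Pj.EV m.T S.L₀ V (m.vec F (f q))‖ ^ 2 := by
  obtain ⟨h1, h2⟩ := bmp_spec hF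
  rw [mu_eq h hf V (P84.cc_mul hF hF.1) h1 (by rw [← mul_assoc, h2]), Bl_mul h hf V hF hF h1,
    mul_comm, h2]
  exact Finset.sum_congr rfl fun q _ => Pj.inner_E_self _ _ _

theorem posF_mu (V : AddSubgroup S.X) : PosF (mu m f V) where
  add F F' hF hF' := by
    obtain ⟨G, hG, e⟩ := exists_one (hF.2.isCompact.union hF'.2.isCompact)
    have e1 := e F Set.subset_union_left
    have e2 := e F' Set.subset_union_right
    rw [mu_eq h hf V (P84.cc_add hF hF') hG (by rw [mul_add, e1, e2]), mu_eq h hf V hF hG e1,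
      mu_eq h hf V hF' hG e2, Bl, Bl, Bl, ← Finset.sum_add_distrib]
    exact Finset.sum_congr rfl fun q _ => by
      rw [m.vec_add _ _ _ hF hF' (hf q), map_add, inner_add_left]
  smul c F hF := by
    obtain ⟨h1, h2⟩ := bmp_spec hF
    rw [mu_eq h hf V (P84.cc_smul c hF) h1 (by rw [mul_smul_comm, h2]), mu, Bl, Bl, Finset.mul_sum]
    exact Finset.sum_congr rfl fun q _ => by
      rw [m.vec_smul _ _ _ hF (hf q), map_smul, real_inner_smul_left]
  pos F hF h0 := by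
    rw [← sqrt_mul h0, mu_sq h hf V (cc_sqrt hF)]
    exact Finset.sum_nonneg fun _ _ => sq_nonneg _

theorem mu_cj (γ : S.Γ) (hγ : ∀ q a, f q (S.cjP γ a) = f ((S.c γ)⁻¹ * q) a)
    {V V' : AddSubgroup S.X} (hV : ∀ b, S.cjP γ b ∈ V' ↔ b ∈ V) {F : S.Z → ℝ} (hF : Cc F) :
    mu m f V' F = mu m f V fun z => F (ac (S.ιΓ γ) z) := by
  obtain ⟨h1, h2⟩ := bmp_spec hF
  obtain ⟨e, he⟩ := m.ac_cc γ
  have cc : ∀ {G : S.Z → ℝ}, Cc G → Cc fun z => G (ac (S.ιΓ γ) z) := fun hG => by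
    simpa only [he] using P84.cc_comp hG e
  rw [mu_eq h hf V (cc hF) (cc h1) (funext fun z => congrFun h2 _), mu, Bl, Bl]
  refine Fintype.sum_equiv (Equiv.mulLeft (S.c γ)⁻¹) _ _ fun q => ?_
  rw [← (m.J γ).inner_map_map, ← Pj.EV_J h m γ hV, m.J_vec γ _ _ hF (hf q), m.J_vec γ _ _ h1 (hf q)]
  simp only [hγ, Equiv.coe_mulLeft]

end T34

open T34 in
theorem typStmt (hE : EscStmt.{u, v, w}) : TypStmt.{u, v, w} := by
  intro S h H _ _ _ m T _ _ At hL φ htop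
  classical
  let _ : Fintype S.Q := Fintype.ofFinite _
  have := h.haar
  have : SecondCountableTopology (unitary S.A) := Topology.IsInducing.subtypeVal.secondCountableTopology
  have : SecondCountableTopology (selfAdjoint S.A) :=
    Topology.IsInducing.subtypeVal.secondCountableTopology
  have : SecondCountableTopology S.G₂ := Topology.IsInducing.subtypeVal.secondCountableTopology
  obtain ⟨C, hC⟩ := Pj.bd_lab φ
  set f : S.Q → S.X → ℝ := fun q a => φ (q⁻¹ • At a) with hfd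
  have hf : ∀ q, Bd (f q) := fun q => ⟨C, fun a => hC _⟩
  have main : ∀ n : ℕ, ∀ V : Submodule S.k S.B, Gd V → finrank S.k S.B ≤ finrank S.k V + n →
      Van m At φ (S.Vx V) := by
    intro n
    induction n using Nat.strong_induction_on with
    | _ n ih =>
    intro V hV hn
    by_cases hp : ∃ y, star y = y ∧ y ∉ V
    swap
    · have : S.Vx V = ⊤ := eq_top_iff.2 fun b _ => by
        by_contra hb; exact hp ⟨b, b.2, hb⟩
      rwa [this]
    let Y := Ty S.k S.B (finrank S.k V)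
    let _ : MulAction S.Γ Y := MulAction.compHom Y (S.U₀.subtype.comp S.Γ.subtype)
    have hsm : ∀ (γ : S.Γ) (W : Y), (γ • W).1 = cjV ((γ : S.U₀) : unitary S.B) W.1 := fun _ _ => rfl
    have hint : ∀ {F : S.Z → ℝ}, Cc F → Integrable F S.lam := fun hF =>
      hF.1.integrable_of_hasCompactSupport hF.2
    have hc0 : 0 ≤ (Fintype.card S.Q : ℝ) * (m.c₀ * C ^ 2) := by
      have := m.c₀_nonneg; positivity
    have key := hE S.F S.O S.π S.d S.G₂ (selfAdjoint S.A) S.Γ S.ιΓ Y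
      (fun W => mu m f (S.Vx W.1))
      (fun F => Fintype.card S.Q * (m.c₀ * C ^ 2) * ∫ z, F z ∂S.lam) h.lf h.hd h.latt
      (fun W => posF_mu h hf _)
      ⟨fun F G hF hG => by
          simp only [Pi.add_apply]; rw [integral_add (hint hF) (hint hG), mul_add],
        fun c F _ => by
          simp only [Pi.smul_apply, smul_eq_mul]; rw [integral_const_mul]; ring,
        fun F _ h0 => mul_nonneg hc0 (integral_nonneg h0)⟩
      (fun F t _ => by
        rw [← integral_add_right_eq_self F ((0 : selfAdjoint S.A), t)]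
        simp only [Prod.add_def, add_zero])
      (fun γ W F hF => mu_cj h hf γ (fun q a => by
          simp only [hfd]
          rw [show ((S.cjP γ a : S.X) : S.B) = (((γ : S.U₀) : unitary S.B) • a : S.X) from rfl,
            hL.cj, mul_inv_rev, inv_inv, mul_smul])
        (fun b => by rw [hsm]; exact cj_mem) hF)
      (fun s F hF h0 hD => by
        have hs := cc_sqrt hF
        rw [← sqrt_mul h0]
        simp only [mu_sq h hf _ hs]
        rw [Finset.sum_comm]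
        refine (Finset.sum_le_card_nsmul _ _ (m.c₀ * C ^ 2 * ∫ z, √(F z) ^ 2 ∂S.lam)
          fun q _ => ?_).trans (le_of_eq ?_)
        · refine (Pj.sum_EV_le m.T (Pj.lt_of h) s (fun W => S.Vx W.1) _ fun W _ W' _ hne => ?_).trans
            (m.vec_norm _ _ C hs fun a => hC _)
          have e : S.Vx W.1 ⊔ S.Vx W'.1 = S.Vx (W.1 ⊔ W'.1) := by
            refine le_antisymm (sup_le (fun b hb => Submodule.mem_sup_left hb)
              fun b hb => Submodule.mem_sup_right hb) fun b hb => ?_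
            obtain ⟨x, hx, y, hy, e⟩ := Submodule.mem_sup.1 hb
            exact AddSubgroup.mem_sup.2 ⟨⟨x, W.2.1.herm x hx⟩, hx, ⟨y, W'.2.1.herm y hy⟩, hy,
              Subtype.ext e⟩
          have lt : W.1 < W.1 ⊔ W'.1 := lt_of_le_of_ne le_sup_left fun e' => hne (Subtype.ext
            (Submodule.eq_of_le_of_finrank_eq (e' ▸ le_sup_right) (W'.2.2.2.trans W.2.2.2.symm)).symm)
          have h1 := Submodule.finrank_lt_finrank_of_lt lt
          have h2 := Submodule.finrank_le (W.1 ⊔ W'.1)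
          have h3 := W.2.2.2
          rw [e]
          exact ih (n - 1) (by omega) _ (W.2.1.sup W'.2.1) (by omega) _ hs
            (fun z hz => hD z (tsupport_sqrt F hz)) q
        · simp only [Pi.mul_apply, sq, Finset.card_univ, nsmul_eq_mul]; ring)
      (fun W U hU => by
        have := h.esc W.1 W.2.1.herm W.2.1.one W.2.1.ns W.2.2.1 U hU
        refine Set.Infinite.of_image Subtype.val (this.mono ?_)
        rintro V' ⟨γ, h1, h2⟩
        refine ⟨γ⁻¹ • W, ⟨γ, h1, smul_inv_smul γ W⟩, ?_⟩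
        rw [hsm, ← h2, ← cjV_mul]
        simp [cjV_one])
    intro F hF hD q
    have h0 := key ⟨V, hV, hp, rfl⟩ (F * F) (P84.cc_mul hF hF.1)
      fun z hz => hD z (tsupport_mul_subset_left hz)
    rw [mu_sq h hf _ hF, Finset.sum_eq_zero_iff_of_nonneg fun _ _ => sq_nonneg _] at h0
    simpa using h0 q (Finset.mem_univ q)
  intro V h1 h2 h3
  exact main (finrank S.k S.B) V ⟨h1, h2, h3⟩ (by omega)

end Crest.Agent.T24.Na
end
end

-- ▼ part T24/NaMod_23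
section

/-!
# Row 24, module NA (helper23): calculus in an ultrapower; the limit model exists
-/

set_option autoImplicit false
set_option linter.unusedSectionVars false

noncomputable section

namespace Crest.Agent.T24.Na

open Topology Filter MeasureTheory
open scoped RealInnerProductSpace

universe u v w

namespace M23

section Ult
variable {I : Type} {X H : Type w} {𝒱 : Ultrafilter I} [NormedAddCommGroup H]
  [InnerProductSpace ℝ H] (u : Ult X 𝒱 H) {ξ η μ : I → X → ℝ}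

theorem summable_mul {x y : X → ℝ} (hx : Summable fun a => x a ^ 2)
    (hy : Summable fun a => y a ^ 2) : Summable fun a => x a * y a :=
  (hx.add hy).of_norm_bounded fun a => by
    rw [Real.norm_eq_abs, abs_le]
    constructor <;> nlinarith [sq_nonneg (x a + y a), sq_nonneg (x a - y a)]

theorem bf_le (h : Bf 𝒱 ξ) (h' : Bf 𝒱 η) (C : ℝ)
    (hle : ∀ᶠ i in 𝒱, ∀ a, μ i a ^ 2 ≤ C ^ 2 * (ξ i a ^ 2 + η i a ^ 2)) : Bf 𝒱 μ := by
  obtain ⟨D, h⟩ := h
  obtain ⟨D', h'⟩ := h'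
  refine ⟨C ^ 2 * (D + D'), ?_⟩
  filter_upwards [h, h', hle] with i h1 h2 h3
  have h4 := (h1.1.add h2.1).mul_left (C ^ 2)
  have h5 := h4.of_nonneg_of_le (fun a => sq_nonneg _) h3
  refine ⟨h5, (h5.tsum_le_tsum h3 h4).trans ?_⟩
  rw [tsum_mul_left, h1.1.tsum_add h2.1]
  gcongr
  exacts [h1.2, h2.2]

theorem bf_add (h : Bf 𝒱 ξ) (h' : Bf 𝒱 η) : Bf 𝒱 (ξ + η) :=
  bf_le h h' 2 (.of_forall fun i a => by
    simp only [Pi.add_apply]
    nlinarith [sq_nonneg (ξ i a - η i a), sq_nonneg (ξ i a), sq_nonneg (η i a)])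

theorem sq_le {x y C : ℝ} (h : |x| ≤ C) : (x * y) ^ 2 ≤ C ^ 2 * y ^ 2 := by
  rw [mul_pow, ← sq_abs x]; gcongr

theorem bf_mul (h : Bf 𝒱 ξ) {C : ℝ} (hμ : ∀ᶠ i in 𝒱, ∀ a, |μ i a| ≤ C) :
    Bf 𝒱 fun i a => μ i a * ξ i a :=
  bf_le h h C (hμ.mono fun i hi a => (sq_le (hi a)).trans (by gcongr; nlinarith [sq_nonneg (ξ i a)]))

theorem bf_smul (c : ℝ) (h : Bf 𝒱 ξ) : Bf 𝒱 (c • ξ) :=
  bf_mul (μ := fun _ _ => c) h (.of_forall fun _ _ => le_rfl)

theorem bf_comp (h : Bf 𝒱 ξ) (σ : Equiv.Perm X) : Bf 𝒱 fun i a => ξ i (σ a) :=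
  h.imp fun _ hC => hC.mono fun i hi => ⟨(σ.summable_iff (f := fun a => ξ i a ^ 2)).2 hi.1,
    (σ.tsum_eq fun a => ξ i a ^ 2).trans_le hi.2⟩

theorem norm_cl (h : Bf 𝒱 ξ) : Tendsto (fun i => ∑' a, ξ i a ^ 2) 𝒱 (𝓝 (‖u.cl ξ‖ ^ 2)) := by
  simpa only [real_inner_self_eq_norm_sq, ← sq] using u.inn ξ ξ h h

theorem ind {p : H → Prop} (hp : IsClosed {x | p x}) (h : ∀ ξ, Bf 𝒱 ξ → p (u.cl ξ)) (x : H) : p x :=
  u.dense.induction (by rintro _ ⟨ξ, hξ, rfl⟩; exact h ξ hξ) hp x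

theorem cl_add (h : Bf 𝒱 ξ) (h' : Bf 𝒱 η) : u.cl (ξ + η) = u.cl ξ + u.cl η := by
  refine ext_inner_right ℝ (ind u (isClosed_eq (by fun_prop) (by fun_prop)) fun ζ hζ => ?_)
  rw [inner_add_left]
  refine tendsto_nhds_unique (u.inn _ _ (bf_add h h') hζ)
    (((u.inn _ _ h hζ).add (u.inn _ _ h' hζ)).congr' ?_)
  obtain ⟨_, h⟩ := h
  obtain ⟨_, h'⟩ := h'
  obtain ⟨_, hζ⟩ := hζ
  filter_upwards [h, h', hζ] with i h1 h2 h3
  simp only [Pi.add_apply, add_mul]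
  exact ((summable_mul h1.1 h3.1).tsum_add (summable_mul h2.1 h3.1)).symm

theorem cl_smul (c : ℝ) (h : Bf 𝒱 ξ) : u.cl (c • ξ) = c • u.cl ξ := by
  refine ext_inner_right ℝ (ind u (isClosed_eq (by fun_prop) (by fun_prop)) fun ζ hζ => ?_)
  rw [real_inner_smul_left]
  refine tendsto_nhds_unique (u.inn _ _ (bf_smul c h) hζ)
    (((u.inn _ _ h hζ).const_mul c).congr fun i => ?_)
  simp only [Pi.smul_apply, smul_eq_mul, mul_assoc, tsum_mul_left]

theorem bf_sub (h : Bf 𝒱 ξ) (h' : Bf 𝒱 η) : Bf 𝒱 (ξ - η) := by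
  simpa [sub_eq_add_neg] using bf_add h (bf_smul (-1) h')

theorem cl_sub (h : Bf 𝒱 ξ) (h' : Bf 𝒱 η) : u.cl (ξ - η) = u.cl ξ - u.cl η := by
  rw [eq_sub_iff_add_eq, ← cl_add u (bf_sub h h') h', sub_add_cancel]

theorem norm_mul_le (h : Bf 𝒱 ξ) {C : ℝ} (hC : 0 ≤ C) (hμ : ∀ᶠ i in 𝒱, ∀ a, |μ i a| ≤ C) :
    ‖u.cl fun i a => μ i a * ξ i a‖ ≤ C * ‖u.cl ξ‖ := by
  refine (pow_le_pow_iff_left₀ (norm_nonneg _) (by positivity) two_ne_zero).1 ?_
  rw [mul_pow]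
  refine le_of_tendsto_of_tendsto (norm_cl u (bf_mul h hμ)) ((norm_cl u h).const_mul _) ?_
  obtain ⟨_, h1⟩ := bf_mul h hμ
  obtain ⟨_, h⟩ := h
  filter_upwards [h, h1, hμ] with i h2 h3 h4
  rw [← tsum_mul_left]
  exact h3.1.tsum_le_tsum (fun a => sq_le (h4 a)) (h2.1.mul_left _)

theorem Mu_adj {C : ℝ} (hμ : ∀ᶠ i in 𝒱, ∀ a, |μ i a| ≤ C) (x y : H) :
    ⟪u.Mu μ x, y⟫ = ⟪x, u.Mu μ y⟫ := by
  refine ind u (p := fun x => ⟪u.Mu μ x, y⟫ = ⟪x, u.Mu μ y⟫) (isClosed_eq (by fun_prop)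
    (by fun_prop)) (fun ξ hξ => ?_) x
  refine ind u (p := fun y => ⟪u.Mu μ (u.cl ξ), y⟫ = ⟪u.cl ξ, u.Mu μ y⟫) (isClosed_eq (by fun_prop)
    (by fun_prop)) (fun η hη => ?_) y
  rw [u.Mu_cl _ _ _ hμ hξ, u.Mu_cl _ _ _ hμ hη]
  exact tendsto_nhds_unique (u.inn _ _ (bf_mul hξ hμ) hη)
    ((u.inn _ _ hξ (bf_mul hη hμ)).congr fun i => tsum_congr fun a => by ring)

theorem J_cl (σ : Equiv.Perm X) (h : Bf 𝒱 ξ) : u.J σ (u.cl ξ) = u.cl fun i a => ξ i (σ a) :=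
  u.P_cl _ _ h

variable [AddCommGroup X]

theorem T_eq (b : X) : Pj.tr u.T b = u.J (Equiv.addRight b) :=
  congrArg u.P (Equiv.ext fun _ => rfl)

theorem J_T {σ : Equiv.Perm X} {b b' : X} (h : ∀ a, σ (a + b) = σ a + b') (x : H) :
    u.J σ (Pj.tr u.T b' x) = Pj.tr u.T b (u.J σ x) := by
  have : σ⁻¹ * (Equiv.addRight b')⁻¹ = (Equiv.addRight b)⁻¹ * σ⁻¹ := by
    rw [← mul_inv_rev, ← mul_inv_rev]; exact congrArg _ (Equiv.ext fun a => (h a).symm)
  rw [T_eq, T_eq]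
  change (u.P _ * u.P _) x = (u.P _ * u.P _) x
  rw [← map_mul, ← map_mul, this]

theorem Mu_T {C η : ℝ} (b : X) (hη : 0 ≤ η) (hμ : ∀ᶠ i in 𝒱, ∀ a, |μ i a| ≤ C)
    (h : ∀ᶠ i in 𝒱, ∀ a, |μ i (a + b) - μ i a| ≤ η) (x : H) :
    ‖Pj.tr u.T b (u.Mu μ x) - u.Mu μ (Pj.tr u.T b x)‖ ≤ η * ‖x‖ := by
  rw [T_eq]
  refine ind u (p := fun x => ‖u.J (Equiv.addRight b) (u.Mu μ x) -
    u.Mu μ (u.J (Equiv.addRight b) x)‖ ≤ η * ‖x‖) (isClosed_le (by fun_prop) (by fun_prop))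
    (fun ξ hξ => ?_) x
  have h1 := bf_comp hξ (Equiv.addRight b)
  rw [← (u.J (Equiv.addRight b)).norm_map (u.cl ξ), u.Mu_cl _ _ _ hμ hξ, J_cl u _ (bf_mul hξ hμ),
    J_cl u _ hξ, u.Mu_cl _ _ _ hμ h1, ← cl_sub u (bf_comp (bf_mul hξ hμ) _) (bf_mul h1 hμ)]
  refine le_of_eq_of_le ?_ (norm_mul_le u h1 hη h)
  congr 2
  ext i a
  simp [sub_mul]

end Ult

section Sy
variable {S : Sys.{u, v, w}} (β₀ : S.Z → ℝ)

/-- the normalised weights -/
def wt (i : ℕ × ℝ) (a : S.X) : ℝ := S.w i.2 a / ∫ z, β₀ (S.sc i.1 z) ∂S.lam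

/-- the family `√w · F ∘ pos · h` -/
def fam (F : S.Z → ℝ) (h : S.X → ℝ) (i : ℕ × ℝ) (a : S.X) : ℝ :=
  √(wt β₀ i a) * (F (S.pos i.1 a) * h a)

variable {β₀} (hS : S.Ok) (hA : S.Api) (h0 : 0 ≤ β₀) {𝒱 : Ultrafilter (ℕ × ℝ)}
  (hV : (𝒱 : Filter (ℕ × ℝ)) ≤ lim₂) {H : Type w} [NormedAddCommGroup H] [InnerProductSpace ℝ H]
  (u : Ult S.X 𝒱 H) {F G φ : S.Z → ℝ} {h h' : S.X → ℝ}

include hV in
theorem ev_fst {p : ℕ → Prop} (hp : ∀ᶠ R in atTop, p R) : ∀ᶠ i : ℕ × ℝ in 𝒱, p i.1 :=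
  hV (eventually_curry_iff.2 (hp.mono fun _ hR => .of_forall fun _ => hR))

theorem cc_bd (hF : Cc F) : ∃ C, ∀ z, |F z| ≤ C := hF.1.bounded_above_of_compact_support hF.2

include hS h0 in
theorem wt_nonneg (i : ℕ × ℝ) (a : S.X) : 0 ≤ wt β₀ i a :=
  div_nonneg (hS.w_nonneg _ _) (integral_nonneg fun z => h0 (S.sc i.1 z))

include hS hA h0 hV

theorem dom (hφ : Cc φ) {ξ : ℕ × ℝ → S.X → ℝ}
    (hξ : ∀ᶠ i in 𝒱, ∀ a, ξ i a ^ 2 ≤ wt β₀ i a * φ (S.pos i.1 a)) :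
    Bf 𝒱 ξ ∧ ‖u.cl ξ‖ ^ 2 ≤ (∫ z, β₀ z ∂S.lam)⁻¹ * ∫ z, φ z ∂S.lam := by
  have e : ∀ i : ℕ × ℝ, (fun a => wt β₀ i a * φ (S.pos i.1 a)) = fun a : S.X =>
      S.w i.2 a * φ (S.sc i.1 (S.iJ a)) / ∫ z, β₀ (S.sc i.1 z) ∂S.lam := fun i =>
    funext fun a => div_mul_eq_mul_div _ _ _
  have h1 : ∀ᶠ i : ℕ × ℝ in 𝒱, Summable fun a => wt β₀ i a * φ (S.pos i.1 a) :=
    hV (eventually_curry_iff.2 (.of_forall fun R => eventually_mem_nhdsWithin.mono fun s hs => by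
      rw [e]; exact (hS.w_sum _ (P84.cc_comp hφ (S.sc R).toHomeomorph) s hs).div_const _))
  have h2 : Tendsto (fun i : ℕ × ℝ => ∑' a, wt β₀ i a * φ (S.pos i.1 a)) 𝒱
      (𝓝 ((∫ z, β₀ z ∂S.lam)⁻¹ * ∫ z, φ z ∂S.lam)) := fun U hU =>
    hV (eventually_curry_iff.2 (.of_forall fun R => by
      obtain ⟨κ, hκ, hk⟩ := hA.haar R
      have := (hS.w_eq _ (P84.cc_comp hφ (S.sc R).toHomeomorph)).div_const
        (∫ z, β₀ (S.sc R z) ∂S.lam)
      rw [show ∫ z, φ ((S.sc R).toHomeomorph z) ∂S.lam = _ from hk φ, show (κ * ∫ z, φ z ∂S.lam) /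
        ∫ z, β₀ (S.sc R z) ∂S.lam = _ by rw [hk, mul_div_mul_left _ _ hκ.ne', div_eq_inv_mul]] at this
      simp only [e, tsum_div_const]
      exact this hU))
  have h3 : ∀ᶠ i in 𝒱, Summable (fun a => ξ i a ^ 2) ∧
      ∑' a, ξ i a ^ 2 ≤ ∑' a, wt β₀ i a * φ (S.pos i.1 a) := by
    filter_upwards [h1, hξ] with i h1 h2
    have := h1.of_nonneg_of_le (fun a => sq_nonneg _) h2
    exact ⟨this, this.tsum_le_tsum h2 h1⟩
  have h4 : Bf 𝒱 ξ := ⟨_, (h3.and (h2.eventually (gt_mem_nhds (lt_add_one _)))).mono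
    fun i hi => ⟨hi.1.1, hi.1.2.trans hi.2.le⟩⟩
  exact ⟨h4, le_of_tendsto_of_tendsto (norm_cl u h4) h2 (h3.mono fun i hi => hi.2)⟩

theorem fam_bd {C : ℝ} (hF : Cc F) (hh : ∀ a, |h a| ≤ C) : Bf 𝒱 (fam β₀ F h) ∧
    ‖u.cl (fam β₀ F h)‖ ^ 2 ≤ (∫ z, β₀ z ∂S.lam)⁻¹ * C ^ 2 * ∫ z, F z ^ 2 ∂S.lam := by
  have := dom hS hA h0 hV u (P84.cc_smul (C ^ 2) (P84.cc_mul hF hF.1)) (ξ := fam β₀ F h)
    (.of_forall fun i a => by
      have := wt_nonneg hS h0 i a
      rw [fam, mul_pow, Real.sq_sqrt this, mul_comm (F _)]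
      exact mul_le_mul_of_nonneg_left ((sq_le (hh a)).trans_eq (by simp [sq])) this)
  simpa only [Pi.smul_apply, Pi.mul_apply, smul_eq_mul, integral_const_mul, sq, mul_assoc]
    using this

include u in
theorem bf_fam (hF : Cc F) (hh : Bd h) : Bf 𝒱 (fam β₀ F h) :=
  (fam_bd hS hA h0 hV u hF hh.choose_spec).1

theorem comp_vec (σ : Equiv.Perm S.X) (m : S.Z ≃ₜ S.Z) (hw : ∀ s a, S.w s (σ a) = S.w s a)
    (hc : S.Comp σ m) (hF : Cc F) (hh : Bd h) :
    u.J σ (u.cl (fam β₀ F h)) = u.cl (fam β₀ (fun z => F (m z)) fun a => h (σ a)) := by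
  have : LocallyCompactSpace (Mt S.d S.F) :=
    inferInstanceAs (LocallyCompactSpace (Fin S.d → Fin S.d → S.F))
  have b1 := bf_fam hS hA h0 hV u hF hh
  have b2 := bf_fam hS hA h0 hV u (P84.cc_comp hF m) (hh.imp fun C hC a => hC (σ a))
  obtain ⟨C, hC⟩ := hh
  obtain ⟨χ, hχ, χ0, -, χ1⟩ := P84.exists_bump (K := tsupport F) hF.2
  rw [J_cl u _ b1, ← sub_eq_zero, ← cl_sub u (bf_comp b1 σ) b2, ← norm_eq_zero, ← sq_eq_zero_iff]
  have ht : ∀ K : ℝ, Tendsto (fun η : ℝ => η ^ 2 * K) (𝓝[>] 0) (𝓝 0) := fun K =>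
    (Continuous.tendsto' (by fun_prop) 0 0 (by simp)).mono_left nhdsWithin_le_nhds
  refine le_antisymm (ge_of_tendsto (ht ((∫ z, β₀ z ∂S.lam)⁻¹ * (C ^ 2 * 2 *
    ∫ z, χ (m z) ∂S.lam))) (eventually_mem_nhdsWithin.mono fun η hη => ?_)) (sq_nonneg _)
  refine (dom hS hA h0 hV u (P84.cc_smul (η ^ 2 * (C ^ 2 * 2)) (P84.cc_comp hχ m)) ?_).2.trans_eq ?_
  · filter_upwards [ev_fst hV (hc F hF η hη), ev_fst hV (hc χ hχ (1 / 2) one_half_pos)]
      with i h1 h2 a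
    have h3 := wt_nonneg hS h0 i a
    have h4 : wt β₀ i (σ a) = wt β₀ i a := by rw [wt, hw, wt]
    have h5 : ((F (S.pos i.1 (σ a)) - F (m (S.pos i.1 a))) * h (σ a)) ^ 2 ≤
        η ^ 2 * (C ^ 2 * 2) * χ (m (S.pos i.1 a)) := by
      have h6 : (h (σ a) * 1) ^ 2 ≤ C ^ 2 * 1 ^ 2 := sq_le (hC _)
      have h7 := (sq_le (h1 a)).trans (mul_le_mul_of_nonneg_left (mul_one (h _) ▸ h6) (sq_nonneg η))
      have h8 := abs_le.1 (h2 a)
      have h9 : 0 ≤ η ^ 2 * C ^ 2 := by positivity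
      by_cases e1 : F (S.pos i.1 (σ a)) = 0
      · by_cases e2 : F (m (S.pos i.1 a)) = 0
        · have := χ0 (m (S.pos i.1 a))
          rw [e1, e2, sub_zero, zero_mul, sq, zero_mul]
          exact mul_nonneg (by positivity) this
        · rw [χ1 _ (subset_tsupport _ e2)]
          nlinarith
      · rw [χ1 _ (subset_tsupport _ e1)] at h8
        nlinarith
    simp only [Pi.sub_apply, fam, h4, ← mul_sub, ← sub_mul, mul_pow (√_), Real.sq_sqrt h3]
    exact mul_le_mul_of_nonneg_left h5 h3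
  · simp only [Pi.smul_apply, smul_eq_mul, integral_const_mul]
    ring

end Sy

end M23

open M23

theorem modStmt (hU : UltStmt.{w}) (hA : ApiStmt.{u, v, w}) (hJ : JlStmt.{u, v, w}) :
    ModStmt.{u, v, w} := by
  intro S hS β₀ _ h0 _ 𝒱 hV
  obtain ⟨H, _, _, _, ⟨u⟩⟩ := hU (ℕ × ℝ) S.X 𝒱
  replace hA := hA S hS
  have bf : ∀ {F h}, Cc F → Bd h → Bf 𝒱 (fam β₀ F h) := bf_fam hS hA h0 hV u
  have bd : ∀ {F}, Cc F → ∃ C, ∀ᶠ i : ℕ × ℝ in 𝒱, ∀ a, |F (S.pos i.1 a)| ≤ C := fun hF =>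
    (cc_bd hF).imp fun C hC => .of_forall fun _ _ => hC _
  have hc : 0 ≤ (∫ z, β₀ z ∂S.lam)⁻¹ := inv_nonneg.2 (integral_nonneg h0)
  refine ⟨H, _, _, ‹_›,
    { T := u.T
      J := fun γ => u.J (S.cjP γ)
      M := fun F => u.Mu fun i a => F (S.pos i.1 a)
      vec := fun F h => u.cl (fam β₀ F h)
      c₀ := (∫ z, β₀ z ∂S.lam)⁻¹
      c₀_nonneg := hc
      M_adj := fun F hF => Mu_adj u (bd hF).choose_spec
      M_vec := fun F G h hF hG hh => (u.Mu_cl _ _ _ (bd hF).choose_spec (bf hG hh)).trans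
        (congrArg u.cl (by ext i a; simp only [fam, Pi.mul_apply]; ring))
      M_T := fun F hF η hη => ?_
      vec_add := fun F G h hF hG hh => (congrArg u.cl (by
        ext i a; simp only [fam, Pi.add_apply]; ring)).trans (cl_add u (bf hF hh) (bf hG hh))
      vec_smul := fun c F h hF hh => (congrArg u.cl (by
        ext i a; simp only [fam, Pi.smul_apply, smul_eq_mul]; ring)).trans (cl_smul u c (bf hF hh))
      vec_add' := fun F h h' hF hh hh' => (congrArg u.cl (by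
        ext i a; simp only [fam, Pi.add_apply]; ring)).trans (cl_add u (bf hF hh) (bf hF hh'))
      vec_norm := fun F h C hF hh => (fam_bd hS hA h0 hV u hF hh).2
      vec_T := fun F h hF hh η hη => ?_
      J_T := fun γ b => J_T u fun a => Subtype.ext (by
        simp [Sys.cjP, coe_cj, mul_add, add_mul])
      J_vec := fun γ F h hF hh => ?_
      ac_cc := fun γ => (hA.cj γ).imp fun m hm => hm.1
      W := fun g hg => ?_
      jl := hJ S hS hA 𝒱 hV H u }, fun F G h h' hF hG hh hh' => ?_⟩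
  · obtain ⟨n, hn⟩ := hA.tr F hF (η / 2) (half_pos hη)
    refine ⟨n, fun b hb => ?_⟩
    obtain ⟨t, h1, h2, -⟩ := hn b hb
    refine Mu_T u _ hη.le (bd hF).choose_spec
      ((ev_fst hV (h1 F hF _ (half_pos hη))).mono fun i hi a => ?_)
    exact (abs_sub_le _ _ _).trans ((add_le_add (hi a) (h2 _)).trans_eq (add_halves η))
  · obtain ⟨C, hC⟩ := id hh
    have hp : 0 < (∫ z, β₀ z ∂S.lam)⁻¹ * C ^ 2 + 1 := by positivity
    obtain ⟨n, hn⟩ := hA.tr F hF (η ^ 2 / ((∫ z, β₀ z ∂S.lam)⁻¹ * C ^ 2 + 1)) (by positivity)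
    refine ⟨n, fun b hb hp => ?_⟩
    obtain ⟨t, h1, -, h2⟩ := hn b hb
    have hF' := P84.cc_comp hF (Homeomorph.addRight t)
    have hL : S.N ^ n • b ∈ S.L :=
      (hS.L_iff _).2 ⟨0, by rw [pow_zero, one_smul]; exact S.L₀.nsmul_mem hb _⟩
    rw [T_eq, comp_vec hS hA h0 hV u (Equiv.addRight (S.N ^ n • b)) (Homeomorph.addRight t)
      (fun s a => hS.w_add s a _ hL) h1 hF hh,
      show (fun a => h (Equiv.addRight (S.N ^ n • b) a)) = h from funext hp,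
      ← cl_sub u (bf hF' hh) (bf hF hh), show fam β₀ (fun z => F (Homeomorph.addRight t z)) h -
        fam β₀ F h = fam β₀ ((fun z => F (Homeomorph.addRight t z)) - F) h by
          ext i a; simp only [fam, Pi.sub_apply]; ring]
    refine (pow_le_pow_iff_left₀ (norm_nonneg _) hη.le two_ne_zero).1
      ((fam_bd hS hA h0 hV u (P84.cc_sub hF' hF) hC).2.trans
        ((mul_le_mul_of_nonneg_left h2 (by positivity)).trans ?_))
    rw [mul_div_assoc', div_le_iff₀ (by positivity)]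
    nlinarith [sq_nonneg η]
  · obtain ⟨m, h1, h2⟩ := hA.cj γ
    rw [comp_vec hS hA h0 hV u _ m (fun s a => hS.w_cj s γ a)
      (fun F _ η hη => .of_forall fun R a => by simpa [h2] using hη.le) hF hh]
    simp only [h1]
  · obtain ⟨σ, α, m, h1, h2, h3, h4⟩ := hA.ap g
    refine ⟨u.J σ, σ, α, m, h1, h2, h3, fun b => J_T u fun a => Subtype.ext ?_, fun F h =>
      comp_vec hS hA h0 hV u σ m (fun s a => by rw [h1, hg.w_ap]) h4⟩
    simp only [h1, h2, AddSubgroup.coe_add, Aff.ap, Aff.lin, mul_add, add_mul, smul_add]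
    abel
  · refine (u.inn _ _ (bf hF hh) (bf hG hh')).congr fun i => ?_
    rw [← tsum_div_const]
    refine tsum_congr fun a => ?_
    rw [fam, fam, mul_mul_mul_comm, Real.mul_self_sqrt (wt_nonneg hS h0 i a), wt]
    ring

end Crest.Agent.T24.Na
end
end

-- ▼ part T24/NaApi_91
section

/-! Row 24, module NA + TW: the elementary facts on an arithmetic system (helper91). -/

set_option autoImplicit false
set_option linter.unusedSectionVars false

noncomputable section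

namespace Crest.Agent.T24.Na

open Topology Filter MeasureTheory

universe u v w

namespace A91

/-- uniform continuity of test functions -/
theorem uc {Z : Type*} [AddCommGroup Z] [TopologicalSpace Z] [IsTopologicalAddGroup Z] {F : Z → ℝ}
    (hF : Cc F) {η : ℝ} (hη : 0 < η) : ∀ᶠ t in 𝓝 (0 : Z), ∀ z, |F (z + t) - F z| ≤ η := by
  let := IsTopologicalAddGroup.rightUniformSpace Z
  have h := hF.2.uniformContinuous_of_continuous hF.1
  have h1 := h (Metric.dist_mem_uniformity hη)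
  rw [mem_map, uniformity_eq_comap_nhds_zero', mem_comap] at h1
  obtain ⟨U, hU, h2⟩ := h1
  filter_upwards [hU] with t ht z
  have h3 := h2 (a := (z, z + t)) (by simpa using ht)
  simp only [Set.mem_preimage, Set.mem_ofPred_eq, Real.dist_eq] at h3
  rw [abs_sub_comm]
  exact h3.le

theorem uc' {Z : Type*} [AddCommGroup Z] [TopologicalSpace Z] [IsTopologicalAddGroup Z] {F : Z → ℝ}
    (hF : Cc F) {η : ℝ} (hη : 0 < η) {I : Type*} {l : Filter I} {x : I → Z} {t : Z}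
    (hx : Tendsto x l (𝓝 t)) : ∀ᶠ i in l, ∀ z, |F (z + x i) - F (z + t)| ≤ η := by
  have h : Tendsto (fun i => x i - t) l (𝓝 0) := by simpa using hx.sub_const t
  filter_upwards [h.eventually (uc hF hη)] with i hi z
  have := hi (z + t)
  rwa [show z + t + (x i - t) = z + x i by abel] at this

theorem uc_int {Z : Type*} [AddCommGroup Z] [TopologicalSpace Z] [IsTopologicalAddGroup Z]
    [LocallyCompactSpace Z] [T2Space Z] [MeasurableSpace Z] [BorelSpace Z] (μ : Measure Z)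
    [IsFiniteMeasureOnCompacts μ] {F : Z → ℝ} (hF : Cc F) {η : ℝ} (hη : 0 < η) :
    ∀ᶠ t in 𝓝 (0 : Z), ∫ z, (F (z + t) - F z) ^ 2 ∂μ ≤ η := by
  obtain ⟨K₀, hK₀, h0⟩ := exists_compact_mem_nhds (0 : Z)
  set K : Set Z := tsupport F ∪ (fun p : Z × Z => p.1 - p.2) '' (tsupport F ×ˢ K₀) with hK
  have hKc : IsCompact K := hF.2.isCompact.union ((hF.2.isCompact.prod hK₀).image (by fun_prop))
  have hm : 0 ≤ μ.real K := measureReal_nonneg
  set δ := min 1 (η / (μ.real K + 1)) with hδ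
  have hδ0 : 0 < δ := lt_min one_pos (by positivity)
  filter_upwards [h0, uc hF hδ0] with t ht h
  rw [← setIntegral_eq_integral_of_forall_compl_eq_zero (s := K) fun z hz => ?_]
  · refine (Real.le_norm_self _).trans ((norm_setIntegral_le_of_norm_le_const (C := δ) hKc.measure_lt_top
      fun z _ => ?_).trans ?_)
    · rw [Real.norm_eq_abs, abs_pow, sq]
      exact (mul_le_mul (h z) ((h z).trans (min_le_left _ _)) (abs_nonneg _) hδ0.le).trans (mul_one _).le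
    · calc δ * μ.real K ≤ η / (μ.real K + 1) * (μ.real K + 1) := by
            gcongr
            · exact min_le_right _ _
            · linarith
        _ = η := by field_simp
  · have h1 : F z = 0 := image_eq_zero_of_notMem_tsupport fun h => hz (Or.inl h)
    have h2 : F (z + t) = 0 := image_eq_zero_of_notMem_tsupport fun h =>
      hz (Or.inr ⟨(z + t, t), ⟨h, ht⟩, by simp⟩)
    simp [h1, h2]

variable {S : Sys.{u, v, w}}

theorem lc_Z (S : Sys.{u, v, w}) : LocallyCompactSpace S.Z :=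
  have : LocallyCompactSpace (Mt S.d S.F) := Pi.locallyCompactSpace_of_finite
  inferInstance

theorem sc_Z (S : Sys.{u, v, w}) : SecondCountableTopology S.Z :=
  have : SecondCountableTopology (Mt S.d S.F) :=
    inferInstanceAs (SecondCountableTopology (Fin S.d → Fin S.d → S.F))
  have : SecondCountableTopology (selfAdjoint S.A) :=
    TopologicalSpace.Subtype.secondCountableTopology _
  inferInstance

/-- the finite part of a point -/
def fin (h : S.Ok) (e : S.X) : S.Z :=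
  (⟨S.ε * S.inc e, by
    rw [selfAdjoint.mem_iff, star_mul, h.eps_star, ← h.inc_star, e.2.star_eq, h.eps_comm]⟩, S.ψ e)

theorem tendsto_fin (h : S.Ok) (e : S.X) : Tendsto (fun R => S.pos R e) atTop (𝓝 (fin h e)) := by
  refine (Prod.tendsto_iff _ _).2 ⟨tendsto_subtype_rng.2 ?_, ?_⟩
  · simp only [Sys.pos, h.sc_fst, h.iJ_fst]
    exact h.rho_tend.mul_const _
  · simp only [Sys.pos, h.sc_snd, h.iJ_snd]
    exact tendsto_const_nhds

theorem pos_add (R : ℕ) (a b : S.X) : S.pos R (a + b) = S.pos R a + S.pos R b := by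
  simp only [Sys.pos, map_add]

theorem cj (h : S.Ok) (γ : S.Γ) : ∃ m : S.Z ≃ₜ S.Z, (∀ z, m z = ac (S.ιΓ γ) z) ∧
    ∀ R a, S.pos R (S.cjP γ a) = m (S.pos R a) := by
  refine ⟨(Homeomorph.smul (S.ιΓ γ).1).prodCongr (A56.afH 1 (S.ιΓ γ).2 (S.ιΓ γ).2⁻¹ 0),
    fun z => Prod.ext rfl (by simp [A56.afH, A56.afE, ac]), fun R a => Prod.ext (Subtype.ext ?_) ?_⟩
  · change ((S.sc R (S.iJ (S.cjP γ a))).1 : S.A) = (((S.ι γ).1 : unitary S.A) : S.A) *
      (S.sc R (S.iJ a)).1 * star (((S.ι γ).1 : unitary S.A) : S.A)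
    rw [h.sc_fst, h.sc_fst, h.iJ_fst, h.iJ_fst, h.ι_fst, ← h.inc_star, ← mul_assoc, ← h.rho_comm]
    change S.ρ R * S.inc (_ * a * _) = _
    simp only [map_mul, mul_assoc]
  · have e : (((S.ιΓ γ).2⁻¹ : GL (Fin S.d) S.F) : Mt S.d S.F) =
        S.ψ (star (((γ : S.U₀) : unitary S.B) : S.B)) := by
      rw [← Prod.snd_inv, ← map_inv]
      exact h.ι_snd _
    change (S.sc R (S.iJ (S.cjP γ a))).2 = ((1 : GL (Fin S.d) S.F) : Mt S.d S.F) *
      (((S.ι γ).2 : Mt S.d S.F) * (S.sc R (S.iJ a)).2 * (((S.ιΓ γ).2⁻¹ : GL (Fin S.d) S.F) : Mt S.d S.F)) + 0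
    rw [e, h.sc_snd, h.sc_snd, h.iJ_snd, h.iJ_snd, h.ι_snd, Units.val_one, one_mul, add_zero,
      ← map_mul, ← map_mul]
    rfl

theorem tr (h : S.Ok) (F : S.Z → ℝ) (hF : Cc F) (η : ℝ) (hη : 0 < η) : ∃ n : ℕ, ∀ b ∈ S.L₀, ∃ t : S.Z,
    S.Comp (fun a => a + S.N ^ n • b) (fun z => z + t) ∧ (∀ z, |F (z + t) - F z| ≤ η) ∧
      ∫ z, (F (z + t) - F z) ^ 2 ∂S.lam ≤ η := by
  have := h.haar
  have := lc_Z S
  have := sc_Z S
  have h1 := (uc hF hη).and (uc_int S.lam hF hη)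
  have h2 : IsInducing (Prod.map Subtype.val id : S.Z → S.A × Mt S.d S.F) :=
    IsInducing.subtypeVal.prodMap IsInducing.id
  rw [h2.nhds_eq_comap, Filter.Eventually, mem_comap] at h1
  obtain ⟨U, hU, h3⟩ := h1
  obtain ⟨n, hn⟩ := h.L_small U hU
  refine ⟨n, fun b hb => ⟨fin h (S.N ^ n • b), fun G hG η' hη' => ?_, h3 (hn b hb)⟩⟩
  filter_upwards [uc' hG hη' (tendsto_fin h (S.N ^ n • b))] with R hR a
  rw [pos_add]
  exact hR _

theorem ap (h : S.Ok) (g : Aff S.k S.B) : ∃ (σ : Equiv.Perm S.X) (α : S.X ≃+ S.X) (m : S.Z ≃ₜ S.Z),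
    (∀ a, (σ a : S.B) = g.ap a) ∧ (∀ b, (α b : S.B) = g.lin b) ∧ (∀ z, (m z).2 = S.ap₀ g z.2) ∧
      S.Comp σ m := by
  obtain ⟨e, E, he, hE, hi⟩ := A56.exists_ap h ⟨g.κ, g.p, 0, star_zero _⟩
  have he' : ∀ a, (e a : S.B) = g.lin a := fun a => (he a).trans (add_zero _)
  let b : S.X := ⟨g.b, g.hb⟩
  have hc : ∀ R z, S.sc R (E z) = E (S.sc R z) := fun R z => by
    refine Prod.ext (Subtype.ext ?_) ?_
    · rw [h.sc_fst, (hE _).1, (hE _).1, h.sc_fst]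
      simp only [Sys.ap₂, map_zero, add_zero]
      rw [← mul_assoc (S.inc (star _)), ← h.rho_comm, mul_assoc (S.ρ R), mul_assoc (S.ρ R),
        ← mul_assoc _ (S.ρ R), ← h.rho_comm, mul_assoc (S.ρ R)]
    · rw [h.sc_snd, (hE _).2, (hE _).2, h.sc_snd]
  refine ⟨e.trans (Equiv.addRight b), ⟨e, fun x y => Subtype.ext ?_⟩,
    E.trans (Homeomorph.addRight (fin h b)), fun a => ?_, he', fun z => ?_, fun G hG η hη => ?_⟩
  · change (e (x + y) : S.B) = e x + e y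
    simp only [he', Aff.lin, AddSubgroup.coe_add, mul_add, add_mul, smul_add]
  · change (e a : S.B) + g.b = _
    rw [he', Aff.ap]
  · change (E z).2 + S.ψ g.b = _
    rw [(hE _).2]
    simp only [Sys.ap₀, map_zero, add_zero]
  · filter_upwards [uc' hG hη (tendsto_fin h b)] with R hR a
    change |G (S.pos R (e a + b)) - G (E (S.pos R a) + fin h b)| ≤ η
    rw [pos_add, Sys.pos, hi, hc]
    exact hR _

theorem haar (h : S.Ok) (R : ℕ) :
    ∃ κ : ℝ, 0 < κ ∧ ∀ φ : S.Z → ℝ, ∫ z, φ (S.sc R z) ∂S.lam = κ * ∫ z, φ z ∂S.lam := by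
  have := h.haar
  have := lc_Z S
  have := sc_Z S
  have h1 : (S.lam.map (S.sc R)).IsAddHaarMeasure := (S.sc R).isAddHaarMeasure_map S.lam
  refine ⟨Measure.addHaarScalarFactor (S.lam.map (S.sc R)) S.lam,
    Measure.addHaarScalarFactor_pos_of_isAddHaarMeasure _ _, fun φ => ?_⟩
  have h2 := (S.sc R).toHomeomorph.measurableEmbedding.integral_map (μ := S.lam) φ
  change ∫ z, φ z ∂(S.lam.map (S.sc R)) = ∫ z, φ (S.sc R z) ∂S.lam at h2
  rw [← h2]
  conv_lhs => rw [Measure.isAddLeftInvariant_eq_smul (S.lam.map (S.sc R)) S.lam]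
  rw [integral_smul_nnreal_measure]
  rfl

end A91

theorem apiStmt : ApiStmt.{u, v, w} := fun _ h => ⟨A91.cj h, A91.tr h, A91.ap h, A91.haar h⟩

end Crest.Agent.T24.Na
end
end

-- ▼ part T24/NaJl_98
section

/-!
# Row 24, NA/TW: the Poincaré inequality passes to the ultrapower.
-/

set_option autoImplicit false
set_option linter.unusedSectionVars false
set_option linter.style.haveILetI false

noncomputable section

namespace Crest.Agent.T24.Na

open Topology Filter MeasureTheory Set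
open scoped ENNReal NNReal RealInnerProductSpace

universe u v w

namespace J98

section Bf
variable {I X : Type*} {𝒱 : Filter I} {ξ η : I → X → ℝ}

theorem summ_mul {f g : X → ℝ} (hf : Summable fun a => f a ^ 2) (hg : Summable fun a => g a ^ 2) :
    Summable fun a => f a * g a :=
  Summable.of_norm_bounded (hf.add hg) fun a => by
    rw [Real.norm_eq_abs, abs_le]; constructor <;> nlinarith [sq_nonneg (f a + g a), sq_nonneg (f a - g a)]

theorem bf_zero : Bf 𝒱 (0 : I → X → ℝ) := ⟨0, by simp⟩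

theorem bf_add (h : Bf 𝒱 ξ) (h' : Bf 𝒱 η) : Bf 𝒱 (ξ + η) := by
  obtain ⟨C, h⟩ := h
  obtain ⟨C', h'⟩ := h'
  refine ⟨2 * C + 2 * C', ?_⟩
  filter_upwards [h, h'] with i ⟨h1, h2⟩ ⟨h3, h4⟩
  have h5 := (h1.mul_left 2).add (h3.mul_left 2)
  have h6 : ∀ a, (ξ + η) i a ^ 2 ≤ 2 * ξ i a ^ 2 + 2 * η i a ^ 2 := fun a => by
    simp only [Pi.add_apply]; nlinarith [sq_nonneg (ξ i a - η i a)]
  have h7 := h5.of_nonneg_of_le (fun a => sq_nonneg _) h6
  refine ⟨h7, (h7.tsum_le_tsum h6 h5).trans ?_⟩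
  rw [(h1.mul_left 2).tsum_add (h3.mul_left 2), tsum_mul_left, tsum_mul_left]
  linarith

theorem bf_mul {μ : I → X → ℝ} {A : ℝ} (hμ : ∀ i a, |μ i a| ≤ A) (h : Bf 𝒱 ξ) :
    Bf 𝒱 fun i a => μ i a * ξ i a := by
  obtain ⟨C, h⟩ := h
  refine ⟨A ^ 2 * C, ?_⟩
  filter_upwards [h] with i ⟨h1, h2⟩
  have h5 := h1.mul_left (A ^ 2)
  have h6 : ∀ a, (μ i a * ξ i a) ^ 2 ≤ A ^ 2 * ξ i a ^ 2 := fun a => by
    rw [mul_pow]
    exact mul_le_mul_of_nonneg_right (sq_le_sq' (abs_le.1 (hμ i a)).1 (abs_le.1 (hμ i a)).2)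
      (sq_nonneg _)
  have h7 := h5.of_nonneg_of_le (fun a => sq_nonneg _) h6
  refine ⟨h7, (h7.tsum_le_tsum h6 h5).trans ?_⟩
  rw [tsum_mul_left]
  exact mul_le_mul_of_nonneg_left h2 (sq_nonneg _)

theorem bf_smul (c : ℝ) (h : Bf 𝒱 ξ) : Bf 𝒱 (c • ξ) :=
  bf_mul (μ := fun _ _ => c) (fun _ _ => le_rfl) h

theorem bf_sub (h : Bf 𝒱 ξ) (h' : Bf 𝒱 η) : Bf 𝒱 (ξ - η) := by
  rw [sub_eq_add_neg, ← neg_one_smul ℝ η]; exact bf_add h (bf_smul _ h')

theorem bf_sum {ι : Type*} (s : Finset ι) {f : ι → I → X → ℝ} (h : ∀ j, Bf 𝒱 (f j)) :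
    Bf 𝒱 (∑ j ∈ s, f j) :=
  Finset.sum_induction _ _ (fun _ _ => bf_add) bf_zero fun j _ => h j

theorem bf_perm (σ : X ≃ X) (h : Bf 𝒱 ξ) : Bf 𝒱 fun i a => ξ i (σ a) := by
  obtain ⟨C, h⟩ := h
  refine ⟨C, ?_⟩
  filter_upwards [h] with i ⟨h1, h2⟩
  exact ⟨(σ.summable_iff (f := fun a => ξ i a ^ 2)).2 h1,
    (σ.tsum_eq fun a => ξ i a ^ 2).trans_le h2⟩

theorem bf_ev (h : Bf 𝒱 ξ) : ∀ᶠ i in 𝒱, Summable fun a => ξ i a ^ 2 :=
  h.choose_spec.mono fun _ h => h.1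

end Bf

section Cl
variable {I : Type} {X H : Type w} {𝒱 : Ultrafilter I} [NormedAddCommGroup H]
  [InnerProductSpace ℝ H] (u : Ult X 𝒱 H) {ξ η : I → X → ℝ}

theorem cl_add (h : Bf 𝒱 ξ) (h' : Bf 𝒱 η) : u.cl (ξ + η) = u.cl ξ + u.cl η := by
  refine u.dense.eq_of_inner_left (𝕜 := ℝ) ?_
  rintro _ ⟨ρ, hρ, rfl⟩
  rw [inner_add_left]
  refine tendsto_nhds_unique (u.inn _ _ (bf_add h h') hρ)
    (((u.inn _ _ h hρ).add (u.inn _ _ h' hρ)).congr' ?_)
  filter_upwards [bf_ev h, bf_ev h', bf_ev hρ] with i h1 h2 h3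
  rw [← (summ_mul h1 h3).tsum_add (summ_mul h2 h3)]
  simp only [Pi.add_apply, add_mul]

theorem cl_smul (c : ℝ) (h : Bf 𝒱 ξ) : u.cl (c • ξ) = c • u.cl ξ := by
  refine u.dense.eq_of_inner_left (𝕜 := ℝ) ?_
  rintro _ ⟨ρ, hρ, rfl⟩
  rw [real_inner_smul_left]
  refine tendsto_nhds_unique (u.inn _ _ (bf_smul c h) hρ)
    (((u.inn _ _ h hρ).const_mul c).congr fun i => ?_)
  rw [← tsum_mul_left]
  simp only [Pi.smul_apply, smul_eq_mul, mul_assoc]

theorem cl_zero : u.cl 0 = 0 := by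
  have := cl_smul u 0 (bf_zero (𝒱 := (𝒱 : Filter I)) (X := X))
  rwa [zero_smul, zero_smul] at this

theorem cl_sub (h : Bf 𝒱 ξ) (h' : Bf 𝒱 η) : u.cl (ξ - η) = u.cl ξ - u.cl η := by
  rw [sub_eq_add_neg, ← neg_one_smul ℝ η, cl_add u h (bf_smul _ h'), cl_smul u _ h', neg_one_smul,
    sub_eq_add_neg]

theorem cl_sum {ι : Type*} (s : Finset ι) {f : ι → I → X → ℝ} (h : ∀ j, Bf 𝒱 (f j)) :
    u.cl (∑ j ∈ s, f j) = ∑ j ∈ s, u.cl (f j) := by
  classical
  induction s using Finset.induction_on with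
  | empty => simpa using cl_zero u
  | insert a s ha ih => rw [Finset.sum_insert ha, Finset.sum_insert ha, cl_add u (h a) (bf_sum s h), ih]

theorem lim_sq (h : Bf 𝒱 ξ) : Tendsto (fun i => ∑' a, ξ i a ^ 2) 𝒱 (𝓝 (‖u.cl ξ‖ ^ 2)) := by
  have := u.inn _ _ h h
  rw [real_inner_self_eq_norm_sq] at this
  simpa only [sq] using this

theorem tr_cl [AddCommGroup X] (e : X) (h : Bf 𝒱 ξ) :
    Pj.tr u.T e (u.cl ξ) = u.cl fun i a => ξ i (a + e) := by
  refine (u.P_cl (Equiv.addRight (-e)) ξ h).trans ?_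
  simp

theorem J_cl (σ : Equiv.Perm X) (h : Bf 𝒱 ξ) : u.J σ (u.cl ξ) = u.cl fun i a => ξ i (σ a) :=
  u.P_cl σ⁻¹ ξ h

end Cl

section N2
variable (S : Sys.{u, v, w}) [Fintype S.Q] {R : ℕ} {K : Set S.Z} {η : S.X → S.Q → ℝ}

theorem n2_le {μ : S.X → ℝ} (hμ : ∀ a, S.pos R a ∈ K → μ a = 1)
    (hs : ∀ q, Summable fun a => (μ a * η a q) ^ 2) :
    S.n2 R K η ≤ ENNReal.ofReal (∑ q, ∑' a, (μ a * η a q) ^ 2) := by
  rw [Sys.n2, tsum_fintype,
    ENNReal.ofReal_sum_of_nonneg fun q _ => tsum_nonneg fun a => sq_nonneg _]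
  refine Finset.sum_le_sum fun q _ => ?_
  rw [ENNReal.ofReal_tsum_of_nonneg (fun a => sq_nonneg _) (hs q)]
  refine ENNReal.tsum_le_tsum fun a => ?_
  split_ifs with h
  · rw [hμ a h, one_mul]
  · exact zero_le

theorem n2_le' (hs : ∀ q, Summable fun a => η a q ^ 2) :
    S.n2 R K η ≤ ENNReal.ofReal (∑ q, ∑' a, η a q ^ 2) := by
  simpa using n2_le S (R := R) (K := K) (η := η) (μ := fun _ => 1) (fun _ _ => rfl) (by simpa using hs)

theorem le_n2 {μ : S.X → ℝ} {A : ℝ} (hμ : ∀ a, S.pos R a ∉ K → μ a = 0) (hA : ∀ a, |μ a| ≤ A)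
    (q : S.Q) (hs : Summable fun a => (μ a * η a q) ^ 2) :
    ENNReal.ofReal (∑' a, (μ a * η a q) ^ 2) ≤ ENNReal.ofReal (A ^ 2) * S.n2 R K η := by
  refine le_trans ?_ (mul_le_mul_right (ENNReal.le_tsum q) _)
  rw [ENNReal.ofReal_tsum_of_nonneg (fun a => sq_nonneg _) hs, ← ENNReal.tsum_mul_left]
  refine ENNReal.tsum_le_tsum fun a => ?_
  split_ifs with h
  · rw [← ENNReal.ofReal_mul (sq_nonneg _), mul_pow]
    exact ENNReal.ofReal_le_ofReal (mul_le_mul_of_nonneg_right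
      (sq_le_sq' (abs_le.1 (hA a)).1 (abs_le.1 (hA a)).2) (sq_nonneg _))
  · simp [hμ a h]

end N2

theorem conv {α β γ : Type*} {L A a : ℝ} {C C' : ℝ≥0} {s : Finset α} {t : Finset β} {r : Finset γ}
    {b : α → ℝ} {c : β → ℝ} {d : γ → ℝ} {x a' : ℝ≥0∞} {b' : α → ℝ≥0∞} {c' : β → ℝ≥0∞}
    {d' : γ → ℝ≥0∞} (ha : 0 ≤ a) (hb : ∀ e, 0 ≤ b e) (hc : ∀ e, 0 ≤ c e) (hd : ∀ e, 0 ≤ d e)
    (h0 : ENNReal.ofReal L ≤ ENNReal.ofReal (A ^ 2) * x)
    (h : x ≤ C * (a' + ∑ e ∈ s, b' e) + C' * (∑ e ∈ t, c' e + ∑ e ∈ r, d' e))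
    (h1 : a' ≤ ENNReal.ofReal a) (h2 : ∀ e ∈ s, b' e ≤ ENNReal.ofReal (b e))
    (h3 : ∀ e ∈ t, c' e ≤ ENNReal.ofReal (c e)) (h4 : ∀ e ∈ r, d' e ≤ ENNReal.ofReal (d e)) :
    L ≤ A ^ 2 * (C * (a + ∑ e ∈ s, b e) + C' * (∑ e ∈ t, c e + ∑ e ∈ r, d e)) := by
  have sb : 0 ≤ ∑ e ∈ s, b e := Finset.sum_nonneg fun _ _ => hb _
  have sc : 0 ≤ ∑ e ∈ t, c e := Finset.sum_nonneg fun _ _ => hc _
  have sd : 0 ≤ ∑ e ∈ r, d e := Finset.sum_nonneg fun _ _ => hd _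
  refine (ENNReal.ofReal_le_ofReal_iff (by positivity)).1
    (h0.trans ((mul_le_mul_right h _).trans ?_))
  rw [ENNReal.ofReal_mul (sq_nonneg _), ENNReal.ofReal_add (by positivity) (by positivity),
    ENNReal.ofReal_mul C.coe_nonneg, ENNReal.ofReal_mul C'.coe_nonneg, ENNReal.ofReal_add ha sb,
    ENNReal.ofReal_add sc sd, ENNReal.ofReal_sum_of_nonneg fun _ _ => hb _,
    ENNReal.ofReal_sum_of_nonneg fun _ _ => hc _, ENNReal.ofReal_sum_of_nonneg fun _ _ => hd _]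
  exact mul_le_mul_right (add_le_add (mul_le_mul' (by simp) (add_le_add h1 (Finset.sum_le_sum h2)))
    (mul_le_mul' (by simp) (add_le_add (Finset.sum_le_sum h3) (Finset.sum_le_sum h4)))) _

/-- remove the mean along `M` -/
def mz {Q : Type} [Group Q] (M : Subgroup Q) [Fintype M] {V : Type*} [AddCommGroup V] [Module ℝ V]
    (ζ : Q → V) (q : Q) : V := ζ q - (Fintype.card M : ℝ)⁻¹ • ∑ f : M, ζ (q * f)

theorem sum_mz {Q : Type} [Group Q] (M : Subgroup Q) [Fintype M] {V : Type*} [AddCommGroup V]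
    [Module ℝ V] (ζ : Q → V) (q : Q) : ∑ f : M, mz M ζ (q * f) = 0 := by
  have : ∀ f : M, ∑ f' : M, ζ (q * f * f') = ∑ f' : M, ζ (q * f') := fun f => by
    rw [← Equiv.sum_comp (Equiv.mulLeft f) fun f' : M => ζ (q * f')]
    simp [mul_assoc]
  simp only [mz, this, Finset.sum_sub_distrib, Finset.sum_const, Finset.card_univ]
  rw [← Nat.cast_smul_eq_nsmul ℝ, smul_smul, mul_inv_cancel₀ (by simp), one_smul, sub_self]

end J98

open J98

theorem jlStmt (hJ : JcStmt.{u, v, w}) : JlStmt.{u, v, w} := by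
  intro S hS _ 𝒱 h𝒱 H _ _ _ u F hF hD
  classical
  letI : Fintype S.Q := Fintype.ofFinite _
  obtain ⟨K₁, Γ₁, C, hK₁, h⟩ := hJ S hS _ hF.2 hD
  haveI : LocallyCompactSpace (Mt S.d S.F) :=
    inferInstanceAs (LocallyCompactSpace (Fin S.d → Fin S.d → S.F))
  obtain ⟨χ, hχ, χ0, χ1, hχ1⟩ := P84.exists_bump hK₁
  obtain ⟨A, hA⟩ := hF.1.bounded_above_of_compact_support hF.2
  have hχA : ∀ z, |χ z| ≤ 1 := fun z => abs_le.2 ⟨neg_one_lt_zero.le.trans (χ0 z), χ1 z⟩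
  refine ⟨χ, Γ₁, A ^ 2 * C, hχ, fun m₁ hm₁ => ?_⟩
  obtain ⟨C', h⟩ := h m₁ hm₁
  refine ⟨A ^ 2 * C', fun m₂ hm₂ ζ₁ ζ₂ h0 h1 h2 q => ?_⟩
  obtain ⟨E₁, E₂, hE₁, hE₂, h⟩ := h m₂ hm₂
  have ht : Tendsto Prod.fst (𝒱 : Filter (ℕ × ℝ)) atTop := fun s hs =>
    h𝒱 (eventually_curry_iff (p := fun i : ℕ × ℝ => i.1 ∈ s).2
      (Eventually.mono hs fun R hR => Eventually.of_forall fun _ => hR))
  have hev' := ht.eventually h
  -- the inequality with the translation terms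
  let P : (S.Q → H) → (S.Q → H) → Prop := fun ζ₁ ζ₂ =>
    ‖u.Mu (fun i a => F (S.pos i.1 a)) (ζ₂ q)‖ ^ 2 ≤ A ^ 2 * (C * (∑ q, ‖ζ₁ q - ζ₂ q‖ ^ 2 +
      ∑ e ∈ E₁, ∑ q, ‖Pj.tr u.T e (ζ₁ q) - ζ₁ q‖ ^ 2) + C' * (∑ γ ∈ Γ₁, ∑ q,
        ‖u.Mu (fun i a => χ (S.pos i.1 a)) (u.J (S.cjP γ) (ζ₂ (S.c γ * q)) - ζ₂ q)‖ ^ 2 +
      ∑ e ∈ E₂, ∑ q, ‖Pj.tr u.T e (ζ₂ q) - ζ₂ q‖ ^ 2))
  have key : ∀ ξ₁ ξ₂ : S.Q → ℕ × ℝ → S.X → ℝ, (∀ q, Bf 𝒱 (ξ₁ q)) → (∀ q, Bf 𝒱 (ξ₂ q)) →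
      (∀ q, ∑ f : S.M, ξ₂ (q * f) = 0) → P (fun q => u.cl (ξ₁ q)) fun q => u.cl (ξ₂ q) := by
    intro ξ₁ ξ₂ b1 b2 hm
    have bF := bf_mul (μ := fun i a => F (S.pos i.1 a)) (fun _ _ => hA _) (b2 q)
    have b12 := fun q => bf_sub (b1 q) (b2 q)
    have bt1 := fun e q => bf_sub (bf_perm (Equiv.addRight e) (b1 q)) (b1 q)
    have bt2 := fun e q => bf_sub (bf_perm (Equiv.addRight e) (b2 q)) (b2 q)
    have bj := fun (γ : S.Γ) q => bf_sub (bf_perm (S.cjP γ) (b2 (S.c γ * q))) (b2 q)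
    have bχ := fun (γ : S.Γ) q =>
      bf_mul (μ := fun i a => χ (S.pos i.1 a)) (fun _ _ => hχA _) (bj γ q)
    simp only [P]
    simp only [tr_cl u _ (b1 _), tr_cl u _ (b2 _), J_cl u _ (b2 _), ← cl_sub u (b1 _) (b2 _)]
    have e1 : ∀ e q, (u.cl fun i a => ξ₁ q i (a + e)) - u.cl (ξ₁ q) = _ := fun e q =>
      (cl_sub u (bf_perm (Equiv.addRight e) (b1 q)) (b1 q)).symm
    have e2 : ∀ e q, (u.cl fun i a => ξ₂ q i (a + e)) - u.cl (ξ₂ q) = _ := fun e q =>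
      (cl_sub u (bf_perm (Equiv.addRight e) (b2 q)) (b2 q)).symm
    have e3 := fun (γ : S.Γ) q => (cl_sub u (bf_perm (S.cjP γ) (b2 (S.c γ * q))) (b2 q)).symm
    have e4 := fun (γ : S.Γ) q => u.Mu_cl (fun i a => χ (S.pos i.1 a)) 1 _
      (Eventually.of_forall fun _ _ => hχA _) (bj γ q)
    simp only [e1, e2, e3, e4]
    rw [u.Mu_cl _ A _ (Eventually.of_forall fun _ _ => hA _) (b2 q)]
    refine le_of_tendsto_of_tendsto (lim_sq u bF) (Tendsto.const_mul _ (Tendsto.add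
      (Tendsto.const_mul _ (Tendsto.add (tendsto_finsetSum _ fun q _ => lim_sq u (b12 q))
        (tendsto_finsetSum _ fun e _ => tendsto_finsetSum _ fun q _ => lim_sq u (bt1 e q))))
      (Tendsto.const_mul _ (Tendsto.add
        (tendsto_finsetSum _ fun γ _ => tendsto_finsetSum _ fun q _ => lim_sq u (bχ γ q))
        (tendsto_finsetSum _ fun e _ => tendsto_finsetSum _ fun q _ => lim_sq u (bt2 e q)))))) ?_
    filter_upwards [hev', bf_ev bF, eventually_all.2 fun q => bf_ev (b2 q),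
      eventually_all.2 fun q => bf_ev (b12 q),
      (eventually_all_finset E₁).2 fun e _ => eventually_all.2 fun q => bf_ev (bt1 e q),
      (eventually_all_finset E₂).2 fun e _ => eventually_all.2 fun q => bf_ev (bt2 e q),
      (eventually_all_finset Γ₁).2 fun γ _ => eventually_all.2 fun q => bf_ev (bχ γ q)]
      with i hi s0 s2 s12 st1 st2 sχ
    have hi' := hi (fun a q => ξ₁ q i a) (fun a q => ξ₂ q i a) (fun a q => by
      rw [finsum_eq_sum_of_fintype]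
      simpa using congrFun (congrFun (hm q) i) a)
      (ne_top_of_le_ne_top ENNReal.ofReal_ne_top (n2_le' S s2))
    have nn : ∀ f : S.Q → S.X → ℝ, 0 ≤ ∑ q, ∑' a, f q a ^ 2 := fun f =>
      Finset.sum_nonneg fun _ _ => tsum_nonneg fun _ => sq_nonneg _
    have g0 := le_n2 S (R := i.1) (K := tsupport F) (η := fun a q => ξ₂ q i a)
      (μ := fun a => F (S.pos i.1 a)) (fun a ha => image_eq_zero_of_notMem_tsupport ha)
      (fun _ => hA _) q s0
    exact conv (nn _) (fun _ => nn _) (fun _ => nn _) (fun _ => nn _) g0 hi' (n2_le' S s12)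
      (fun e he => n2_le' S (st1 e he)) (fun γ hγ => n2_le S (μ := fun a => χ (S.pos i.1 a))
        (fun a ha => hχ1 _ ha) (sχ γ hγ)) fun e he => n2_le' S (st2 e he)
  have hd := dense_pi (univ : Set S.Q) fun _ _ => u.dense
  have all : ∀ z : (S.Q → H) × (S.Q → H), P z.1 (mz S.M z.2) := fun z => by
    refine (hd.prod hd).induction (P := fun z => P z.1 (mz S.M z.2)) ?_ ?_ z
    · rintro ⟨z₁, z₂⟩ ⟨g1, g2⟩
      choose ξ₁ b1 e1 using fun q => g1 q (mem_univ q)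
      choose ξ₂ b2 e2 using fun q => g2 q (mem_univ q)
      have b3 := fun q => bf_smul (Fintype.card S.M : ℝ)⁻¹
        (bf_sum Finset.univ fun f : S.M => b2 (q * f))
      have := key ξ₁ (mz S.M ξ₂) b1 (fun q => bf_sub (b2 q) (b3 q)) (sum_mz S.M ξ₂)
      convert this using 2 with q q
      · exact (e1 q).symm
      · rw [mz, mz, cl_sub u (b2 q) (b3 q), cl_smul u _ (bf_sum _ fun f : S.M => b2 (q * f)),
          cl_sum u _ fun f : S.M => b2 (q * f), e2]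
        simp only [e2]
    · simp only [P, mz]
      exact isClosed_le (by fun_prop) (by fun_prop)
  have e0 : mz S.M ζ₂ = ζ₂ := funext fun q => by
    rw [mz, ← finsum_eq_sum_of_fintype, h0, smul_zero, sub_zero]
  have := all (ζ₁, ζ₂)
  rw [e0] at this
  have z1 : ∑ e ∈ E₁, ∑ q, ‖Pj.tr u.T e (ζ₁ q) - ζ₁ q‖ ^ 2 = 0 :=
    Finset.sum_eq_zero fun e he => Finset.sum_eq_zero fun q _ => by
      obtain ⟨b, hb, rfl⟩ := hE₁ e he
      simp [h1 q b hb]
  have z2 : ∑ e ∈ E₂, ∑ q, ‖Pj.tr u.T e (ζ₂ q) - ζ₂ q‖ ^ 2 = 0 :=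
    Finset.sum_eq_zero fun e he => Finset.sum_eq_zero fun q _ => by
      obtain ⟨b, hb, rfl⟩ := hE₂ e he
      simp [h2 q b hb]
  simp only [P, z1, z2, add_zero] at this
  simp only [finsum_eq_sum_of_fintype]
  linarith

end Crest.Agent.T24.Na
end
end

-- ▼ part T24/NaCl_84
section

/-!
# Row 24, module NA: classes of continuous invariant functions in the Koopman representation
(helper84)
-/

set_option autoImplicit false
set_option linter.unusedSectionVars false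

noncomputable section

namespace Crest.Agent.T24.Na.Cl84

open Topology Filter MeasureTheory Set K39
open scoped ENNReal

universe u v w

/-- invariant, continuous, and square summable on `C` -/
structure Gd {G Γ Y : Type*} [Group G] [TopologicalSpace G] [Group Γ] [MulAction Γ Y] (ι : Γ →* G)
    (C : Set G) (Ψ : G × Y → ℝ) (b : ℝ) : Prop where
  inv : Inv ι Ψ
  cont : ∀ y, Continuous fun g => Ψ (g, y)
  nonneg : 0 ≤ b
  bd : ∀ g ∈ C, ∀ T : Finset Y, ∑ y ∈ T, Ψ (g, y) ^ 2 ≤ b ^ 2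

/-- the Koopman representation on classes of good functions -/
structure Koop {G Γ Y V : Type*} [Group G] [TopologicalSpace G] [Group Γ] [MulAction Γ Y]
    [NormedAddCommGroup V] [InnerProductSpace ℝ V] (ι : Γ →* G) (C : Set G) (c₀ : ℝ)
    (π : G →* (V ≃ₗᵢ[ℝ] V)) (cl : (G × Y → ℝ) → V) : Prop where
  nonneg : 0 ≤ c₀
  norm : ∀ {Ψ b}, Gd ι C Ψ b → ‖cl Ψ‖ ≤ c₀ * b
  add : ∀ {Ψ Ψ' b b'}, Gd ι C Ψ b → Gd ι C Ψ' b' → cl (Ψ + Ψ') = cl Ψ + cl Ψ'
  eqv : ∀ {Ψ b} (k : G), Gd ι C Ψ b → π k (cl Ψ) = cl fun p => Ψ (p.1 * k, p.2)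
  inj : ∀ {Ψ Ψ' b b'}, Gd ι C Ψ b → Gd ι C Ψ' b' → cl Ψ = cl Ψ' → Ψ = Ψ'

theorem exists_koop {G : Type u} {Γ : Type w} [Group G] [TopologicalSpace G] [IsTopologicalGroup G]
    [LocallyCompactSpace G] [SecondCountableTopology G] [T2Space G] [Group Γ] (ι : Γ →* G)
    (hd : ∃ U ∈ 𝓝 (1 : G), ∀ γ, ι γ ∈ U → γ = 1)
    (hc : ∃ C : Set G, IsCompact C ∧ ∀ g, ∃ γ, (ι γ)⁻¹ * g ∈ C) (Y : Type v) [Countable Y]
    [MulAction Γ Y] :
    ∃ (C : Set G) (c₀ : ℝ) (V : Type (max u v)) (_ : NormedAddCommGroup V)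
      (_ : InnerProductSpace ℝ V) (_ : CompleteSpace V) (π : G →* (V ≃ₗᵢ[ℝ] V))
      (cl : (G × Y → ℝ) → V), IsCompact C ∧ Koop ι C c₀ π cl := by
  classical
  borelize G
  let : MeasurableSpace Y := ⊤
  have : DiscreteMeasurableSpace Y := ⟨fun _ => trivial⟩
  obtain ⟨hΓ, ⟨c, h⟩, hμ⟩ := exists_co ι hd hc
  set μ : Measure G := Measure.haar
  have := hμ μ
  set ω : Measure Y := wm fun _ => 1
  have : SMulInvariantMeasure Γ Y ω := wm_inv fun _ _ => rfl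
  obtain ⟨C, hC, hF⟩ := h.Fd_cpt
  have hfin : μ C ≠ ∞ := hC.measure_lt_top.ne
  have hm : ∀ {Ψ : G × Y → ℝ} {b}, Gd ι C Ψ b → Measurable Ψ := fun hΨ =>
    measurable_from_prod_countable_left fun y => (hΨ.cont y).measurable
  have h1 : ∀ {Ψ : G × Y → ℝ} {b}, Gd ι C Ψ b →
      ∫⁻ p, ‖Ψ p‖ₑ ^ 2 ∂mX c μ ω ≤ ENNReal.ofReal (b ^ 2) * μ C := fun {Ψ b} hΨ => by
    rw [mX, lintegral_prod _ ((hm hΨ).enorm.pow_const 2).aemeasurable]
    refine (setLIntegral_mono' h.mFd (g := fun _ => ENNReal.ofReal (b ^ 2)) fun x hx => ?_).trans ?_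
    · rw [lintegral_wm, ENNReal.tsum_eq_iSup_sum]
      refine iSup_le fun T => le_trans (le_of_eq ?_) (ENNReal.ofReal_le_ofReal (hΨ.bd x (hF hx) T))
      rw [ENNReal.ofReal_sum_of_nonneg fun _ _ => sq_nonneg _]
      exact Finset.sum_congr rfl fun y _ => by
        rw [one_mul, ← ofReal_norm, ← ENNReal.ofReal_pow (norm_nonneg _), Real.norm_eq_abs, sq_abs]
    · rw [setLIntegral_const]
      gcongr
  have h2 : ∀ {Ψ : G × Y → ℝ} {b}, Gd ι C Ψ b → MemLp Ψ 2 (mX c μ ω) := fun hΨ =>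
    memLp_two (hm hΨ).aestronglyMeasurable
      (ne_top_of_le_ne_top (ENNReal.mul_ne_top ENNReal.ofReal_ne_top hfin) (h1 hΨ))
  set cl : (G × Y → ℝ) → Lp ℝ 2 (mX c μ ω) := fun Ψ =>
    if hΨ : MemLp Ψ 2 (mX c μ ω) then hΨ.toLp Ψ else 0 with hcl
  have h3 : ∀ {Ψ : G × Y → ℝ}, MemLp Ψ 2 (mX c μ ω) → cl Ψ =ᵐ[mX c μ ω] Ψ := fun hΨ => by
    simp only [hcl, dif_pos hΨ]
    exact hΨ.coeFn_toLp
  refine ⟨C, √(μ C).toReal, Lp ℝ 2 (mX c μ ω), inferInstance, inferInstance, inferInstance,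
    h.kp μ ω, cl, hC, Real.sqrt_nonneg _, fun {Ψ b} hΨ => ?_, fun hΨ hΨ' => Lp.ext ?_,
    fun {Ψ b} k hΨ => Lp.ext ?_, fun {Ψ Ψ' b b'} hΨ hΨ' e => ?_⟩
  · have h4 := (enorm_sq (h3 (h2 hΨ))).trans_le (h1 hΨ)
    rw [← ofReal_norm, ← ENNReal.ofReal_pow (norm_nonneg _), ← ENNReal.ofReal_toReal hfin,
      ← ENNReal.ofReal_mul (sq_nonneg _), ENNReal.ofReal_le_ofReal_iff (by positivity)] at h4
    refine (pow_le_pow_iff_left₀ (norm_nonneg _) (mul_nonneg (Real.sqrt_nonneg _) hΨ.nonneg)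
      two_ne_zero).1 (h4.trans_eq ?_)
    rw [mul_pow, Real.sq_sqrt ENNReal.toReal_nonneg, mul_comm]
  · filter_upwards [h3 ((h2 hΨ).add (h2 hΨ')), h3 (h2 hΨ), h3 (h2 hΨ'), Lp.coeFn_add (cl _) (cl _)]
      with p a1 a2 a3 a4
    rw [a1, a4, Pi.add_apply, Pi.add_apply, a2, a3]
  · have a := h.kp_inv μ ω k hΨ.inv (h3 (h2 hΨ))
    exact a.trans (h3 ((memLp_congr_ae a).1 (Lp.memLp _))).symm
  · have a : ∀ᵐ p ∂mX c μ ω, Ψ p = Ψ' p := (h3 (h2 hΨ)).symm.trans (e ▸ h3 (h2 hΨ'))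
    have a2 := Measure.ae_ae_of_ae_prod (h.ae_of_mX μ ω (q := fun p => Ψ p = Ψ' p)
      (fun γ p => by simp only [hΨ.inv γ p, hΨ'.inv γ p]) a)
    funext ⟨g, y⟩
    refine congrFun (((hΨ.cont y).ae_eq_iff_eq μ (hΨ'.cont y)).1 ?_) g
    filter_upwards [a2] with x hx
    by_contra hne
    have := measure_mono_null (singleton_subset_iff.2 hne) (ae_iff.1 hx)
    rw [wm_singleton] at this
    exact one_ne_zero this

end Crest.Agent.T24.Na.Cl84
end
end

-- ▼ part T24/NaEsc_84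

/-!
# Row 24, module NA: `EscStmt` (helper84)
-/

set_option autoImplicit false
set_option linter.unusedSectionVars false

noncomputable section

namespace Crest.Agent.T24.Na

open Topology Filter Set P84 Cl84

universe u v w

namespace E84

variable {F : Type u} [Field F] [TopologicalSpace F] [IsTopologicalDivisionRing F] [T2Space F]
  {O : Subring F} {π : F} {d : ℕ}

theorem dat (h : Lf O π) : ∃ t : Fin 5 → F, Kaz.Dat O π⁻¹ t := by
  obtain ⟨t, ht1, ht2⟩ := h.loc.res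
  exact ⟨t, ht1, fun k l hkl => ⟨_, (ht2 l k hkl.symm).2,
    inv_mul_cancel₀ (sub_ne_zero.2 (ht2 l k hkl.symm).1)⟩, fun x => by
      obtain ⟨m, hm⟩ := h.loc.abs x
      exact ⟨m, _, hm, (inv_pow π m ▸ inv_mul_cancel_left₀ (pow_ne_zero m h.loc.ne) x).symm⟩⟩

theorem Lv_eq (j : ℕ) : Vm.Lv O π (Fin d) j = cell d O π j := AddSubgroup.ext fun _ => Iff.rfl

/-- conjugation -/
def cj (h : GL (Fin d) F) : Mt d F ≃ₜ Mt d F where
  toFun y := (h : Mt d F) * y * ((h⁻¹ : GL (Fin d) F) : Mt d F)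
  invFun y := ((h⁻¹ : GL (Fin d) F) : Mt d F) * y * (h : Mt d F)
  left_inv y := by simp only [← mul_assoc, Units.inv_mul, one_mul]; rw [mul_assoc, Units.inv_mul, mul_one]
  right_inv y := by simp only [← mul_assoc, Units.mul_inv, one_mul]; rw [mul_assoc, Units.mul_inv, mul_one]
  continuous_toFun := by fun_prop
  continuous_invFun := by fun_prop

theorem cj_apply (h : GL (Fin d) F) (y : Mt d F) :
    cj h y = (h : Mt d F) * y * ((h⁻¹ : GL (Fin d) F) : Mt d F) := rfl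

theorem cj_mul (g h : GL (Fin d) F) (y : Mt d F) : cj (g * h) y = cj g (cj h y) := by
  simp only [cj_apply, mul_inv_rev, Units.val_mul, mul_assoc]

theorem cj_one (y : Mt d F) : cj (1 : GL (Fin d) F) y = y := by simp [cj_apply]

theorem cj_smul (h : GL (Fin d) F) (l : F) (y : Mt d F) : cj h (l • y) = l • cj h y := by
  simp only [cj_apply, smul_mul_assoc, mul_smul_comm]

theorem dom_of_cj {h : GL (Fin d) F} {y : Mt d F} (hy : Dom O π (cj h y)) : Dom O π y := by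
  obtain ⟨i, k, l, e⟩ := hy
  exact ⟨i, k * h, l, by rwa [← cj_apply, cj_mul]⟩

/-- compact open sets of dominant matrices -/
structure Good (O : Subring F) (π : F) (β : Set (Mt d F)) : Prop where
  cpt : IsCompact β
  opn : IsOpen β
  dom : ∀ y ∈ β, Dom O π y

theorem Good.conj {β : Set (Mt d F)} (hβ : Good O π β) (h : GL (Fin d) F) : Good O π (cj h ⁻¹' β) :=
  ⟨(Homeomorph.isCompact_preimage _).2 hβ.cpt, hβ.opn.preimage (cj h).continuous,
    fun _ hy => dom_of_cj (hβ.dom _ hy)⟩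

theorem good_sat (hL : Lf O π) {i : Fin d} {l : F} (hl : l ≠ 0) {j : ℕ} {s : Set (Mt d F)}
    (hs : s ⊆ Vm.cell (cell d O π 1) (Matrix.single i i 1)) (hj : Vm.Sat (cell d O π j) s) :
    Good O π {y | l • y ∈ s} := by
  have hn : ∀ x : Mt d F, {y | y - x ∈ cell d O π j} ∈ 𝓝 x := fun x =>
    ((cell_open hL j).preimage (continuous_sub_right x)).mem_nhds (by simp)
  have ho : IsOpen s := isOpen_iff_mem_nhds.2 fun x hx =>
    mem_of_superset (hn x) fun y hy => by simpa using hj x hx _ hy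
  have hc : IsClosed s := isOpen_compl_iff.1 (isOpen_iff_mem_nhds.2 fun x hx =>
    mem_of_superset (hn x) fun y hy hy' => hx (by simpa using hj y hy' _ (neg_mem hy)))
  have hk : IsCompact (Vm.cell (cell d O π 1) (Matrix.single i i (1 : F))) :=
    (Homeomorph.isCompact_preimage (Homeomorph.addLeft (-Matrix.single i i (1 : F)))).2
      (cell_compact hL 1)
  exact ⟨(Homeomorph.isCompact_preimage (Homeomorph.smulOfNeZero l hl)).2
    (hk.of_isClosed_subset hc hs), ho.preimage (continuous_const_smul l),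
    fun y hy => ⟨i, 1, l, by simpa using Vm.mem_cell.1 (hs hy)⟩⟩

/-- the enlarged cells -/
def big (d : ℕ) (O : Subring F) (π : F) (c j : ℕ) : AddSubgroup (Mt d F) :=
  (cell d O π j).comap (DistribSMul.toAddMonoidHom _ (π ^ c))

theorem mem_big {c j : ℕ} {y : Mt d F} : y ∈ big d O π c j ↔ π ^ c • y ∈ cell d O π j := Iff.rfl

theorem big_compact (hL : Lf O π) (c j : ℕ) : IsCompact (big d O π c j : Set (Mt d F)) :=
  (Homeomorph.isCompact_preimage (Homeomorph.smulOfNeZero _ (pow_ne_zero c hL.loc.ne))).2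
    (cell_compact hL j)

theorem big_open (hL : Lf O π) (c j : ℕ) : IsOpen (big d O π c j : Set (Mt d F)) :=
  (cell_open hL j).preimage (continuous_const_smul (π ^ c))

theorem big_index (hL : Lf O π) (c j : ℕ) :
    (big d O π c j).relIndex (big d O π c 0) = ncell d O π j := by
  rw [big, big, AddSubgroup.relIndex_comap, AddSubgroup.map_comap_eq_self_of_surjective
    (fun x => ⟨(π ^ c)⁻¹ • x, smul_inv_smul₀ (pow_ne_zero c hL.loc.ne) x⟩), ncell]

variable {G₂ : Type v} [Group G₂] [TopologicalSpace G₂] [IsTopologicalGroup G₂]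
  {Z₂ : Type v} [TopologicalSpace Z₂] [LocallyCompactSpace Z₂] [T2Space Z₂] [MulAction G₂ Z₂]
  [ContinuousSMul G₂ Z₂]

theorem ac_mul (g h : G₂ × GL (Fin d) F) (z : Z₂ × Mt d F) : ac (g * h) z = ac g (ac h z) :=
  Prod.ext (mul_smul _ _ _) (cj_mul _ _ _)

theorem ac_one (z : Z₂ × Mt d F) : ac (1 : G₂ × GL (Fin d) F) z = z :=
  Prod.ext (one_smul _ _) (cj_one _)

theorem continuous_ac :
    Continuous fun p : (G₂ × GL (Fin d) F) × (Z₂ × Mt d F) => ac p.1 p.2 := by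
  have h1 : Continuous fun p : (G₂ × GL (Fin d) F) × (Z₂ × Mt d F) => (p.1.2 : Mt d F) :=
    Units.continuous_val.comp (by fun_prop)
  have h2 : Continuous fun p : (G₂ × GL (Fin d) F) × (Z₂ × Mt d F) =>
      ((p.1.2⁻¹ : GL (Fin d) F) : Mt d F) := Units.continuous_coe_inv.comp (by fun_prop)
  exact Continuous.prodMk (by fun_prop) ((h1.mul (by fun_prop)).mul h2)

/-- the action as a homeomorphism -/
def acH (g : G₂ × GL (Fin d) F) : Z₂ × Mt d F ≃ₜ Z₂ × Mt d F :=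
  (Homeomorph.smul g.1).prodCongr (cj g.2)

theorem cc_ac {φ : Z₂ × Mt d F → ℝ} (h : Cc φ) (g : G₂ × GL (Fin d) F) : Cc fun z => φ (ac g z) :=
  cc_comp h (acH g)

variable [LocallyCompactSpace F] [LocallyCompactSpace G₂] {Γ : Type w} [Group Γ]
  {ι : Γ →* G₂ × GL (Fin d) F} {Y : Type w} [MulAction Γ Y] {μ : Y → (Z₂ × Mt d F → ℝ) → ℝ}
  {Λ : (Z₂ × Mt d F → ℝ) → ℝ}

instance : LocallyCompactSpace (Mt d F) := inferInstanceAs (LocallyCompactSpace (Fin d → Fin d → F))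

/-- the hypotheses -/
structure Hyp (O : Subring F) (π : F) (ι : Γ →* G₂ × GL (Fin d) F)
    (μ : Y → (Z₂ × Mt d F → ℝ) → ℝ) (Λ : (Z₂ × Mt d F → ℝ) → ℝ) : Prop where
  lf : Lf O π
  pos : ∀ y, PosF (μ y)
  posL : PosF Λ
  tr : ∀ φ (t : Mt d F), Cc φ → Λ (fun z => φ (z.1, z.2 + t)) = Λ φ
  eqv : ∀ γ y φ, Cc φ → μ (γ • y) φ = μ y fun z => φ (ac (ι γ) z)
  sum : ∀ (T : Finset Y) φ, Cc φ → 0 ≤ φ → (∀ z ∈ tsupport φ, Dom O π z.2) → ∑ y ∈ T, μ y φ ≤ Λ φ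

/-- the functions on `G × Y` -/
def Ps (μ : Y → (Z₂ × Mt d F → ℝ) → ℝ) (χ : Z₂ → ℝ) (β : Set (Mt d F))
    (p : (G₂ × GL (Fin d) F) × Y) : ℝ := μ p.2 fun z => tens χ β (ac p.1⁻¹ z)

theorem Ps_rt (χ : Z₂ → ℝ) (β : Set (Mt d F)) (k : GL (Fin d) F) (g : G₂ × GL (Fin d) F) (y : Y) :
    Ps μ χ β (g * (1, k), y) = Ps μ χ (cj k⁻¹ ⁻¹' β) (g, y) := by
  simp only [Ps, mul_inv_rev, ac_mul]
  congr 1
  funext z
  simp only [tens, ac, Prod.inv_mk, inv_one, one_smul]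
  rfl

theorem tens_ac (χ : Z₂ → ℝ) (β : Set (Mt d F)) (g : G₂ × GL (Fin d) F) :
    (fun z => tens χ β (ac g z)) = tens (fun x => χ (g.1 • x)) (cj g.2 ⁻¹' β) := rfl

theorem exists_bump_smul {K : Set G₂} (hK : IsCompact K) {χ : Z₂ → ℝ} (hχ : Cc χ) (h1 : χ ≤ 1) :
    ∃ χ₁ : Z₂ → ℝ, Cc χ₁ ∧ 0 ≤ χ₁ ∧ ∀ g ∈ K, (fun x => χ (g⁻¹ • x)) ≤ χ₁ := by
  obtain ⟨χ₁, a, b, -, c⟩ := exists_bump ((hK.prod hχ.2.isCompact).image
    (continuous_smul : Continuous fun p : G₂ × Z₂ => p.1 • p.2))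
  refine ⟨χ₁, a, b, fun g hg x => ?_⟩
  by_cases h : g⁻¹ • x ∈ tsupport χ
  · rw [c x ⟨(g, g⁻¹ • x), ⟨hg, h⟩, smul_inv_smul g x⟩]; exact h1 _
  · exact (image_eq_zero_of_notMem_tsupport h).trans_le (b x)

namespace Hyp
variable (h : Hyp O π ι μ Λ) {χ χ₁ : Z₂ → ℝ} {β : Set (Mt d F)}
include h

theorem sum_tens (hχ : Cc χ) (h0 : 0 ≤ χ) (hβ : Good O π β) (T : Finset Y) :
    ∑ y ∈ T, μ y (tens χ β) ≤ Λ (tens χ β) :=
  h.sum T _ (cc_tens hχ hβ.cpt hβ.opn) (tens_nonneg h0 _)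
    fun _ hz => hβ.dom _ (tsupport_tens hβ.cpt hz).2

theorem inv (hχ : Cc χ) (hβ : Good O π β) : K39.Inv ι (Ps μ χ β) := fun γ p => by
  simp only [Ps, K39.act]
  rw [h.eqv _ _ _ (cc_ac (cc_tens hχ hβ.cpt hβ.opn) _)]
  simp only [← ac_mul, mul_inv_rev, inv_mul_cancel_right]

theorem gd (hχ : Cc χ) (h0 : 0 ≤ χ) (hβ : Good O π β) {C : Set (G₂ × GL (Fin d) F)} (h1 : Cc χ₁)
    (h2 : 0 ≤ χ₁) (h3 : ∀ g ∈ Prod.fst '' C, (fun x => χ (g⁻¹ • x)) ≤ χ₁) {H : Set (Mt d F)}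
    (hc : IsCompact H) (ho : IsOpen H) (h4 : ∀ g ∈ C, ∃ t, ∀ y ∈ β, cj g.2 y + t ∈ H) :
    Gd ι C (Ps μ χ β) (Λ (tens χ₁ H)) where
  inv := h.inv hχ hβ
  cont y := by
    have hφ := cc_tens hχ hβ.cpt hβ.opn
    refine pos_cont (h.pos y) (f := fun g z => tens χ β (ac g⁻¹ z))
      (hφ.1.comp (continuous_ac.comp (continuous_fst.inv.prodMk continuous_snd))) fun g₀ => ?_
    obtain ⟨N, hN, hg⟩ := exists_compact_mem_nhds g₀
    refine ⟨_, (hN.prod hφ.2.isCompact).image continuous_ac, mem_of_superset hg fun g hg z hz => ?_⟩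
    exact image_eq_zero_of_notMem_tsupport fun h' => hz ⟨(g, ac g⁻¹ z), ⟨hg, h'⟩, by
      simp only [← ac_mul, mul_inv_cancel, ac_one]⟩
  nonneg := h.posL.pos _ (cc_tens h1 hc ho) (tens_nonneg h2 _)
  bd g hg T := by
    obtain ⟨t, ht⟩ := h4 g hg
    have hχ' : Cc fun x => χ (g⁻¹.1 • x) := cc_comp hχ (Homeomorph.smul _)
    have hβ' := hβ.conj g⁻¹.2
    have a : ∀ y, 0 ≤ Ps μ χ β (g, y) := fun y =>
      (h.pos y).pos _ (cc_tens hχ' hβ'.cpt hβ'.opn) fun z => tens_nonneg h0 β (ac g⁻¹ z)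
    refine (Finset.sum_sq_le_sq_sum_of_nonneg fun y _ => a y).trans
      (pow_le_pow_left₀ (Finset.sum_nonneg fun y _ => a y) ?_ 2)
    refine (h.sum_tens hχ' (fun x => h0 (g⁻¹.1 • x)) hβ' T).trans ?_
    rw [← tens_shift h.tr h1 hc ho t]
    refine pos_mono h.posL (cc_tens hχ' hβ'.cpt hβ'.opn) (cc_tens h1
      ((Homeomorph.isCompact_preimage (Homeomorph.addRight t)).2 hc)
      (ho.preimage (continuous_add_const t))) (tens_mono h2 (h3 _ ⟨g, hg, rfl⟩) fun y hy => ?_)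
    have := ht _ hy
    rwa [← cj_mul, Prod.snd_inv, mul_inv_cancel, cj_one] at this

theorem gd' (hχ : Cc χ) (h0 : 0 ≤ χ) (h1 : χ ≤ 1) (hβ : Good O π β) {C : Set (G₂ × GL (Fin d) F)}
    (hC : IsCompact C) : ∃ b, Gd ι C (Ps μ χ β) b := by
  obtain ⟨χ₁, a, b, c⟩ := exists_bump_smul (hC.image continuous_fst) hχ h1
  obtain ⟨m, hm⟩ := bounded h.lf hβ.cpt
  obtain ⟨n, hn⟩ := bounded_gl h.lf (hC.image continuous_snd)
  refine ⟨_, h.gd hχ h0 hβ a b c (big_compact h.lf (n + m) 0) (big_open h.lf _ _)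
    fun g hg => ⟨0, fun y hy => ?_⟩⟩
  have := (hn _ ⟨g, hg, rfl⟩ _ ⟨g, hg, rfl⟩ 0 _ (hm y hy)).1
  rwa [← cj_apply, cj_smul, smul_smul, ← pow_add, ← add_zero (cj _ _)] at this

variable [SecondCountableTopology F] [SecondCountableTopology G₂] [T2Space G₂] [Countable Y]

/-- invariance under `SL_d (F)` -/
theorem fixed (hd : 3 ≤ d) (hι : Latt ι) (hχ : Cc χ) (h0 : 0 ≤ χ) (h1 : χ ≤ 1) (i : Fin d) {l : F}
    (hl : l ≠ 0) (k : Matrix.SpecialLinearGroup (Fin d) F) (g : G₂ × GL (Fin d) F) (y : Y) :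
    Ps μ χ {y | l • y ∈ Vm.cell (cell d O π 1) (Matrix.single i i 1)} (g * K39.jS G₂ k, y) =
      Ps μ χ {y | l • y ∈ Vm.cell (cell d O π 1) (Matrix.single i i 1)} (g, y) := by
  obtain ⟨C, c₀, V, _, _, _, ρ, cl, hC, hK⟩ := exists_koop ι hι.disc hι.coc Y
  obtain ⟨t, ht⟩ := dat h.lf
  obtain ⟨χ₁, a, b, c⟩ := exists_bump_smul (hC.image continuous_fst) hχ h1
  obtain ⟨m, hm⟩ := h.lf.loc.abs l⁻¹
  obtain ⟨n, hn⟩ := bounded_gl h.lf (hC.image continuous_snd)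
  have hsub : ∀ j, ∀ z ∈ Vm.cell (cell d O π 1) (Matrix.single i i 1),
      Vm.cell (cell d O π (1 + j)) z ⊆ Vm.cell (cell d O π 1) (Matrix.single i i 1) :=
    fun j z hz x hx => by
      rw [Vm.mem_cell] at *
      simpa using add_mem (cell_anti h.lf.pi_mem (Nat.le_add_right 1 j) hx) hz
  have e : ∀ (s : Set (Mt d F)) (k : Matrix.SpecialLinearGroup (Fin d) F),
      (fun p : (G₂ × GL (Fin d) F) × Y => Ps μ χ {y | l • y ∈ s} (p.1 * K39.jS G₂ k, p.2)) =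
        Ps μ χ (cj (Matrix.SpecialLinearGroup.toGL k)⁻¹ ⁻¹' {y | l • y ∈ s}) := fun s k =>
    funext fun p => Ps_rt χ _ _ p.1 p.2
  have key := Vm.vm_conj ht h.lf.pi_mem (inv_mul_cancel₀ h.lf.loc.ne) (by simp) (by simpa using hd)
    (fun j => by simp only [Lv_eq]; exact ncell_ne h.lf j) (ρ.comp (K39.jS G₂)) i le_rfl
    (z₀ := Matrix.single i i 1) (by simp) (fun s => cl (Ps μ χ {y | l • y ∈ s}))
    (C := c₀ * Λ (tens χ₁ (big d O π (n + m) 0 : Set (Mt d F))))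
  simp only [Lv_eq] at key
  have g0 := good_sat h.lf hl (subset_refl _) (Vm.sat_cell (cell d O π 1) (Matrix.single i i 1))
  obtain ⟨b₁, k1⟩ := h.gd' hχ h0 h1 g0 hC
  obtain ⟨b₂, k2⟩ := h.gd' hχ h0 h1 (g0.conj (Matrix.SpecialLinearGroup.toGL k)⁻¹) hC
  refine (congrFun (e _ k) (g, y)).trans (congrFun (hK.inj k2 k1 ?_) _)
  rw [← e, ← hK.eqv _ k1]
  refine key (fun j s s' hs hs' h2 h3 h4 => ?_) (fun j z hz => ?_) (fun k j z hz => ?_) k
  · have g1 := good_sat h.lf hl hs h2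
    have g2 := good_sat h.lf hl hs' h3
    obtain ⟨_, k3⟩ := h.gd' hχ h0 h1 g1 hC
    obtain ⟨_, k4⟩ := h.gd' hχ h0 h1 g2 hC
    rw [← hK.add k3 k4]
    congr 1
    funext p
    simp only [Ps, Pi.add_apply]
    rw [← (h.pos _).add _ _ (cc_ac (cc_tens hχ g1.cpt g1.opn) _) (cc_ac (cc_tens hχ g2.cpt g2.opn) _),
      show {y | l • y ∈ s ∪ s'} = {y | l • y ∈ s} ∪ {y | l • y ∈ s'} from rfl,
      tens_union χ (β := {y | l • y ∈ s}) (β' := {y | l • y ∈ s'}) (h4.preimage _)]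
    rfl
  · have k3 := hK.norm (h.gd hχ h0 (good_sat h.lf hl (hsub j z hz) (Vm.sat_cell _ _)) a b c
      (big_compact h.lf (n + m) j) (big_open h.lf _ _) fun g hg => ⟨-cj g.2 (l⁻¹ • z), fun y hy => ?_⟩)
    · rw [tens_index h.posL h.tr a (H := big d O π (n + m) 0) (H' := big d O π (n + m) j)
        (AddSubgroup.comap_mono (cell_anti h.lf.pi_mem (Nat.zero_le j))) (big_compact h.lf _ _)
        (big_open h.lf _ _), big_index h.lf, mul_left_comm]
      exact mul_le_mul_of_nonneg_left k3 (Nat.cast_nonneg _)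
    · have := (hn _ ⟨g, hg, rfl⟩ _ ⟨g, hg, rfl⟩ j _ (o_smul_mem hm
        (cell_anti h.lf.pi_mem (Nat.le_add_left j 1) (Vm.mem_cell.1 hy)))).1
      rw [mul_smul, smul_sub, inv_smul_smul₀ hl, ← cj_apply, cj_smul, smul_smul, ← pow_add] at this
      refine mem_big.2 (by convert this using 2; simp only [cj_apply, mul_sub, sub_mul, ← sub_eq_add_neg])
  · obtain ⟨_, k3⟩ := h.gd' hχ h0 h1 (good_sat h.lf hl (hsub j z hz) (Vm.sat_cell _ _)) hC
    rw [MonoidHom.comp_apply, hK.eqv _ k3, e]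
    congr 2
    ext y
    have : (fun x : Mt d F => (k : Mt d F) * x * ((k⁻¹ : Matrix.SpecialLinearGroup (Fin d) F) : Mt d F)) =
        cj (Matrix.SpecialLinearGroup.toGL k) := by
      funext x
      rw [cj_apply, ← map_inv]; rfl
    rw [this, Homeomorph.image_eq_preimage_symm, mem_preimage, mem_ofPred_eq, mem_ofPred_eq,
      mem_preimage, ← cj_smul]
    simp only [cj_apply, inv_inv]
    rfl

theorem zero (hd : 3 ≤ d) (hι : Latt ι) (hχ : Cc χ) (h0 : 0 ≤ χ) (h1 : χ ≤ 1) (i : Fin d) {l : F}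
    (hl : l ≠ 0) (k : GL (Fin d) F) {y : Y} (hy : Esc ι y) :
    μ y (tens χ (cj k ⁻¹' {y | l • y ∈ Vm.cell (cell d O π 1) (Matrix.single i i 1)})) = 0 := by
  have g0 := good_sat h.lf hl (subset_refl _) (Vm.sat_cell (cell d O π 1) (Matrix.single i i 1))
  set Ω := {y | l • y ∈ Vm.cell (cell d O π 1) (Matrix.single i i (1 : F))}
  have g1 := g0.conj k
  obtain ⟨W, hW, hW'⟩ := exists_compact_mem_nhds (1 : G₂)
  obtain ⟨χ₁, a, b, c⟩ := exists_bump_smul hW.inv hχ h1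
  have key : ∀ y' ∈ {y' | ∃ γ, Near ι W γ ∧ γ • y' = y},
      μ y (tens χ (cj k ⁻¹' Ω)) ≤ μ y' (tens χ₁ (cj k ⁻¹' Ω)) := by
    rintro y' ⟨γ, hγ, rfl⟩
    obtain ⟨s, hs⟩ := K39.exists_conj k⁻¹ (⟨_, hγ.1⟩ : Matrix.SpecialLinearGroup (Fin d) F)⁻¹
    have e1 : μ (γ • y') (tens χ (cj k ⁻¹' Ω)) = Ps μ χ Ω ((((1 : G₂), k⁻¹)), γ • y') := by
      simp only [Ps, tens_ac, Prod.inv_mk, inv_one, one_smul, inv_inv]
    have e2 : (((1 : G₂), k⁻¹) : G₂ × GL (Fin d) F) = ι γ * (((ι γ).1⁻¹, k⁻¹) * K39.jS G₂ s) := by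
      refine Prod.ext (by simp) ?_
      rw [K39.jS_apply, Prod.snd_mul, Prod.snd_mul, ← hs, map_inv]
      rw [show Matrix.SpecialLinearGroup.toGL (⟨_, hγ.1⟩ : Matrix.SpecialLinearGroup (Fin d) F) =
        (ι γ).2 from Units.ext rfl, mul_inv_cancel_left]
    rw [e1, e2, show Ps μ χ Ω (ι γ * _, γ • y') = _ from h.inv hχ g0 γ (_, y'),
      h.fixed hd hι hχ h0 h1 i hl]
    simp only [Ps, tens_ac, Prod.inv_mk, inv_inv]
    exact pos_mono (h.pos _) (cc_tens (cc_comp hχ (Homeomorph.smul _)) g1.cpt g1.opn)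
      (cc_tens a g1.cpt g1.opn) (tens_mono b
        (by simpa using c (ι γ).1⁻¹ (Set.inv_mem_inv.2 hγ.2)) subset_rfl)
  refine le_antisymm (not_lt.1 fun hp => ?_)
    ((h.pos y).pos _ (cc_tens hχ g1.cpt g1.opn) (tens_nonneg h0 _))
  obtain ⟨n, hn⟩ := exists_lt_nsmul hp (Λ (tens χ₁ (cj k ⁻¹' Ω)))
  obtain ⟨T, hT, rfl⟩ := (hy W hW').exists_subset_card_eq n
  exact (hn.trans_le (T.card_nsmul_le_sum _ _ fun y' hy' => key y' (hT hy'))).not_ge
    (h.sum_tens a b g1 T)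

end Hyp

end E84

open E84 in
/-- **ESC** -/
theorem escStmt : EscStmt.{u, v, w} := by
  intro F _ _ _ _ _ _ O π d G₂ _ _ _ _ _ _ Z₂ _ _ _ _ _ _ Γ _ ι Y _ _ μ Λ h1 hd hι h2 h3 h4 h5 h6 h7
    y φ hφ hD
  have h : Hyp O π ι μ Λ := ⟨h1, h2, h3, h4, h5, h6⟩
  obtain ⟨χ, a, b, c, e⟩ := exists_bump (hφ.2.isCompact.image continuous_fst)
  obtain ⟨M, hM⟩ := hφ.1.bounded_above_of_compact_support hφ.2
  set Ω : Fin d × GL (Fin d) F × Fˣ → Set (Mt d F) := fun q =>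
    cj q.2.1 ⁻¹' {y | (q.2.2 : F) • y ∈ Vm.cell (cell d O π 1) (Matrix.single q.1 q.1 1)}
  have hΩ : ∀ q, Good O π (Ω q) := fun q =>
    (good_sat h1 q.2.2.ne_zero (subset_refl _) (Vm.sat_cell _ _)).conj _
  obtain ⟨s, hs⟩ := hφ.2.isCompact.elim_finite_subcover (fun q => Prod.snd ⁻¹' Ω q)
    (fun q => (hΩ q).opn.preimage continuous_snd) fun z hz => by
      obtain ⟨i, k, l, hl⟩ := hD z hz
      exact mem_iUnion.2 ⟨(i, k, Units.mk0 l (ne_zero_of_dom h1 hl)), Vm.mem_cell.2 hl⟩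
  have hc : ∀ q ∈ s, Cc (tens χ (Ω q)) := fun q _ => cc_tens a (hΩ q).cpt (hΩ q).opn
  have := pos_abs_le (h2 y) hφ (cc_smul M (cc_sum s hc)) fun z => by
    have h0 : 0 ≤ M := (norm_nonneg _).trans (hM z)
    have hn : ∀ q ∈ s, 0 ≤ tens χ (Ω q) z := fun q _ => tens_nonneg b _ z
    rw [Pi.smul_apply, Finset.sum_apply, smul_eq_mul]
    by_cases hz : z ∈ tsupport φ
    · obtain ⟨q, hq, hq'⟩ := mem_iUnion₂.1 (hs hz)
      refine (hM z).trans (le_mul_of_one_le_right h0 (le_trans ?_ (Finset.single_le_sum hn hq)))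
      simp [tens, e _ ⟨z, hz, rfl⟩, indicator_of_mem (show z.2 ∈ Ω q from hq')]
    · rw [image_eq_zero_of_notMem_tsupport hz, abs_zero]
      exact mul_nonneg h0 (Finset.sum_nonneg hn)
  rw [(h2 y).smul _ _ (cc_sum s hc), pos_sum (h2 y) s hc, Finset.sum_eq_zero fun q _ =>
    h.zero hd hι a b c q.1 q.2.2.ne_zero q.2.1 (h7 y), mul_zero] at this
  exact abs_nonpos_iff.1 this

end Crest.Agent.T24.Na
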