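import Crest.Agent.T24.LocC_59
import Crest.Agent.T24.HnLocD_73
import Crest.Agent.T24.LanA_73
import Crest.Agent.T24.Csa4_50
import Crest.Agent.T24.Def_26
import Crest.Agent.T24.Emb_13
import Crest.Agent.T24.BcB_98
import Crest.Agent.T24.SplEx_33

-- ▼ part T24/EmbLA_22
section

/-! Row 24, embedding module (helper22): symmetric companion matrices, unit norms. -/

set_option autoImplicit false
set_option linter.unusedSectionVars false
set_option linter.style.haveILetI false

noncomputable section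

namespace Crest.Agent.T24.Emb.L22

open Module Polynomial Matrix

/-- a matrix with given minimal polynomial, self-adjoint for a unimodular symmetric form -/
theorem exists_sym {F : Type*} [NontriviallyNormedField F] {Q : F[X]} (hQ : Q.Monic) {d : ℕ}
    (hd : Q.natDegree = d) (h0 : 0 < d) : ∃ y S : Matrix (Fin d) (Fin d) F, minpoly F y = Q ∧
      Sᵀ = S ∧ S * y = yᵀ * S ∧ (∀ i j, ‖S i j‖ ≤ 1) ∧ ‖S.det‖ = 1 := by
  subst hd
  let L := AdjoinRoot Q
  let T : L := AdjoinRoot.root Q
  let b : Basis (Fin Q.natDegree) F L := (AdjoinRoot.powerBasis' hQ).basis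
  have hb : ∀ i, b i = T ^ (i : ℕ) := (AdjoinRoot.powerBasis' hQ).basis_eq_pow
  let n := Q.natDegree - 1
  have hn : n < Q.natDegree := Nat.sub_lt h0 one_pos
  let l : L →ₗ[F] F := b.coord ⟨n, hn⟩
  have hl : ∀ m, m ≤ n → l (T ^ m) = if m = n then 1 else 0 := fun m hm => by
    have := hb ⟨m, hm.trans_lt hn⟩
    rw [← this]
    simp [l, Finsupp.single_apply, Fin.ext_iff]
  let M : ℝ := 1 + ∑ p : Fin Q.natDegree × Fin Q.natDegree, ‖l (T ^ (p.1 + p.2 : ℕ))‖
  have hM1 : 1 ≤ M := le_add_of_nonneg_right (Finset.sum_nonneg fun _ _ => norm_nonneg _)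
  have hM : ∀ i j : Fin Q.natDegree, ‖l (T ^ (i + j : ℕ))‖ ≤ M := fun i j =>
    (Finset.single_le_sum (f := fun p : Fin Q.natDegree × Fin Q.natDegree =>
      ‖l (T ^ (p.1 + p.2 : ℕ))‖) (fun _ _ => norm_nonneg _) (Finset.mem_univ (i, j))).trans
      (le_add_of_nonneg_left zero_le_one)
  obtain ⟨c, hc0, hc⟩ := NormedField.exists_norm_lt F (inv_pos.2 (one_pos.trans_le hM1))
  have hc1 : ‖c‖ ≤ 1 := hc.le.trans (inv_le_one_of_one_le₀ hM1)
  have hc2 : c ≠ 0 := norm_pos_iff.1 hc0
  let b' := b.unitsSMul fun i => Units.mk0 c hc2 ^ (i : ℕ)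
  let β : LinearMap.BilinForm F L := (LinearMap.mul F L).compr₂ ((c ^ n)⁻¹ • l)
  let S := LinearMap.BilinForm.toMatrix b' β
  have hS : ∀ i j, S i j = c ^ (i + j : ℕ) / c ^ n * l (T ^ (i + j : ℕ)) := fun i j => by
    simp only [S, β, b', LinearMap.BilinForm.toMatrix_apply, Basis.unitsSMul_apply, hb,
      Units.smul_def, Units.val_pow_eq_pow_val, Units.val_mk0, LinearMap.compr₂_apply,
      LinearMap.mul_apply', map_smul, LinearMap.smul_apply, smul_eq_mul,
      pow_add]
    ring
  refine ⟨Algebra.leftMulMatrix b' T, S, ?_, ?_, ?_, fun i j => ?_, ?_⟩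
  · rw [minpoly.algHom_eq _ (Algebra.leftMulMatrix_injective b')]
    exact AdjoinRoot.minpoly_powerBasis_gen_of_monic hQ
  · ext i j; rw [transpose_apply, hS, hS, add_comm]
  · rw [Algebra.leftMulMatrix_apply, ← LinearMap.BilinForm.toMatrix_compRight,
      ← LinearMap.BilinForm.toMatrix_compLeft]
    congr 1
    ext x y
    simp [β, mul_comm, mul_left_comm]
  · rw [hS]
    rcases le_or_gt (i + j : ℕ) n with h | h
    · rw [hl _ h]
      split_ifs with h1
      · simp [h1, hc2]
      · simp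
    · obtain ⟨m, hm⟩ := Nat.exists_eq_add_of_lt h
      have : c ^ (i + j : ℕ) / c ^ n = c ^ m * c := by rw [hm]; field_simp; ring
      rw [this, norm_mul, norm_mul, norm_pow, mul_assoc]
      refine mul_le_one₀ (pow_le_one₀ hc0.le hc1) (by positivity) ?_
      refine (mul_le_mul hc.le (hM i j) (norm_nonneg _) (by positivity)).trans_eq ?_
      exact inv_mul_cancel₀ (by positivity)
  · have h1 := det_permute' Fin.revPerm S
    rw [det_of_isLowerTriangular _ (fun i j hij => ?_), Finset.prod_eq_one fun i _ => ?_] at h1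
    · have := congrArg norm h1
      rcases Int.units_eq_one_or (Equiv.Perm.sign (Fin.revPerm (n := Q.natDegree))) with h | h <;>
        simpa [h] using this.symm
    · have : (i + (Fin.rev i : ℕ) : ℕ) = n := by simp only [Fin.val_rev, n]; omega
      simp only [submatrix_apply, id, Fin.revPerm_apply, hS]
      rw [hl _ this.le, if_pos this, this, div_self (pow_ne_zero _ hc2), mul_one]
    · have hij' : (i : ℕ) < j := hij
      have : (i + (Fin.rev j : ℕ) : ℕ) < n := by simp only [Fin.val_rev, n]; omega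
      simp only [submatrix_apply, id, Fin.revPerm_apply, hS]
      rw [hl _ this.le, if_neg this.ne, mul_zero]

section Unit
variable {L : Type*} [NormedField L] [IsUltrametricDist L]

theorem sq_of_near [CompleteSpace L] (h2 : ‖(2 : L)‖ = 1) {u a : L} (ha : ‖u - a‖ < ‖a‖) :
    ∃ s, u = a * s ^ 2 := by
  have h0 : a ≠ 0 := norm_pos_iff.1 ((norm_nonneg _).trans_lt ha)
  have h3 : (2 : L) ≠ 0 := norm_pos_iff.1 (h2 ▸ one_pos)
  obtain ⟨t, ht⟩ := Hn.Loc.exists_sq_add (c := (u - a) / (2 ^ 2 * a)) (by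
    rwa [norm_div, norm_mul, norm_pow, h2, one_pow, one_mul, div_lt_one (norm_pos_iff.2 h0)])
  refine ⟨1 + 2 * t, ?_⟩
  field_simp at ht
  linear_combination -ht

/-- units are norms from an unramified quadratic algebra -/
theorem unit_norm [ProperSpace L] (h2 : ‖(2 : L)‖ = 1) {δ u : L} (hδ : ‖δ‖ = 1) (hu : ‖u‖ = 1) :
    ∃ x y, u = x ^ 2 - δ * y ^ 2 := by
  let O := Loc.OO L
  let κ := O ⧸ Loc.PP L
  letI : CommRing κ := Ideal.Quotient.commRing _
  letI : Field κ := (Finite.isField_of_domain κ).toField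
  letI : Fintype κ := Fintype.ofFinite _
  let π := Ideal.Quotient.mk (Loc.PP L)
  have hchar : ringChar κ ≠ 2 := fun h => by
    have h1 := ringChar.Nat.cast_ringChar (R := κ)
    rw [h] at h1
    have h3 : π 2 = π 0 := by rw [map_ofNat, map_zero]; exact_mod_cast h1
    have := Loc.mk_eq_iff.1 h3
    simp only [ZeroMemClass.coe_zero, sub_zero] at this
    exact this.ne h2
  let δ' : O := ⟨δ, hδ.le⟩
  let u' : O := ⟨u, hu.le⟩
  have hd2 : -π δ' ≠ 0 := neg_ne_zero.2 fun h => by
    have := (Loc.mk_eq_iff (y := 0)).1 h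
    simp only [ZeroMemClass.coe_zero, sub_zero] at this
    exact this.ne hδ
  obtain ⟨x, y, hxy⟩ := FiniteField.exists_root_sum_quadratic (R := κ) (f := X ^ 2 - C (π u'))
    (g := C (-π δ') * X ^ 2) (degree_X_pow_sub_C two_pos _) (degree_C_mul_X_pow 2 hd2)
    (FiniteField.odd_card_of_char_ne_two hchar)
  obtain ⟨x, rfl⟩ := Ideal.Quotient.mk_surjective x
  obtain ⟨y, rfl⟩ := Ideal.Quotient.mk_surjective y
  have h3 : π u' = π (x ^ 2 - δ' * y ^ 2) := by
    simp only [eval_sub, eval_pow, eval_X, eval_C, eval_mul] at hxy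
    simp only [map_sub, map_pow, map_mul]
    linear_combination -hxy
  have h4 : ‖u - ((x : L) ^ 2 - δ * (y : L) ^ 2)‖ < 1 := by simpa using Loc.mk_eq_iff.1 h3
  have h5 : ‖(x : L) ^ 2 - δ * (y : L) ^ 2‖ = ‖u‖ :=
    Loc.norm_eq_of_lt (by rwa [norm_sub_rev, hu])
  obtain ⟨s, hs⟩ := sq_of_near h2 (h4.trans_eq (h5.trans hu).symm)
  exact ⟨x * s, y * s, by rw [hs]; ring⟩

theorem norm_root {f : L[X]} (hf : f.Monic) (h1 : ∀ i, ‖f.coeff i‖ ≤ 1) (h0 : ‖f.coeff 0‖ = 1)
    {l : L} (hl : f.eval l = 0) : ‖l‖ = 1 := by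
  refine le_antisymm (not_lt.1 fun h => ?_) (not_lt.1 fun h => ?_)
  · rw [eval_eq_sum_range, Finset.sum_range_succ, hf.coeff_natDegree, one_mul,
      add_eq_zero_iff_eq_neg] at hl
    have h2 : ‖l‖ ^ f.natDegree ≤ ‖l‖ ^ f.natDegree / ‖l‖ := by
      conv_lhs => rw [← norm_pow, ← norm_neg, ← hl]
      refine IsUltrametricDist.norm_sum_le_of_forall_le_of_nonneg (by positivity) fun i hi => ?_
      rw [norm_mul, norm_pow, le_div_iff₀ (by positivity), mul_assoc, ← pow_succ]
      exact (mul_le_of_le_one_left (by positivity) (h1 i)).trans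
        (pow_le_pow_right₀ h.le (Finset.mem_range.1 hi))
    exact absurd h2 (not_le.2 (div_lt_self (by positivity) h))
  · rw [eval_eq_sum_range, Finset.sum_range_succ', pow_zero, mul_one,
      add_eq_zero_iff_eq_neg] at hl
    have h2 : ‖f.coeff 0‖ ≤ ‖l‖ := by
      rw [← norm_neg, ← hl]
      refine IsUltrametricDist.norm_sum_le_of_forall_le_of_nonneg (by positivity) fun i _ => ?_
      rw [norm_mul, norm_pow, pow_succ, ← mul_assoc]
      exact mul_le_of_le_one_left (by positivity)
        (mul_le_one₀ (h1 _) (by positivity) (pow_le_one₀ (norm_nonneg _) h.le))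
    exact absurd (h0 ▸ h2) (not_le.2 h)

end Unit

/-- the root of an integral polynomial with unit constant term is a norm -/
theorem norm_poly {F : Type*} [NontriviallyNormedField F] [IsUltrametricDist F] [ProperSpace F]
    [CharZero F] (h2 : ‖(2 : F)‖ = 1) {δ : F} (hδ : ‖δ‖ = 1) {f : F[X]} (hf : f.Monic)
    (h1 : ∀ i, ‖f.coeff i‖ ≤ 1) (h0 : ‖f.coeff 0‖ = 1) :
    ∃ p q : F[X], f ∣ X - (p ^ 2 - C δ * q ^ 2) := by
  have : Module.Finite F (AdjoinRoot f) := hf.finite_adjoinRoot
  obtain ⟨x, y, hxy⟩ := Lan.norm_of_residue (k := F) (algebraMap F (AdjoinRoot f) δ)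
    (AdjoinRoot.root f) fun m hm => by
      let L := AdjoinRoot f ⧸ m
      letI : Field L := Ideal.Quotient.field m
      letI := spectralNorm.normedField F L
      letI := spectralNorm.normedAlgebra F L
      haveI : IsUltrametricDist L := IsUltrametricDist.isUltrametricDist_of_isNonarchimedean_norm
        isNonarchimedean_spectralNorm
      haveI : ProperSpace L := FiniteDimensional.proper F L
      have hn : ∀ c : F, ‖algebraMap F L c‖ = ‖c‖ := spectralNorm_extends
      have hl : ‖Ideal.Quotient.mkₐ F m (AdjoinRoot.root f)‖ = 1 :=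
        norm_root (hf.map (algebraMap F L)) (fun i => by rw [coeff_map, hn]; exact h1 i)
          (by rw [coeff_map, hn, h0]) (by
            rw [eval_map_algebraMap, aeval_algHom_apply, AdjoinRoot.aeval_eq, AdjoinRoot.mk_self,
              map_zero])
      obtain ⟨x, y, hxy⟩ := unit_norm (by rw [← h2, ← hn, map_ofNat]) ((hn δ).trans hδ) hl
      obtain ⟨x, rfl⟩ := Ideal.Quotient.mk_surjective x
      obtain ⟨y, rfl⟩ := Ideal.Quotient.mk_surjective y
      refine ⟨fun h => ?_, x, y, Ideal.Quotient.eq.mp ?_⟩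
      · rw [show Ideal.Quotient.mkₐ F m (AdjoinRoot.root f) = 0 from
          Ideal.Quotient.eq_zero_iff_mem.mpr h, norm_zero] at hl
        exact zero_ne_one hl
      · rw [map_sub, map_mul, map_pow, map_pow]
        exact hxy
  obtain ⟨p, rfl⟩ := AdjoinRoot.mk_surjective x
  obtain ⟨q, rfl⟩ := AdjoinRoot.mk_surjective y
  refine ⟨p, q, AdjoinRoot.mk_eq_mk.mp ?_⟩
  rw [map_sub, map_mul, map_pow, map_pow, AdjoinRoot.mk_X, AdjoinRoot.mk_C]
  exact hxy

end Crest.Agent.T24.Emb.L22
end
end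

-- ▼ part T24/EmbLB_22
section

/-! Row 24, embedding module (helper22): hermitian roots in a unimodular order. -/

set_option autoImplicit false
set_option linter.unusedSectionVars false
set_option linter.style.haveILetI false

noncomputable section

namespace Crest.Agent.T24.Emb.L22

open Module Polynomial Matrix Csa
open scoped Valued NormedField

/-- integral coordinates in the basis `1, θ` -/
def It (F : Type*) {E : Type*} [NormedField F] [CommRing E] [Algebra F E] (θ c : E) : Prop :=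
  ∃ a b : F, ‖a‖ ≤ 1 ∧ ‖b‖ ≤ 1 ∧ c = algebraMap F E a + algebraMap F E b * θ

section Mat
variable {E n : Type*} [NormedField E] [IsUltrametricDist E] [Fintype n] [DecidableEq n]

theorem int_mul {M N : Matrix n n E} (hM : ∀ i j, ‖M i j‖ ≤ 1) (hN : ∀ i j, ‖N i j‖ ≤ 1) (i j : n) :
    ‖(M * N) i j‖ ≤ 1 := by
  rw [mul_apply]
  refine IsUltrametricDist.norm_sum_le_of_forall_le_of_nonneg zero_le_one fun l _ => ?_
  rw [norm_mul]
  exact mul_le_one₀ (hM _ _) (norm_nonneg _) (hN _ _)

theorem int_charpoly {M : Matrix n n E} (hM : ∀ i j, ‖M i j‖ ≤ 1) (i : ℕ) :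
    ‖M.charpoly.coeff i‖ ≤ 1 := by
  exact_mod_cast Lan.val_charpoly (NormedField.valuation (K := E)) (fun i j => by
    exact_mod_cast hM i j) i

theorem norm_coeff_zero (M : Matrix n n E) : ‖M.charpoly.coeff 0‖ = ‖M.det‖ := by
  rw [det_eq_sign_charpoly_coeff]; simp

theorem int_single (a b i j : n) : ‖(single a b (1 : E)) i j‖ ≤ 1 := by
  rw [single_apply]; split_ifs <;> simp

end Mat

section Norm
variable {F E : Type*} [NormedField F] [IsUltrametricDist F] [CompleteSpace F] [NormedField E]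
  [IsUltrametricDist E] [Algebra F E] (hn : ∀ c : F, ‖algebraMap F E c‖ = ‖c‖) {θ : E} {δ : F}
  (hδ : algebraMap F E δ = θ * θ) (h1 : ‖δ‖ = 1)
include hn hδ h1

theorem norm_theta : ‖θ‖ = 1 := by
  have : ‖θ‖ * ‖θ‖ = 1 := by rw [← norm_mul, ← hδ, hn, h1]
  nlinarith [norm_nonneg θ]

theorem norm_coord (h2 : ‖(2 : F)‖ = 1) (hs : ¬ IsSquare δ) (a b : F) :
    ‖algebraMap F E a + algebraMap F E b * θ‖ = max ‖a‖ ‖b‖ := by
  have ht := norm_theta hn hδ h1
  have hb : ‖algebraMap F E b * θ‖ = ‖b‖ := by rw [norm_mul, ht, hn, mul_one]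
  by_cases hab : ‖a‖ = ‖b‖
  swap
  · rw [IsUltrametricDist.norm_add_eq_max_of_norm_ne_norm (by rwa [hn, hb]), hn, hb]
  refine le_antisymm ((IsUltrametricDist.norm_add_le_max _ _).trans_eq (by rw [hn, hb]))
    (not_lt.1 fun h => hs ?_)
  rw [← hab, max_self] at h
  have h0 : 0 < ‖a‖ := (norm_nonneg _).trans_lt h
  have hb0 : b ≠ 0 := norm_pos_iff.1 (hab ▸ h0)
  have h3 : ‖δ * b ^ 2 - a ^ 2‖ < ‖a ^ 2‖ := by
    have e : algebraMap F E (δ * b ^ 2 - a ^ 2) = (algebraMap F E a + algebraMap F E b * θ) *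
        (algebraMap F E b * θ - algebraMap F E a) := by
      rw [map_sub, map_mul, hδ, map_pow, map_pow]; ring
    rw [← hn, e, norm_mul, norm_pow, sq]
    exact mul_lt_mul h (Loc.norm_sub_le_of (hb.trans hab.symm).le (hn a).le |>.trans le_rfl)
      (by
        refine norm_pos_iff.2 fun h4 => hs ⟨a / b, (algebraMap F E).injective ?_⟩
        have h5 : θ = algebraMap F E (a / b) := by
          rw [map_div₀, eq_div_iff ((_root_.map_ne_zero _).2 hb0), mul_comm]
          exact sub_eq_zero.1 h4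
        rw [hδ, map_mul, ← h5]) h0.le
  obtain ⟨s, hs⟩ := sq_of_near h2 h3
  exact ⟨a * s / b, by field_simp; linear_combination hs⟩

end Norm

section Core
variable {F E A ι : Type*} [NontriviallyNormedField F] [IsUltrametricDist F] [ProperSpace F]
  [CharZero F] [Field E] [CharZero E] [Algebra F E] [StarRing E] [Quad F E] [Ring A] [StarRing A]
  [Algebra E A] [StarModule E A] [Algebra F A] [IsScalarTower F E A]

variable (E) in
include E in
theorem star_aevalF (t : A) (ht : star t = t) (q : F[X]) : star (aeval t q) = aeval t q := by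
  simp only [aeval_eq_sum_range, star_sum]
  refine Finset.sum_congr rfl fun i _ => ?_
  rw [← algebraMap_smul E, star_smul, Quad.star_k, star_pow, ht]

/-- conjugating a twisted hermitian element -/
theorem conj_herm {h y : A} (hh : star h = h) (hu : IsUnit h) (hy : star y * h = h * y) {θ : E}
    {δ : F} (hθ : star θ = -θ) (hδ : algebraMap F E δ = θ * θ) {f p q : F[X]} (hf : aeval h f = 0)
    (hd : f ∣ X - (p ^ 2 - C δ * q ^ 2)) : ∃ t : A, star t = t ∧ minpoly F t = minpoly F y := by
  obtain ⟨c, hc⟩ := hd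
  have h1 := congrArg (aeval h) hc
  rw [map_mul, hf, zero_mul, map_sub, aeval_X, sub_eq_zero, map_sub, map_mul, map_pow,
    map_pow, aeval_C, ← Algebra.smul_def] at h1
  have h2 : aeval h q * aeval h p = aeval h p * aeval h q := by rw [← map_mul, mul_comm, map_mul]
  set Z := aeval h p + θ • aeval h q with hZ
  have h3 : star Z = aeval h p - θ • aeval h q := by
    rw [hZ, star_add, star_smul, star_aevalF E h hh, star_aevalF E h hh, hθ, neg_smul,
      sub_eq_add_neg]
  have h4 : star Z * Z = h ∧ Z * star Z = h := by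
    rw [h3, hZ]
    simp only [mul_add, add_mul, mul_sub, sub_mul, smul_mul_assoc, mul_smul_comm, h2, smul_add, smul_sub, smul_smul,
      ← hδ, algebraMap_smul, ← sq]
    constructor <;> conv_rhs => rw [h1]
    all_goals abel
  obtain ⟨-, u, hu⟩ := (Commute.isUnit_mul_iff (h4.1.trans h4.2.symm)).1 (h4.1 ▸ hu)
  refine ⟨u * y * ↑u⁻¹, ?_, ?_⟩
  · rw [← h4.1, ← hu] at hy
    rw [star_mul, star_mul, ← Units.coe_star_inv, Units.inv_mul_eq_iff_eq_mul, Units.coe_star,
      ← mul_assoc, ← mul_assoc, ← hy, ← mul_assoc, Units.mul_inv_cancel_right]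
  · exact minpoly.algEquiv_eq (MulSemiringAction.toAlgEquiv F A (ConjAct.toConjAct u)) y

variable [Algebra.IsCentral E A] [IsSimpleRing A] [FiniteDimensional E A] [Fintype ι]

theorem core {θ : E} {δ : F} (hθ : star θ = -θ) (hδ : algebraMap F E δ = θ * θ) (h1 : ‖δ‖ = 1)
    (h2 : ‖(2 : F)‖ = 1) (e : Basis ι E A) (g : ι → A)
    (hm : ∀ i j l, It F θ (e.repr (e i * e j) l)) (hg : ∀ i l, It F θ (e.repr (g i) l))
    (hd : ∀ x, x = ∑ i, Trd E (x * e i) • g i) (hst : ∀ i l, It F θ (e.repr (star (e i)) l))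
    {Q : F[X]} (hQ : Q.Monic) (hq : Q.natDegree = deg E A) :
    ∃ t : A, star t = t ∧ minpoly F t = Q := by
  have hfr := Quad.fr (k := F) (K := E)
  have hne := Quad.ne (k := F) (K := E)
  have hk := Quad.star_k (k := F) (K := E)
  haveI : FiniteDimensional F E := Module.finite_of_finrank_pos (by omega)
  letI := spectralNorm.nontriviallyNormedField F E
  letI := spectralNorm.normedAlgebra F E
  haveI : IsUltrametricDist E := IsUltrametricDist.isUltrametricDist_of_isNonarchimedean_norm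
    isNonarchimedean_spectralNorm
  haveI : ProperSpace E := FiniteDimensional.proper F E
  have hn : ∀ c : F, ‖algebraMap F E c‖ = ‖c‖ := spectralNorm_extends
  have ht := norm_theta hn hδ h1
  have h0 : θ ≠ 0 := norm_pos_iff.1 (ht ▸ one_pos)
  have hs : ¬ IsSquare δ := fun ⟨s, hs⟩ => by
    rw [hs, map_mul, mul_self_eq_mul_self_iff] at hδ
    have : star θ = θ := by
      rcases hδ with h | h
      · rw [← h, hk]
      · rw [← neg_neg θ, star_neg, ← h, hk]
    exact h0 (self_eq_neg.1 (this.symm.trans hθ))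
  have hc := norm_coord hn hδ h1 h2 hs
  have hI : ∀ {c}, It F θ c → ‖c‖ ≤ 1 := fun ⟨a, b, ha, hb, h⟩ => by rw [h, hc]; exact max_le ha hb
  have hsn : ∀ c : E, ‖star c‖ = ‖c‖ := fun c => by
    obtain ⟨a, b, rfl⟩ := exists_coord hfr hk h0 hθ c
    rw [star_add, star_mul', hk, hk, hθ, mul_neg, ← neg_mul, ← map_neg, hc, hc, norm_neg]
  have hval : ∀ c : E, ∃ a : F, ‖a‖ = ‖c‖ := fun c => by
    obtain ⟨a, b, rfl⟩ := exists_coord hfr hk h0 hθ c
    rw [hc]
    rcases max_choice ‖a‖ ‖b‖ with h | h <;> exact ⟨_, h.symm⟩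
  haveI : CompactSpace 𝒪[E] := isCompact_iff_compactSpace.1 <| by
    convert isCompact_closedBall (0 : E) 1 using 1
    ext x; simp [Valued.integer.mem_iff]
  haveI := Valued.integer.isPrincipalIdealRing_of_compactSpace (K := E)
  obtain ⟨ψ, hψ⟩ := Loc.Unim.split (e := e) ⟨fun i j l => hI (hm i j l), g, fun i l => hI (hg i l), hd⟩
    𝒪[E] (fun c => ⟨fun ⟨a, ha⟩ => ha ▸ Valued.integer.mem_iff.1 a.2,
      fun h => ⟨⟨c, Valued.integer.mem_iff.2 h⟩, rfl⟩⟩) (finrank_eq_deg_sq E A)
  have hτ : ∀ M : Matrix _ _ E, (∀ i j, ‖M i j‖ ≤ 1) → ∀ i j, ‖ψ (star (ψ.symm M)) i j‖ ≤ 1 :=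
    fun M hM => (hψ _ 1 zero_le_one).1 fun l => by
      have h3 := (hψ (ψ.symm M) 1 zero_le_one).2 (by simpa using hM)
      rw [← e.sum_repr (ψ.symm M), star_sum, map_sum, Finsupp.finsetSum_apply]
      refine IsUltrametricDist.norm_sum_le_of_forall_le_of_nonneg zero_le_one fun i _ => ?_
      rw [star_smul, map_smul, Finsupp.smul_apply, smul_eq_mul, norm_mul, hsn]
      exact mul_le_one₀ (h3 i) (norm_nonneg _) (hI (hst i l))
  haveI : Nonempty (Fin (deg E A)) := ⟨⟨0, deg_pos E A⟩⟩
  obtain ⟨H, hH, hH'⟩ := exists_twist (K := E) (B := Matrix (Fin (deg E A)) (Fin (deg E A)) E) hne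
    (AddMonoidHom.mk' (fun x => ψ (star (ψ.symm x))) fun x y => by simp)
    (fun x y => by simp) (fun x => by simp) fun c => by
      simp only [AddMonoidHom.mk'_apply]
      rw [AlgEquiv.commutes, Csa.star_algebraMap, AlgEquiv.commutes]
  simp only [AddMonoidHom.mk'_apply, star_eq_conjTranspose] at hH hH'
  obtain ⟨⟨a, b⟩, hab⟩ := Finite.exists_max fun p : Fin (deg E A) × Fin (deg E A) => ‖H.1 p.1 p.2‖
  obtain ⟨c, hcn⟩ := hval (H.1 a b)
  have hab0 : 0 < ‖H.1 a b‖ := lt_of_not_ge fun h => H.ne_zero (by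
    ext i j; exact norm_le_zero_iff.1 ((hab (i, j)).trans h))
  have hc0 : algebraMap F E c ≠ 0 := norm_pos_iff.1 (by rwa [hn, hcn])
  let N := ∑ i, ψ (star (ψ.symm (single a i 1))) * single b i (1 : E)
  have hN : H.1 * N = H.1 a b • 1 := by
    simp only [N, Finset.mul_sum, ← mul_assoc, hH', conjTranspose_single, star_one,
      single_mul_mul_single, one_mul, mul_one]
    ext i j
    simp [Matrix.sum_apply, single_apply, one_apply, eq_comm, ite_and]
  let G : Matrix _ _ E := algebraMap F E c • (H⁻¹).1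
  have hG1 : G = (algebraMap F E c / H.1 a b) • N := by
    have : N = H.1 a b • (H⁻¹).1 := by
      rw [← Units.inv_mul_cancel_left H N, hN, mul_smul_comm, mul_one]
    rw [this, smul_smul, div_mul_cancel₀ _ (norm_pos_iff.1 hab0)]
  have hG2 : ∀ i j, ‖G i j‖ ≤ 1 := fun i j => by
    rw [hG1, Matrix.smul_apply, smul_eq_mul, norm_mul, norm_div, hn, hcn, div_self hab0.ne', one_mul]
    simp only [N, Matrix.sum_apply]
    exact IsUltrametricDist.norm_sum_le_of_forall_le_of_nonneg zero_le_one fun l _ =>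
      int_mul (hτ _ (int_single _ _)) (int_single _ _) i j
  have hG3 : ‖G.det‖ = 1 := by
    have e1 : G * ((algebraMap F E c)⁻¹ • H.1) = 1 := by
      rw [mul_smul_comm, smul_mul_assoc, Units.inv_mul, smul_smul, inv_mul_cancel₀ hc0, one_smul]
    have e2 := int_charpoly (M := (algebraMap F E c)⁻¹ • H.1) (fun i j => by
      rw [Matrix.smul_apply, smul_eq_mul, norm_mul, norm_inv, hn, hcn, inv_mul_le_one₀ hab0]
      exact hab (i, j)) 0
    have e3 := int_charpoly hG2 0
    have e4 := congrArg (fun M => ‖det M‖) e1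
    simp only [det_mul, norm_mul, det_one, norm_one] at e4
    rw [norm_coeff_zero] at e2 e3
    nlinarith [norm_nonneg G.det]
  have hG4 : Gᴴ = G := by
    have : (H⁻¹).1ᴴ = (H⁻¹).1 := by
      rw [Matrix.coe_units_inv, conjTranspose_nonsing_inv, hH]
    rw [conjTranspose_smul, hk, this]
  obtain ⟨y, S, hy, hS, hSy, hS1, hS2⟩ := exists_sym hQ hq (deg_pos E A)
  let j : Matrix (Fin (deg E A)) (Fin (deg E A)) F →ₐ[F] Matrix _ _ E := (Algebra.ofId F E).mapMatrix
  have hj : ∀ M, (j M)ᴴ = j Mᵀ := fun M => by ext s t; exact hk _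
  have hjd : ‖(j S).det‖ = 1 := by
    rw [← hS2, ← hn]; exact congrArg norm ((algebraMap F E).map_det S).symm
  have hM1 := int_mul hG2 (N := j S) fun s t => (hn _).trans_le (hS1 s t)
  have hM2 : ‖(G * j S).det‖ = 1 := by rw [det_mul, norm_mul, hG3, hjd, one_mul]
  have hHG : H.1 * G = algebraMap F E c • 1 := by simp [G]
  have hGH : G * H.1 = algebraMap F E c • 1 := by simp [G]
  obtain ⟨f, hf1, -, hf2⟩ := lifts_and_natDegree_eq_and_monic (f := algebraMap F E)
    ((lifts_iff_coeff_lifts _).2 fun n => exists_of_star_eq hfr hk hne (by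
      have : (G * j S).charpoly.map (starRingEnd E) = (G * j S).charpoly := by
        rw [← charpoly_map, ← charpoly_transpose, charpoly_mul_comm G]
        congr 1
        exact (conjTranspose_mul G (j S)).trans (by rw [hj, hS, hG4])
      conv_rhs => rw [← this, coeff_map]
      rfl)) (charpoly_monic (G * j S))
  obtain ⟨p, q, hpq⟩ := norm_poly h2 h1 hf2
    (fun i => by rw [← hn, ← coeff_map, hf1]; exact int_charpoly hM1 i)
    (by rw [← hn, ← coeff_map, hf1, norm_coeff_zero, hM2])
  obtain ⟨t, ht1, ht2⟩ := conj_herm (h := ψ.symm (G * j S)) (y := ψ.symm (j y))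
    (ψ.injective (H.isUnit.mul_left_cancel (by
      rw [hH', AlgEquiv.apply_symm_apply, conjTranspose_mul, hj, hS, hG4, mul_assoc, ← mul_assoc H.1,
        hGH, hHG, mul_smul_comm, smul_mul_assoc, mul_one, one_mul])))
    (((isUnit_iff_isUnit_det _).2 (norm_pos_iff.1 (hM2 ▸ one_pos)).isUnit).map ψ.symm)
    (ψ.injective (H.isUnit.mul_left_cancel (by
      simp only [map_mul, AlgEquiv.apply_symm_apply, ← mul_assoc, hH', hHG, hj]
      rw [mul_assoc _ H.1, hHG]
      simp only [mul_smul_comm, smul_mul_assoc, mul_one, one_mul, ← map_mul, hSy])))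
    hθ hδ (by rw [← aeval_map_algebraMap E, hf1, aeval_algHom_apply, aeval_self_charpoly, map_zero])
    hpq
  refine ⟨t, ht1, ht2.trans (hy ▸ minpoly.algHom_eq ((ψ.symm.toAlgHom.restrictScalars F).comp j)
    (ψ.symm.injective.comp fun M N h => ?_) y)⟩
  ext s t
  exact (algebraMap F E).injective (congrFun (congrFun h s) t)

end Core

end Crest.Agent.T24.Emb.L22
end
end

-- ▼ part T24/EmbL_22

/-! Row 24, embedding module (helper22): no local condition at almost all places. -/

set_option autoImplicit false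
set_option linter.unusedSectionVars false
set_option linter.style.haveILetI false

noncomputable section

namespace Crest.Agent.T24.Emb

open Module Polynomial Csa Asa Filter BC
open scoped Valued

universe u v w

variable {k K B : Type*} [Field k] [NumberField k] [Field K] [NumberField K] [Algebra k K]
  [StarRing K] [Quad k K] [Ring B] [StarRing B] [Algebra K B] [StarModule K B]
  [Algebra.IsCentral K B] [IsSimpleRing B] [FiniteDimensional K B] [Algebra k B]
  [IsScalarTower k K B]

namespace L22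

theorem hr_mk {F C : Type*} [Field F] [Algebra k F] [Ring C] [Algebra k C] [Algebra F C]
    [IsScalarTower k F C] (s : SM k K B F C) (y : C) : HR (minpoly F y) (s.mk' y y) := by
  haveI := s.finite
  refine ⟨s.star_mk' y y, eq_of_monic_of_associated (minpoly.monic (Algebra.IsIntegral.isIntegral _))
    (minpoly.monic (Algebra.IsIntegral.isIntegral _)) (associated_of_dvd_dvd
      (minpoly.dvd _ _ (s.herm_ext ?_ (star_zero _) ?_)) (minpoly.dvd _ _ ?_))⟩
  · rw [star_aeval_bc, s.star_mk']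
  · rw [← aeval_algHom_apply, s.hat_mk', minpoly.aeval, map_zero]
  · conv_lhs => rw [← s.hat_mk' y y]
    rw [s.hat_mk' y y, ← s.hat_mk' y y, aeval_algHom_apply, s.hat_mk' y y, minpoly.aeval, map_zero]

theorem le_ae (a : k) : ∀ᶠ v : Pl k in cofinite, ‖algebraMap k (Kv v) a‖ ≤ 1 :=
  (Loc.int_ae a).mono fun v h => by rwa [Valued.toNormedField.norm_le_one_iff, Loc.val_alg]

theorem eq_ae {a : k} (ha : a ≠ 0) : ∀ᶠ v : Pl k in cofinite, ‖algebraMap k (Kv v) a‖ = 1 := by
  filter_upwards [le_ae a, le_ae a⁻¹] with v h1 h2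
  rw [map_inv₀, norm_inv, inv_le_one₀ (norm_pos_iff.2 ((_root_.map_ne_zero _).2 ha))] at h2
  exact le_antisymm h1 h2

theorem it_ae {θ : K} (h0 : θ ≠ 0) (hθ : star θ = -θ) (c : K) : ∀ᶠ v : Pl k in cofinite,
    It (Kv v) (inc k K K (Kv v) θ) (inc k K K (Kv v) c) := by
  obtain ⟨a, b, rfl⟩ := exists_coord (Quad.fr (k := k) (K := K)) Quad.star_k h0 hθ c
  filter_upwards [le_ae a, le_ae b] with v h1 h2
  exact ⟨_, _, h1, h2, by
    rw [map_add, map_mul, AlgHom.commutes, AlgHom.commutes, ← IsScalarTower.algebraMap_apply,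
      ← IsScalarTower.algebraMap_apply]⟩

end L22

open L22

variable (k K B) in
/-- at almost all places every monic polynomial of the right degree has a hermitian root -/
theorem loc_ae : ∀ᶠ v : Pl k in cofinite, ∀ Q : (Kv v)[X], Q.Monic → Q.natDegree = deg K B →
    ∃ t : BC k K B (Kv v), HR Q t := by
  obtain ⟨θ, δ, h0, hθ, hδ⟩ := exists_delta k K
  let e := finBasis K B
  obtain ⟨g, hg⟩ := Loc.exists_dual e
  have hδ0 : δ ≠ 0 := fun h => mul_ne_zero h0 h0 (by rw [← hδ, h, map_zero])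
  filter_upwards [SplE.spl_ae k e, eq_ae hδ0, eq_ae (two_ne_zero (α := k)),
    eventually_all.2 fun p : _ × _ × _ => it_ae (k := k) h0 hθ (e.repr (e p.1 * e p.2.1) p.2.2),
    eventually_all.2 fun p : _ × _ => it_ae (k := k) h0 hθ (e.repr (g p.1) p.2),
    eventually_all.2 fun p : _ × _ => it_ae (k := k) h0 hθ (e.repr (star (e p.1)) p.2)]
    with v h1 h2 h3 h4 h5 h6 Q hQ hd
  rcases isEmpty_or_nonempty (K →ₐ[k] Kv v) with hE | ⟨⟨ι⟩⟩
  · haveI := Loc.proper_adic k v
    haveI := Loc.charZero_adic k v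
    let F := Kv v
    let E := BC k K K F
    let φ := (inc k K B F).toRingHom
    have hr := finrank_E k K F B
    let e' := mapBasis (L := E) e φ hr
    have he : ∀ i, e' i = φ (e i) := mapBasis_apply _ _ _
    have he' : ∀ x i, e'.repr (φ x) i = inc k K K F (e.repr x i) :=
      mapBasis_repr e φ hr (inc k K K F).toRingHom (inc_compat k K F B)
    refine core (F := F) (E := E) (θ := inc k K K F θ) (δ := algebraMap k F δ)
      (by rw [star_inc, hθ, map_neg])
      (by rw [← map_mul, ← hδ, AlgHom.commutes, ← IsScalarTower.algebraMap_apply]) h2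
      (by rwa [map_ofNat] at h3) e' (fun i => φ (g i))
      (fun i j l => by rw [he, he, ← map_mul, he']; exact h4 (i, j, l))
      (fun i l => by rw [he']; exact h5 (i, l)) (fun x => ?_)
      (fun i l => by rw [he]; exact (he' (star (e i)) l).symm ▸ h6 (i, l)) hQ
      (hd.trans (deg_E k K F B).symm)
    have : LinearMap.id = ∑ i, (Trd E ∘ₗ LinearMap.mulRight E (e' i)).smulRight (φ (g i)) :=
      e'.ext fun l => by
        rw [LinearMap.id_apply, he, LinearMap.sum_apply]
        conv_lhs => rw [hg (e l), map_sum]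
        refine Finset.sum_congr rfl fun i _ => ?_
        rw [LinearMap.smulRight_apply, LinearMap.comp_apply, LinearMap.mulRight_apply, he, ← map_mul φ,
          Trd_map (inc k K K F).toRingHom φ (inc_compat k K F B) hr]
        exact inc_smul k K B F _ _
    simpa using LinearMap.congr_fun this x
  · obtain ⟨s, -⟩ := h1 ι
    obtain ⟨y, -, rfl, -⟩ := exists_sym hQ hd (deg_pos K B)
    exact ⟨_, hr_mk s.sm y⟩

variable (k K B)

theorem locEx : LocEx k K B :=
  ⟨(loc_ae k K B).toFinset, fun v hv Q hQ hd _ => by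
    by_contra h
    exact hv ((Set.Finite.mem_toFinset _).2 fun h' => h (h' Q hQ hd))⟩

theorem embNear : EmbNear k K B := embNear' k K B (locEx k K B)



end Crest.Agent.T24.Emb
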