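import Crest.Agent.T24.WgNrd_25
import Crest.Agent.T24.WallB_86
import Crest.Agent.T24.Csa4_50
import Crest.Agent.T24.NaInd_39
import Crest.Agent.T24.NaMx_52
import Crest.Agent.T24.NaPos_84
import Crest.Agent.T24.NaPj_34

-- ▼ part T24/LocInfA_15
section

/-!
# Row 24 (helper15): `SL₁ (C)` over `ℝ`, `ℂ` and `SU (A)` over `ℂ / ℝ` are path connected
-/

set_option autoImplicit false
set_option linter.unusedSectionVars false

noncomputable section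

namespace Crest.Agent.T24.L15

open Module Matrix Csa Wg Wall

/-! ## paths -/

section pth
variable {G : Type*} [Group G] [TopologicalSpace G] [IsTopologicalGroup G] {S : Subgroup G}

/-- the elements joined to `1` by a path in `S` -/
def Pth (S : Subgroup G) : Subgroup G where
  carrier := {u | ∃ f : ℝ → G, Continuous f ∧ f 0 = 1 ∧ f 1 = u ∧ ∀ t, f t ∈ S}
  one_mem' := ⟨fun _ => 1, continuous_const, rfl, rfl, fun _ => S.one_mem⟩
  mul_mem' := by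
    rintro _ _ ⟨f, f1, f2, rfl, f4⟩ ⟨g, g1, g2, rfl, g4⟩
    exact ⟨fun t => f t * g t, f1.mul g1, by simp only [f2, g2, mul_one], rfl,
      fun t => S.mul_mem (f4 t) (g4 t)⟩
  inv_mem' := by
    rintro _ ⟨f, f1, f2, rfl, f4⟩
    exact ⟨fun t => (f t)⁻¹, f1.inv, by simp only [f2, inv_one], rfl, fun t => S.inv_mem (f4 t)⟩


instance [h : S.Normal] : (Pth S).Normal := ⟨by
  rintro _ ⟨f, f1, f2, rfl, f4⟩ g
  exact ⟨fun t => g * f t * g⁻¹, by fun_prop, by simp only [f2, mul_one, mul_inv_cancel], rfl,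
    fun t => h.conj_mem _ (f4 t) g⟩⟩

theorem Pth_le : Pth S ≤ S := by
  rintro _ ⟨f, -, -, rfl, f4⟩
  exact f4 1

theorem eq_top_of_pth (h : S ≤ Pth S) (H : Subgroup S) (hH : IsOpen (H : Set S)) : H = ⊤ := by
  refine eq_top_iff.2 fun u _ => ?_
  obtain ⟨f, f1, f2, f3, f4⟩ := h u.2
  let g : ℝ → S := fun t => ⟨f t, f4 t⟩
  have hg : Continuous g := f1.subtype_mk _
  have h1 : IsClopen (g ⁻¹' (H : Set S)) := IsClopen.preimage ⟨H.isClosed_of_isOpen hH, hH⟩ hg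
  have h2 := h1.eq_univ ⟨0, by
    rw [Set.mem_preimage, show g 0 = 1 from Subtype.ext f2]; exact H.one_mem⟩
  have h3 : (1 : ℝ) ∈ g ⁻¹' (H : Set S) := h2 ▸ Set.mem_univ _
  rwa [Set.mem_preimage, show g 1 = u from Subtype.ext f3] at h3

theorem Pth.map {G' : Type*} [Group G'] [TopologicalSpace G'] [IsTopologicalGroup G']
    {S' : Subgroup G'} (φ : G →* G') (hφ : Continuous φ) (h : ∀ u ∈ S, φ u ∈ S') {u : G}
    (hu : u ∈ Pth S) : φ u ∈ Pth S' := by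
  obtain ⟨f, f1, f2, rfl, f4⟩ := hu
  exact ⟨fun t => φ (f t), hφ.comp f1, by simp only [f2, map_one], rfl, fun t => h _ (f4 t)⟩

theorem pth_circle (Θ : Circle → G) (hc : Continuous Θ) (h1 : Θ 1 = 1) (hS : ∀ z, Θ z ∈ S)
    (z : Circle) : Θ z ∈ Pth S := by
  obtain ⟨x, rfl⟩ := Circle.exp_surjective z
  exact ⟨fun t => Θ (Circle.exp (t * x)), by fun_prop, by simp only [zero_mul, Circle.exp_zero, h1],
    by simp only [one_mul], fun _ => hS _⟩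

end pth

/-! ## matrices over a division ring -/

section mat
variable {D ι Q : Type*} [DivisionRing D] [Fintype ι] [DecidableEq ι] [Group Q]
  (f : (Matrix ι ι D)ˣ →* Q) (hf : ∀ (i j : ι) (h : i ≠ j) (c : D), f (tv h c) = 1)
include hf

theorem dg_eq (i j : ι) (d : Dˣ) : f (dg i d) = f (dg j d) := by
  by_cases h : i = j
  · rw [h]
  have h' : j ≠ i := Ne.symm h
  have : dg i d * (tv h 1 * (tv h' (-1) * tv h 1)) =
      tv h 1 * (tv h' (-1) * (tv h 1 * dg j d)) := by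
    refine ext_of fun N => ?_
    simp only [Units.val_mul, Matrix.mul_assoc, tv_mul, dg_mul]
    refine congrArg _ (funext fun k => ?_)
    by_cases hk : k = i
    · subst hk
      simp [T_ne h', T_ne h, Sc_ne h]
    · by_cases hj : k = j
      · subst hj
        simp [T_ne h', Sc_ne h, Sc_ne h']
      · simp only [T_ne hk, Sc_ne hk, T_ne hj, Sc_ne hj]
  have := congrArg f this
  simpa only [map_mul, hf, one_mul, mul_one] using this

theorem exists_dg' (i₀ : ι) (u : (Matrix ι ι D)ˣ) : ∃ d : Dˣ, f u = f (dg i₀ d) := by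
  have hli : LinearIndependent D (u : Matrix ι ι D).row := by
    rw [Fintype.linearIndependent_iff]
    intro g hg
    have h1 : Matrix.vecMul g (u : Matrix ι ι D) = 0 := by
      rw [Matrix.vecMul_eq_sum]; exact hg
    have h3 := congrArg (fun v => Matrix.vecMul v (↑u⁻¹ : Matrix ι ι D)) h1
    simp only [Matrix.vecMul_vecMul, Units.mul_inv, Matrix.vecMul_one, Matrix.zero_vecMul] at h3
    exact congrFun h3
  have := connect (D := D) (P := fun M : ι → ι → D => ∃ v : (Matrix ι ι D)ˣ,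
      (v : Matrix ι ι D) = Matrix.of M ∧ ∃ d : Dˣ, f v = f (dg i₀ d))
    (by
      rintro M i j c hij ⟨v, hv, d, hd⟩
      exact ⟨tv hij c * v, by rw [Units.val_mul, hv, tv_mul], d, by rw [map_mul, hf, one_mul, hd]⟩)
    (by
      rintro M i c hc ⟨v, hv, d, hd⟩
      exact ⟨dg i (Units.mk0 c hc) * v, by rw [Units.val_mul, hv, dg_mul]; rfl,
        Units.mk0 c hc * d, by rw [map_mul, map_mul, map_mul, hd, dg_eq f hf i i₀]⟩)
    (M := Matrix.of.symm (1 : Matrix ι ι D)) ⟨1, rfl, 1, by simp⟩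
    (by
      rw [← (Pi.basisFun D ι).span_eq]
      congr 2
      funext i j
      simp [Matrix.one_apply, Pi.single_apply, eq_comm]) hli
  obtain ⟨v, hv, d, hd⟩ := this
  exact ⟨d, (Units.ext hv : v = u) ▸ hd⟩

end mat

/-! ## `SL₁` -/

section sl
variable (F C : Type*) [Field F] [CharZero F] [Ring C] [Algebra F C] [Algebra.IsCentral F C]
  [IsSimpleRing C] [FiniteDimensional F C]

/-- the elements of reduced norm one -/
def SL1 : Subgroup Cˣ := (((Nrd F : C →*₀ F) : C →* F).comp (Units.coeHom C)).ker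

instance : (SL1 F C).Normal := MonoidHom.normal_ker _

variable {F C}


variable [TopologicalSpace F] [TopologicalSpace C] [IsTopologicalRing C] [ContinuousSMul F C]

theorem unip {ρ : ℝ → F} (hρ : Continuous ρ) (h0 : ρ 0 = 0) (h1 : ρ 1 = 1) {n : C} (hn : n * n = 0)
    {u : Cˣ} (hu : (u : C) = 1 + n) : u ∈ Pth (SL1 F C) := by
  have e : ∀ a b : F, a + b = 0 → (1 + a • n) * (1 + b • n) = 1 := fun a b h => by
    rw [mul_add, mul_one, add_mul, one_mul, smul_mul_smul_comm, hn, smul_zero, add_zero, add_assoc,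
      ← add_smul, h, zero_smul, add_zero]
  refine ⟨fun t => ⟨1 + ρ t • n, 1 + (-ρ t) • n, e _ _ (by simp), e _ _ (by simp)⟩,
    Units.continuous_iff.2 ⟨?_, ?_⟩, Units.ext (by simp [h0]), Units.ext (by simp [h1, hu]),
    fun t => Nrd_one_add_of_nilpotent ⟨2, ?_⟩⟩
  · change Continuous fun t => 1 + ρ t • n
    fun_prop
  · change Continuous fun t => 1 + (-ρ t) • n
    simp only [neg_smul]
    fun_prop
  · rw [pow_two, smul_mul_smul_comm, hn, smul_zero]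

variable {D : Type*} [DivisionRing D] [Algebra F D] [Algebra.IsCentral F D] [FiniteDimensional F D]
  {r : ℕ} [NeZero r] (e : C ≃ₐ[F] Matrix (Fin r) (Fin r) D)

theorem sl_gen {ρ : ℝ → F} (hρ : Continuous ρ) (h0 : ρ 0 = 0) (h1 : ρ 1 = 1)
    (hD : ∀ d : Dˣ, Nrd F (d : D) = 1 → emb e d ∈ Pth (SL1 F C)) : SL1 F C ≤ Pth (SL1 F C) := by
  intro u hu
  let f := (QuotientGroup.mk' (Pth (SL1 F C))).comp
    (Units.map (e.symm : Matrix (Fin r) (Fin r) D →* C))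
  obtain ⟨d, hd⟩ := exists_dg' f (fun i j h c => (QuotientGroup.eq_one_iff _).2
    (unip hρ h0 h1 (n := e.symm (Matrix.single i j c))
      (by rw [← map_mul, Matrix.single_mul_single_of_ne _ _ _ _ h.symm, map_zero])
      (by rw [← map_one e.symm, ← map_add]; rfl))) 0
    (Units.map (e : C →* Matrix (Fin r) (Fin r) D) u)
  have h2 : Units.map (e.symm : Matrix (Fin r) (Fin r) D →* C)
    (Units.map (e : C →* Matrix (Fin r) (Fin r) D) u) = u := Units.ext (e.symm_apply_apply _)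
  have h3 : u⁻¹ * emb e d ∈ Pth (SL1 F C) := by
    rw [← QuotientGroup.eq, ← h2]; exact hd
  have h4 : emb e d ∈ SL1 F C := by
    simpa using (SL1 F C).mul_mem hu (Pth_le h3)
  have h5 := hD d ((Nrd_emb e d).symm.trans h4)
  simpa using (Pth _).mul_mem h5 ((Pth _).inv_mem h3)

theorem eq_one_of_surj (h : Function.Surjective (algebraMap F D)) {d : Dˣ} (hd : Nrd F (d : D) = 1) :
    d = 1 := by
  obtain ⟨c, hc⟩ := h d
  have : deg F D = 1 := deg_eq F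
    (Algebra.finrank_eq_one_iff_bijective_algebraMap.2 ⟨(algebraMap F D).injective, h⟩)
  rw [← hc, Nrd_algebraMap, this, pow_one] at hd
  exact Units.ext (by rw [← hc, hd, map_one]; rfl)

end sl

theorem sl_complex (C : Type*) [Ring C] [Algebra ℂ C] [Algebra.IsCentral ℂ C] [IsSimpleRing C]
    [FiniteDimensional ℂ C] [TopologicalSpace C] [IsTopologicalRing C] [ContinuousSMul ℂ C] :
    SL1 ℂ C ≤ Pth (SL1 ℂ C) := by
  obtain ⟨r, _, D, _, _, _, _, ⟨e⟩⟩ := exists_setup ℂ C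
  exact sl_gen e Complex.continuous_ofReal rfl rfl fun d hd => by
    rw [eq_one_of_surj IsAlgClosed.algebraMap_bijective_of_isIntegral.2 hd, map_one]
    exact one_mem _

theorem exists_lift {D : Type*} [DivisionRing D] [Algebra ℝ D] [FiniteDimensional ℝ D] (z : D) :
    z ∈ Set.range (algebraMap ℝ D) ∨ ∃ φ : ℂ →ₐ[ℝ] D, z ∈ Set.range φ := by
  have hA := isField_sub (Algebra.adjoin ℝ {z}) fun x hx y hy =>
    (Algebra.commute_of_mem_adjoin_singleton_of_commute hy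
      (Algebra.commute_of_mem_adjoin_self hx).symm).eq
  let _ := hA.toField
  have hz := Algebra.self_mem_adjoin_singleton ℝ z
  rcases Real.nonempty_algEquiv_or (Algebra.adjoin ℝ {z}) with ⟨⟨e⟩⟩ | ⟨⟨e⟩⟩
  · exact Or.inl ⟨e ⟨z, hz⟩, by
      have := ((Algebra.adjoin ℝ {z}).val.comp e.symm.toAlgHom).commutes (e ⟨z, hz⟩)
      simpa using this.symm⟩
  · exact Or.inr ⟨(Algebra.adjoin ℝ {z}).val.comp e.symm.toAlgHom, e ⟨z, hz⟩, by simp⟩

theorem sl_real (C : Type*) [Ring C] [Algebra ℝ C] [Algebra.IsCentral ℝ C] [IsSimpleRing C]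
    [FiniteDimensional ℝ C] [TopologicalSpace C] [IsTopologicalRing C] [ContinuousSMul ℝ C] :
    SL1 ℝ C ≤ Pth (SL1 ℝ C) := by
  obtain ⟨r, _, D, _, _, _, _, ⟨e⟩⟩ := exists_setup ℝ C
  refine sl_gen e continuous_id rfl rfl fun d hd => ?_
  by_cases hs : Function.Surjective (algebraMap ℝ D)
  · rw [eq_one_of_surj hs hd, map_one]
    exact one_mem _
  obtain ⟨φ, z, hz⟩ : ∃ φ : ℂ →ₐ[ℝ] D, (d : D) ∈ Set.range φ := by
    rcases exists_lift (d : D) with ⟨c, hc⟩ | h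
    · obtain ⟨y, hy⟩ := not_forall.1 hs
      obtain ⟨φ, -⟩ := (exists_lift y).resolve_left hy
      exact ⟨φ, algebraMap ℝ ℂ c, by rw [φ.commutes, hc]⟩
    · exact h
  have hN : ∀ w, Nrd ℝ (φ w) = Complex.normSq w ^ (deg ℝ D / finrank ℝ ℂ) := fun w => by
    rw [Nrd_field, Algebra.norm_complex_apply]
  have hm : deg ℝ D / finrank ℝ ℂ ≠ 0 :=
    (Nat.div_pos (Nat.le_of_dvd (deg_pos ℝ D) (finrank_dvd_deg φ)) finrank_pos).ne'
  have h1 : ‖z‖ = 1 := by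
    rw [← hz, hN, pow_eq_one_iff_of_nonneg (Complex.normSq_nonneg _) hm, Complex.normSq_eq_norm_sq,
      pow_eq_one_iff_of_nonneg (norm_nonneg _) two_ne_zero] at hd
    exact hd
  let Θ : Circle →* Cˣ := (emb e).comp ((Units.map (φ : ℂ →* D)).comp Circle.toUnits)
  let L : ℂ →ₗ[ℝ] C := e.symm.toLinearMap ∘ₗ Matrix.singleLinearMap ℝ 0 0 ∘ₗ φ.toLinearMap
  have hL : ∀ w : Circle, (Θ w : C) = 1 + L (w - 1) := fun w => e.injective (by
    change e (e.symm (Matrix.diagonal (Pi.mulSingle 0 (φ w)))) =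
      e (1 + e.symm (Matrix.single 0 0 (φ (w - 1))))
    rw [map_add, map_one, e.apply_symm_apply, e.apply_symm_apply]
    ext i j
    by_cases hi : i = 0 <;> by_cases hj : j = 0 <;> by_cases hij : i = j <;>
      simp_all [eq_comm])
  have hc : Continuous fun w : Circle => (Θ w : C) := by
    simp only [hL]
    exact continuous_const.add (L.continuous_of_finiteDimensional.comp
      (continuous_subtype_val.sub continuous_const))
  have := pth_circle (S := SL1 ℝ C) Θ (Units.continuous_iff.2 ⟨hc, by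
      simp only [← map_inv]; exact hc.comp continuous_inv⟩) (map_one Θ)
    (fun w => (Nrd_emb e _).trans ((hN w).trans (by rw [Circle.normSq_coe, one_pow])))
    ⟨z, mem_sphere_zero_iff_norm.2 h1⟩
  rwa [show d = Units.map (φ : ℂ →* D) (Circle.toUnits ⟨z, mem_sphere_zero_iff_norm.2 h1⟩) from
    Units.ext hz.symm]

/-! ## `SU` -/

section su
variable {E A : Type*} [Field E] [CharZero E] [StarRing E] [Ring A] [StarRing A] [Algebra E A]
  [StarModule E A] [Algebra.IsCentral E A] [IsSimpleRing A] [FiniteDimensional E A]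

/-- a hermitian element of rank at most one and trace `a` -/
structure R1 (n : A) (a : E) : Prop where
  st : star n = n
  mul : n * n = a • n
  nrd : ∀ c : E, Nrd E (1 + c • n) = 1 + a * c

theorem gen [IsAlgClosed E] (hθ : ∃ θ : E, θ ≠ 0 ∧ star θ = -θ) (N : Subgroup (unitary A))
    (hN : ∀ (n : A) (a c : E) (u : unitary A), R1 n a → star a = a → (u : A) = 1 + c • n → u ∈ N)
    (u : unitary A) : u ∈ N := by
  obtain ⟨r, _, D, _, _, _, _, ⟨ψ⟩⟩ := exists_setup E A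
  have hs : Function.Surjective (algebraMap E D) := IsAlgClosed.algebraMap_bijective_of_isIntegral.2
  have hd : deg E D = 1 := deg_eq E
    (Algebra.finrank_eq_one_iff_bijective_algebraMap.2 ⟨(algebraMap E D).injective, hs⟩)
  have : CharZero D := charZero_of_injective_algebraMap (algebraMap E D).injective
  obtain ⟨_, _, F, h⟩ := exists_HF ψ hθ
  have h : Adj ψ F := h
  suffices H : F.U ≤ N.map (act ψ) by
    obtain ⟨w, hw, k⟩ := H (h.act_mem u)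
    exact act_inj k ▸ hw
  refine F.cd fun v c hc hv => ?_
  obtain ⟨u', hu'⟩ := h.act_surj (F.qr_mem hc hv)
  refine ⟨u', ?_, hu'⟩
  obtain ⟨n, hn⟩ := exists_lin ψ ⟨⟨fun x => F.h x v • v, fun x y => by simp [add_smul]⟩,
    fun a x => by simp [mul_smul]⟩
  replace hn : ∀ x, x ᵥ* ψ n = F.h x v • v := hn
  obtain ⟨c, rfl⟩ := hs c
  obtain ⟨a, ha⟩ := hs (F.h v v)
  have hc' : ∀ (c : E) x, x ᵥ* ψ (c • n) = (F.h x v * algebraMap E D c) • v := fun c x => by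
    rw [map_smul, vecMul_smul, hn, ← Algebra.commutes, mul_smul, algebraMap_smul]
  have st : star n = n := ext_vec (ψ := ψ) fun y => F.ext_right fun x => by
    rw [← h, hn, hn]; simp
  refine hN n a (star (-c⁻¹)) u' ⟨st, ext_vec (ψ := ψ) fun x => ?_, fun c => ?_⟩
    ((algebraMap E D).injective (by rw [algebraMap_star_comm, ha, F.symm])) (star_injective ?_)
  · rw [map_mul, ← vecMul_vecMul, hn, hn, hc', F.smul_left, ha]
  · rw [Nrd_rk' (ψ := ψ) (F := F) v v (algebraMap E D c) fun x => by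
      rw [map_add, vecMul_add, map_one, vecMul_one, hc'], ← ha, ← map_mul, ← map_one (algebraMap E D),
      ← map_add, Nrd_algebraMap, hd, pow_one]
  · refine ext_vec (ψ := ψ) fun x => ?_
    rw [← act_apply, hu', F.qr_apply, star_add, star_one, star_smul, star_star, st, map_add, vecMul_add,
      map_one, vecMul_one, hc', map_neg, map_inv₀, mul_neg, neg_smul, sub_eq_add_neg]

theorem R1.norm {n : A} {a : E} (h : R1 n a) (ha : star a = a) (h0 : a ≠ 0) : R1 (a⁻¹ • n) (1 : E) :=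
  ⟨by rw [star_smul, star_inv₀, ha, h.st], by
    rw [smul_mul_smul_comm, h.mul, smul_smul, one_smul, inv_mul_cancel_right₀ h0], fun c => by
    rw [smul_smul, h.nrd, one_mul, mul_comm c, mul_inv_cancel_left₀ h0]⟩

variable [Algebra ℝ E] (ε : ℂ ≃ₐ[ℝ] E) (hε : ∀ z, star (ε z) = ε (star z))

/-- the quasi-reflections along a fixed line -/
def sH {e : A} (h : R1 e (1 : E)) : Circle →* unitary A :=
  have m : ∀ x y : E, (1 + (x - 1) • e) * (1 + (y - 1) • e) = 1 + (x * y - 1) • e := fun x y => by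
    rw [mul_add, mul_one, add_mul, one_mul, smul_mul_smul_comm, h.mul, one_smul, add_assoc,
      ← add_smul, ← add_smul]
    congr 2; ring
  { toFun := fun z => ⟨1 + (ε z - 1) • e, by
      have : ε (star (z : ℂ)) * ε z = 1 := by
        rw [← map_mul, Complex.star_def, ← Circle.coe_inv_eq_conj, ← Circle.coe_mul, inv_mul_cancel,
          Circle.coe_one, map_one]
      rw [Unitary.mem_iff, star_add, star_one, star_smul, h.st, star_sub, star_one, hε, m, m, this,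
        mul_comm, this]
      simp⟩
    map_one' := Subtype.ext (by simp)
    map_mul' := fun z w => Subtype.ext (by
      change 1 + (ε ((z : ℂ) * w) - 1) • e = (1 + (ε z - 1) • e) * (1 + (ε w - 1) • e)
      rw [m, map_mul]) }

theorem sH_val {e : A} (h : R1 e (1 : E)) (z : Circle) :
    (sH ε hε h z : A) = 1 + (ε z - 1) • e := rfl

theorem Nrd_sH {e : A} (h : R1 e (1 : E)) (z : Circle) : Nrd E (sH ε hε h z : A) = ε z := by
  rw [sH_val, h.nrd]; ring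

variable [Algebra ℝ A] [IsScalarTower ℝ E A] [TopologicalSpace A] [IsTopologicalRing A]
  [ContinuousStar A] [ContinuousSMul ℝ A]

theorem cont_sH {e : A} (h : R1 e (1 : E)) : Continuous (sH ε hε h) := by
  let L : ℂ →ₗ[ℝ] A := ((LinearMap.toSpanSingleton E A e).restrictScalars ℝ) ∘ₗ ε.toLinearMap
  refine Continuous.subtype_mk (f := fun z : Circle => 1 + (ε z - 1) • e) ?_ _
  have : ∀ z : Circle, (ε z - 1) • e = L (z - 1) := fun z => by simp [L]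
  simp only [this]
  exact continuous_const.add (L.continuous_of_finiteDimensional.comp
    (continuous_subtype_val.sub continuous_const))

instance : (su E A).Normal := MonoidHom.normal_ker _

include hε in
theorem unipU {u : unitary A} {x : A} (hu : (u : A) = 1 + x) (h1 : x * x = 0) (h2 : star x = -x) :
    u ∈ Pth (su E A) := by
  have hs : ∀ t : ℝ, star (t • x) = -(t • x) := fun t => by
    rw [← algebraMap_smul E t x, star_smul, h2, ← ε.commutes, hε, smul_neg]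
    simp
  have hm : ∀ t : ℝ, t • x * t • x = 0 := fun t => by rw [smul_mul_smul_comm, h1, smul_zero]
  have hU : ∀ t : ℝ, 1 + t • x ∈ unitary A := fun t => by
    have := hm t
    rw [Unitary.mem_iff, star_add, star_one, hs]
    generalize t • x = y at this
    constructor <;> simp [mul_add, add_mul, this]
  exact ⟨fun t => ⟨1 + t • x, hU t⟩, Continuous.subtype_mk (by fun_prop) _, Subtype.ext (by simp),
    Subtype.ext (by simp [hu]), fun t => Nrd_one_add_of_nilpotent ⟨2, by rw [pow_two, hm]⟩⟩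

include hε in
theorem su_pth : su E A ≤ Pth (su E A) := by
  have : IsAlgClosed E := IsAlgClosed.of_exists_root E fun p _ hp => by
    obtain ⟨x, hx⟩ := IsAlgClosed.exists_root (p.map (ε.symm : E →+* ℂ)) (by
      rw [Polynomial.degree_map]; exact (Polynomial.degree_pos_of_irreducible hp).ne')
    refine ⟨ε x, ε.symm.injective ?_⟩
    rw [map_zero, ← hx.eq_zero, Polynomial.eval_map]
    simpa using (Polynomial.eval₂_at_apply (p := p) (ε.symm : E →+* ℂ) (ε x)).symm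
  have hθ : ∃ θ : E, θ ≠ 0 ∧ star θ = -θ := ⟨ε Complex.I, by simp, by rw [hε, ← map_neg]; simp⟩
  have z0 : ∀ (n : A) (c : E) (u : unitary A), R1 n (0 : E) → (u : A) = 1 + c • n →
      u ∈ Pth (su E A) := fun n c u h hu => by
    have h1 : ∀ a b : E, a • n * b • n = 0 := fun a b => by
      rw [smul_mul_smul_comm, h.mul, zero_smul, smul_zero]
    refine unipU ε hε hu (h1 _ _) ?_
    have h2 := u.2.1
    rw [hu, star_add, star_one, mul_add, mul_one, add_mul, one_mul, star_smul, h.st, h1, add_zero,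
      add_assoc, add_eq_left] at h2
    rw [star_smul, h.st]
    exact eq_neg_of_add_eq_zero_left h2
  intro u hu
  by_cases h0 : ∃ e : A, R1 e (1 : E)
  swap
  · refine gen hθ _ (fun n a c u h ha hu => ?_) u
    by_cases a0 : a = 0
    · exact z0 n c u (a0 ▸ h) hu
    · exact absurd ⟨_, h.norm ha a0⟩ h0
  obtain ⟨e₀, h₀⟩ := h0
  have := gen hθ (Pth (su E A) ⊔ (sH ε hε h₀).range) (fun n a c u h ha hu => ?_) u
  · obtain ⟨y, hy, _, ⟨z, rfl⟩, rfl⟩ := Subgroup.mem_sup_of_normal_left.1 this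
    have h1 := Nrd_sH ε hε h₀ z
    rw [mem_su.1 (((su E A).mul_mem_cancel_left (Pth_le hy)).1 hu), ← map_one ε] at h1
    rwa [Circle.ext (ε.injective h1.symm : (z : ℂ) = (1 : Circle)), map_one, mul_one]
  by_cases a0 : a = 0
  · exact Subgroup.mem_sup_left (z0 n c u (a0 ▸ h) hu)
  have h1 := h.norm ha a0
  obtain ⟨z, hz⟩ := ε.surjective (Nrd E (u : A))
  have h2 : ‖z‖ = 1 := by
    have h3 := Nrd_unitary (K := E) u.2
    rw [← hz, hε, ← map_mul, ← map_one ε] at h3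
    have h4 := congrArg norm (ε.injective h3)
    rw [norm_mul, norm_star, norm_one] at h4
    nlinarith [norm_nonneg z]
  let w : Circle := ⟨z, mem_sphere_zero_iff_norm.2 h2⟩
  have h3 : u = sH ε hε h1 w := Subtype.ext (by
    rw [sH_val, show ε w = Nrd E (u : A) from hz, hu, h.nrd, smul_smul, add_sub_cancel_left,
      mul_right_comm, mul_inv_cancel₀ a0, one_mul])
  have h4 := pth_circle (S := su E A) (fun z => sH ε hε h1 z * (sH ε hε h₀ z)⁻¹)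
    ((cont_sH ε hε h1).mul (cont_sH ε hε h₀).inv) (by simp) (fun z => by
      rw [← map_inv, mem_su, Submonoid.coe_mul, map_mul, Nrd_sH, Nrd_sH, ← map_mul, ← Circle.coe_mul,
        mul_inv_cancel, Circle.coe_one, map_one]) w
  exact Subgroup.mem_sup_of_normal_left.2 ⟨_, h4, _, ⟨w, rfl⟩, by rw [h3, inv_mul_cancel_right]⟩

end su

/-- a quadratic extension of `ℝ` with its conjugation is `ℂ` -/
theorem exists_eps (E : Type*) [Field E] [StarRing E] [Algebra ℝ E] (h2 : finrank ℝ E = 2)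
    (hk : ∀ c : ℝ, star (algebraMap ℝ E c) = algebraMap ℝ E c) (hne : ∃ c : E, star c ≠ c) :
    ∃ ε : ℂ ≃ₐ[ℝ] E, ∀ z, star (ε z) = ε (star z) := by
  have : FiniteDimensional ℝ E := Module.finite_of_finrank_pos (by omega)
  rcases Real.nonempty_algEquiv_or E with ⟨⟨e⟩⟩ | ⟨⟨e⟩⟩
  · have := e.toLinearEquiv.finrank_eq
    rw [h2, finrank_self] at this
    omega
  let s : E ≃ₐ[ℝ] E := { starRingAut with commutes' := hk }
  refine ⟨e.symm, fun z => e.injective ?_⟩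
  rcases Complex.real_algHom_eq_id_or_conj ((e.symm.trans (s.trans e)).toAlgHom) with h | h
  · obtain ⟨c, hc⟩ := hne
    have := DFunLike.congr_fun h (e c)
    exact absurd (e.injective (by simpa [s] using this)) hc
  · simpa [s] using DFunLike.congr_fun h z

end Crest.Agent.T24.L15
end
end

-- ▼ part T24/NaJcDef_52
section

/-!
# Row 24, the `J`-component: words and leaves (helper52)
-/

set_option autoImplicit false
set_option linter.unusedSectionVars false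

noncomputable section

namespace Crest.Agent.T24.Na.J52

open Topology Filter MeasureTheory K39
open scoped ENNReal NNReal

universe u v w

scoped instance cjD {R : Type*} [Ring R] [StarRing R] : DistribMulAction (unitary R) (selfAdjoint R) :=
  { cjAct with
    smul_zero := fun g => Subtype.ext (by rw [coe_cj]; simp)
    smul_add := fun g x y => Subtype.ext (by simp [coe_cj, mul_add, add_mul]) }

/-- `ac` as an action -/
scoped instance acD {F : Type*} [Field F] {d : ℕ} {G₂ Z₂ : Type*} [Group G₂] [AddCommGroup Z₂]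
    [DistribMulAction G₂ Z₂] : DistribMulAction (G₂ × GL (Fin d) F) (Z₂ × Mt d F) where
  smul := ac
  one_smul z := by change ac _ _ = _; simp [ac]
  mul_smul g h z := by change ac _ _ = ac _ (ac _ _); simp [ac, mul_smul, mul_assoc]
  smul_zero g := by change ac _ _ = _; simp [ac]
  smul_add g x y := by change ac _ _ = ac _ _ + ac _ _; simp [ac, mul_add, add_mul]


/-- the arithmetic used in the Poincaré inequality -/
structure Fr {G Γ Z X : Type*} [Group G] [TopologicalSpace G] [Group Γ] [AddCommGroup Z]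
    [TopologicalSpace Z] [AddCommGroup X] [DistribMulAction G Z] [DistribMulAction Γ X]
    (ι : Γ →* G) (iJ : X →+ Z) (L L₀ : AddSubgroup X) (sc : ℕ → Z →+ Z) : Prop where
  cont : Continuous fun p : G × Z => p.1 • p.2
  eqv : ∀ γ a, iJ (γ • a) = ι γ • iJ a
  sc_smul : ∀ R (g : G) z, sc R (g • z) = g • sc R z
  L_smul : ∀ (γ : Γ), ∀ b ∈ L, γ • b ∈ L
  fin : ∀ K : Set Z, IsCompact K → {b | b ∈ L ∧ iJ b ∈ K}.Finite
  cov : ∃ D : Set Z, IsCompact D ∧ ∀ z, ∃ b ∈ L, z - iJ b ∈ D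
  dv : ∀ m : ℕ, m ≠ 0 → ∃ f : Z →+ Z, Continuous f ∧ (∀ z, m • f z = z) ∧ ∀ z, f (m • z) = z
  lnk : ∃ H : AddSubgroup Z, (H : Set Z) ∈ 𝓝 (0 : Z) ∧ (∀ b ∈ L, iJ b ∈ H → b ∈ L₀) ∧
    ∀ D : Set Z, IsCompact D → ∀ W ∈ 𝓝 (0 : Z), ∃ n₀ : ℕ, n₀ ≠ 0 ∧ (∀ z ∈ D, n₀ • z ∈ H) ∧
      ∀ m : ℕ, ∀ᶠ R in atTop, ∀ z ∈ D, sc R ((m * n₀) • z) ∈ W

/-- the frame of a system -/
def FrStmt : Prop := ∀ S : Sys.{u, v, w}, S.Ok →
  Fr S.ιΓ S.iJ S.L S.L₀ fun R => (S.sc R).toAddEquiv.toAddMonoidHom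

/-- Kazhdan's inequality for elements which almost commute with a dominant matrix -/
def GapStmt : Prop :=
  ∀ (F : Type u) [Field F] [TopologicalSpace F] [IsTopologicalDivisionRing F] [T2Space F]
    [SecondCountableTopology F] (O : Subring F) (π : F) (d : ℕ), Lf O π → 3 ≤ d →
    ∀ K : Set (Mt d F), IsCompact K → (∀ y ∈ K, Dom O π y) →
    ∃ (𝒞 : Set (GL (Fin d) F)) (C₀ : ℝ≥0), IsCompact 𝒞 ∧ ∀ V₁ ∈ 𝓝 (0 : Mt d F), ∃ C₁ : ℝ≥0,
      ∀ V₂ ∈ 𝓝 (0 : Mt d F), ∀ y ∈ K, ∃ τ ∈ 𝒞,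
        (τ : Mt d F) * y * ((τ⁻¹ : GL (Fin d) F) : Mt d F) - y ∈ V₂ ∧
        ∀ (V : Type v) [NormedAddCommGroup V] [InnerProductSpace ℝ V] [CompleteSpace V]
          (ρ : GL (Fin d) F →* (V ≃ₗᵢ[ℝ] V)) (x : V) (δ : ℝ),
          (∀ κ ∈ 𝒞, (κ : Mt d F) * y * ((κ⁻¹ : GL (Fin d) F) : Mt d F) - y ∈ V₁ → ‖ρ κ x - x‖ ≤ δ) →
          ∀ s : Matrix.SpecialLinearGroup (Fin d) F,
            ‖ρ (Matrix.SpecialLinearGroup.toGL s) x - x‖ ≤ C₀ * δ + C₁ * ‖ρ τ x - x‖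

/-- a vector with zero sums along `r` which is almost fixed by `SL_d` is small -/
def SgStmt : Prop :=
  ∀ (F : Type u) [Field F] [TopologicalSpace F] [IsTopologicalRing F] [LocallyCompactSpace F]
    [SecondCountableTopology F] [T2Space F] (d : ℕ) (G₂ : Type v) [Group G₂] [TopologicalSpace G₂]
    [IsTopologicalGroup G₂] [LocallyCompactSpace G₂] [SecondCountableTopology G₂] [T2Space G₂]
    [MeasurableSpace (G₂ × GL (Fin d) F)] [BorelSpace (G₂ × GL (Fin d) F)]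
    (Γ : Type w) [Group Γ] [Countable Γ] (Y : Type w) [Countable Y] [MulAction Γ Y]
    [MeasurableSpace Y] [DiscreteMeasurableSpace Y]
    (ι : Γ →* G₂ × GL (Fin d) F) (c : G₂ × GL (Fin d) F → Γ) (h : Co ι c)
    (μ : Measure (G₂ × GL (Fin d) F)) [μ.IsHaarMeasure] [μ.IsMulRightInvariant]
    [SMulInvariantMeasure Γ Y (wm fun _ : Y => 1)]
    (M : Type) [Fintype M] [Nonempty M] (r : M → Y ≃ Y) (Ξ : (G₂ × GL (Fin d) F) × Y → ℝ)
    (x : Lp ℝ 2 (mX c μ (wm fun _ : Y => 1))) (η : ℝ),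
    x =ᵐ[mX c μ (wm fun _ : Y => 1)] Ξ → (∀ g y, ∑ f, Ξ (g, r f y) = 0) →
    (∀ f y, ∀ W ∈ 𝓝 (1 : G₂), ∃ γ, Near ι W γ ∧ γ • r f y = y) →
    (∀ s, ‖h.kp μ (wm fun _ : Y => 1) (jS G₂ s) x - x‖ ≤ η) → ‖x‖ ≤ η

end Crest.Agent.T24.Na.J52
end
end

-- ▼ part T24/NaJcD_62
section

/-!
# Row 24, the `J`-component: the abstract counting core (helper62), words
-/

set_option autoImplicit false
set_option linter.unusedSectionVars false

noncomputable section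

namespace Crest.Agent.T24.Na.J62

open Topology Filter MeasureTheory K39 J52 Set
open scoped ENNReal NNReal

universe u v w

section Y
variable {Γ X Q : Type*} [Group Γ] [AddCommGroup X] [DistribMulAction Γ X] [Group Q]

variable (Γ) in
/-- `L` is stable -/
def St (L : AddSubgroup X) : Prop := ∀ (γ : Γ), ∀ b ∈ L, γ • b ∈ L

/-- `X / L × Q` -/
@[nolint unusedArguments]
def Yt (_cq : Γ →* Q) (L : AddSubgroup X) : Type _ := (X ⧸ L) × Q

variable (cq : Γ →* Q) (L : AddSubgroup X)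

instance [Countable X] [Countable Q] : Countable (Yt cq L) :=
  haveI : Countable (X ⧸ L) := QuotientAddGroup.mk_surjective.countable
  inferInstanceAs (Countable ((X ⧸ L) × Q))
instance : MeasurableSpace (Yt cq L) := ⊤
instance : DiscreteMeasurableSpace (Yt cq L) := ⟨fun _ => trivial⟩

variable {L} in
/-- the action on classes -/
def qa [h : Fact (St Γ L)] (γ : Γ) : X ⧸ L →+ X ⧸ L :=
  QuotientAddGroup.map L L (DistribSMul.toAddMonoidHom X γ) (h.out γ)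

variable {L} in
@[simp] theorem qa_mk [Fact (St Γ L)] (γ : Γ) (a : X) : qa γ (a : X ⧸ L) = (γ • a : X) := rfl

instance [Fact (St Γ L)] : MulAction Γ (Yt cq L) where
  smul γ y := (qa γ y.1, cq γ * y.2)
  one_smul y := Prod.ext (by
    obtain ⟨a, h⟩ := QuotientAddGroup.mk_surjective y.1
    change qa 1 y.1 = y.1
    rw [← h, qa_mk, one_smul]) (by change cq 1 * y.2 = y.2; simp)
  mul_smul γ δ y := Prod.ext (by
    obtain ⟨a, h⟩ := QuotientAddGroup.mk_surjective y.1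
    change qa (γ * δ) y.1 = qa γ (qa δ y.1)
    rw [← h, qa_mk, qa_mk, qa_mk, mul_smul]) (by
    change cq (γ * δ) * y.2 = cq γ * (cq δ * y.2); rw [map_mul, mul_assoc])


instance [Fact (St Γ L)] : SMulInvariantMeasure Γ (Yt cq L) (wm fun _ : Yt cq L => 1) :=
  wm_inv fun _ _ => rfl

end Y

/-- the local square norm -/
def nn {X Q : Type*} (P : Set X) (ξ : X → Q → ℝ) : ℝ≥0∞ :=
  ∑' q, ∑' a, P.indicator (fun a => ‖ξ a q‖ₑ ^ 2) a

section Gp
variable {G Γ Z X Q : Type*} [Group G] [TopologicalSpace G] [MeasurableSpace G] [Group Γ]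
  [AddCommGroup Z] [TopologicalSpace Z] [AddCommGroup X] [DistribMulAction G Z]
  [DistribMulAction Γ X] [Group Q]

/-- the square norm on the quotient -/
def en {Y : Type*} [MeasurableSpace Y] (c : G → Γ) (μ : Measure G) (Ψ : G × Y → ℝ) : ℝ≥0∞ :=
  ∫⁻ p, ‖Ψ p‖ₑ ^ 2 ∂mX c μ (wm fun _ : Y => 1)

/-- the spectral gap in the form used by the core -/
def Gp (ι : Γ →* G) (c : G → Γ) (μ : Measure G) (cq : Γ →* Q) (L : AddSubgroup X)
    (sc : ℕ → Z →+ Z) (O : Set Z) (Zs : (Q → ℝ) → Prop) : Prop :=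
  ∀ Ω : Set Z, IsCompact Ω → Ω ⊆ O → ∃ (𝒞 : Set G) (C₀ : ℝ≥0∞), IsCompact 𝒞 ∧ C₀ ≠ ∞ ∧
    ∀ V₁ ∈ 𝓝 (0 : Z), ∃ C₁ : ℝ≥0∞, C₁ ≠ ∞ ∧ ∀ V₂ ∈ 𝓝 (0 : Z), ∀ R z, sc R z ∈ Ω →
      ∃ τ ∈ 𝒞, τ • z - z ∈ V₂ ∧ ∀ (L' : AddSubgroup X) [Fact (St Γ L')] (m : ℕ), m ≠ 0 →
        (∀ b ∈ L, m • b ∈ L') → ∀ (Ψ : G × Yt cq L' → ℝ) (Δ : ℝ≥0∞), Measurable Ψ →
        (∀ g α, Zs fun q => Ψ (g, (α, q))) → en c μ Ψ ≠ ∞ →
        (∀ κ ∈ 𝒞, κ • z - z ∈ V₁ → en c μ (fun p => Ψ (Pj ι c (rt κ p)) - Ψ p) ≤ Δ) →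
        en c μ Ψ ≤ C₀ * Δ + C₁ * en c μ fun p => Ψ (Pj ι c (rt τ p)) - Ψ p

end Gp

/-- the abstract counting core -/
def CoreStmt : Prop :=
  ∀ (G : Type u) (Γ : Type w) (Z : Type u) (X : Type w) (Q : Type) [Group G] [TopologicalSpace G]
    [IsTopologicalGroup G] [LocallyCompactSpace G] [SecondCountableTopology G] [T2Space G]
    [MeasurableSpace G] [BorelSpace G] [Group Γ] [Countable Γ] [AddCommGroup Z]
    [TopologicalSpace Z] [IsTopologicalAddGroup Z] [T2Space Z] [LocallyCompactSpace Z]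
    [AddCommGroup X] [Countable X] [DistribMulAction G Z] [DistribMulAction Γ X] [Group Q]
    [Countable Q] (ι : Γ →* G) (c : G → Γ) (μ : Measure G) [μ.IsHaarMeasure]
    [μ.IsMulRightInvariant] (cq : Γ →* Q) (iJ : X →+ Z) (L L₀ : AddSubgroup X) (sc : ℕ → Z →+ Z)
    (O : Set Z) (Zs : (Q → ℝ) → Prop), Co ι c → Fr ι iJ L L₀ sc → IsOpen O →
    (∀ (g : G), ∀ z ∈ O, g • z ∈ O) → Gp ι c μ cq L sc O Zs →
    ∀ K : Set Z, IsCompact K → K ⊆ O → ∃ (K₁ : Set Z) (Γ₁ : Finset Γ) (C : ℝ≥0∞),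
      IsCompact K₁ ∧ C ≠ ∞ ∧ ∀ m₁ : ℕ, m₁ ≠ 0 → ∃ C' : ℝ≥0∞, C' ≠ ∞ ∧ ∀ m₂ : ℕ, m₂ ≠ 0 →
        ∃ E₁ E₂ : Finset X, (∀ e ∈ E₁, ∃ b ∈ L₀, e = m₁ • b) ∧ (∀ e ∈ E₂, ∃ b ∈ L₀, e = m₂ • b) ∧
        ∀ᶠ R in atTop, ∀ ξ₁ ξ₂ : X → Q → ℝ, (∀ a, Zs (ξ₂ a)) →
          nn {a | sc R (iJ a) ∈ K₁} ξ₂ ≠ ∞ → nn {a | sc R (iJ a) ∈ K} ξ₂ ≤
            C * (nn {a | sc R (iJ a) ∈ K₁} (ξ₁ - ξ₂) +
              ∑ e ∈ E₁, nn {a | sc R (iJ a) ∈ K₁} fun a q => ξ₁ (a + e) q - ξ₁ a q) +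
            C' * (∑ γ ∈ Γ₁, nn {a | sc R (iJ a) ∈ K₁} (fun a q => ξ₂ (γ • a) (cq γ * q) - ξ₂ a q) +
              ∑ e ∈ E₂, nn {a | sc R (iJ a) ∈ K₁} fun a q => ξ₂ (a + e) q - ξ₂ a q)

end Crest.Agent.T24.Na.J62
end
end

-- ▼ part T24/NaJcA_62
section

/-!
# Row 24, the `J`-component: the abstract counting core (helper62)
-/

set_option autoImplicit false
set_option linter.unusedSectionVars false

noncomputable section

namespace Crest.Agent.T24.Na.J62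

open Topology Filter MeasureTheory K39 J52 Set
open scoped ENNReal NNReal Pointwise

universe u v w

theorem sq_add_le (x y : ℝ) : ‖x + y‖ₑ ^ 2 ≤ 2 * ‖x‖ₑ ^ 2 + 2 * ‖y‖ₑ ^ 2 := by
  have h : ‖x + y‖₊ ^ 2 ≤ 2 * ‖x‖₊ ^ 2 + 2 * ‖y‖₊ ^ 2 := by
    rw [← NNReal.coe_le_coe]
    push_cast
    simp only [Real.norm_eq_abs, sq_abs]
    nlinarith [sq_nonneg (x - y)]
  simp only [enorm_eq_nnnorm]
  exact_mod_cast h

theorem sq_tri (x y z : ℝ) : ‖x - z‖ₑ ^ 2 ≤ 2 * ‖x - y‖ₑ ^ 2 + 2 * ‖y - z‖ₑ ^ 2 := by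
  simpa using sq_add_le (x - y) (y - z)

theorem tsum_le_mul {I X T : Type*} (E : Finset T) (φ : I → X) (ε : I → T) (hε : ∀ i, ε i ∈ E)
    (inj : ∀ i j, φ i = φ j → ε i = ε j → i = j) (F : X → ℝ≥0∞) :
    ∑' i, F (φ i) ≤ E.card * ∑' a, F a := by
  have := ENNReal.tsum_comp_le_tsum_of_injective (f := fun i => ((⟨ε i, hε i⟩ : E), φ i))
    (fun i j h => inj i j (congrArg Prod.snd h) (congrArg (fun p => p.1.1) h)) fun p => F p.2
  refine this.trans (le_of_eq ?_)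
  rw [ENNReal.tsum_prod', tsum_fintype]
  simp

theorem exists_sel {Z ι : Type*} [MeasurableSpace Z] [Countable ι] [MeasurableSpace ι]
    (p : ι → Z → Prop) (hm : ∀ i, MeasurableSet {z | p i z}) (h : ∀ z, ∃ i, p i z) (i₀ : ι) :
    ∃ β : Z → ι, Measurable β ∧ ∀ z, p (β z) z := by
  classical
  have : Nonempty ι := ⟨i₀⟩
  obtain ⟨e, he⟩ := exists_surjective_nat ι
  have h' : ∀ z, ∃ n, p (e n) z := fun z => by
    obtain ⟨i, hi⟩ := h z
    obtain ⟨n, rfl⟩ := he i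
    exact ⟨n, hi⟩
  exact ⟨fun z => e (Nat.find (h' z)), Measurable.find (f := fun n _ => e n)
    (fun _ => measurable_const) (fun n => hm _) h', fun z => Nat.find_spec (h' z)⟩

theorem int_eq {G Y I : Type*} [MeasurableSpace G] [MeasurableSpace Y] [Countable Y]
    [MeasurableSingletonClass Y] [Countable I] (μ : Measure G) [SFinite μ] (C : Set G)
    (f : I → G × Y → ℝ≥0∞) (hf : ∀ i, Measurable (f i)) :
    ∑' i, ∫⁻ p in C ×ˢ univ, f i p ∂μ.prod (wm fun _ : Y => 1) =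
      ∫⁻ g in C, ∑' i, ∑' y, f i (g, y) ∂μ := by
  rw [lintegral_tsum (f := fun i g => ∑' y, f i (g, y)) fun i => (Measurable.ennreal_tsum fun y =>
    (hf i).comp measurable_prodMk_right).aemeasurable]
  refine tsum_congr fun i => ?_
  rw [← Measure.restrict_prod_eq_prod_univ, lintegral_prod _ (hf i).aemeasurable]
  simp [lintegral_wm]

theorem int_le {G Y I : Type*} [MeasurableSpace G] [MeasurableSpace Y] [Countable Y]
    [MeasurableSingletonClass Y] [Countable I] (μ : Measure G) [SFinite μ] {C : Set G}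
    (hC : MeasurableSet C) (f : I → G × Y → ℝ≥0∞) (hf : ∀ i, Measurable (f i)) {B : ℝ≥0∞}
    (h : ∀ g ∈ C, ∑' i, ∑' y, f i (g, y) ≤ B) :
    ∑' i, ∫⁻ p in C ×ˢ univ, f i p ∂μ.prod (wm fun _ : Y => 1) ≤ μ C * B := by
  rw [int_eq μ C f hf, mul_comm, ← setLIntegral_const]
  exact setLIntegral_mono' hC h

theorem nn_mono {X Q : Type*} {P P' : Set X} (h : P ⊆ P') (ξ : X → Q → ℝ) : nn P ξ ≤ nn P' ξ :=
  ENNReal.tsum_le_tsum fun _ => ENNReal.tsum_le_tsum fun _ =>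
    indicator_le_indicator_of_subset h (fun _ => zero_le) _

/-- the local sum of a non-negative function -/
def ns {X Q : Type*} (P : Set X) (F : X → Q → ℝ≥0∞) : ℝ≥0∞ :=
  ∑' q, ∑' a, P.indicator (fun a => F a q) a

theorem nn_eq {X Q : Type*} (P : Set X) (ξ : X → Q → ℝ) :
    nn P ξ = ns P fun a q => ‖ξ a q‖ₑ ^ 2 := rfl

theorem ns_sum {X Q T : Type*} (P : Set X) (E : Finset T) (F : T → X → Q → ℝ≥0∞) :
    ns P (fun a q => ∑ e ∈ E, F e a q) = ∑ e ∈ E, ns P (F e) := by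
  simp only [ns]
  rw [← Summable.tsum_finsetSum fun _ _ => ENNReal.summable]
  refine tsum_congr fun q => ?_
  rw [← Summable.tsum_finsetSum fun _ _ => ENNReal.summable]
  refine tsum_congr fun a => ?_
  by_cases h : a ∈ P <;> simp [h]

theorem ns_add {X Q : Type*} (P : Set X) (F F' : X → Q → ℝ≥0∞) :
    ns P (fun a q => F a q + F' a q) = ns P F + ns P F' := by
  simp only [ns, ← ENNReal.tsum_add]
  refine tsum_congr fun q => tsum_congr fun a => ?_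
  by_cases h : a ∈ P <;> simp [h]

theorem ns_mul {X Q : Type*} (P : Set X) (c : ℝ≥0∞) (F : X → Q → ℝ≥0∞) :
    ns P (fun a q => c * F a q) = c * ns P F := by
  simp only [ns, ← ENNReal.tsum_mul_left]
  refine tsum_congr fun q => tsum_congr fun a => ?_
  by_cases h : a ∈ P <;> simp [h]

theorem ns_mono {X Q : Type*} {P P' : Set X} (h : P ⊆ P') (F : X → Q → ℝ≥0∞) : ns P F ≤ ns P' F :=
  ENNReal.tsum_le_tsum fun _ => ENNReal.tsum_le_tsum fun _ =>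
    indicator_le_indicator_of_subset h (fun _ => zero_le) _

theorem ns_smul {Γ X Q : Type*} [Group Γ] [MulAction Γ X] [Group Q] {P P' : Set X} (γ : Γ) (t : Q)
    (h : ∀ a ∈ P, γ • a ∈ P') (F : X → Q → ℝ≥0∞) :
    ns P (fun a q => F (γ • a) (t * q)) ≤ ns P' F := by
  refine le_trans (ENNReal.tsum_le_tsum fun q => ?_) (ENNReal.tsum_comp_le_tsum_of_injective
    (mul_right_injective t) fun q => ∑' a, P'.indicator (fun a => F a q) a)
  refine le_trans (ENNReal.tsum_le_tsum fun a => ?_) (ENNReal.tsum_comp_le_tsum_of_injective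
    (MulAction.injective γ) (P'.indicator fun a => F a (t * q)))
  by_cases ha : a ∈ P
  · simp [ha, h a ha]
  · simp [ha]

theorem unif {G Z : Type*} [TopologicalSpace G] [TopologicalSpace Z] [Monoid G] [AddMonoid Z]
    [DistribMulAction G Z] (hc : Continuous fun p : G × Z => p.1 • p.2) {C : Set G}
    (hC : IsCompact C) {U : Set Z} (hU : U ∈ 𝓝 (0 : Z)) : {v | ∀ g ∈ C, g • v ∈ U} ∈ 𝓝 (0 : Z) :=
  hC.eventually_forall_of_forall_eventually (P := fun v g => g • v ∈ U) fun g _ =>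
    (hc.comp continuous_swap).continuousAt.eventually (by simpa using hU)

section Rd
variable {Z X : Type*} [AddCommGroup Z] [AddCommGroup X] {iJ : X →+ Z} {L : AddSubgroup X} {m : ℕ}

variable (L m) in
/-- `m L` -/
abbrev mL : AddSubgroup X := L.map (nsmulAddMonoidHom m)

theorem diff {f : Z →+ Z} (hf : ∀ z, f (m • z) = z) {a a' : X} {u : Z}
    (h : (a : X ⧸ mL L m) = a') (hu : iJ a' - iJ a = m • u) :
    ∃ b ∈ L, iJ b = u ∧ a' = a + m • b := by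
  obtain ⟨b, hb, e⟩ := QuotientAddGroup.eq.1 h
  have e' : a' = a + m • b := by
    have : m • b = -a + a' := e
    rw [this]; abel
  refine ⟨b, hb, ?_, e'⟩
  rw [← hf u, ← hu, e', map_add, add_sub_cancel_left, map_nsmul, hf]

variable [MeasurableSpace Z] [MeasurableSpace X]

variable (iJ L m) in
/-- a measurable rounding -/
structure Rd (D : Set Z) (rd : X ⧸ mL L m → Z → X) : Prop where
  cls : ∀ α z, (rd α z : X ⧸ mL L m) = α
  near : ∀ α z, ∃ d ∈ D, iJ (rd α z) = z - m • d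
  meas : ∀ α, Measurable (rd α)

theorem exists_rd [TopologicalSpace Z] [IsTopologicalAddGroup Z] [BorelSpace Z] [Countable X]
    [DiscreteMeasurableSpace X] {D : Set Z} {β : Z → X} (hm : Measurable β)
    (hβ : ∀ z, β z ∈ L ∧ z - iJ (β z) ∈ D) {f : Z →+ Z} (hc : Continuous f)
    (hf : ∀ z, m • f z = z) : ∃ rd, Rd iJ L m D rd := by
  refine ⟨fun α z => α.out + m • β (f (z - iJ α.out)), fun α z => ?_, fun α z => ?_, fun α => ?_⟩
  · have : m • β (f (z - iJ α.out)) ∈ mL L m := AddSubgroup.mem_map.2 ⟨_, (hβ _).1, rfl⟩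
    rw [QuotientAddGroup.mk_add_of_mem _ this, QuotientAddGroup.out_eq']
  · refine ⟨_, (hβ (f (z - iJ α.out))).2, ?_⟩
    rw [smul_sub, hf, map_add, map_nsmul]; abel
  · exact (Measurable.of_discrete (f := fun b : X => α.out + m • b)).comp
      (hm.comp (hc.comp (continuous_id.sub continuous_const)).measurable)

end Rd

end Crest.Agent.T24.Na.J62
end
end

-- ▼ part T24/NaJcB_62
section

/-!
# Row 24, the `J`-component: the abstract counting core (helper62), geometry and measure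
-/

set_option autoImplicit false
set_option linter.unusedSectionVars false

noncomputable section

namespace Crest.Agent.T24.Na.J62

open Topology Filter MeasureTheory K39 J52 Set
open scoped ENNReal NNReal Pointwise

universe u v w

theorem ns_le {X Q : Type*} {P : Set X} {F F' : X → Q → ℝ≥0∞} (h : ∀ a ∈ P, ∀ q, F a q ≤ F' a q) :
    ns P F ≤ ns P F' :=
  ENNReal.tsum_le_tsum fun q => ENNReal.tsum_le_tsum fun a => by
    by_cases ha : a ∈ P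
    · simpa [ha] using h a ha q
    · simp [ha]

/-- a difference -/
abbrev dl {X Q : Type*} [Add X] (ξ : X → Q → ℝ) (e a : X) (q : Q) : ℝ≥0∞ :=
  ‖ξ (a + e) q - ξ a q‖ₑ ^ 2

section Geo
variable {G Γ Z X Q : Type*} [Group G] [Group Γ] [AddCommGroup Z] [AddCommGroup X]
  [DistribMulAction G Z] [DistribMulAction Γ X] [Group Q] [MeasurableSpace Z] [MeasurableSpace X]

/-- the geometric context -/
structure Cx (ι : Γ →* G) (iJ : X →+ Z) (L : AddSubgroup X) (m : ℕ) (D D₀ : Set Z) (Cb : Set G)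
    (E : Finset X) (f : Z →+ Z) (β : Z → X) (rd : X ⧸ mL L m → Z → X) : Prop where
  eqv : ∀ γ a, iJ (γ • a) = ι γ • iJ a
  f1 : ∀ z, m • f z = z
  f2 : ∀ z, f (m • z) = z
  hβ : ∀ z, β z ∈ L ∧ z - iJ (β z) ∈ D
  rd : Rd iJ L m D rd
  inv : ∀ g ∈ Cb, g⁻¹ ∈ Cb
  e1 : ∀ b ∈ L, ∀ g ∈ Cb, ∀ d ∈ D, ∀ d' ∈ D, iJ b = g • d + d' → b ∈ E
  e2 : ∀ b ∈ L, ∀ g ∈ Cb, ∀ d ∈ D, ∀ d' ∈ D, iJ b = g • d - d' → b ∈ E
  e3 : ∀ b ∈ L, ∀ d₀ ∈ D₀, ∀ d ∈ D, ∀ d' ∈ D, iJ b = d₀ - d' + d → b ∈ E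
  e4 : ∀ b ∈ L, ∀ g ∈ Cb, ∀ d ∈ D, ∀ d' ∈ D, iJ b = -(g • d + d') → b ∈ E

variable {ι : Γ →* G} {iJ : X →+ Z} {L : AddSubgroup X} {m : ℕ} {D D₀ : Set Z} {Cb : Set G}
  {E : Finset X} {f : Z →+ Z} {β : Z → X} {rd : X ⧸ mL L m → Z → X} (cq : Γ →* Q)
  (h : Cx ι iJ L m D D₀ Cb E f β rd)
include h

theorem Cx.cnt {I P : Set X} (hI : ∀ b ∈ I, b ∈ L) {g : G} (hg : g ∈ Cb)
    (hP : ∀ b ∈ I, ∀ α, rd α (g • iJ (m • b)) ∈ P) (F : X → Q → ℝ≥0∞) :
    ∑' b : I, ∑' y : Yt cq (mL L m), F (rd y.1 (g • iJ (m • b.1))) y.2 ≤ E.card * ns P F := by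
  have := tsum_le_mul (I := I × Yt cq (mL L m)) E
    (fun p => (p.2.2, rd p.2.1 (g • iJ (m • p.1.1))))
    (fun p => p.1.1 - β (f (g⁻¹ • iJ (rd p.2.1 (g • iJ (m • p.1.1)))))) (fun p => ?_)
    (fun p p' e e' => ?_) fun p => P.indicator (fun a => F a p.1) p.2
  · rw [ENNReal.tsum_prod', ENNReal.tsum_prod'] at this
    refine le_trans (le_of_eq ?_) this
    exact tsum_congr fun b => tsum_congr fun y => by rw [indicator_of_mem (hP b b.2 _)]
  · obtain ⟨d, hd, e⟩ := h.rd.near p.2.1 (g • iJ (m • p.1.1))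
    refine h.e1 _ (L.sub_mem (hI _ p.1.2) (h.hβ _).1) g⁻¹ (h.inv g hg) d hd _ (h.hβ (f (g⁻¹ • iJ
      (rd p.2.1 (g • iJ (m • p.1.1)))))).2 ?_
    have : f (g⁻¹ • iJ (rd p.2.1 (g • iJ (m • p.1.1)))) = iJ p.1.1 - g⁻¹ • d := by
      rw [e, smul_sub, inv_smul_smul, map_nsmul, smul_comm g⁻¹ m d, ← smul_sub, h.f2]
    rw [map_sub, this]; abel
  · have e1 : p.2.2 = p'.2.2 := congrArg Prod.fst e
    have e2 : rd p.2.1 (g • iJ (m • p.1.1)) = rd p'.2.1 (g • iJ (m • p'.1.1)) := congrArg Prod.snd e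
    rw [e2] at e'
    refine Prod.ext (Subtype.ext (sub_left_injective e')) (Prod.ext ?_ e1)
    rw [← h.rd.cls p.2.1, e2, h.rd.cls]

theorem Cx.low [DecidableEq X] {I P : Set X} {g : G} (hg : g ∈ Cb)
    (hI : ∀ a ∈ P, β (f (g⁻¹ • iJ a)) ∈ I) (ξ : X → Q → ℝ) :
    nn P ξ ≤ 2 * (E.card * ∑' b : I, ∑' y : Yt cq (mL L m),
      ‖ξ (rd y.1 (g • iJ (m • b.1))) y.2‖ₑ ^ 2) + 2 * ∑ e ∈ E.image (m • ·), ns P (dl ξ e) := by
  have key : ∀ a : X, ∃ e ∈ E, rd a (g • iJ (m • β (f (g⁻¹ • iJ a)))) = a + m • e := fun a => by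
    obtain ⟨d, hd, e⟩ := h.rd.near a (g • iJ (m • β (f (g⁻¹ • iJ a))))
    obtain ⟨b, hb, e1, e2⟩ := diff (L := L) (iJ := iJ) h.f2 (h.rd.cls a _).symm
      (u := -(g • (f (g⁻¹ • iJ a) - iJ (β (f (g⁻¹ • iJ a)))) + d)) (by
        rw [e, smul_neg, smul_add, smul_comm m g, smul_sub, h.f1, smul_sub, smul_inv_smul, map_nsmul]
        abel)
    exact ⟨b, h.e4 b hb g hg _ (h.hβ _).2 d hd e1, e2⟩
  choose ε hε hε' using key
  rw [nn_eq, ← ns_sum, ← ns_mul]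
  refine (ns_le (F' := fun (a : X) q => 2 * ‖ξ (rd a (g • iJ (m • β (f (g⁻¹ • iJ a))))) q‖ₑ ^ 2 +
    2 * ∑ e ∈ E.image (m • ·), dl ξ e a q) fun a _ q => ?_).trans ?_
  · have := sq_tri (ξ a q) (ξ (a + m • ε a) q) 0
    rw [sub_zero, sub_zero, enorm_sub_rev, add_comm] at this
    rw [hε']
    refine this.trans ?_
    gcongr
    exact Finset.single_le_sum (f := fun e => dl ξ e a q) (fun _ _ => zero_le)
      (Finset.mem_image_of_mem _ (hε a))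
  rw [ns_add, ns_mul]
  gcongr
  have := tsum_le_mul (I := Q × P) (X := I × Yt cq (mL L m)) E
    (fun p => (⟨_, hI p.2.1 p.2.2⟩, ((p.2.1 : X ⧸ mL L m), p.1))) (fun p => ε p.2.1)
    (fun p => hε _) (fun p p' e e' => ?_)
    fun p => ‖ξ (rd p.2.1 (g • iJ (m • p.1.1))) p.2.2‖ₑ ^ 2
  · rw [ENNReal.tsum_prod', ENNReal.tsum_prod'] at this
    refine le_trans (le_of_eq ?_) this
    exact tsum_congr fun q => (tsum_subtype P _).symm
  · have e1 : β (f (g⁻¹ • iJ p.2.1)) = β (f (g⁻¹ • iJ p'.2.1)) := congrArg (fun x => x.1.1) e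
    have e2 : (p.2.1 : X ⧸ mL L m) = p'.2.1 := congrArg (fun x => x.2.1) e
    have e3 := hε' p.2.1
    rw [e1, e2, hε', ← e'] at e3
    exact Prod.ext (congrArg (fun x => x.2.2) e) (Subtype.ext (add_right_cancel e3).symm)

theorem Cx.mvG [Fact (St Γ (mL L m))] {γ : Γ} (hγ : ι γ ∈ Cb) (α : X ⧸ mL L m) (w : Z) :
    ∃ e ∈ E, rd (qa γ α) (ι γ • w) = γ • rd α w + m • e := by
  obtain ⟨d, hd, e⟩ := h.rd.near α w
  obtain ⟨d', hd', e'⟩ := h.rd.near (qa γ α) (ι γ • w)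
  obtain ⟨b, hb, e1, e2⟩ := diff (L := L) (iJ := iJ) h.f2 (a := γ • rd α w)
    (a' := rd (qa γ α) (ι γ • w)) (by rw [h.rd.cls, ← qa_mk, h.rd.cls]) (u := ι γ • d - d') (by
      rw [e', h.eqv, e, smul_sub, smul_sub, smul_comm m (ι γ)]; abel)
  exact ⟨b, h.e2 b hb _ hγ d hd d' hd' e1, e2⟩

theorem Cx.mv (α : X ⧸ mL L m) (w v : Z) : ∃ b ∈ L, ∃ d ∈ D, ∃ d' ∈ D, iJ b = f v - d' + d ∧
    rd α (w + v) = rd α w + m • b := by
  obtain ⟨d, hd, e⟩ := h.rd.near α w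
  obtain ⟨d', hd', e'⟩ := h.rd.near α (w + v)
  obtain ⟨b, hb, e1, e2⟩ := diff (L := L) (iJ := iJ) h.f2 (a := rd α w)
    (a' := rd α (w + v)) (by rw [h.rd.cls, h.rd.cls]) (u := f v - d' + d) (by
      rw [e', e, smul_add, smul_sub, h.f1]; abel)
  exact ⟨b, hb, d, hd, d', hd', e1, e2⟩

end Geo

theorem int_tri {α : Type*} [MeasurableSpace α] (ν : Measure α) {f g : α → ℝ} (k : α → ℝ)
    (hf : Measurable f) (hg : Measurable g) : ∫⁻ p, ‖f p - k p‖ₑ ^ 2 ∂ν ≤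
      2 * ∫⁻ p, ‖f p - g p‖ₑ ^ 2 ∂ν + 2 * ∫⁻ p, ‖g p - k p‖ₑ ^ 2 ∂ν := by
  rw [← lintegral_const_mul' _ _ (by simp), ← lintegral_const_mul' _ _ (by simp),
    ← lintegral_add_left (by fun_prop)]
  exact lintegral_mono fun p => sq_tri _ _ _

section Ms
variable {G Γ Y : Type*} [Group G] [TopologicalSpace G] [MeasurableSpace G] [MeasurableMul G]
  [Group Γ] [Countable Γ] [MulAction Γ Y] [MeasurableSpace Y] [MeasurableConstSMul Γ Y]
  {ι : Γ →* G} {c : G → Γ} (μ : Measure G) (ω : Measure Y) [SFinite μ] [SFinite ω]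
  [μ.IsMulLeftInvariant] [μ.IsMulRightInvariant] [SMulInvariantMeasure Γ Y ω] {Cb : Set G}

theorem fd_le (hF : Fd c ⊆ Cb) (f : G × Y → ℝ≥0∞) :
    ∫⁻ p, f p ∂mX c μ ω ≤ ∫⁻ p in Cb ×ˢ univ, f p ∂μ.prod ω := by
  rw [mX_eq]; exact lintegral_mono_set (prod_mono_left hF)

theorem fd_rt_le {κ : G} (hF : ∀ x ∈ Fd c, x * κ ∈ Cb) (f : G × Y → ℝ≥0∞) :
    ∫⁻ p, f (rt κ p) ∂mX c μ ω ≤ ∫⁻ p in Cb ×ˢ univ, f p ∂μ.prod ω := by
  rw [mX_eq, ← (mp_rt μ ω κ).setLIntegral_comp_preimage_emb (emb_rt κ) f]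
  refine lintegral_mono_set fun p hp => ?_
  exact ⟨hF _ hp.1, trivial⟩

theorem vol_bd (hF : Fd c ⊆ Cb) (Γ₁ : Finset Γ) {Ψ : G × Y → ℝ} (hΨ : Measurable Ψ) :
    ∑ γ ∈ Γ₁, ∫⁻ p, ‖Ψ (act ι γ p)‖ₑ ^ 2 ∂mX c μ ω ≤
      2 * ∑ γ ∈ Γ₁, ∫⁻ p in Cb ×ˢ univ, ‖Ψ (act ι γ p) - Ψ p‖ₑ ^ 2 ∂μ.prod ω +
        2 * (Γ₁.card * ∫⁻ p, ‖Ψ p‖ₑ ^ 2 ∂mX c μ ω) := by
  rw [← nsmul_eq_mul, ← Finset.sum_const, Finset.mul_sum, Finset.mul_sum, ← Finset.sum_add_distrib]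
  refine Finset.sum_le_sum fun γ _ => ?_
  have := int_tri (mX c μ ω) (fun _ => 0) (hΨ.comp (meas_act (ι := ι) γ)) hΨ
  simp only [sub_zero, Function.comp] at this
  exact this.trans (add_le_add_left (mul_le_mul_right (fd_le μ ω hF _) _) _)

theorem kap_bd (hF : Fd c ⊆ Cb) {κ : G} (hκ : ∀ x ∈ Fd c, x * κ ∈ Cb) {Ψ Ψ₁ : G × Y → ℝ}
    (hΨ : Measurable Ψ) (hΨ₁ : Measurable Ψ₁) {s : ℝ≥0∞}
    (h1 : ∫⁻ p in Cb ×ˢ univ, ‖Ψ₁ p - Ψ p‖ₑ ^ 2 ∂μ.prod ω ≤ s)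
    (h2 : ∫⁻ p, ‖Ψ₁ (rt κ p) - Ψ₁ p‖ₑ ^ 2 ∂mX c μ ω ≤ s) :
    ∫⁻ p, ‖Ψ (rt κ p) - Ψ p‖ₑ ^ 2 ∂mX c μ ω ≤ 10 * s := by
  have a1 := int_tri (mX c μ ω) Ψ (hΨ.comp (meas_rt κ)) (hΨ₁.comp (meas_rt κ))
  have a2 := int_tri (mX c μ ω) Ψ (hΨ₁.comp (meas_rt κ)) hΨ₁
  have a3 := (fd_rt_le μ ω hκ fun p => ‖Ψ₁ p - Ψ p‖ₑ ^ 2).trans h1
  have a4 := (fd_le μ ω hF fun p => ‖Ψ₁ p - Ψ p‖ₑ ^ 2).trans h1
  simp only [Function.comp] at a1 a2
  simp only [enorm_sub_rev (Ψ₁ (rt κ _))] at a3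
  calc _ ≤ _ := a1
    _ ≤ 2 * s + 2 * (2 * s + 2 * s) := by gcongr; exact a2.trans (by gcongr)
    _ = _ := by ring

end Ms

end Crest.Agent.T24.Na.J62
end
end

-- ▼ part T24/NaJcC_62
section

/-!
# Row 24, the `J`-component: the abstract counting core (helper62), one vector
-/

set_option autoImplicit false
set_option linter.unusedSectionVars false

noncomputable section

namespace Crest.Agent.T24.Na.J62

open Topology Filter MeasureTheory K39 J52 Set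
open scoped ENNReal NNReal Pointwise

universe u v w

section One
variable {G Γ Z X Q : Type*} [Group G] [TopologicalSpace G] [IsTopologicalGroup G]
  [MeasurableSpace G] [BorelSpace G] [Group Γ] [Countable Γ] [AddCommGroup Z]
  [TopologicalSpace Z] [MeasurableSpace Z] [BorelSpace Z] [AddCommGroup X] [Countable X]
  [MeasurableSpace X] [DiscreteMeasurableSpace X] [DistribMulAction G Z] [DistribMulAction Γ X]
  [Group Q] [Countable Q] {L : AddSubgroup X} {m : ℕ}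

/-- the function on `G × Y` attached to a lattice point -/
def Ps {β : Type*} (cq : Γ →* Q) (rd : X ⧸ mL L m → Z → X) (z : Z) (F : X → Q → β)
    (p : G × Yt cq (mL L m)) : β := F (rd p.2.1 (p.1 • z)) p.2.2

theorem meas_Ps {β : Type*} [MeasurableSpace β] (cq : Γ →* Q) {rd : X ⧸ mL L m → Z → X}
    (hc : Continuous fun p : G × Z => p.1 • p.2) (hr : ∀ α, Measurable (rd α)) (z : Z)
    (F : X → Q → β) : Measurable (Ps (G := G) cq rd z F) :=
  measurable_from_prod_countable_left fun y => (Measurable.of_discrete (f := fun a => F a y.2)).comp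
    ((hr y.1).comp (hc.comp (continuous_id.prodMk continuous_const)).measurable)

/-- the first error -/
def FS (E₁ : Finset X) (ξ₁ ξ₂ : X → Q → ℝ) (a : X) (q : Q) : ℝ≥0∞ :=
  ‖(ξ₁ - ξ₂) a q‖ₑ ^ 2 + ∑ e ∈ E₁, dl ξ₁ e a q

/-- the second error -/
def FT (cq : Γ →* Q) (Γ₁ : Finset Γ) (E₂ : Finset X) (ξ : X → Q → ℝ) (a : X) (q : Q) : ℝ≥0∞ :=
  ∑ γ ∈ Γ₁, (∑ e ∈ E₂, dl ξ e (γ • a) (cq γ * q) + ‖ξ (γ • a) (cq γ * q) - ξ a q‖ₑ ^ 2) +
    ∑ e ∈ E₂, dl ξ e a q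

variable {ι : Γ →* G} {c : G → Γ} {iJ : X →+ Z} {D D₀ : Set Z} {Cb : Set G}
  {E : Finset X} {f : Z →+ Z} {β : Z → X} {rd : X ⧸ mL L m → Z → X} (cq : Γ →* Q)
  (μ : Measure G) [SFinite μ] [μ.IsMulLeftInvariant] [μ.IsMulRightInvariant]
  [Fact (St Γ (mL L m))]

theorem one [DecidableEq X] (hco : Co ι c) (h : Cx ι iJ L m D D₀ Cb E f β rd)
    (hc : Continuous fun p : G × Z => p.1 • p.2) {𝒞 V : Set G} {Γ₁ : Finset Γ}
    (hCb : MeasurableSet Cb) (hF : Fd c ⊆ Cb) (hF' : ∀ κ ∈ 𝒞, ∀ x ∈ Fd c, x * κ ∈ Cb)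
    (hΓ : ∀ γ ∈ Γ₁, ι γ ∈ Cb)
    (hmv : ∀ Ψ : G × Yt cq (mL L m) → ℝ, ∀ g ∈ 𝒞,
      ∫⁻ p, ‖Ψ (Pj ι c (rt g p)) - Ψ (rt g p)‖ₑ ^ 2 ∂mX c μ (wm fun _ => 1) ≤
        ∑ γ ∈ Γ₁, ∫⁻ p in Cb ×ˢ univ, ‖Ψ (act ι γ p) - Ψ p‖ₑ ^ 2 ∂μ.prod (wm fun _ => 1))
    (hvol : ∀ F : G × Yt cq (mL L m) → ℝ≥0∞, ∫⁻ p in V ×ˢ univ, F p ∂μ.prod (wm fun _ => 1) ≤
      ∑ γ ∈ Γ₁, ∫⁻ p, F (act ι γ p) ∂mX c μ (wm fun _ => 1))
    {z : Z} {τ : G} (hτ : τ ∈ 𝒞) (hτ' : ∀ g ∈ Cb, f (g • (τ • z - z)) ∈ D₀) {V₁ : Set Z}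
    {E₁ : Finset X} (hκ : ∀ v ∈ V₁, ∀ g ∈ Cb, ∀ α w, ∃ e ∈ E₁, rd α (w + g • v) = rd α w + e)
    (ξ₁ ξ₂ : X → Q → ℝ) {C₀ C₁ : ℝ≥0∞}
    (hgp : ∀ Δ, (∀ κ ∈ 𝒞, κ • z - z ∈ V₁ →
      en c μ (fun p => Ps cq rd z ξ₂ (Pj ι c (rt κ p)) - Ps cq rd z ξ₂ p) ≤ Δ) →
      en c μ (Ps cq rd z ξ₂) ≤
        C₀ * Δ + C₁ * en c μ fun p => Ps cq rd z ξ₂ (Pj ι c (rt τ p)) - Ps cq rd z ξ₂ p) :
    ∫⁻ p in V ×ˢ univ, ‖Ps (G := G) cq rd z ξ₂ p‖ₑ ^ 2 ∂μ.prod (wm fun _ => 1) ≤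
      40 * Γ₁.card * C₀ * ∫⁻ p in Cb ×ˢ univ, Ps cq rd z (FS E₁ ξ₁ ξ₂) p ∂μ.prod (wm fun _ => 1) +
      (2 * Γ₁.card * (4 * C₀ + 6 * C₁) + 4) * ∫⁻ p in Cb ×ˢ univ,
        Ps cq rd z (FT cq Γ₁ (E.image (m • ·)) ξ₂) p ∂μ.prod (wm fun _ => 1) := by
  have hm : ∀ ξ : X → Q → ℝ, Measurable (Ps (G := G) cq rd z ξ) := meas_Ps cq hc h.rd.meas z
  set jS := ∫⁻ p in Cb ×ˢ univ, Ps cq rd z (FS E₁ ξ₁ ξ₂) p ∂μ.prod (wm fun _ => 1)
  set jT := ∫⁻ p in Cb ×ˢ univ,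
    Ps cq rd z (FT cq Γ₁ (E.image (m • ·)) ξ₂) p ∂μ.prod (wm fun _ => 1)
  have hs : ∀ (g κ : G), (g * κ) • z = g • z + g • (κ • z - z) := fun g κ => by
    rw [mul_smul, smul_sub]; abel
  have ha : ∑ γ ∈ Γ₁, ∫⁻ p in Cb ×ˢ univ, ‖Ps cq rd z ξ₂ (act ι γ p) - Ps cq rd z ξ₂ p‖ₑ ^ 2
      ∂μ.prod (wm fun _ => 1) ≤ 2 * jT := by
    rw [← lintegral_finsetSum (f := fun γ p =>
      ‖Ps cq rd z ξ₂ (act ι γ p) - Ps cq rd z ξ₂ p‖ₑ ^ 2) _ fun γ _ =>
      (((hm ξ₂).comp (meas_act γ)).sub (hm ξ₂)).enorm.pow_const 2,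
      ← lintegral_const_mul' _ _ (by simp)]
    refine lintegral_mono fun p => ?_
    refine le_trans ?_ (mul_le_mul_right le_self_add _)
    rw [Finset.mul_sum]
    refine Finset.sum_le_sum fun γ hγ => ?_
    obtain ⟨e, he, e1⟩ := h.mvG (hΓ γ hγ) p.2.1 (p.1 • z)
    have : Ps cq rd z ξ₂ (act ι γ p) = ξ₂ (γ • rd p.2.1 (p.1 • z) + m • e) (cq γ * p.2.2) := by
      rw [← e1, ← mul_smul]; rfl
    rw [this, mul_add]
    refine (sq_tri _ (ξ₂ (γ • rd p.2.1 (p.1 • z)) (cq γ * p.2.2)) _).trans ?_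
    gcongr
    · exact Finset.single_le_sum (f := fun e => dl ξ₂ e (γ • rd p.2.1 (p.1 • z)) (cq γ * p.2.2))
        (fun _ _ => zero_le) (Finset.mem_image_of_mem _ he)
    · exact le_rfl
  have ht : ∫⁻ p, ‖Ps cq rd z ξ₂ (rt τ p) - Ps cq rd z ξ₂ p‖ₑ ^ 2 ∂mX c μ (wm fun _ => 1) ≤ jT := by
    refine (fd_le μ _ hF _).trans (setLIntegral_mono' (hCb.prod .univ) fun p hp => ?_)
    obtain ⟨b, hb, d, hd, d', hd', e1, e2⟩ := h.mv p.2.1 (p.1 • z) (p.1 • (τ • z - z))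
    have : Ps cq rd z ξ₂ (rt τ p) = ξ₂ (rd p.2.1 (p.1 • z) + m • b) p.2.2 := by
      rw [← e2, ← hs]; rfl
    rw [this]
    exact le_trans (Finset.single_le_sum (f := fun e => dl ξ₂ e (rd p.2.1 (p.1 • z)) p.2.2)
      (fun _ _ => zero_le) (Finset.mem_image_of_mem _
        (h.e3 b hb _ (hτ' _ hp.1) d hd d' hd' e1))) le_add_self
  have hu : ∫⁻ p in Cb ×ˢ univ, ‖Ps (G := G) cq rd z ξ₁ p - Ps cq rd z ξ₂ p‖ₑ ^ 2
      ∂μ.prod (wm fun _ => 1) ≤ jS := lintegral_mono fun p => le_self_add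
  have hk : ∀ κ ∈ 𝒞, κ • z - z ∈ V₁ → ∫⁻ p, ‖Ps cq rd z ξ₂ (rt κ p) - Ps cq rd z ξ₂ p‖ₑ ^ 2
      ∂mX c μ (wm fun _ => 1) ≤ 10 * jS := fun κ hκ1 hκ2 => by
    refine kap_bd μ _ hF (hF' κ hκ1) (hm ξ₂) (hm ξ₁) hu ?_
    refine (fd_le μ _ hF _).trans (setLIntegral_mono' (hCb.prod .univ) fun p hp => ?_)
    obtain ⟨e, he, e2⟩ := hκ _ hκ2 _ hp.1 p.2.1 (p.1 • z)
    have : Ps cq rd z ξ₁ (rt κ p) = ξ₁ (rd p.2.1 (p.1 • z) + e) p.2.2 := by
      rw [← e2, ← hs]; rfl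
    rw [this]
    exact le_trans (Finset.single_le_sum (f := fun e => dl ξ₁ e (rd p.2.1 (p.1 • z)) p.2.2)
      (fun _ _ => zero_le) he) le_add_self
  have he : ∀ κ ∈ 𝒞, ∀ s, ∫⁻ p, ‖Ps cq rd z ξ₂ (rt κ p) - Ps cq rd z ξ₂ p‖ₑ ^ 2
      ∂mX c μ (wm fun _ => 1) ≤ s → en c μ (fun p => Ps cq rd z ξ₂ (Pj ι c (rt κ p)) -
        Ps cq rd z ξ₂ p) ≤ 2 * (2 * jT) + 2 * s := fun κ hκ1 s hs => by
    refine (int_tri _ _ ((hm ξ₂).comp (hco.meas_Pj.comp (meas_rt κ)))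
      ((hm ξ₂).comp (meas_rt κ))).trans ?_
    exact add_le_add (mul_le_mul_right ((hmv _ κ hκ1).trans ha) _) (mul_le_mul_right hs _)
  have hN := (hgp _ fun κ h1 h2 => he κ h1 _ (hk κ h1 h2)).trans
    (add_le_add_right (mul_le_mul_right (he τ hτ _ ht) _) _)
  calc _ ≤ _ := hvol _
    _ ≤ _ := vol_bd μ _ hF Γ₁ (hm ξ₂)
    _ ≤ 2 * (2 * jT) + 2 * (Γ₁.card * (C₀ * (2 * (2 * jT) + 2 * (10 * jS)) +
        C₁ * (2 * (2 * jT) + 2 * jT))) := by gcongr; exact hN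
    _ = _ := by ring

theorem ns_FT {P P' : Set X} (hP : P ⊆ P') {Γ₁ : Finset Γ} (hΓ : ∀ γ ∈ Γ₁, ∀ a ∈ P, γ • a ∈ P')
    (E₂ : Finset X) (ξ : X → Q → ℝ) : ns P (FT cq Γ₁ E₂ ξ) ≤ (Γ₁.card + 1) *
      (∑ γ ∈ Γ₁, nn P' (fun a q => ξ (γ • a) (cq γ * q) - ξ a q) +
        ∑ e ∈ E₂, nn P' fun a q => ξ (a + e) q - ξ a q) := by
  unfold FT
  rw [ns_add, ns_sum, ns_sum]
  simp only [ns_add, ns_sum, Finset.sum_add_distrib]
  set T₁ := ∑ γ ∈ Γ₁, nn P' (fun a q => ξ (γ • a) (cq γ * q) - ξ a q)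
  set T₂ := ∑ e ∈ E₂, nn P' fun a q => ξ (a + e) q - ξ a q
  calc _ ≤ ∑ γ ∈ Γ₁, T₂ + T₁ + T₂ := by
        gcongr with γ hγ γ hγ e he
        · exact Finset.sum_le_sum fun e _ => ns_smul γ (cq γ) (hΓ γ hγ) (dl ξ e)
        · exact Finset.sum_le_sum fun γ _ => nn_mono hP _
        · exact Finset.sum_le_sum fun e _ => nn_mono hP _
    _ ≤ _ := by
      rw [Finset.sum_const, nsmul_eq_mul]
      calc _ ≤ Γ₁.card * T₂ + T₁ + T₂ + Γ₁.card * T₁ := le_self_add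
        _ = _ := by ring

theorem ns_FS {P P' : Set X} (hP : P ⊆ P') (E₁ : Finset X) (ξ₁ ξ₂ : X → Q → ℝ) :
    ns P (FS E₁ ξ₁ ξ₂) ≤ nn P' (ξ₁ - ξ₂) + ∑ e ∈ E₁, nn P' fun a q => ξ₁ (a + e) q - ξ₁ a q := by
  unfold FS
  rw [ns_add, ns_sum]
  exact add_le_add (nn_mono hP _) (Finset.sum_le_sum fun e _ => nn_mono hP _)

theorem Cx.sumJ (h : Cx ι iJ L m D D₀ Cb E f β rd) (hc : Continuous fun p : G × Z => p.1 • p.2)
    (hCb : MeasurableSet Cb) {I P : Set X} (hI : ∀ b ∈ I, b ∈ L)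
    (hP : ∀ g ∈ Cb, ∀ b ∈ I, ∀ α, rd α (g • iJ (m • b)) ∈ P) (F : X → Q → ℝ≥0∞) :
    ∑' b : I, ∫⁻ p in Cb ×ˢ univ, Ps cq rd (iJ (m • b.1)) F p ∂μ.prod (wm fun _ => 1) ≤
      μ Cb * (E.card * ns P F) :=
  int_le μ hCb _ (fun _ => meas_Ps cq hc h.rd.meas _ F) fun g hg => h.cnt cq hI hg (hP g hg) F

theorem Cx.lowI [DecidableEq X] (h : Cx ι iJ L m D D₀ Cb E f β rd)
    (hc : Continuous fun p : G × Z => p.1 • p.2) {V : Set G} (hV : MeasurableSet V) (hVC : V ⊆ Cb)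
    {I P : Set X} (hI : ∀ g ∈ V, ∀ a ∈ P, β (f (g⁻¹ • iJ a)) ∈ I) (ξ : X → Q → ℝ) :
    μ V * nn P ξ ≤ 2 * (E.card * ∑' b : I, ∫⁻ p in V ×ˢ univ,
      ‖Ps (G := G) cq rd (iJ (m • b.1)) ξ p‖ₑ ^ 2 ∂μ.prod (wm fun _ => 1)) +
      μ V * (2 * ∑ e ∈ E.image (m • ·), ns P (dl ξ e)) := by
  rw [int_eq μ V _ fun b : I => (meas_Ps cq hc h.rd.meas _ ξ).enorm.pow_const 2, mul_comm (μ V),
    mul_comm (μ V), ← setLIntegral_const, ← setLIntegral_const,
    ← lintegral_const_mul' _ _ (by simp), ← lintegral_const_mul' _ _ (by simp),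
    ← lintegral_add_right _ measurable_const]
  exact setLIntegral_mono' hV fun g hg => h.low cq (hVC hg) (hI g hg) ξ

end One

end Crest.Agent.T24.Na.J62
end
end

-- ▼ part T24/NaJc_62
section

/-!
# Row 24, the `J`-component: the abstract counting core (helper62)
-/

set_option autoImplicit false
set_option linter.unusedSectionVars false

noncomputable section

namespace Crest.Agent.T24.Na.J62

open Topology Filter MeasureTheory K39 J52 Set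
open scoped ENNReal NNReal Pointwise

universe u v w

theorem cpt_smul {G Z : Type*} [TopologicalSpace G] [TopologicalSpace Z] [SMul G Z]
    (hc : Continuous fun p : G × Z => p.1 • p.2) {C : Set G} {D : Set Z} (hC : IsCompact C)
    (hD : IsCompact D) : IsCompact (C • D) := by
  rw [← image_smul_prod]; exact (hC.prod hD).image hc

theorem cpt_sub {Z : Type*} [TopologicalSpace Z] [AddGroup Z] [IsTopologicalAddGroup Z]
    {C D : Set Z} (hC : IsCompact C) (hD : IsCompact D) : IsCompact (C - D) := by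
  rw [sub_eq_add_neg]; exact hC.add hD.neg

theorem fin_div {v x y z : ℝ≥0∞} (h0 : v ≠ 0) (h1 : v ≠ ∞) (h : v * x ≤ y + v * z) :
    x ≤ v⁻¹ * y + z := by
  have := mul_le_mul_right h v⁻¹
  rwa [mul_add, ← mul_assoc, ← mul_assoc, ENNReal.inv_mul_cancel h0 h1, one_mul, one_mul] at this

theorem coreStmt : CoreStmt.{u, w} := by
  intro G Γ Z X Q _ _ _ _ _ _ _ _ _ _ _ _ _ _ _ _ _ _ _ _ _ ι c μ _ _ cq iJ L L₀ sc O Zs hco hfr hO
    hOs hgp K hK hKO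
  classical
  borelize Z
  let _ : MeasurableSpace X := ⊤
  have : DiscreteMeasurableSpace X := ⟨fun _ => trivial⟩
  have hc := hfr.cont
  obtain ⟨D, hD, hcov⟩ := hfr.cov
  obtain ⟨β, hβm, hβ⟩ := exists_sel (fun (b : X) (z : Z) => b ∈ L ∧ z - iJ b ∈ D) (fun b => by
    by_cases hb : b ∈ L
    · simp only [hb, true_and]
      exact (hD.isClosed.preimage (continuous_id.sub continuous_const)).measurableSet
    · simp [hb]) hcov 0
  obtain ⟨V, hV, hV1⟩ := exists_compact_mem_nhds (1 : G)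
  have hVK := cpt_smul hc hV.inv hK
  obtain ⟨W₀, hW₀, hWO⟩ := compact_open_separated_add_right hVK hO (by
    rintro _ ⟨g, -, z, hz, rfl⟩; exact hOs g z (hKO hz))
  obtain ⟨W, hW, hWW, hWc⟩ := local_compact_nhds hW₀
  have hΩ := hVK.add hWc
  obtain ⟨𝒞, C₀, h𝒞, hC₀, hgp⟩ := hgp _ hΩ ((add_subset_add_left hWW).trans hWO)
  obtain ⟨Cm, Γm, hCm, hmv⟩ := Co.move_le.{w} hco h𝒞
  obtain ⟨Γv, hvol⟩ := Co.vol_le.{w} hco hV
  obtain ⟨CF, hCF, hFd⟩ := hco.Fd_cpt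
  obtain ⟨Cb, hCb, hCi, hC1, hC2, hC3, hC4, hC5, hC6⟩ : ∃ Cb : Set G, IsCompact Cb ∧
      (∀ g ∈ Cb, g⁻¹ ∈ Cb) ∧ CF ⊆ Cb ∧ CF * 𝒞 ⊆ Cb ∧ Cm ⊆ Cb ∧ V ⊆ Cb ∧
      (∀ γ ∈ Γm ∪ Γv, ι γ ∈ Cb) ∧ (1 : G) ∈ Cb := by
    have h1 := (((hCF.union (hCF.mul h𝒞)).union hCm).union hV).union
      ((Γm ∪ Γv).finite_toSet.image ι).isCompact
    refine ⟨_, h1.union h1.inv, fun g hg => ?_, fun g hg => .inl (.inl (.inl (.inl (.inl hg)))),
      fun g hg => .inl (.inl (.inl (.inl (.inr hg)))), fun g hg => .inl (.inl (.inl (.inr hg))),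
      fun g hg => .inl (.inl (.inr hg)), fun γ hγ => .inl (.inr ⟨γ, hγ, rfl⟩),
      .inl (.inl (.inr (mem_of_mem_nhds hV1)))⟩
    exact hg.elim (fun h => .inr (inv_mem_inv.2 h)) fun h => .inl h
  obtain ⟨D₀, hD₀, hD₀0⟩ := exists_compact_mem_nhds (0 : Z)
  have hCD := cpt_smul hc hCb hD
  have hDb := ((((hCD.add hD).union (cpt_sub hCD hD)).union ((cpt_sub hD₀ hD).add hD)).union
    (hCD.add hD).neg).union hD
  set Db := Cb • D + D ∪ (Cb • D - D) ∪ (D₀ - D + D) ∪ -(Cb • D + D) ∪ D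
  obtain ⟨H, hH, hHL, hlnk⟩ := hfr.lnk
  obtain ⟨n₀, hn₀, hnH, hlnk⟩ := hlnk Db hDb (-W) (neg_mem_nhds_zero Z hW)
  have hE := hfr.fin Db hDb
  have hK' := (cpt_smul hc hCb hΩ).add hWc
  set K' := Cb • (V⁻¹ • K + W) + W
  have hK₁ := cpt_smul hc hCb (hK.union hK')
  set K₁ := Cb • (K ∪ K')
  have hKK : K ∪ K' ⊆ K₁ := fun z hz => ⟨1, hC6, z, hz, one_smul _ _⟩
  have hμ0 : μ V ≠ 0 := (Measure.measure_pos_of_mem_nhds μ hV1).ne'
  have hμ1 : μ V ≠ ∞ := hV.measure_lt_top.ne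
  have hμ2 : μ Cb ≠ ∞ := hCb.measure_lt_top.ne
  have hμ3 : (μ V)⁻¹ ≠ ∞ := ENNReal.inv_ne_top.2 hμ0
  refine ⟨K₁, Γm ∪ Γv, (μ V)⁻¹ * (2 * (hE.toFinset.card * (40 * (Γm ∪ Γv).card * C₀ *
    (μ Cb * hE.toFinset.card)))), hK₁, by finiteness, fun m₁ hm₁ => ?_⟩
  obtain ⟨f₁, hf₁, -, hf₁'⟩ := hfr.dv m₁ hm₁
  obtain ⟨C₁, hC₁, hgp⟩ := hgp _ (unif hc hCb (inter_mem hD₀0
    (hf₁.continuousAt.preimage_mem_nhds (by rwa [map_zero]) : f₁ ⁻¹' H ∈ 𝓝 0)))
  refine ⟨(μ V)⁻¹ * (2 * (hE.toFinset.card * ((2 * (Γm ∪ Γv).card * (4 * C₀ + 6 * C₁) + 4) *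
    (μ Cb * (hE.toFinset.card * ((Γm ∪ Γv).card + 1)))))) + 2, by finiteness, fun m₂ hm₂ => ?_⟩
  have hm : m₁ * m₂ * n₀ ≠ 0 := by positivity
  set m := m₁ * m₂ * n₀ with hmd
  obtain ⟨f, hf, hf1, hf2⟩ := hfr.dv m hm
  replace hgp := hgp _ (unif hc hCb
    (hf.continuousAt.preimage_mem_nhds (by rwa [map_zero]) : f ⁻¹' D₀ ∈ 𝓝 0))
  have : Fact (St Γ (mL L m)) := ⟨by
    rintro γ _ ⟨b, hb, rfl⟩
    exact ⟨γ • b, hfr.L_smul γ b hb, (smul_comm γ m b).symm⟩⟩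
  obtain ⟨rd, hrd⟩ := exists_rd hβm hβ hf hf1
  have hcx : Cx ι iJ L m D D₀ Cb hE.toFinset f β rd := ⟨hfr.eqv, hf1, hf2, hβ, hrd, hCi,
    fun b hb g hg d hd d' hd' e => hE.mem_toFinset.2 ⟨hb, .inl (.inl (.inl (.inl
      (e ▸ add_mem_add (smul_mem_smul hg hd) hd'))))⟩,
    fun b hb g hg d hd d' hd' e => hE.mem_toFinset.2 ⟨hb, .inl (.inl (.inl (.inr
      (e ▸ sub_mem_sub (smul_mem_smul hg hd) hd'))))⟩,
    fun b hb g hg d hd d' hd' e => hE.mem_toFinset.2 ⟨hb, .inl (.inl (.inr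
      (e ▸ add_mem_add (sub_mem_sub hg hd') hd)))⟩,
    fun b hb g hg d hd d' hd' e => hE.mem_toFinset.2 ⟨hb, .inl (.inr
      (e ▸ neg_mem_neg.2 (add_mem_add (smul_mem_smul hg hd) hd')))⟩⟩
  have hmD := hD.image (continuous_nsmul m)
  have hE₁ := (hfr.fin _ ((cpt_sub hD₀ hmD).add hmD)).inter_of_left {e | ∃ b ∈ L₀, e = m₁ • b}
  refine ⟨hE₁.toFinset, hE.toFinset.image (m • ·), fun e he => (hE₁.mem_toFinset.1 he).2,
    fun e he => ?_, ?_⟩
  · obtain ⟨b, hb, rfl⟩ := Finset.mem_image.1 he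
    obtain ⟨hb, hb'⟩ := hE.mem_toFinset.1 hb
    refine ⟨m₁ • n₀ • b, hHL _ (L.nsmul_mem (L.nsmul_mem hb _) _) ?_, by
      rw [smul_smul, smul_smul, hmd, mul_comm m₁]⟩
    rw [map_nsmul, map_nsmul]
    exact H.nsmul_mem (hnH _ hb') _
  filter_upwards [hlnk (m₁ * m₂)] with R hR ξ₁ ξ₂ hZ hfin
  set I : Set X := {b | b ∈ L ∧ sc R (iJ (m • b)) ∈ V⁻¹ • K + W}
  have hP : ∀ g ∈ Cb, ∀ b ∈ I, ∀ α, rd α (g • iJ (m • b)) ∈ {a | sc R (iJ a) ∈ K'} := by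
    intro g hg b hb α
    obtain ⟨d, hd, e⟩ := hrd.near α (g • iJ (m • b))
    rw [mem_ofPred_eq, e, map_sub, hfr.sc_smul, sub_eq_add_neg]
    exact add_mem_add (smul_mem_smul hg hb.2) (hR d (.inr hd))
  have hI : ∀ g ∈ V, ∀ a ∈ {a | sc R (iJ a) ∈ K}, β (f (g⁻¹ • iJ a)) ∈ I := by
    intro g hg a ha
    refine ⟨(hβ _).1, ?_⟩
    have : iJ (m • β (f (g⁻¹ • iJ a))) =
        g⁻¹ • iJ a - m • (f (g⁻¹ • iJ a) - iJ (β (f (g⁻¹ • iJ a)))) := by
      rw [smul_sub, hf1, map_nsmul]; abel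
    rw [this, map_sub, hfr.sc_smul, sub_eq_add_neg]
    exact add_mem_add (smul_mem_smul (inv_mem_inv.2 hg) ha) (hR _ (.inr (hβ _).2))
  have hsum := hcx.sumJ cq μ hc hCb.measurableSet (fun b hb => hb.1) hP
  have hPP : {a | sc R (iJ a) ∈ K'} ⊆ {a | sc R (iJ a) ∈ K₁} := fun a ha => hKK (.inr ha)
  have hone : ∀ b : I, ∫⁻ p in V ×ˢ univ, ‖Ps (G := G) cq rd (iJ (m • b.1)) ξ₂ p‖ₑ ^ 2
      ∂μ.prod (wm fun _ => 1) ≤ 40 * (Γm ∪ Γv).card * C₀ * ∫⁻ p in Cb ×ˢ univ,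
        Ps cq rd (iJ (m • b.1)) (FS hE₁.toFinset ξ₁ ξ₂) p ∂μ.prod (wm fun _ => 1) +
      (2 * (Γm ∪ Γv).card * (4 * C₀ + 6 * C₁) + 4) * ∫⁻ p in Cb ×ˢ univ,
        Ps cq rd (iJ (m • b.1)) (FT cq (Γm ∪ Γv) (hE.toFinset.image (m • ·)) ξ₂) p
          ∂μ.prod (wm fun _ => 1) := fun b => by
    obtain ⟨τ, hτ, hτ', hg⟩ := hgp R _ b.2.2
    refine one cq μ hco hcx hc hCb.measurableSet (hFd.trans hC1)
      (fun κ hκ x hx => hC2 (mul_mem_mul (hFd hx) hκ)) hC5 (fun Ψ g hg => (hmv _ μ _ Ψ g hg).trans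
        ((Finset.sum_le_sum fun γ _ => lintegral_mono_set (prod_mono_left hC3)).trans
          (Finset.sum_le_sum_of_subset Finset.subset_union_left)))
      (fun F => (hvol _ μ _ F).trans (Finset.sum_le_sum_of_subset Finset.subset_union_right))
      hτ hτ' (E₁ := hE₁.toFinset) (fun v hv g hg α w => ?_) ξ₁ ξ₂ fun Δ => hg (mL L m) m hm
        (fun b hb => ⟨b, hb, rfl⟩) _ Δ (meas_Ps cq hc hrd.meas _ _) (fun g α => hZ (rd α (g • iJ (m • b.1)))) ?_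
    · obtain ⟨b, hb, d, hd, d', hd', e1, e2⟩ := hcx.mv α w (g • v)
      have e3 : iJ (m • b) = g • v - m • d' + m • d := by
        rw [map_nsmul, e1, smul_add, smul_sub, hf1]
      refine ⟨m • b, hE₁.mem_toFinset.2 ⟨⟨L.nsmul_mem hb _, e3 ▸ add_mem_add
        (sub_mem_sub (hv g hg).1 ⟨d', hd', rfl⟩) ⟨d, hd, rfl⟩⟩, m₂ • n₀ • b,
        hHL _ (L.nsmul_mem (L.nsmul_mem hb _) _) ?_, by rw [smul_smul, smul_smul]⟩, e2⟩
      have e4 : ∀ x : Z, f₁ (m • x) = m₂ • n₀ • x := fun x => by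
        rw [hmd, mul_smul, mul_smul, hf₁']
      rw [map_nsmul, map_nsmul, ← e4, ← map_nsmul, e3, map_add, map_sub, e4, e4]
      exact H.add_mem (H.sub_mem (hv g hg).2 (H.nsmul_mem (hnH _ (.inr hd')) _))
        (H.nsmul_mem (hnH _ (.inr hd)) _)
    · refine ne_top_of_le_ne_top ?_ ((fd_le μ _ (hFd.trans hC1) _).trans
        ((ENNReal.le_tsum b).trans (hsum fun a q => ‖ξ₂ a q‖ₑ ^ 2)))
      have := ne_top_of_le_ne_top hfin (nn_mono hPP ξ₂)
      rw [← nn_eq]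
      finiteness
  have h1 := (ENNReal.tsum_le_tsum hone).trans_eq (by
    rw [ENNReal.tsum_add, ENNReal.tsum_mul_left, ENNReal.tsum_mul_left])
  have h2 := (hsum _).trans (mul_le_mul_right (mul_le_mul_right
    (ns_FS hPP hE₁.toFinset ξ₁ ξ₂) _) _)
  have h3 := (hsum _).trans (mul_le_mul_right (mul_le_mul_right (ns_FT cq hPP (Γ₁ := Γm ∪ Γv)
    (fun γ hγ a ha => by
      rw [mem_ofPred_eq, hfr.eqv, hfr.sc_smul]; exact smul_mem_smul (hC5 γ hγ) (.inr ha))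
    (hE.toFinset.image (m • ·)) ξ₂) _) _)
  have h4 := fin_div hμ0 hμ1 (hcx.lowI cq μ hc hV.measurableSet hC4 hI ξ₂)
  have h5 : ∑ e ∈ hE.toFinset.image (m • ·), ns {a | sc R (iJ a) ∈ K} (dl ξ₂ e) ≤
      ∑ γ ∈ Γm ∪ Γv, nn {a | sc R (iJ a) ∈ K₁} (fun a q => ξ₂ (γ • a) (cq γ * q) - ξ₂ a q) +
        ∑ e ∈ hE.toFinset.image (m • ·),
          nn {a | sc R (iJ a) ∈ K₁} fun a q => ξ₂ (a + e) q - ξ₂ a q :=
    le_add_left (Finset.sum_le_sum fun e _ => ns_mono (P := {a | sc R (iJ a) ∈ K})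
      (P' := {a | sc R (iJ a) ∈ K₁}) (fun a ha => hKK (.inl ha)) _)
  refine h4.trans ((add_le_add (mul_le_mul_right (mul_le_mul_right (mul_le_mul_right (h1.trans
    (add_le_add (mul_le_mul_right h2 _) (mul_le_mul_right h3 _))) _) _) _)
    (mul_le_mul_right h5 _)).trans_eq ?_)
  ring

end Crest.Agent.T24.Na.J62
end
end

-- ▼ part T24/NaJcG_32
section

/-! Row 24, the `J`-component: from the abstract counting core to `JcStmt` (helper32). -/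

set_option autoImplicit false
set_option linter.unusedSectionVars false

noncomputable section

namespace Crest.Agent.T24.Na.J62

open Topology Filter MeasureTheory K39 J52
open scoped ENNReal NNReal

universe u v w

namespace G32

/-- the colour of a lattice element -/
abbrev cq (S : Sys.{u, v, w}) : S.Γ →* S.Q := S.c.comp S.Γ.subtype

/-- zero sums along the cosets of `M` -/
def Zs (S : Sys.{u, v, w}) (f : S.Q → ℝ) : Prop := ∀ q, ∑ᶠ g : S.M, f (q * g) = 0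

theorem sq_le {V : Type*} [NormedAddCommGroup V] {x y : V} {C₀ C₁ Δ : ℝ≥0}
    (h : ‖x‖ ≤ C₀ * √Δ + C₁ * ‖y‖) :
    ‖x‖ₑ ^ 2 ≤ 2 * ((C₀ : ℝ≥0∞) + 1) ^ 2 * Δ + 2 * (C₁ : ℝ≥0∞) ^ 2 * ‖y‖ₑ ^ 2 := by
  have h1 : ‖x‖ ^ 2 ≤ 2 * ((C₀ : ℝ) + 1) ^ 2 * Δ + 2 * (C₁ : ℝ) ^ 2 * ‖y‖ ^ 2 := by
    have h2 := Real.sq_sqrt Δ.coe_nonneg
    have h3 := pow_le_pow_left₀ (norm_nonneg x) h 2
    have h4 := mul_nonneg C₀.coe_nonneg Δ.coe_nonneg
    nlinarith [sq_nonneg (C₀ * √Δ - C₁ * ‖y‖), Δ.coe_nonneg]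
  rw [enorm_eq_nnnorm, enorm_eq_nnnorm]
  exact_mod_cast h1

theorem le_sqrt {V : Type*} [NormedAddCommGroup V] {x : V} {Δ : ℝ≥0} (h : ‖x‖ₑ ^ 2 ≤ Δ) :
    ‖x‖ ≤ √Δ := by
  rw [enorm_eq_nnnorm] at h
  exact Real.le_sqrt_of_sq_le (by exact_mod_cast h)

theorem inst {α : Type u} [MeasurableSpace α] {ν : Measure α} {A B T : Type*} [Group A] [Group B]
    (π : A × B →* (Lp ℝ 2 ν ≃ₗᵢ[ℝ] Lp ℝ 2 ν)) {𝒞 : Set B} {P : B → Prop} {j : T → B} {τ : B}
    {C₀ C₁ : ℝ} (h : ∀ (V : Type u) [NormedAddCommGroup V] [InnerProductSpace ℝ V] [CompleteSpace V]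
      (ρ : B →* V ≃ₗᵢ[ℝ] V) (x : V) (δ : ℝ), (∀ κ ∈ 𝒞, P κ → ‖ρ κ x - x‖ ≤ δ) →
        ∀ s, ‖ρ (j s) x - x‖ ≤ C₀ * δ + C₁ * ‖ρ τ x - x‖) (x : Lp ℝ 2 ν) (δ : ℝ)
    (h' : ∀ κ ∈ 𝒞, P κ → ‖π (1, κ) x - x‖ ≤ δ) (s : T) :
    ‖π (1, j s) x - x‖ ≤ C₀ * δ + C₁ * ‖π (1, τ) x - x‖ :=
  h _ (π.comp (MonoidHom.inr _ _)) x δ h' s

variable {S : Sys.{u, v, w}}

theorem gp (hG : GapStmt.{u, max u v w}) (hS : SgStmt.{u, v, w}) (h : S.Ok)
    [SecondCountableTopology S.G₂] [MeasurableSpace S.G] [BorelSpace S.G] [Countable S.Γ]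
    {c : S.G → S.Γ} (hc : Co S.ιΓ c) (μ : Measure S.G) [μ.IsHaarMeasure] [μ.IsMulRightInvariant] :
    Gp S.ιΓ c μ (cq S) S.L (fun R => (S.sc R).toAddEquiv.toAddMonoidHom)
      {z | Dom S.O S.π z.2} (Zs S) := by
  intro Ω hΩ hO
  obtain ⟨𝒞, C₀, h𝒞, h1⟩ := hG S.F S.O S.π S.d h.lf h.hd (Prod.snd '' Ω) (hΩ.image continuous_snd)
    (by rintro _ ⟨z, hz, rfl⟩; exact hO hz)
  have hi : Continuous fun y : Mt S.d S.F => ((0, y) : S.Z) := by fun_prop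
  refine ⟨(fun g => (1, g)) '' 𝒞, 2 * (C₀ + 1) ^ 2, h𝒞.image (by fun_prop), by finiteness,
    fun V₁ hV₁ => ?_⟩
  obtain ⟨C₁, h2⟩ := h1 _ (hi.continuousAt.preimage_mem_nhds hV₁)
  refine ⟨2 * C₁ ^ 2, by finiteness, fun V₂ hV₂ R z hz => ?_⟩
  obtain ⟨τ, hτ, h3, h4⟩ := h2 _ (hi.continuousAt.preimage_mem_nhds hV₂) z.2 ⟨_, hz, h.sc_snd R z⟩
  have e : ∀ κ : GL (Fin S.d) S.F, ((1, κ) : S.G) • z - z =
      (0, (κ : Mt S.d S.F) * z.2 * ((κ⁻¹ : GL (Fin S.d) S.F) : Mt S.d S.F) - z.2) := fun κ =>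
    Prod.ext (by change (1 : S.G₂) • z.1 - z.1 = 0; simp) rfl
  refine ⟨(1, τ), ⟨τ, hτ, rfl⟩, by rw [e]; exact h3, fun L' _ m hm hL Ψ Δ hΨ hZ hf hΔ => ?_⟩
  rcases eq_or_ne Δ ∞ with rfl | hΔ'
  · rw [ENNReal.mul_top (by simp), top_add]
    exact le_top
  lift Δ to ℝ≥0 using hΔ'
  obtain ⟨x, hx⟩ : ∃ x : Lp ℝ 2 (mX c μ (wm fun _ : Yt (cq S) L' => 1)),
      x =ᵐ[mX c μ (wm fun _ : Yt (cq S) L' => 1)] Ψ :=
    ⟨(memLp_two hΨ.aestronglyMeasurable hf).toLp, MemLp.coeFn_toLp _⟩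
  have hk : ∀ g, ‖hc.kp μ _ g x - x‖ₑ ^ 2 = en c μ fun p => Ψ (Pj S.ιΓ c (rt g p)) - Ψ p := fun g =>
    enorm_sq ((Lp.coeFn_sub _ _).trans ((hc.kp_coe_of μ _ g hx).sub hx))
  have h5 := inst (hc.kp μ (wm fun _ : Yt (cq S) L' => 1)) h4 x √Δ fun κ hκ hV =>
    le_sqrt ((hk _).trans_le (hΔ (1, κ) ⟨κ, hκ, rfl⟩ (by rw [e]; exact hV)))
  have := Fintype.ofFinite S.M
  obtain ⟨r, hr⟩ : ∃ r : S.M → Yt (cq S) L' ≃ Yt (cq S) L', ∀ f y, r f y = (y.1, y.2 * f) :=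
    ⟨fun f => (Equiv.refl (S.X ⧸ L')).prodCongr (Equiv.mulRight (f : S.Q)), fun _ _ => rfl⟩
  have h6 : ∀ g y, ∑ f, Ψ (g, r f y) = 0 := fun g y => by
    simp only [hr]
    rw [← finsum_eq_sum_of_fintype]
    exact hZ g y.1 y.2
  have h7 : ∀ f y, ∀ W ∈ 𝓝 (1 : S.G₂), ∃ γ, Near S.ιΓ W γ ∧ γ • r f y = y := fun f y W hW => by
    obtain ⟨a, ha⟩ := QuotientAddGroup.mk_surjective y.1
    obtain ⟨γ, h6, h7, b, hb, h8⟩ := h.dens _ (h.nrm.conj_mem _ (inv_mem f.2) y.2) a m hm W hW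
    rw [hr]
    refine ⟨γ, h6, Prod.ext ?_ ?_⟩
    · change qa γ y.1 = y.1
      rw [← ha, qa_mk, show γ • a = a + m • b from h8, QuotientAddGroup.mk_add_of_mem a (hL b hb)]
    · change S.c γ * (y.2 * f) = y.2
      rw [h7]
      group
  have h8 := sq_le (hS S.F S.d S.G₂ S.Γ (Yt (cq S) L') S.ιΓ c hc μ S.M r Ψ x _ hx h6 h7 h5)
  exact (enorm_sq hx).symm.trans_le (h8.trans_eq
    (congrArg (fun t => 2 * ((C₀ : ℝ≥0∞) + 1) ^ 2 * Δ + 2 * (C₁ : ℝ≥0∞) ^ 2 * t) (hk (1, τ))))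

theorem n2_eq (R : ℕ) (K : Set S.Z) (ξ : S.X → S.Q → ℝ) :
    S.n2 R K ξ = nn {a | (S.sc R).toAddEquiv.toAddMonoidHom (S.iJ a) ∈ K} ξ := by
  refine tsum_congr fun q => tsum_congr fun a => ?_
  by_cases ha : S.pos R a ∈ K
  · rw [if_pos ha, Set.indicator_of_mem (by exact ha), Real.enorm_eq_ofReal_abs,
      ← ENNReal.ofReal_pow (abs_nonneg _), sq_abs]
  · rw [if_neg ha, Set.indicator_of_notMem (by exact ha)]

end G32

open G32 in
/-- **the Poincaré inequality from the counting core** -/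
theorem jc_of (hC : CoreStmt.{max u v, w}) (hF : FrStmt.{u, v, w}) (hG : GapStmt.{u, max u v w})
    (hS : SgStmt.{u, v, w}) : JcStmt.{u, v, w} := by
  intro S h K hK hD
  have : SecondCountableTopology (unitary S.A) := TopologicalSpace.Subtype.secondCountableTopology _
  have : SecondCountableTopology S.G₂ := TopologicalSpace.Subtype.secondCountableTopology _
  have : LocallyCompactSpace (Mt S.d S.F) := Pi.locallyCompactSpace_of_finite
  borelize S.G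
  obtain ⟨_, ⟨c, hc⟩, hμ⟩ := exists_co S.ιΓ h.latt.disc h.latt.coc
  have := hμ Measure.haar
  have ho : IsOpen {z : S.Z | Dom S.O S.π z.2} := by
    simp only [Dom, Set.ofPred_exists]
    exact isOpen_iUnion fun i => isOpen_iUnion fun g => isOpen_iUnion fun l =>
      (P84.cell_open h.lf 1).preimage (by fun_prop)
  obtain ⟨K₁, Γ₁, C, hK₁, h0, h1⟩ := hC S.G S.Γ S.Z S.X S.Q S.ιΓ c Measure.haar (cq S) S.iJ S.L S.L₀
    _ _ (Zs S) hc (hF S h) ho (fun g z ⟨i, k, l, e⟩ => ⟨i, k * g.2⁻¹, l, by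
      change l • (_ * ((g.2 : Mt S.d S.F) * z.2 * ((g.2⁻¹ : GL (Fin S.d) S.F) : Mt S.d S.F)) * _) - _ ∈ _
      simpa [mul_assoc] using e⟩) (gp hG hS h hc _) K hK hD
  refine ⟨K₁, Γ₁, C.toNNReal, hK₁, fun m₁ hm₁ => ?_⟩
  obtain ⟨C', h0', h2⟩ := h1 m₁ hm₁
  refine ⟨C'.toNNReal, fun m₂ hm₂ => ?_⟩
  obtain ⟨E₁, E₂, h3, h4, h5⟩ := h2 m₂ hm₂
  refine ⟨E₁, E₂, h3, h4, h5.mono fun R hR ξ₁ ξ₂ hz hf => ?_⟩
  simp only [n2_eq, ENNReal.coe_toNNReal h0, ENNReal.coe_toNNReal h0'] at hf ⊢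
  exact hR ξ₁ ξ₂ hz hf

end Crest.Agent.T24.Na.J62
end
end

-- ▼ part T24/NaJcFr_32
section

/-! Row 24, the `J`-component: the frame of an arithmetic system (helper32). -/

set_option autoImplicit false
set_option linter.unusedSectionVars false

noncomputable section

namespace Crest.Agent.T24.Na.J52

open Topology Filter

universe u v w

namespace Fr32

/-- the finite part -/
def fn (S : Sys.{u, v, w}) : S.Z →+ S.A × Mt S.d S.F where
  toFun z := (S.ε * z.1, z.2)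
  map_zero' := by simp
  map_add' x y := by simp [mul_add]

/-- the points whose finite part is in the closure of the finite parts of `L₀` -/
def H (S : Sys.{u, v, w}) : AddSubgroup S.Z where
  carrier := {z | ∀ U ∈ 𝓝 (0 : S.A × Mt S.d S.F), ∃ b ∈ S.L₀, fn S (z - S.iJ b) ∈ U}
  zero_mem' U hU := ⟨0, zero_mem _, by simpa using mem_of_mem_nhds hU⟩
  add_mem' {x y} hx hy U hU := by
    obtain ⟨V, hV, h⟩ := exists_nhds_zero_half hU
    obtain ⟨a, ha, h1⟩ := hx V hV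
    obtain ⟨b, hb, h2⟩ := hy V hV
    refine ⟨a + b, add_mem ha hb, ?_⟩
    have := h _ h1 _ h2
    rwa [← map_add, show x - S.iJ a + (y - S.iJ b) = x + y - S.iJ (a + b) by
      rw [map_add]; abel] at this
  neg_mem' {x} hx U hU := by
    obtain ⟨a, ha, h1⟩ := hx _ (neg_mem_nhds_zero _ hU)
    refine ⟨-a, neg_mem ha, ?_⟩
    rw [Set.mem_neg, ← map_neg] at h1
    rwa [show -x - S.iJ (-a) = -(x - S.iJ a) by rw [map_neg]; abel]

variable {S : Sys.{u, v, w}}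

theorem fn_cont : Continuous (fn S) := by
  change Continuous fun z : S.Z => (S.ε * (z.1 : S.A), z.2)
  fun_prop

theorem fn_iJ (h : S.Ok) (b : S.X) : fn S (S.iJ b) = (S.ε * S.inc b, S.ψ b) := by
  change (S.ε * ((S.iJ b).1 : S.A), (S.iJ b).2) = _
  rw [h.iJ_fst, h.iJ_snd]

theorem dens (h : S.Ok) (z : S.Z) {U : Set (S.A × Mt S.d S.F)} (hU : U ∈ 𝓝 0) :
    ∃ b ∈ S.L, fn S (z - S.iJ b) ∈ U := by
  obtain ⟨D, -, h1, h2⟩ := h.L_cov 1 one_ne_zero U hU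
  obtain ⟨b, hb, h3⟩ := h2 z
  rw [one_smul] at h3
  exact ⟨b, hb, h1 _ h3⟩

theorem link (h : S.Ok) : ∃ U ∈ 𝓝 (0 : S.A × Mt S.d S.F), ∀ b ∈ S.L, fn S (S.iJ b) ∈ U → b ∈ S.L₀ := by
  obtain ⟨U, hU, h1⟩ := h.L_link 1 one_ne_zero
  exact ⟨U, hU, fun b hb h2 => h1 b hb (by rwa [one_smul, ← fn_iJ h])⟩

theorem near (h : S.Ok) : ∃ V ∈ 𝓝 (0 : S.A × Mt S.d S.F), ∀ z, fn S z ∈ V → z ∈ H S := by
  obtain ⟨U, hU, h1⟩ := link h
  obtain ⟨V, hV, h2⟩ := exists_nhds_half_neg hU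
  refine ⟨V, hV, fun z hz W hW => ?_⟩
  obtain ⟨b, hb, h3, h4⟩ := dens h z (inter_mem hW hV)
  refine ⟨b, h1 b hb ?_, h3⟩
  have := h2 _ hz _ h4
  rwa [← map_sub, sub_sub_cancel] at this

theorem H_nhds (h : S.Ok) : (H S : Set S.Z) ∈ 𝓝 (0 : S.Z) := by
  obtain ⟨V, hV, h1⟩ := near h
  exact mem_of_superset (fn_cont.continuousAt.preimage_mem_nhds (by rwa [map_zero])) h1

theorem H_link (h : S.Ok) (b : S.X) (hb : b ∈ S.L) (hH : S.iJ b ∈ H S) : b ∈ S.L₀ := by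
  obtain ⟨U, hU, h1⟩ := link h
  obtain ⟨a, ha, h2⟩ := hH U hU
  rw [← map_sub] at h2
  have h3 := h1 _ (sub_mem hb ((h.L_iff a).2 ⟨0, by simpa using ha⟩)) h2
  simpa using add_mem h3 ha

theorem H_pow (h : S.Ok) (z : S.Z) : ∃ j : ℕ, S.N ^ j • z ∈ H S := by
  obtain ⟨V, hV, h1⟩ := near h
  obtain ⟨b, hb, h2⟩ := dens h z hV
  obtain ⟨j, hj⟩ := (h.L_iff b).1 hb
  have h3 : S.iJ (S.N ^ j • b) ∈ H S := fun U hU => ⟨_, hj, by simpa using mem_of_mem_nhds hU⟩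
  refine ⟨j, ?_⟩
  have := add_mem (nsmul_mem (h1 _ h2) (S.N ^ j)) h3
  rwa [map_nsmul, ← smul_add, sub_add_cancel] at this

theorem H_cpt (h : S.Ok) {D : Set S.Z} (hD : IsCompact D) : ∃ j : ℕ, ∀ z ∈ D, S.N ^ j • z ∈ H S := by
  have ho : IsOpen (H S : Set S.Z) := (H S).isOpen_of_mem_nhds (H_nhds h)
  refine hD.elim_directed_cover (fun j : ℕ => {z | S.N ^ j • z ∈ H S})
    (fun j => ho.preimage (continuous_const_smul _)) (fun z _ => Set.mem_iUnion.2 (H_pow h z))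
    (Monotone.directed_le fun i j hij z hz => ?_)
  obtain ⟨n, rfl⟩ := Nat.exists_eq_add_of_le' hij
  change S.N ^ (n + i) • z ∈ H S
  rw [pow_add, mul_smul]
  exact nsmul_mem hz _

theorem H_small (h : S.Ok) {U : Set (S.A × Mt S.d S.F)} (hU : U ∈ 𝓝 0) :
    ∃ n : ℕ, ∀ z ∈ H S, fn S (S.N ^ n • z) ∈ U := by
  obtain ⟨V, hV, h1⟩ := exists_nhds_zero_half hU
  obtain ⟨n, hn⟩ := h.L_small V hV
  refine ⟨n, fun z hz => ?_⟩
  obtain ⟨b, hb, h2⟩ := hz ((S.N ^ n • ·) ⁻¹' V)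
    ((continuous_const_smul _).continuousAt.preimage_mem_nhds (by rwa [smul_zero]))
  have h3 := hn b hb
  rw [← fn_iJ h] at h3
  have := h1 (S.N ^ n • fn S (z - S.iJ b)) h2 _ h3
  rwa [← map_nsmul, ← map_add, map_nsmul, ← smul_add, sub_add_cancel] at this

theorem lnk (h : S.Ok) (D : Set S.Z) (hD : IsCompact D) (W : Set S.Z) (hW : W ∈ 𝓝 (0 : S.Z)) :
    ∃ n₀ : ℕ, n₀ ≠ 0 ∧ (∀ z ∈ D, n₀ • z ∈ H S) ∧
      ∀ m : ℕ, ∀ᶠ R in atTop, ∀ z ∈ D, S.sc R ((m * n₀) • z) ∈ W := by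
  have h2 : IsInducing (Prod.map Subtype.val id : S.Z → S.A × Mt S.d S.F) :=
    IsInducing.subtypeVal.prodMap IsInducing.id
  rw [h2.nhds_eq_comap, mem_comap] at hW
  obtain ⟨U, hU, h3⟩ := hW
  obtain ⟨V, hV, h4⟩ := exists_nhds_zero_half (show U ∈ 𝓝 0 from hU)
  obtain ⟨j, hj⟩ := H_cpt h hD
  obtain ⟨n, hn⟩ := H_small h hV
  refine ⟨S.N ^ n * S.N ^ j, mul_ne_zero (pow_ne_zero _ h.N_ne) (pow_ne_zero _ h.N_ne),
    fun z hz => by rw [mul_smul]; exact nsmul_mem (hj z hz) _, fun m => ?_⟩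
  set M := m * (S.N ^ n * S.N ^ j) with hM
  have hc : Continuous fun p : S.A × S.Z =>
      (((p.1 - S.ε) * ((M • p.2).1 : S.A), 0) : S.A × Mt S.d S.F) := by fun_prop
  have h5 := hD.eventually_forall_of_forall_eventually (x₀ := S.ε)
    (P := fun r z => (((r - S.ε) * ((M • z).1 : S.A), 0) : S.A × Mt S.d S.F) ∈ V) fun y _ =>
      hc.continuousAt.preimage_mem_nhds (by simp only [sub_self, zero_mul]; exact hV)
  filter_upwards [h.rho_tend.eventually h5] with R hR z hz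
  have h6 : fn S (M • z) ∈ V := by
    rw [hM, mul_left_comm, mul_smul, mul_smul]
    exact hn _ (nsmul_mem (hj z hz) _)
  refine h3 ?_
  have := h4 _ (hR z hz) _ h6
  change (((S.sc R (M • z)).1 : S.A), (S.sc R (M • z)).2) ∈ U
  rw [h.sc_fst, h.sc_snd]
  convert this using 1
  refine Prod.ext ?_ (zero_add _).symm
  change _ = _ + S.ε * ((M • z).1 : S.A)
  rw [sub_mul, sub_add_cancel]

theorem dv (h : S.Ok) (m : ℕ) (hm : m ≠ 0) :
    ∃ f : S.Z →+ S.Z, Continuous f ∧ (∀ z, m • f z = z) ∧ ∀ z, f (m • z) = z := by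
  set a : S.B := algebraMap S.k S.B (m : S.k)⁻¹ with ha
  have h1 : star a = a := by rw [ha, Algebra.algebraMap_eq_smul_one, h.star_k, star_one]
  have h2 : m • a = 1 := by
    rw [ha, ← map_nsmul, nsmul_eq_mul, mul_inv_cancel₀ (Nat.cast_ne_zero.2 hm), map_one]
  let f : S.Z →+ S.Z :=
    { toFun := fun z => (⟨S.inc a * z.1, by
        rw [selfAdjoint.mem_iff, star_mul, ← h.inc_star, h1, z.1.2.star_eq, h.k_comm]⟩, S.ψ a * z.2)
      map_zero' := Prod.ext (Subtype.ext (by simp)) (by simp)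
      map_add' := fun x y => Prod.ext (Subtype.ext (by simp [mul_add])) (by simp [mul_add]) }
  have h3 : ∀ z, m • f z = z := fun z => by
    refine Prod.ext (Subtype.ext ?_) ?_
    · change m • (S.inc a * z.1) = _
      rw [← smul_mul_assoc, ← map_nsmul, h2, map_one, one_mul]
    · change m • (S.ψ a * z.2) = _
      rw [← smul_mul_assoc, ← map_nsmul, h2, map_one, one_mul]
  refine ⟨f, Continuous.prodMk (Continuous.subtype_mk (by fun_prop) _) (by fun_prop), h3,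
    fun z => by rw [map_nsmul, h3]⟩

theorem inv_snd (h : S.Ok) (γ : S.Γ) : (((S.ιΓ γ).2⁻¹ : GL (Fin S.d) S.F) : Mt S.d S.F) =
    S.ψ (star (((γ : S.U₀) : unitary S.B) : S.B)) := by
  rw [← Prod.snd_inv, ← map_inv]
  exact h.ι_snd _

end Fr32

open Fr32 in
/-- **the frame of a system** -/
theorem frStmt : FrStmt.{u, v, w} := fun S h =>
  { cont := by
      change Continuous fun p : S.G × S.Z => ac p.1 p.2
      refine Continuous.prodMk (Continuous.subtype_mk ?_ _) ?_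
      · have h1 : Continuous fun p : S.G × S.Z => ((p.1.1 : unitary S.A) : S.A) := by fun_prop
        have h2 : Continuous fun p : S.G × S.Z => (p.2.1 : S.A) := by fun_prop
        exact (h1.mul h2).mul h1.star
      · have h1 : Continuous fun p : S.G × S.Z => p.1.2 := by fun_prop
        exact ((Units.continuous_val.comp h1).mul (by fun_prop)).mul
          (Units.continuous_coe_inv.comp h1)
    eqv := fun γ a => by
      refine Prod.ext (Subtype.ext ?_) ?_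
      · change _ = (((S.ι γ).1 : unitary S.A) : S.A) * (S.iJ a).1 *
          star (((S.ι γ).1 : unitary S.A) : S.A)
        rw [h.iJ_fst, h.iJ_fst, h.ι_fst, ← h.inc_star, ← map_mul, ← map_mul]
        rfl
      · change _ = ((S.ι γ).2 : Mt S.d S.F) * (S.iJ a).2 *
          (((S.ιΓ γ).2⁻¹ : GL (Fin S.d) S.F) : Mt S.d S.F)
        rw [inv_snd h, h.iJ_snd, h.iJ_snd, h.ι_snd, ← map_mul, ← map_mul]
        rfl
    sc_smul := fun R g z => by
      refine Prod.ext (Subtype.ext ?_) ?_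
      · change ((S.sc R (g • z)).1 : S.A) = ((g.1 : unitary S.A) : S.A) * (S.sc R z).1 *
          star ((g.1 : unitary S.A) : S.A)
        rw [h.sc_fst, h.sc_fst, ← mul_assoc, ← h.rho_comm]
        change S.ρ R * (_ * z.1 * _) = _
        simp only [mul_assoc]
      · change (S.sc R (g • z)).2 = (g.2 : Mt S.d S.F) * (S.sc R z).2 *
          ((g.2⁻¹ : GL (Fin S.d) S.F) : Mt S.d S.F)
        rw [h.sc_snd, h.sc_snd]
        rfl
    L_smul := h.L_cj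
    fin := h.L_fin
    cov := by
      obtain ⟨D, h1, -, h2⟩ := h.L_cov 1 one_ne_zero Set.univ univ_mem
      exact ⟨D, h1, by simpa using h2⟩
    dv := dv h
    lnk := ⟨H S, H_nhds h, H_link h, lnk h⟩ }

end Crest.Agent.T24.Na.J52
end
end

-- ▼ part T24/NaJcGap_5
section

/-!
# Row 24, the `J`-component: Kazhdan's inequality near a dominant matrix (helper5)
-/

set_option autoImplicit false
set_option linter.unusedSectionVars false

noncomputable section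

namespace Crest.Agent.T24.Na.J52

open Topology Filter Matrix Vm P84
open scoped NNReal

universe u v

namespace G5

variable {F : Type*} [Field F] {d : ℕ} {O : Subring F} {π : F}

/-- bounded by `π ^ (-c)` together with the inverse -/
def Bd (O : Subring F) (π : F) (c : ℕ) (g : GL (Fin d) F) : Prop :=
  π ^ c • (g : Mt d F) ∈ cell d O π 0 ∧ π ^ c • ((g⁻¹ : GL (Fin d) F) : Mt d F) ∈ cell d O π 0

theorem up (hπ : π ∈ O) {a b : ℕ} (hab : a ≤ b) {y : Mt d F} (hy : π ^ a • y ∈ cell d O π 0) :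
    π ^ b • y ∈ cell d O π 0 := by
  obtain ⟨k, rfl⟩ := Nat.exists_eq_add_of_le hab
  rw [add_comm, pow_add, mul_smul]
  exact o_smul_mem (O.pow_mem hπ k) hy

theorem Bd.mono (hπ : π ∈ O) {a b : ℕ} (hab : a ≤ b) {g : GL (Fin d) F} (h : Bd O π a g) :
    Bd O π b g := ⟨up hπ hab h.1, up hπ hab h.2⟩

theorem Bd.mul {a b : ℕ} {g g' : GL (Fin d) F} (h : Bd O π a g) (h' : Bd O π b g') :
    Bd O π (a + b) (g * g') := by
  have h1 := cell_mul h.1 h'.1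
  have h2 := cell_mul h'.2 h.2
  rw [smul_mul_smul_comm, ← pow_add] at h1 h2
  exact ⟨h1, by rw [_root_.mul_inv_rev, add_comm]; exact h2⟩

theorem Bd.inv {a : ℕ} {g : GL (Fin d) F} (h : Bd O π a g) : Bd O π a g⁻¹ :=
  ⟨h.2, by rw [inv_inv]; exact h.1⟩

theorem bd_sl {a : ℕ} {s : SpecialLinearGroup (Fin d) F}
    (h1 : π ^ a • (s : Mt d F) ∈ Lv O π (Fin d) 0)
    (h2 : π ^ a • ((s⁻¹ : SpecialLinearGroup (Fin d) F) : Mt d F) ∈ Lv O π (Fin d) 0) :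
    Bd O π a (SpecialLinearGroup.toGL s) := ⟨h1, by rw [← map_inv]; exact h2⟩

/-- transport of an almost commutation -/
theorem tr (h0 : π ≠ 0) {c j : ℕ} {h : GL (Fin d) F} (hh : Bd O π c h) {l : F} (hl : l ≠ 0)
    (hl' : π ^ c * l⁻¹ ∈ O) {y : Mt d F} {s : SpecialLinearGroup (Fin d) F}
    (hs : (s : Mt d F) * (l • ((h : Mt d F) * y * ((h⁻¹ : GL (Fin d) F) : Mt d F))) *
      (s⁻¹ : SpecialLinearGroup (Fin d) F) -
      l • ((h : Mt d F) * y * ((h⁻¹ : GL (Fin d) F) : Mt d F)) ∈ Lv O π (Fin d) (c + j + (c + c))) :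
    ((h⁻¹ * SpecialLinearGroup.toGL s * h : GL (Fin d) F) : Mt d F) * y *
      (((h⁻¹ * SpecialLinearGroup.toGL s * h)⁻¹ : GL (Fin d) F) : Mt d F) - y ∈ cell d O π j := by
  have h1 : _ ∈ cell d O π (c + j) := Lv_dist h0 hh.2 hh.1 hs
  have h2 := o_smul_mem hl' h1
  rw [mul_smul, smul_mem_cell h0] at h2
  convert h2 using 1
  have e1 : ((h⁻¹ : GL (Fin d) F) : Mt d F) * (h : Mt d F) = 1 := h.inv_mul
  have e2 : (((SpecialLinearGroup.toGL s)⁻¹ : GL (Fin d) F) : Mt d F) =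
      (s⁻¹ : SpecialLinearGroup (Fin d) F) := by rw [← map_inv]; rfl
  have e3 : ((SpecialLinearGroup.toGL s : GL (Fin d) F) : Mt d F) = s := rfl
  simp only [_root_.mul_inv_rev, inv_inv, Units.val_mul, e2, e3, mul_sub, sub_mul, smul_sub,
    mul_smul_comm, smul_mul_assoc, inv_smul_smul₀ hl, mul_assoc, e1, mul_one]
  rw [← mul_assoc _ (h : Mt d F) y, e1, one_mul]

variable [TopologicalSpace F] [IsTopologicalDivisionRing F] [T2Space F]

theorem bd_compact (h : Lf O π) (c : ℕ) : IsCompact {g : GL (Fin d) F | Bd O π c g} := by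
  have h1 : IsCompact {y : Mt d F | π ^ c • y ∈ cell d O π 0} :=
    (Homeomorph.smulOfNeZero (π ^ c) (pow_ne_zero c h.loc.ne)).isCompact_preimage.2
      (cell_compact h 0)
  have h2 := Units.isClosedEmbedding_embedProduct.isCompact_preimage
    (h1.prod (MulOpposite.opHomeomorph.symm.isCompact_preimage.2 h1))
  exact h2

theorem exists_bd (h : Lf O π) (g : GL (Fin d) F) : ∃ c, Bd O π c g := by
  obtain ⟨a, ha⟩ := bounded h (isCompact_singleton (x := (g : Mt d F)))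
  obtain ⟨b, hb⟩ := bounded h (isCompact_singleton (x := ((g⁻¹ : GL (Fin d) F) : Mt d F)))
  exact ⟨a + b, up h.pi_mem (by omega) (ha _ rfl), up h.pi_mem (by omega) (hb _ rfl)⟩

/-- uniform data on a compact set -/
theorem unif (h : Lf O π) {K : Set (Mt d F)} (hK : IsCompact K) (hD : ∀ y ∈ K, Dom O π y) :
    ∃ c : ℕ, ∀ y ∈ K, ∃ (i : Fin d) (g : GL (Fin d) F) (l : F), Bd O π c g ∧ π ^ c * l⁻¹ ∈ O ∧
      l • ((g : Mt d F) * y * ((g⁻¹ : GL (Fin d) F) : Mt d F)) - single i i 1 ∈ cell d O π 1 := by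
  have hup : ∀ {a b : ℕ} {x : F}, a ≤ b → π ^ a * x ∈ O → π ^ b * x ∈ O := fun {a b x} hab hx => by
    obtain ⟨k, rfl⟩ := Nat.exists_eq_add_of_le hab
    rw [add_comm, pow_add, mul_assoc]
    exact O.mul_mem (O.pow_mem h.pi_mem k) hx
  let U : ℕ → Set (Mt d F) := fun c => {y | ∃ (i : Fin d) (g : GL (Fin d) F) (l : F),
    Bd O π c g ∧ π ^ c * l⁻¹ ∈ O ∧
      l • ((g : Mt d F) * y * ((g⁻¹ : GL (Fin d) F) : Mt d F)) - single i i 1 ∈ cell d O π 1}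
  have hm : Monotone U := fun a b hab y ⟨i, g, l, h1, h2, h3⟩ =>
    ⟨i, g, l, h1.mono h.pi_mem hab, hup hab h2, h3⟩
  refine hK.elim_directed_cover U (fun c => isOpen_iff_mem_nhds.2 ?_) (fun y hy => ?_)
    hm.directed_le
  · rintro y ⟨i, g, l, h1, h2, h3⟩
    have hc : Continuous fun y : Mt d F =>
        l • ((g : Mt d F) * y * ((g⁻¹ : GL (Fin d) F) : Mt d F)) - single i i 1 := by fun_prop
    filter_upwards [hc.continuousAt.preimage_mem_nhds ((cell_open h 1).mem_nhds h3)] with y' hy'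
    exact ⟨i, g, l, h1, h2, hy'⟩
  · obtain ⟨i, g, l, h3⟩ := hD y hy
    obtain ⟨a, ha⟩ := exists_bd h g
    obtain ⟨b, hb⟩ := h.loc.abs l⁻¹
    exact Set.mem_iUnion.2 ⟨a + b, i, g, l, ha.mono h.pi_mem (by omega), hup (by omega) hb, h3⟩

theorem dat (h : Lf O π) : ∃ t : Fin 5 → F, Kaz.Dat O π⁻¹ t := by
  obtain ⟨t, h1, h2⟩ := h.loc.res
  refine ⟨t, h1, fun k l hkl => ⟨_, (h2 l k hkl.symm).2,
    inv_mul_cancel₀ (sub_ne_zero.2 (h2 l k hkl.symm).1)⟩, fun x => ?_⟩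
  obtain ⟨n, hn⟩ := h.loc.abs x
  exact ⟨n, _, hn, by rw [inv_pow, inv_mul_cancel_left₀ (pow_ne_zero n h.loc.ne)]⟩

end G5

open G5 in
theorem gapStmt : GapStmt.{u, v} := by
  intro F _ _ _ _ _ O π d h hd K hK hD
  have h0 := h.loc.ne
  have hp : π⁻¹ * π = 1 := inv_mul_cancel₀ h0
  obtain ⟨c, hc⟩ := unif h hK hD
  obtain ⟨t, ht⟩ := dat h
  refine ⟨_, 32 * d, bd_compact h (c + d + c), fun V₁ hV₁ => ?_⟩
  obtain ⟨j, hj⟩ := cell_basis h hV₁
  refine ⟨64 * d * ((c + j + (c + c) : ℕ) + 1), fun V₂ hV₂ y hy => ?_⟩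
  obtain ⟨n, hn⟩ := cell_basis h hV₂
  obtain ⟨i, g, l, hg, hl', hz⟩ := hc y hy
  have hl := ne_zero_of_dom h hz
  obtain ⟨h₁, τ, k1, k2, k3, k4, k5⟩ := exists_tau h.pi_mem hp i (c + n + (c + c)) hz
  rw [Fintype.card_fin] at k2 k4
  have hτ : Bd O π d (SpecialLinearGroup.toGL τ) := bd_sl (up h.pi_mem (by omega) k3) k4
  refine ⟨g⁻¹ * SpecialLinearGroup.toGL τ * g, (hg.inv.mul hτ).mul hg, hn (tr h0 hg hl hl' k5),
    fun V _ _ _ ρ x δ hδ s => ?_⟩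
  let f : SpecialLinearGroup (Fin d) F →* GL (Fin d) F :=
    (MulAut.conj g⁻¹).toMonoidHom.comp SpecialLinearGroup.toGL
  have hf : ∀ s, f s = g⁻¹ * SpecialLinearGroup.toGL s * g := fun s => by simp [f]
  have hz0 : l • ((g : Mt d F) * y * ((g⁻¹ : GL (Fin d) F) : Mt d F)) ∈ Lv O π (Fin d) 0 := by
    have : _ ∈ Lv O π (Fin d) 0 :=
      add_mem (Lv_anti h.pi_mem zero_le_one hz) (single_mem_cell (π := π) i i O.one_mem)
    rwa [sub_add_cancel] at this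
  have key : ∀ a b : Fin d, a ≠ b → ∀ o ∈ O, ‖ρ ((f.comp (MulAut.conj h₁).toMonoidHom)
      (Kaz.X a b (π ^ (c + j + (c + c)) * o))) x - x‖ ≤ δ := fun a b hab o ho => by
    have e : (h₁ * Kaz.X a b (π ^ (c + j + (c + c)) * o) * h₁⁻¹)⁻¹ =
        h₁ * Kaz.X a b (π ^ (c + j + (c + c)) * -o) * h₁⁻¹ := by
      rw [mul_neg, ← Kaz.X_neg]; group
    have a1 := conj_X k1 hab (c + j + (c + c)) ho
    have a2 := e.symm ▸ conj_X k1 hab (c + j + (c + c)) (O.neg_mem ho)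
    have a3 : ∀ {w : Mt d F}, w - 1 ∈ Lv O π (Fin d) (c + j + (c + c)) →
        π ^ 0 • w ∈ Lv O π (Fin d) 0 := fun hw => by
      simpa using add_mem (Lv_anti h.pi_mem (Nat.zero_le _) hw) one_mem_Lv
    change ‖ρ (f (h₁ * _ * h₁⁻¹)) x - x‖ ≤ δ
    rw [hf]
    exact hδ _ (((hg.inv.mul (bd_sl (a3 a1) (a3 a2))).mul hg).mono h.pi_mem (by omega))
      (hj (tr h0 hg hl hl' (lr_sub h.pi_mem a1 a2 hz0)))
  obtain ⟨s', hs'⟩ := K39.exists_conj g⁻¹ s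
  have := kt ht h.pi_mem hp (by simp) (by simpa using hd) ρ
    (c := π ^ d) ⟨π ^ (d - 1), O.pow_mem h.pi_mem _, by rw [← pow_succ']; congr 1; omega⟩
    (k2.map f (σ := 1) (by simp)) x x (m := c + j + (c + c)) (δ := δ)
    (fun b hb o ho => ⟨key i b hb.symm o ho, key b i hb o ho⟩) (h₁⁻¹ * s' * h₁)
  have e : (f.comp (MulAut.conj h₁).toMonoidHom) (h₁⁻¹ * s' * h₁) = SpecialLinearGroup.toGL s := by
    change f (h₁ * (h₁⁻¹ * s' * h₁) * h₁⁻¹) = _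
    rw [show h₁ * (h₁⁻¹ * s' * h₁) * h₁⁻¹ = s' by group, hf, ← hs', inv_mul_cancel_right]
  rw [e, mul_one, hf, sub_self, norm_zero, Fintype.card_fin] at this
  refine this.trans (le_of_eq ?_)
  push_cast
  ring

end Crest.Agent.T24.Na.J52
end
end

-- ▼ part T24/NaJcSg_53

/-!
# Row 24, the `J`-component: a vector with zero sums which is almost fixed by `SL_d` is small.
-/

set_option autoImplicit false
set_option linter.unusedSectionVars false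

noncomputable section

namespace Crest.Agent.T24.Na.J52

open Topology Filter MeasureTheory K39
open scoped ENNReal NNReal RealInnerProductSpace

universe u v w

namespace S53

theorem mp_wm {Y : Type*} [Countable Y] [MeasurableSpace Y] [DiscreteMeasurableSpace Y]
    (r : Y ≃ Y) : MeasurePreserving r (wm fun _ : Y => 1) (wm fun _ : Y => 1) :=
  ⟨.of_discrete, Measure.ext fun s hs => by
    rw [Measure.map_apply .of_discrete hs, ← lintegral_indicator_one hs,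
      ← lintegral_indicator_one .of_discrete, lintegral_wm, lintegral_wm,
      ← r.tsum_eq fun y => 1 * s.indicator 1 y]
    rfl⟩

/-- the Hilbert space part -/
theorem norm_le {α M : Type*} [MeasurableSpace α] {ν : Measure α} [Fintype M] [Nonempty M]
    (ρ : M → α → α) (hρ : ∀ f, MeasurePreserving (ρ f) ν ν) {Ξ : α → ℝ} {x x₀ : Lp ℝ 2 ν} {η : ℝ}
    (hx : x =ᵐ[ν] Ξ) (hΞ : ∀ p, ∑ f, Ξ (ρ f p) = 0) (h0 : ∀ f, ∀ᵐ p ∂ν, x₀ (ρ f p) = x₀ p)
    (h1 : ‖x₀ - x‖ ≤ η) : ‖x‖ ≤ η := by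
  let U : M → Lp ℝ 2 ν →ₗᵢ[ℝ] Lp ℝ 2 ν := fun f => Lp.compMeasurePreservingₗᵢ ℝ _ (hρ f)
  have hU : ∀ f ξ, U f ξ =ᵐ[ν] ξ ∘ ρ f := fun f ξ => Lp.coeFn_compMeasurePreserving ξ (hρ f)
  have e0 : ∀ f, U f x₀ = x₀ := fun f => Lp.ext ((hU f x₀).trans (h0 f))
  have e1 : ∑ f, U f x = 0 := by
    refine Lp.ext ?_
    filter_upwards [Lp.coeFn_finsetSum Finset.univ fun f => U f x, Lp.coeFn_zero ℝ 2 ν,
      ae_all_iff.2 fun f => (hU f x).trans ((hρ f).quasiMeasurePreserving.ae_eq_comp hx)]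
      with p a b c
    rw [a, b, Finset.sum_apply, Finset.sum_congr rfl fun f _ => c f]
    exact hΞ p
  have e2 : ⟪x₀, x⟫ = 0 := by
    have : ∑ _f : M, ⟪x₀, x⟫ = 0 := by
      rw [← inner_zero_right (𝕜 := ℝ) x₀, ← e1, inner_sum]
      exact Finset.sum_congr rfl fun f _ => by rw [← (U f).inner_map_map, e0]
    simpa using this
  have e3 : ‖x‖ ^ 2 ≤ η * ‖x‖ := by
    have := abs_real_inner_le_norm (x₀ - x) x
    rw [inner_sub_left, e2, zero_sub, abs_neg, real_inner_self_eq_norm_sq,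
      abs_of_nonneg (sq_nonneg _)] at this
    exact this.trans (by gcongr)
  by_contra h
  nlinarith [norm_nonneg x, norm_nonneg (x₀ - x)]

end S53

/-- JC-SG -/
theorem sgStmt : SgStmt.{u, v, w} := by
  intro F _ _ _ _ _ _ d G₂ _ _ _ _ _ _ _ _ Γ _ _ Y _ _ _ _ ι c h μ _ _ _ M _ _ r Ξ x η hx hΞ hr hη
  obtain ⟨x₀, h0, h1⟩ := Pj.exists_fix (h.kp μ (wm fun _ : Y => 1)) (jS G₂).range (u := x) (η := η)
    (by rintro _ ⟨s, rfl⟩; exact hη s)
  refine S53.norm_le (fun f => Prod.map id (r f))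
    (fun f => (MeasurePreserving.id _).prod (S53.mp_wm (r f))) hx (fun p => hΞ p.1 p.2)
    (fun f => ?_) h1
  have hm := (Lp.stronglyMeasurable x₀).measurable
  refine (Measure.ae_prod_iff_ae_ae (measurableSet_eq_fun
    (hm.comp (measurable_id.prodMap (Measurable.of_discrete (f := r f)))) hm)).2 ?_
  filter_upwards [ae_restrict_of_ae (s := Fd c) (ae_all_iff.2 fun y =>
    h.ind0_near μ (wm fun _ : Y => 1) (fun s => h0 _ ⟨s, rfl⟩) (by simp [wm_singleton]) (hr f y)),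
    ae_restrict_mem h.mFd] with g a b
  refine Eventually.of_forall fun y => ?_
  have := a y
  rw [Pj_of_mem (p := (g, y)) b, Pj_of_mem (p := (g, r f y)) b] at this
  exact this.symm

end Crest.Agent.T24.Na.J52
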