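import Mathlib
import Crest.Agent.T24.DefS_26
import Crest.Agent.T24.OpnB_6
import Crest.Agent.T24.Csa4_50

-- ▼ part T24/SaLie_92
section

/-! # Herstein's theorem on Lie ideals of the skew elements (involution of the second kind)

`Good A`: 2 is a unit, there is a central skew unit, every two-sided ideal is generated by a
central idempotent, and `A = [A,A] + Z(A)`. -/

set_option autoImplicit false

namespace Crest.Agent.T24.Sa

variable {A : Type*} [Ring A]

/-- central element -/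
def Cen (z : A) : Prop := ∀ x, z * x = x * z

/-- every two-sided ideal is generated by a central idempotent -/
def Idem (A : Type*) [Ring A] : Prop :=
  ∀ M : AddSubgroup A, (∀ a, ∀ x ∈ M, a * x ∈ M ∧ x * a ∈ M) →
    ∃ e : A, e * e = e ∧ Cen e ∧ ∀ x, x ∈ M ↔ e * x = x

/-- additive span of all commutators -/
def comA (A : Type*) [Ring A] : AddSubgroup A :=
  AddSubgroup.closure {c | ∃ a b : A, c = a * b - b * a}

theorem two_cancel {h : A} (hh : 2 * h = 1) {x : A} (hx : 2 * x = 0) : x = 0 := by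
  have h2 : h * 2 = 1 := by rw [← hh, two_mul, mul_two]
  calc x = (h * 2) * x := by rw [h2, one_mul]
    _ = 0 := by rw [mul_assoc, hx, mul_zero]

theorem cen_half {h : A} (hh : 2 * h = 1) : Cen h := by
  intro x
  have h2 : h * 2 = 1 := by rw [← hh, two_mul, mul_two]
  have : 2 * (h * x - x * h) = 0 := by
    have e1 : 2 * (h * x) = x := by rw [← mul_assoc, hh, one_mul]
    have e2 : 2 * (x * h) = x := by
      rw [two_mul, ← mul_add, ← two_mul, hh, mul_one]
    rw [mul_sub, e1, e2, sub_self]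
  exact sub_eq_zero.1 (two_cancel hh this)

theorem Cen.inv {a b : A} (ha : Cen a) (hab : a * b = 1) : Cen b := by
  intro x
  have hba : b * a = 1 := by rw [← ha b, hab]
  calc b * x = b * x * (a * b) := by rw [hab, mul_one]
    _ = b * (a * x) * b := by rw [ha x]; noncomm_ring
    _ = x * b := by rw [← mul_assoc, hba, one_mul]

theorem Cen.mul {a b : A} (ha : Cen a) (hb : Cen b) : Cen (a * b) := fun x => by
  rw [mul_assoc, hb, ← mul_assoc, ha, mul_assoc]

theorem Cen.pow {a : A} (ha : Cen a) (k : ℕ) : Cen (a ^ k) := by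
  induction k with
  | zero => intro x; simp
  | succ k ih => rw [pow_succ]; exact ih.mul ha

theorem Cen.one_sub {a : A} (ha : Cen a) : Cen (1 - a) := fun x => by
  rw [sub_mul, mul_sub, ha, one_mul, mul_one]

theorem semiprime (hI : Idem A) {x : A} (hx : ∀ s, x * s * x = 0) : x = 0 := by
  let M : AddSubgroup A :=
    { carrier := {a | ∀ s, x * s * a = 0}
      zero_mem' := fun s => mul_zero _
      add_mem' := fun {a b} ha hb s => by rw [mul_add, ha s, hb s, add_zero]
      neg_mem' := fun {a} ha s => by rw [mul_neg, ha s, neg_zero] }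
  obtain ⟨e, hee, he, hM⟩ := hI M (fun a y hy =>
    ⟨fun s => by have := hy (s * a); simpa [mul_assoc] using this,
     fun s => by rw [← mul_assoc, hy s, zero_mul]⟩)
  have h1 : e * x = x := (hM x).1 hx
  have h2 : x * 1 * e = 0 := ((hM e).2 hee) 1
  rw [← h1, he x, ← h2, mul_one]

theorem cen_of_dd (hI : Idem A) {h : A} (hh : 2 * h = 1) {y : A}
    (hy : ∀ r, y * (y * r - r * y) - (y * r - r * y) * y = 0) : Cen y := by
  have h1 : ∀ r s, (y * r - r * y) * (y * s - s * y) = 0 := by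
    intro r s
    apply two_cancel hh
    have e : 2 * ((y * r - r * y) * (y * s - s * y)) =
        (y * (y * (r * s) - (r * s) * y) - (y * (r * s) - (r * s) * y) * y)
        - (y * (y * r - r * y) - (y * r - r * y) * y) * s
        - r * (y * (y * s - s * y) - (y * s - s * y) * y) := by noncomm_ring
    rw [e, hy, hy, hy]; simp
  intro r
  apply sub_eq_zero.1
  apply semiprime hI
  intro s
  have e : (y * r - r * y) * s * (y * r - r * y) =
      (y * r - r * y) * (y * (s * r) - (s * r) * y) - (y * r - r * y) * (y * s - s * y) * r := by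
    noncomm_ring
  rw [e, h1, h1]; simp

variable [StarRing A]

/-- the algebraic hypotheses on the local algebra -/
structure Good (A : Type*) [Ring A] [StarRing A] : Prop where
  half : ∃ h : A, 2 * h = 1
  theta : ∃ θ θ' : A, Cen θ ∧ star θ = -θ ∧ θ * θ' = 1
  idem : Idem A
  span : ∀ x : A, ∃ z, Cen z ∧ x - z ∈ comA A

/-- additive span of the commutators of skew elements -/
def comS (A : Type*) [Ring A] [StarRing A] : AddSubgroup A :=
  AddSubgroup.closure {c | ∃ a b : A, star a = -a ∧ star b = -b ∧ c = a * b - b * a}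

theorem skew_com {a b : A} (ha : star a = -a) (hb : star b = -b) :
    star (a * b - b * a) = -(a * b - b * a) := by
  rw [star_sub, star_mul, star_mul, ha, hb]; noncomm_ring

theorem comS_skew {s : A} (hs : s ∈ comS A) : star s = -s := by
  induction hs using AddSubgroup.closure_induction with
  | mem x hx => obtain ⟨a, b, ha, hb, rfl⟩ := hx; exact skew_com ha hb
  | zero => simp
  | add x y _ _ hx hy => rw [star_add, hx, hy, neg_add]
  | neg x _ hx => rw [star_neg, hx]

theorem star_half {h : A} (hh : 2 * h = 1) : star h = h := by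
  have h1 : star h * 2 = 1 := by
    have := congrArg star hh
    rwa [star_mul, star_ofNat, star_one] at this
  calc star h = star h * (2 * h) := by rw [hh, mul_one]
    _ = h := by rw [← mul_assoc, h1, one_mul]

theorem Good.dec (g : Good A) {θ θ' : A} (hθ : Cen θ) (hs : star θ = -θ) (hi : θ * θ' = 1)
    (a : A) : ∃ x y, star x = -x ∧ star y = -y ∧ a = x + θ * y := by
  obtain ⟨h, hh⟩ := g.half
  have ch := cen_half hh
  have cθ' := hθ.inv hi
  have sθ' : star θ' = -θ' := by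
    have h1 : star θ' * θ = -1 := by
      have := congrArg star hi
      rw [star_mul, star_one, hs, mul_neg] at this
      exact neg_eq_iff_eq_neg.1 this
    calc star θ' = star θ' * (θ * θ') := by rw [hi, mul_one]
      _ = -θ' := by rw [← mul_assoc, h1, neg_one_mul]
  refine ⟨h * (a - star a), θ' * (h * (a + star a)), ?_, ?_, ?_⟩
  · rw [star_mul, star_half hh, star_sub, star_star, ← ch]; noncomm_ring
  · rw [star_mul, star_mul, star_half hh, star_add, star_star, sθ', ← ch, mul_neg, ← cθ',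
      add_comm]
  · rw [← mul_assoc θ, hi, one_mul, ← mul_add]
    have : a - star a + (a + star a) = 2 * a := by rw [two_mul]; abel
    rw [this, ← mul_assoc, ch, hh, one_mul]

theorem skew_th2 {θ y : A} (hθ : Cen θ) (hs : star θ = -θ) (hy : star y = -y) :
    star (θ * θ * y) = -(θ * θ * y) := by
  rw [star_mul, star_mul, hs, hy, neg_mul_neg, neg_mul, (hθ.mul hθ) y]

theorem herm_th {θ y : A} (hθ : Cen θ) (hs : star θ = -θ) (hy : star y = -y) :
    star (θ * y) = θ * y := by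
  rw [star_mul, hs, hy, neg_mul_neg, hθ]

/-- `𝔲 = [𝔲,𝔲] + centre` -/
theorem Good.skew_dec (g : Good A) {u : A} (hu : star u = -u) :
    ∃ s ∈ comS A, Cen (u - s) := by
  obtain ⟨θ, θ', hθ, hs, hi⟩ := g.theta
  obtain ⟨h, hh⟩ := g.half
  have key : ∀ c ∈ comA A, ∃ s ∈ comS A, ∃ t ∈ comS A, c = s + θ * t := by
    intro c hc
    induction hc using AddSubgroup.closure_induction with
    | mem x hx =>
      obtain ⟨a, b, rfl⟩ := hx
      obtain ⟨a1, a2, h1, h2, rfl⟩ := g.dec hθ hs hi a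
      obtain ⟨b1, b2, h3, h4, rfl⟩ := g.dec hθ hs hi b
      have m : ∀ x y : A, star x = -x → star y = -y → x * y - y * x ∈ comS A :=
        fun x y hx hy => AddSubgroup.subset_closure ⟨x, y, hx, hy, rfl⟩
      refine ⟨_, add_mem (m _ _ h1 h3) (m _ _ (skew_th2 hθ hs h2) h4), _,
        add_mem (m _ _ h1 h4) (m _ _ h2 h3), ?_⟩
      have c1 : ∀ x y : A, x * (θ * y) = θ * (x * y) := fun x y => by
        rw [← mul_assoc, ← hθ, mul_assoc]
      simp only [mul_add, add_mul, mul_sub, mul_assoc, c1]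
      abel
    | zero => exact ⟨0, zero_mem _, 0, zero_mem _, by simp⟩
    | add x y _ _ hx hy =>
      obtain ⟨s, hs, t, ht, rfl⟩ := hx
      obtain ⟨s', hs', t', ht', rfl⟩ := hy
      exact ⟨_, add_mem hs hs', _, add_mem ht ht', by rw [mul_add]; abel⟩
    | neg x _ hx =>
      obtain ⟨s, hs, t, ht, rfl⟩ := hx
      exact ⟨_, neg_mem hs, _, neg_mem ht, by rw [mul_neg]; abel⟩
  obtain ⟨z, hz, hc⟩ := g.span u
  obtain ⟨s, hs', t, ht, e⟩ := key _ hc
  refine ⟨s, hs', fun x => ?_⟩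
  have e1 : u - s = θ * t + z := by rw [sub_eq_iff_eq_add] at e; rw [e]; abel
  have e2 : -(u - s) = θ * t + star z := by
    have := congrArg star e1
    rw [star_add, herm_th hθ hs (comS_skew ht), star_sub, hu, comS_skew hs'] at this
    rw [← this]; abel
  have e3 : 2 * (u - s) = z - star z := by
    have : z - star z = (θ * t + z) - (θ * t + star z) := by abel
    rw [this, ← e1, ← e2, two_mul]; abel
  have cz : star z * x = x * star z := by
    have := congrArg star (hz (star x))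
    rw [star_mul, star_mul, star_star] at this
    exact this.symm
  apply sub_eq_zero.1
  apply two_cancel hh
  have c2 : 2 * (x * (u - s)) = x * (2 * (u - s)) := by rw [two_mul, two_mul, mul_add]
  rw [mul_sub, ← mul_assoc, c2, e3, sub_mul, mul_sub, hz, cz, sub_self]

/-- **Herstein**: an additive subgroup of skew elements stable under `ad [𝔲,𝔲]` contains
`e [𝔲,𝔲]` and is central on `1 - e`, for a central symmetric idempotent `e`. -/
theorem Good.lie (g : Good A) (I : AddSubgroup A) (hI : ∀ X ∈ I, star X = -X)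
    (had : ∀ s ∈ comS A, ∀ X ∈ I, s * X - X * s ∈ I) :
    ∃ e : A, e * e = e ∧ Cen e ∧ star e = e ∧ (∀ s ∈ comS A, e * s ∈ I) ∧
      ∀ X ∈ I, Cen ((1 - e) * X) := by
  obtain ⟨θ, θ', hθ, hs, hi⟩ := g.theta
  obtain ⟨h, hh⟩ := g.half
  have had' : ∀ u, star u = -u → ∀ X ∈ I, u * X - X * u ∈ I := by
    intro u hu X hX
    obtain ⟨s, hs, hc⟩ := g.skew_dec hu
    have : u * X - X * u = s * X - X * s + ((u - s) * X - X * (u - s)) := by noncomm_ring
    rw [this, hc X, sub_self, add_zero]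
    exact had s hs X hX
  have c1 : ∀ x y : A, x * (θ * y) = θ * (x * y) := fun x y => by
    rw [← mul_assoc, ← hθ, mul_assoc]
  let J : AddSubgroup A :=
    { carrier := {a | ∃ i ∈ I, ∃ j ∈ I, a = i + θ * j}
      zero_mem' := ⟨0, zero_mem _, 0, zero_mem _, by simp⟩
      add_mem' := by
        rintro _ _ ⟨i, hi, j, hj, rfl⟩ ⟨i', hi', j', hj', rfl⟩
        exact ⟨_, add_mem hi hi', _, add_mem hj hj', by rw [mul_add]; abel⟩
      neg_mem' := by
        rintro _ ⟨i, hi, j, hj, rfl⟩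
        exact ⟨_, neg_mem hi, _, neg_mem hj, by rw [mul_neg]; abel⟩ }
  have JL : ∀ x ∈ J, ∀ r, x * r - r * x ∈ J := by
    rintro _ ⟨i, hi', j, hj, rfl⟩ r
    obtain ⟨a, b, ha, hb, rfl⟩ := g.dec hθ hs hi r
    refine ⟨_, neg_mem (add_mem (had' _ ha _ hi') (had' _ (skew_th2 hθ hs hb) _ hj)), _,
      neg_mem (add_mem (had' _ ha _ hj) (had' _ hb _ hi')), ?_⟩
    simp only [mul_add, add_mul, mul_sub, mul_assoc, c1, mul_neg, neg_add]
    abel
  have Js : ∀ x ∈ J, star x ∈ J := by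
    rintro _ ⟨i, hi', j, hj, rfl⟩
    exact ⟨_, neg_mem hi', _, hj, by rw [star_add, hI i hi', herm_th hθ hs (hI j hj)]⟩
  have Jk : ∀ x ∈ J, star x = -x → x ∈ I := by
    rintro _ ⟨i, hi', j, hj, rfl⟩ hx
    rw [star_add, hI i hi', herm_th hθ hs (hI j hj)] at hx
    have : θ * j = 0 := by
      apply two_cancel hh
      have : 2 * (θ * j) = (-i + θ * j) - -(i + θ * j) := by rw [two_mul]; abel
      rw [this, hx, sub_self]
    rw [this, add_zero]; exact hi'
  let T : A → Prop := fun x => ∀ r, x * r - r * x ∈ J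
  have Tm : ∀ x y, T x → T y → T (x * y) := by
    intro x y hx hy r
    have : x * y * r - r * (x * y) =
        (x * (y * r) - (y * r) * x) + (y * (r * x) - (r * x) * y) := by noncomm_ring
    rw [this]; exact add_mem (hx _) (hy _)
  have Tsub : ∀ x y, T x → T y → T (x - y) := by
    intro x y hx hy r
    have : (x - y) * r - r * (x - y) = (x * r - r * x) - (y * r - r * y) := by noncomm_ring
    rw [this]; exact sub_mem (hx _) (hy _)
  have TL : ∀ x r, T x → T (x * r - r * x) := fun x r hx => JL _ (hx r)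
  have Ts : ∀ x, T x → T (star x) := by
    intro x hx r
    have := neg_mem (Js _ (hx (star r)))
    rwa [star_sub, star_mul, star_mul, star_star, neg_sub] at this
  let M : AddSubgroup A :=
    { carrier := {x | ∀ a b, T (a * x * b)}
      zero_mem' := fun a b r => by simp
      add_mem' := fun {x y} hx hy a b r => by
        have : a * (x + y) * b * r - r * (a * (x + y) * b) =
          (a * x * b * r - r * (a * x * b)) + (a * y * b * r - r * (a * y * b)) := by noncomm_ring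
        rw [this]; exact add_mem (hx a b r) (hy a b r)
      neg_mem' := fun {x} hx a b r => by
        have : a * (-x) * b * r - r * (a * (-x) * b) = -(a * x * b * r - r * (a * x * b)) := by
          noncomm_ring
        rw [this]; exact neg_mem (hx a b r) }
  have MT : ∀ x ∈ M, T x := fun x hx => by simpa using hx 1 1
  have Mc : ∀ x y, T x → T y → x * y - y * x ∈ M := by
    intro x y hx hy a b
    have h1 : ∀ r, T ((x * y - y * x) * r) := by
      intro r
      have : (x * y - y * x) * r = (x * (y * r) - (y * r) * x) - y * (x * r - r * x) := by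
        noncomm_ring
      rw [this]; exact Tsub _ _ (TL _ _ hx) (Tm _ _ hy (TL _ _ hx))
    have : a * (x * y - y * x) * b = (x * y - y * x) * (b * a) -
        ((x * y - y * x) * b * a - a * ((x * y - y * x) * b)) := by noncomm_ring
    rw [this]; exact Tsub _ _ (h1 _) (TL _ _ (h1 b))
  obtain ⟨e, hee, he, hM⟩ := g.idem M (fun a x hx =>
    ⟨fun u v => by have := hx (u * a) v; simpa [mul_assoc] using this,
     fun u v => by have := hx u (a * v); simpa [mul_assoc] using this⟩)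
  have se : star e = e := by
    have h1 : star e ∈ M := fun a b => by
      have := Ts _ (((hM e).2 hee) (star b) (star a))
      simpa [star_mul, mul_assoc] using this
    have h2 := (hM _).1 h1
    have h3 := congrArg star h2
    rw [star_mul, star_star] at h3
    rw [← h2, h3]
  refine ⟨e, hee, he, se, fun s hs' => ?_, fun X hX => ?_⟩
  · apply Jk
    · induction hs' using AddSubgroup.closure_induction with
      | mem x hx =>
        obtain ⟨a, b, -, -, rfl⟩ := hx
        have h1 : e * a ∈ M := (hM _).2 (by rw [← mul_assoc, hee])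
        have : e * (a * b - b * a) = e * a * b - b * (e * a) := by
          rw [mul_sub, ← mul_assoc e b, he b]; noncomm_ring
        rw [this]; exact MT _ h1 b
      | zero => rw [mul_zero]; exact zero_mem _
      | add x y _ _ hx hy => rw [mul_add]; exact add_mem hx hy
      | neg x _ hx => rw [mul_neg]; exact neg_mem hx
    · rw [star_mul, se, comS_skew hs', he, neg_mul]
  · have hT : T X := JL X ⟨X, hX, 0, zero_mem _, by simp⟩
    apply cen_of_dd g.idem hh
    intro r
    have cf := he.one_sub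
    have c2 : ∀ x y : A, x * ((1 - e) * y) = (1 - e) * (x * y) := fun x y => by
      rw [← mul_assoc, ← cf, mul_assoc]
    have h1 := (hM _).1 (Mc X (X * r - r * X) hT (TL _ _ hT))
    have h2 : (1 - e) * (X * (X * r - r * X) - (X * r - r * X) * X) = 0 := by
      rw [sub_mul, h1, one_mul, sub_self]
    have : (1 - e) * X * ((1 - e) * X * r - r * ((1 - e) * X)) -
        ((1 - e) * X * r - r * ((1 - e) * X)) * ((1 - e) * X) =
        (1 - e) * ((1 - e) * (X * (X * r - r * X) - (X * r - r * X) * X)) := by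
      generalize 1 - e = f at c2
      simp only [mul_sub, sub_mul, mul_assoc, c2]
    rw [this, h2, mul_zero]

end Crest.Agent.T24.Sa
end

-- ▼ part T24/SaTc_92
section

/-! # Tangent cones of subgroups of the unitary group of a locally compact ring

No exponential map: `Tan S` is the lower limit and `Dir G` the upper limit of the dilates
`p^{-k}(S - 1)`. -/

set_option autoImplicit false
set_option linter.unusedSectionVars false
open Filter Topology

namespace Crest.Agent.T24.Sa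

/-- a scale on a topological star ring -/
structure Sc (A : Type*) [Ring A] [StarRing A] [TopologicalSpace A] where
  p : A
  q : A
  pq : p * q = 1
  cen : Cen p
  star_p : star p = p
  tend : Tendsto (fun k : ℕ => p ^ k) atTop (𝓝 0)
  inv : ∀ V ∈ 𝓝 (1 : A), ∀ᶠ x in 𝓝 (1 : A), ∃ y ∈ V, x * y = 1 ∧ y * x = 1
  div : ∀ m : ℕ, 0 < m → ∀ V ∈ 𝓝 (1 : A), ∃ (c : ℤ) (i j : ℕ), c • (m • (p ^ i * q ^ j)) ∈ V

/-- a group of unitary elements, as a set -/
structure UG {A : Type*} [Ring A] [StarRing A] (S : Set A) : Prop where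
  one : (1 : A) ∈ S
  mul : ∀ a ∈ S, ∀ b ∈ S, a * b ∈ S
  star : ∀ a ∈ S, star a ∈ S
  uni : ∀ a ∈ S, a * Star.star a = 1

section
variable {A : Type*} [Ring A] [StarRing A]

theorem UG.uni' {S : Set A} (h : UG S) {a : A} (ha : a ∈ S) : Star.star a * a = 1 := by
  simpa using h.uni _ (h.star a ha)

theorem UG.pow {S : Set A} (h : UG S) {a : A} (ha : a ∈ S) (m : ℕ) : a ^ m ∈ S := by
  induction m with
  | zero => simpa using h.one
  | succ m ih => rw [pow_succ]; exact h.mul _ ih _ ha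

theorem UG.inter {S T : Set A} (h : UG S) (h' : UG T) : UG (S ∩ T) :=
  ⟨⟨h.one, h'.one⟩, fun a ha b hb => ⟨h.mul a ha.1 b hb.1, h'.mul a ha.2 b hb.2⟩,
    fun a ha => ⟨h.star a ha.1, h'.star a ha.2⟩, fun a ha => h.uni a ha.1⟩

theorem UG.iInter {G : ℕ → Set A} (h : ∀ n, UG (G n)) : UG (⋂ n, G n) :=
  ⟨Set.mem_iInter.2 fun n => (h n).one,
    fun a ha b hb => Set.mem_iInter.2 fun n =>
      (h n).mul a (Set.mem_iInter.1 ha n) b (Set.mem_iInter.1 hb n),
    fun a ha => Set.mem_iInter.2 fun n => (h n).star a (Set.mem_iInter.1 ha n),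
    fun a ha => (h 0).uni a (Set.mem_iInter.1 ha 0)⟩

/-- the unitary elements that are `1` on the idempotent `f` -/
def Fx (f : A) : Set A := {g | g * star g = 1 ∧ star g * g = 1 ∧ f * g = f}

theorem ug_Fx {f : A} : UG (Fx f) :=
  ⟨⟨by simp, by simp, by simp⟩,
    fun a ha b hb => ⟨by
      rw [star_mul, mul_assoc, ← mul_assoc b, hb.1, one_mul, ha.1], by
      rw [star_mul, mul_assoc, ← mul_assoc (star a), ha.2.1, one_mul, hb.2.1], by
      rw [← mul_assoc, ha.2.2, hb.2.2]⟩,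
    fun a ha => ⟨by rw [star_star]; exact ha.2.1, by rw [star_star]; exact ha.1, by
      calc f * star a = f * a * star a := by rw [ha.2.2]
        _ = f := by rw [mul_assoc, ha.1, mul_one]⟩,
    fun a ha => ha.1⟩

variable [TopologicalSpace A] [IsTopologicalRing A] [ContinuousStar A]

theorem UG.closure [T2Space A] {S : Set A} (h : UG S) : UG (closure S) :=
  ⟨subset_closure h.one,
    fun _ ha _ hb => map_mem_closure₂ continuous_mul ha hb h.mul,
    fun _ ha => map_mem_closure continuous_star ha h.star,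
    fun _ ha => (isClosed_eq (f := fun a : A => a * Star.star a) (g := fun _ => 1)
      (by fun_prop) continuous_const).closure_subset_iff.2 h.uni ha⟩

namespace Sc
variable (s : Sc A)

omit [IsTopologicalRing A] [ContinuousStar A] in
theorem cq : Cen s.q := s.cen.inv s.pq
omit [IsTopologicalRing A] [ContinuousStar A] in
theorem qp : s.q * s.p = 1 := by rw [s.cq, s.pq]
omit [IsTopologicalRing A] [ContinuousStar A] in
theorem pq_pow (k : ℕ) : s.p ^ k * s.q ^ k = 1 := by
  rw [← (Commute.mul_pow (s.cen s.q)), s.pq, one_pow]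
omit [IsTopologicalRing A] [ContinuousStar A] in
theorem qp_pow (k : ℕ) : s.q ^ k * s.p ^ k = 1 := by rw [s.cq.pow k, s.pq_pow]
omit [IsTopologicalRing A] [ContinuousStar A] in
theorem star_pow (k : ℕ) : star (s.p ^ k) = s.p ^ k := by rw [_root_.star_pow, s.star_p]
omit [IsTopologicalRing A] [ContinuousStar A] in
theorem cancel {k : ℕ} {x y : A} (h : s.p ^ k * x = s.p ^ k * y) : x = y := by
  have := congrArg (s.q ^ k * ·) h
  simpa only [← mul_assoc, s.qp_pow, one_mul] using this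
omit [IsTopologicalRing A] [ContinuousStar A] in
theorem mv (k : ℕ) (x y : A) : x * (s.p ^ k * y) = s.p ^ k * (x * y) := by
  rw [← mul_assoc, ← s.cen.pow k, mul_assoc]

/-- lower tangent cone -/
def Tan (S : Set A) : Set A := {X | ∀ V ∈ 𝓝 X, ∀ᶠ k in atTop, ∃ a ∈ V, 1 + s.p ^ k * a ∈ S}

/-- upper tangent cone of a family -/
def Dir (G : ℕ → Set A) : Set A :=
  {X | ∀ V ∈ 𝓝 X, ∀ n, ∃ k ≥ n, ∃ a ∈ V, 1 + s.p ^ k * a ∈ G n}

variable {s}

omit [IsTopologicalRing A] [ContinuousStar A] in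
theorem Tan_mono {S T : Set A} (h : S ⊆ T) : s.Tan S ⊆ s.Tan T := fun _ hX V hV =>
  (hX V hV).mono fun _ ⟨a, ha, h1⟩ => ⟨a, ha, h h1⟩

omit [IsTopologicalRing A] [ContinuousStar A] in
theorem Dir_mono {G G' : ℕ → Set A} (h : ∀ n, G n ⊆ G' n) : s.Dir G ⊆ s.Dir G' :=
  fun _ hX V hV n => let ⟨k, hk, a, ha, h1⟩ := hX V hV n; ⟨k, hk, a, ha, h n h1⟩

omit [IsTopologicalRing A] [ContinuousStar A] in
theorem Tan_sub_Dir {S : Set A} : s.Tan S ⊆ s.Dir fun _ => S := fun _ hX V hV n => by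
  obtain ⟨k, hk, h⟩ := ((eventually_ge_atTop n).and (hX V hV)).exists
  exact ⟨k, hk, h⟩

omit [IsTopologicalRing A] [ContinuousStar A] in
theorem closed_Tan (S : Set A) : IsClosed (s.Tan S) := by
  rw [← closure_subset_iff_isClosed]
  intro X hX V hV
  obtain ⟨U, hU, ho, hXU⟩ := mem_nhds_iff.1 hV
  obtain ⟨Y, hY, hY'⟩ := mem_closure_iff.1 hX U ho hXU
  exact (hY' U (ho.mem_nhds hY)).mono fun _ ⟨a, ha, h⟩ => ⟨a, hU ha, h⟩


omit [IsTopologicalRing A] [ContinuousStar A] in
theorem Tan_of_seq {S : Set A} {X : A} {a : ℕ → A} (ha : Tendsto a atTop (𝓝 X))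
    (h : ∀ᶠ k in atTop, 1 + s.p ^ k * a k ∈ S) : X ∈ s.Tan S := fun _ hV =>
  ((ha.eventually hV).and h).mono fun k hk => ⟨a k, hk.1, hk.2⟩

omit [IsTopologicalRing A] [ContinuousStar A] in
theorem seq_of_Tan [FirstCountableTopology A] {S : Set A} {X : A} (hX : X ∈ s.Tan S) :
    ∃ a : ℕ → A, Tendsto a atTop (𝓝 X) ∧ ∀ᶠ k in atTop, 1 + s.p ^ k * a k ∈ S := by
  classical
  obtain ⟨V, hV⟩ := (𝓝 X).exists_antitone_basis
  let P : ℕ → ℕ → Prop := fun k j => ∃ a ∈ V j, 1 + s.p ^ k * a ∈ S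
  have hP : ∀ j, ∀ᶠ k in atTop, P k j := fun j => hX _ (hV.mem j)
  have hch : ∀ k, ∃ a, P k (Nat.findGreatest (P k) k) →
      a ∈ V (Nat.findGreatest (P k) k) ∧ 1 + s.p ^ k * a ∈ S := by
    intro k
    by_cases h : P k (Nat.findGreatest (P k) k)
    · obtain ⟨a, ha⟩ := h; exact ⟨a, fun _ => ha⟩
    · exact ⟨0, fun h' => absurd h' h⟩
  choose a ha using hch
  refine ⟨a, hV.toHasBasis.tendsto_right_iff.2 fun j _ => ?_, ?_⟩
  · filter_upwards [hP j, eventually_ge_atTop j] with k h1 h2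
    exact hV.antitone (Nat.le_findGreatest h2 h1) (ha k (Nat.findGreatest_spec h2 h1)).1
  · filter_upwards [hP 0] with k h1
    exact (ha k (Nat.findGreatest_spec (Nat.zero_le k) h1)).2

omit [IsTopologicalRing A] [ContinuousStar A] in
theorem seq_of_Dir [FirstCountableTopology A] {G : ℕ → Set A} {X : A} (hX : X ∈ s.Dir G) :
    ∃ (k : ℕ → ℕ) (a : ℕ → A), Tendsto k atTop atTop ∧ Tendsto a atTop (𝓝 X) ∧
      ∀ n, 1 + s.p ^ k n * a n ∈ G n := by
  obtain ⟨V, hV⟩ := (𝓝 X).exists_antitone_basis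
  choose k hk a ha h using fun n => hX _ (hV.mem n) n
  exact ⟨k, a, tendsto_atTop_mono hk tendsto_id, hV.tendsto ha, h⟩

omit [IsTopologicalRing A] [ContinuousStar A] in
theorem Dir_of_cluster {G : ℕ → Set A} (hG : Antitone G) {X : A} {k : ℕ → ℕ} {a : ℕ → A}
    (hk : Tendsto k atTop atTop) (ha : MapClusterPt X atTop a)
    (h : ∀ᶠ n in atTop, 1 + s.p ^ k n * a n ∈ G n) : X ∈ s.Dir G := by
  intro V hV n
  obtain ⟨m, h1, h2, h3, h4⟩ := ((mapClusterPt_iff_frequently.1 ha V hV).and_eventually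
    ((eventually_ge_atTop n).and ((hk.eventually_ge_atTop n).and h))).exists
  exact ⟨k m, h3, a m, h1, hG h2 h4⟩

omit [ContinuousStar A] in
theorem lim1 {k : ℕ → ℕ} (hk : Tendsto k atTop atTop) {a : ℕ → A} {X : A}
    (ha : Tendsto a atTop (𝓝 X)) : Tendsto (fun n => 1 + s.p ^ k n * a n) atTop (𝓝 1) := by
  simpa using ((s.tend.comp hk).mul ha).const_add 1

theorem lim1s {k : ℕ → ℕ} (hk : Tendsto k atTop atTop) {a : ℕ → A} {X : A}
    (ha : Tendsto a atTop (𝓝 X)) :
    Tendsto (fun n => star (1 + s.p ^ k n * a n)) atTop (𝓝 1) := by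
  simpa only [star_one] using (lim1 hk ha).star

variable [FirstCountableTopology A]

theorem Dir_skew [T2Space A] {G : ℕ → Set A} (hG : ∀ n, UG (G n)) {X : A} (hX : X ∈ s.Dir G) :
    star X = -X := by
  obtain ⟨k, a, hk, ha, h⟩ := seq_of_Dir hX
  have e : ∀ n, star (a n) = -(a n * star (1 + s.p ^ k n * a n)) := by
    intro n
    apply s.cancel (k := k n)
    have h1 := (hG n).uni _ (h n)
    have h2 : star (1 + s.p ^ k n * a n) = 1 + s.p ^ k n * star (a n) := by
      rw [star_add, star_one, star_mul, s.star_pow, s.cen.pow]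
    rw [add_mul, one_mul] at h1
    rw [mul_neg, ← mul_assoc, eq_neg_iff_add_eq_zero, ← add_right_inj 1, add_zero, ← add_assoc,
      ← h2, h1]
  have h1 := (ha.mul (lim1s (s := s) hk ha)).neg
  rw [mul_one] at h1
  exact tendsto_nhds_unique ha.star (h1.congr fun n => (e n).symm)

omit [ContinuousStar A] in
theorem Dir_Fx [T2Space A] {f X : A} (hX : X ∈ s.Dir fun _ => Fx f) : f * X = 0 := by
  obtain ⟨k, a, -, ha, h⟩ := seq_of_Dir hX
  have e : ∀ n, f * a n = 0 := fun n => by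
    apply s.cancel (k := k n)
    have := (h n).2.2
    rw [mul_add, mul_one, s.mv, add_eq_left] at this
    rw [this, mul_zero]
  exact tendsto_nhds_unique (ha.const_mul f) (by simpa [e] using tendsto_const_nhds)

omit [ContinuousStar A] in
theorem Dir_add {G : ℕ → Set A} (hG : ∀ n, UG (G n)) (ha : Antitone G) {S : Set A}
    (hS : ∀ n, S ⊆ G n) {X Y : A} (hX : X ∈ s.Dir G) (hY : Y ∈ s.Tan S) : X + Y ∈ s.Dir G := by
  obtain ⟨k, a, hk, ha', h⟩ := seq_of_Dir hX
  obtain ⟨b, hb, h'⟩ := seq_of_Tan hY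
  have h1 := ha'.add ((lim1 (s := s) hk ha').mul (hb.comp hk))
  rw [one_mul] at h1
  refine Dir_of_cluster ha hk h1.mapClusterPt ?_
  filter_upwards [hk.eventually h'] with n hn
  have := (hG n).mul _ (h n) _ (hS n hn)
  rwa [mul_add, mul_one, s.mv, add_assoc, ← mul_add] at this

/-- the tangent cone of a unitary group is an additive group -/
def TanG {S : Set A} (hS : UG S) : AddSubgroup A where
  carrier := s.Tan S
  zero_mem' := Tan_of_seq tendsto_const_nhds (Eventually.of_forall fun k => by simp [hS.one])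
  add_mem' := fun {X Y} hX hY => by
    obtain ⟨a, ha, h⟩ := seq_of_Tan hX
    obtain ⟨b, hb, h'⟩ := seq_of_Tan hY
    have h1 := ha.add ((lim1 (s := s) tendsto_id ha).mul hb)
    rw [one_mul] at h1
    refine Tan_of_seq h1 ?_
    filter_upwards [h, h'] with n hn hn'
    have := hS.mul _ hn _ hn'
    rwa [mul_add, mul_one, s.mv, add_assoc, ← mul_add] at this
  neg_mem' := fun {X} hX => by
    obtain ⟨a, ha, h⟩ := seq_of_Tan hX
    have h1 := (ha.mul (lim1s (s := s) tendsto_id ha)).neg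
    rw [mul_one] at h1
    refine Tan_of_seq h1 ?_
    filter_upwards [h] with n hn
    have h2 := hS.uni _ hn
    rw [add_mul, one_mul, ← eq_sub_iff_add_eq, mul_assoc] at h2
    have := hS.star _ hn
    rwa [h2, sub_eq_add_neg, ← mul_neg] at this

omit [ContinuousStar A] in
theorem Tan_p {S : Set A} {X : A} (hX : X ∈ s.Tan S) : s.p * X ∈ s.Tan S := by
  obtain ⟨a, ha, h⟩ := seq_of_Tan hX
  refine Tan_of_seq ((ha.comp (tendsto_add_atTop_nat 1)).const_mul s.p) ?_
  filter_upwards [(tendsto_add_atTop_nat 1).eventually h] with n hn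
  simpa [pow_succ, mul_assoc] using hn

omit [ContinuousStar A] in
theorem Tan_q {S : Set A} {X : A} (hX : X ∈ s.Tan S) : s.q * X ∈ s.Tan S := by
  obtain ⟨a, ha, h⟩ := seq_of_Tan hX
  refine Tan_of_seq ((ha.comp (tendsto_sub_atTop_nat 1)).const_mul s.q) ?_
  filter_upwards [(tendsto_sub_atTop_nat 1).eventually h, eventually_ge_atTop 1] with n hn h1
  obtain ⟨m, rfl⟩ := Nat.exists_eq_add_of_le' h1
  simpa [pow_succ, mul_assoc, ← mul_assoc s.p, s.pq] using hn

omit [ContinuousStar A] in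
theorem Tan_pq {S : Set A} {X : A} (hX : X ∈ s.Tan S) (i j : ℕ) :
    s.p ^ i * s.q ^ j * X ∈ s.Tan S := by
  induction i with
  | zero =>
    induction j with
    | zero => simpa using hX
    | succ j ih => simpa [pow_succ', mul_assoc] using Tan_q ih
  | succ i ih => simpa [pow_succ', mul_assoc] using Tan_p ih

theorem Tan_div {S : Set A} (hS : UG S) {X : A} {m : ℕ} (hm : 0 < m) (hX : m • X ∈ s.Tan S) :
    X ∈ s.Tan S := by
  apply (closed_Tan S).closure_subset
  rw [mem_closure_iff_nhds]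
  intro V hV
  have hc : Continuous fun y : A => y * X := by fun_prop
  obtain ⟨c, i, j, h⟩ := s.div m hm _ (hc.continuousAt.preimage_mem_nhds (by simpa using hV))
  refine ⟨_, h, ?_⟩
  have : c • (s.p ^ i * s.q ^ j * m • X) ∈ s.Tan S :=
    (TanG (s := s) hS).zsmul_mem (x := s.p ^ i * s.q ^ j * m • X) (Tan_pq hX i j) c
  simpa only [smul_mul_assoc, mul_smul_comm] using this

/-- commensuration: `Ad g` preserves the tangent cone -/
theorem Tan_ad {S : Set A} (hS : UG S) {g : A} (hg : g * star g = 1) {m : ℕ} (hm : 0 < m)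
    (h : ∀ x ∈ S, g * x ^ m * star g ∈ S) {X : A} (hX : X ∈ s.Tan S) :
    g * X * star g ∈ s.Tan S := by
  apply Tan_div hS hm
  obtain ⟨a, ha, h'⟩ := seq_of_Tan hX
  have h1 : Tendsto (fun k => ∑ i ∈ Finset.range m, (1 + s.p ^ k * a k) ^ i) atTop
      (𝓝 (∑ i ∈ Finset.range m, (1 : A) ^ i)) :=
    tendsto_finsetSum _ fun i _ => (lim1 (s := s) tendsto_id ha).pow i
  have h2 := ((h1.mul ha).const_mul g).mul_const (star g)
  simp only [one_pow, Finset.sum_const, Finset.card_range, smul_mul_assoc, one_mul,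
    mul_smul_comm] at h2
  refine Tan_of_seq h2 ?_
  filter_upwards [h'] with k hk
  have h3 := h _ hk
  have h4 := geom_sum_mul (1 + s.p ^ k * a k) m
  rw [add_sub_cancel_left, eq_sub_iff_add_eq] at h4
  rw [← h4, mul_add, add_mul, mul_one, hg, add_comm, s.mv, s.mv, mul_assoc] at h3
  exact h3

/-- the tangent cone is stable under `ad` of the tangent cone of the commensurator -/
theorem Tan_lie {S L : Set A} (hS : UG S) (hL : UG L)
    (h : ∀ g ∈ L, ∃ m, 0 < m ∧ ∀ x ∈ S, g * x ^ m * star g ∈ S) {X Y : A} (hX : X ∈ s.Tan S)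
    (hY : Y ∈ s.Tan L) : Y * X - X * Y ∈ s.Tan S := by
  obtain ⟨b, hb, h'⟩ := seq_of_Tan hY
  have h1 := ((hb.mul_const X).sub (hb.const_mul X)).mul (lim1s (s := s) tendsto_id hb)
  rw [mul_one] at h1
  refine (closed_Tan S).mem_of_tendsto h1 ?_
  filter_upwards [h'] with k hk
  obtain ⟨m, hm, h2⟩ := h _ hk
  have h3 := Tan_pq ((TanG (s := s) hS).sub_mem (Tan_ad hS (hL.uni _ hk) hm h2 hX) hX) 0 k
  have h4 := hL.uni _ hk
  set g := 1 + s.p ^ k * b k with hg
  have : g * X * star g - X = s.p ^ k * ((b k * X - X * b k) * star g) := by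
    calc g * X * star g - X = g * X * star g - X * (g * star g) := by rw [h4, mul_one]
      _ = (g * X - X * g) * star g := by noncomm_ring
      _ = _ := by
        rw [← mul_assoc]; congr 1
        rw [hg, add_mul, mul_add, s.mv]; noncomm_ring
  rwa [this, pow_zero, one_mul, ← mul_assoc, s.qp_pow, one_mul] at h3

/-- group commutators -/
theorem Tan_com {S T C : Set A} (hS : UG S) (hT : UG T)
    (h : ∀ a ∈ S, ∀ b ∈ T, a * b * star a * star b ∈ C) {X Y : A} (hX : X ∈ s.Tan S)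
    (hY : Y ∈ s.Tan T) : X * Y - Y * X ∈ s.Tan C := by
  obtain ⟨a, ha, h1⟩ := seq_of_Tan hX
  obtain ⟨b, hb, h2⟩ := seq_of_Tan hY
  have k1 : Tendsto (fun k : ℕ => k / 2) atTop atTop := Nat.tendsto_div_const_atTop two_ne_zero
  have k2 : Tendsto (fun k : ℕ => k - k / 2) atTop atTop :=
    tendsto_atTop_mono (fun k => by omega) k1
  have ha' := ha.comp k1
  have hb' := hb.comp k2
  have h3 := (((ha'.mul hb').sub (hb'.mul ha')).mul (lim1s (s := s) k1 ha')).mul
    (lim1s (s := s) k2 hb')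
  rw [mul_one, mul_one] at h3
  refine Tan_of_seq h3 ?_
  filter_upwards [k1.eventually h1, k2.eventually h2] with k e1 e2
  have h4 := h _ e1 _ e2
  have u1 := hS.uni _ e1
  have u2 := hT.uni _ e2
  simp only [Function.comp_apply]
  set x := 1 + s.p ^ (k / 2) * a (k / 2) with hx
  set y := 1 + s.p ^ (k - k / 2) * b (k - k / 2) with hy
  have e : x * y - y * x = s.p ^ k * (a (k / 2) * b (k - k / 2) - b (k - k / 2) * a (k / 2)) := by
    have hk : s.p ^ k = s.p ^ (k / 2) * s.p ^ (k - k / 2) := by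
      rw [← pow_add]; congr 1; omega
    have hk' : s.p ^ k = s.p ^ (k - k / 2) * s.p ^ (k / 2) := by
      rw [← pow_add]; congr 1; omega
    have : x * y - y * x = s.p ^ (k / 2) * a (k / 2) * (s.p ^ (k - k / 2) * b (k - k / 2)) -
      s.p ^ (k - k / 2) * b (k - k / 2) * (s.p ^ (k / 2) * a (k / 2)) := by
      rw [hx, hy]; noncomm_ring
    rw [this, mul_assoc, mul_assoc, s.mv _ (a _), s.mv _ (b _), ← mul_assoc, ← hk,
      ← mul_assoc (s.p ^ (k - k / 2)), ← hk', mul_sub]
  have : x * y * star x * star y = 1 + (x * y - y * x) * star x * star y := by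
    rw [sub_mul, sub_mul, mul_assoc y x, u1, mul_one, u2]; abel
  rwa [this, e, mul_assoc (s.p ^ k), mul_assoc (s.p ^ k)] at h4

/-- Cayley transform -/
theorem cayley (R : Subring A) (hp : s.p ∈ R)
    (hi : ∀ x ∈ R, ∀ y, x * y = 1 → y * x = 1 → y ∈ R) {y : A} (hy : y ∈ R)
    (hs : star y = -y) : 2 * y ∈ s.Tan (R ∩ Fx 0) := by
  intro V hV
  have hc : Continuous fun w : A => 2 * y * w := by fun_prop
  have h1 : Tendsto (fun k : ℕ => 1 + s.p ^ k * (-y)) atTop (𝓝 1) :=
    lim1 tendsto_id tendsto_const_nhds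
  filter_upwards [h1.eventually
    (s.inv _ (hc.continuousAt.preimage_mem_nhds (by simpa using hV)))] with k ⟨w, hw, e1, e2⟩
  have hm : 1 + s.p ^ k * (-y) ∈ R := add_mem (one_mem _) (mul_mem (pow_mem hp k) (neg_mem hy))
  have hw' := hi _ hm w e1 e2
  set t := s.p ^ k * y with ht
  have st : star t = -t := by rw [ht, star_mul, s.star_pow, hs, neg_mul, s.cen.pow]
  rw [mul_neg, ← ht, ← sub_eq_add_neg] at e1 e2
  have e3 : 1 + s.p ^ k * (2 * y * w) = (1 + t) * w := by
    have : 1 + s.p ^ k * (2 * y * w) = (1 - t) * w + s.p ^ k * (2 * y * w) := by rw [e1]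
    rw [this, two_mul, add_mul, mul_add, ← mul_assoc, ← ht]; noncomm_ring
  have e4 : star w * (1 + t) = 1 := by
    have := congrArg star e1
    rwa [star_mul, star_sub, star_one, st, sub_neg_eq_add] at this
  have e5 : (1 + t) * star w = 1 := by
    have := congrArg star e2
    rwa [star_mul, star_sub, star_one, st, sub_neg_eq_add] at this
  have e6 : (1 + t) * (1 - t) = (1 - t) * (1 + t) := by noncomm_ring
  have e7 : (1 + t) * w = w * (1 + t) := by
    calc (1 + t) * w = w * (1 - t) * (1 + t) * w := by rw [e2, one_mul]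
      _ = w * (1 + t) * ((1 - t) * w) := by rw [mul_assoc w, ← e6]; simp only [mul_assoc]
      _ = _ := by rw [e1, mul_one]
  have e8 : star ((1 + t) * w) = star w * (1 - t) := by
    rw [star_mul, star_add, star_one, st, sub_eq_add_neg]
  refine ⟨_, hw, ?_, ?_, ?_, by simp⟩
  · exact add_mem (one_mem _) (mul_mem (pow_mem hp k)
      (mul_mem (mul_mem (by simp) hy) hw'))
  · rw [e3, e8, e7, mul_assoc, ← mul_assoc (1 + t), e5, one_mul, e2]
  · rw [e3, e8, mul_assoc, ← mul_assoc (1 - t), ← e6, mul_assoc, e1, mul_one, e4]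

/-- weak approximation at the level of tangent cones -/
theorem skew_mem_Tan (R : Subring A) (hd : Dense (R : Set A)) (hp : s.p ∈ R) {h : A}
    (hh : 2 * h = 1) (hh' : h ∈ R) (hst : ∀ x ∈ R, star x ∈ R)
    (hi : ∀ x ∈ R, ∀ y, x * y = 1 → y * x = 1 → y ∈ R) {X : A} (hs : star X = -X) :
    X ∈ s.Tan (R ∩ Fx 0) := by
  have hc : Continuous fun x : A => 2 * (h * (h * (x - star x))) := by fun_prop
  have e : X = 2 * (h * (h * (X - star X))) := by
    rw [hs, sub_neg_eq_add, ← two_mul, ← mul_assoc h 2, cen_half hh 2, hh, one_mul, ← mul_assoc,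
      hh, one_mul]
  rw [e]
  apply (closed_Tan _).closure_subset
  refine map_mem_closure (f := fun x : A => 2 * (h * (h * (x - star x)))) hc (hd X) fun x hx => cayley R hp hi
    (mul_mem hh' (mul_mem hh' (sub_mem hx (hst x hx)))) ?_
  rw [star_mul, star_mul, star_half hh, star_sub, star_star, ← cen_half hh, ← cen_half hh,
    ← mul_neg, ← mul_neg, neg_sub]

omit [ContinuousStar A] [FirstCountableTopology A] in
theorem tube {Λ : Set A} (hΛ : IsCompact Λ) {V : Set A} (hV : V ∈ 𝓝 (0 : A)) :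
    ∀ᶠ k in atTop, ∀ a ∈ Λ, s.p ^ k * a ∈ V := by
  have : ∀ᶠ t in 𝓝 (0 : A), ∀ a ∈ Λ, t * a ∈ V := by
    refine hΛ.eventually_forall_of_forall_eventually (P := fun t a => t * a ∈ V) fun a _ => ?_
    exact continuous_mul.continuousAt.preimage_mem_nhds (by simpa using hV)
  exact s.tend.eventually this

omit [ContinuousStar A] [FirstCountableTopology A] in
theorem ball_nhds {Λ : Set A} (hΛ : Λ ∈ 𝓝 (0 : A)) (k : ℕ) :
    {g | ∃ a ∈ Λ, g = 1 + s.p ^ k * a} ∈ 𝓝 (1 : A) := by
  have hc : Continuous fun g : A => s.q ^ k * (g - 1) := by fun_prop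
  refine mem_of_superset (hc.continuousAt.preimage_mem_nhds (t := Λ) (by simpa using hΛ)) ?_
  intro g hg
  exact ⟨_, hg, by simp [← mul_assoc, s.pq_pow]⟩

omit [FirstCountableTopology A] in
/-- **openness by successive approximation** -/
theorem opn [WeaklyLocallyCompactSpace A] {G : ℕ → Set A} (hG : ∀ n, UG (G n)) (ha : Antitone G)
    {H : Set A} (hH : UG H) (hHG : ∀ n, H ⊆ G n) (h : s.Dir G ⊆ s.Tan H) :
    ∃ n, ∃ V ∈ 𝓝 (1 : A), G n ∩ V ⊆ closure H := by
  obtain ⟨Λ, hΛ, hΛ0⟩ := exists_compact_mem_nhds (0 : A)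
  have step : ∃ n, ∀ k ≥ n, ∀ a ∈ Λ, 1 + s.p ^ k * a ∈ G n →
      ∃ x ∈ H, ∃ a' ∈ Λ, (1 + s.p ^ k * a) * star x = 1 + s.p ^ (k + 1) * a' := by
    by_contra hc
    push Not at hc
    choose k hk a ha1 ha2 ha3 using hc
    have hk' : Tendsto k atTop atTop := tendsto_atTop_mono hk tendsto_id
    obtain ⟨X, -, hX⟩ := hΛ.exists_mapClusterPt (f := atTop) (u := a)
      (le_principal_iff.2 (mem_map.2 (Eventually.of_forall ha1)))
    have hT := h (Dir_of_cluster ha hk' hX (Eventually.of_forall ha2))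
    have hc : Continuous fun z : A × A × A => s.q * ((z.1 - z.2.1) * star (1 + z.2.2 * z.2.1)) := by
      fun_prop
    have h1 := hc.continuousAt.preimage_mem_nhds (x := (X, X, 0)) (t := Λ) (by simpa using hΛ0)
    rw [nhds_prod_eq, nhds_prod_eq] at h1
    obtain ⟨V1, hV1, W, hW, h2⟩ := mem_prod_iff.1 h1
    obtain ⟨V2, hV2, V3, hV3, h3⟩ := mem_prod_iff.1 hW
    obtain ⟨n, h4, ⟨b, hb, h5⟩, h6⟩ := ((mapClusterPt_iff_frequently.1 hX V1 hV1).and_eventually
      ((hk'.eventually (hT V2 hV2)).and (hk'.eventually (s.tend.eventually hV3)))).exists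
    refine ha3 n _ h5 _ (h2 (Set.mk_mem_prod h4 (h3 (Set.mk_mem_prod hb h6)))) ?_
    have u := hH.uni _ h5
    simp only
    rw [pow_succ, mul_assoc, ← mul_assoc s.p, s.pq, one_mul, ← mul_assoc]
    generalize star (1 + s.p ^ k n * b) = w at u ⊢
    have : (1 + s.p ^ k n * a n) * w =
        (1 + s.p ^ k n * b) * w + s.p ^ k n * (a n - b) * w := by noncomm_ring
    rw [this, u]
  obtain ⟨n, hn⟩ := step
  refine ⟨n, _, ball_nhds (s := s) hΛ0 n, ?_⟩
  rintro g ⟨hg, a, ha1, rfl⟩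
  have it : ∀ j, ∃ x ∈ H, ∃ a' ∈ Λ, (1 + s.p ^ n * a) * star x = 1 + s.p ^ (n + j) * a' := by
    intro j
    induction j with
    | zero => exact ⟨1, hH.one, a, ha1, by simp⟩
    | succ j ih =>
      obtain ⟨x, hx, a', ha', e⟩ := ih
      obtain ⟨y, hy, a'', ha'', e'⟩ := hn (n + j) (by omega) a' ha'
        (e ▸ (hG n).mul _ hg _ (hHG n (hH.star x hx)))
      exact ⟨y * x, hH.mul _ hy _ hx, a'', ha'', by rw [star_mul, ← mul_assoc, e, e', add_assoc]⟩
  rw [mem_closure_iff_nhds]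
  intro V hV
  have hc : Continuous fun t : A => star (1 + t) * (1 + s.p ^ n * a) := by fun_prop
  obtain ⟨j, hj⟩ := ((tendsto_add_atTop_nat n).eventually (tube (s := s) hΛ
    (hc.continuousAt.preimage_mem_nhds (x := 0) (t := V) (by simpa using hV)))).exists
  obtain ⟨x, hx, a', ha', e⟩ := it j
  refine ⟨x, ?_, hx⟩
  have := hj a' ha'
  rw [Set.mem_preimage, add_comm j, ← e, star_mul, star_star, mul_assoc, (hG n).uni' hg,
    mul_one] at this
  exact this

end Sc
end
end Crest.Agent.T24.Sa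
end

-- ▼ part T24/SaLoc_92
section

/-! # Local openness theorems (archimedean and `p`-adic) -/

set_option autoImplicit false
set_option linter.unusedSectionVars false
open Filter Topology

namespace Crest.Agent.T24.Sa

variable {A : Type*} [Ring A] [StarRing A] [TopologicalSpace A] [IsTopologicalRing A]
  [ContinuousStar A]

/-- archimedean scale -/
structure Arch (s : Sc A) : Prop where
  two : 2 * s.p = 1
  ex : ∃ N : A → ℝ, (∀ x y, N (x + y) ≤ N x + N y) ∧ (∀ x y, N (x * y) ≤ N x * N y) ∧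
    (∀ x, N (s.p * x) = N x / 2) ∧ (∀ x, 0 ≤ N x) ∧
    (𝓝 (0 : A)).HasBasis (fun ε : ℝ => 0 < ε) fun ε => {x | N x < ε}

/-- `p`-adic scale -/
structure Pad (s : Sc A) : Prop where
  ex : ∃ P : ℕ, s.p = P ∧ ∃ R : Subring A, IsOpen (R : Set A) ∧ IsCompact (R : Set A)

/-- no central direction, stability under central idempotents -/
structure Spc (s : Sc A) (SG : Set A) : Prop where
  ug : UG SG
  closed : IsClosed SG
  nd : ∀ z ∈ s.Dir fun _ => SG, Cen z → z = 0
  idem : ∀ e : A, e * e = e → Cen e → star e = e → ∀ g ∈ SG, e * g + (1 - e) ∈ SG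

namespace Sc
variable {s : Sc A}

theorem est {N : A → ℝ} (h1 : ∀ x y, N (x + y) ≤ N x + N y) (h2 : ∀ x y, N (x * y) ≤ N x * N y)
    (h3 : ∀ x, N (s.p * x) = N x / 2) (h4 : ∀ x, 0 ≤ N x) (two : 2 * s.p = 1) {j k : ℕ}
    (hjk : k ≤ j) (b : A) (hb : N b / 2 ^ k ≤ 1) :
    N (s.q ^ k * ((1 + s.p ^ j * b) ^ 2 ^ (j - k) - 1) - b) ≤ N b ^ 2 / 2 ^ k := by
  have N0 : N 0 = 0 := by have := h3 0; rw [mul_zero] at this; linarith
  have Nn : ∀ (m : ℕ) y, N (m • y) ≤ m * N y := by
    intro m y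
    induction m with
    | zero => simp [N0]
    | succ m ih => rw [succ_nsmul]; push_cast; linarith [h1 (m • y) y]
  have Np : ∀ (m : ℕ) y, N (s.p ^ m * y) = N y / 2 ^ m := by
    intro m y
    induction m with
    | zero => simp
    | succ m ih => rw [pow_succ', mul_assoc, h3, ih, pow_succ]; ring
  have key : ∀ (x : A) (m : ℕ), N ((1 + x) ^ m - 1 - m • x) ≤ (1 + N x) ^ m - 1 - m * N x := by
    intro x m
    induction m with
    | zero => simp [N0]
    | succ m ih =>
      have e : (1 + x) ^ (m + 1) - 1 - (m + 1) • x = ((1 + x) ^ m - 1 - m • x) +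
          ((1 + x) ^ m - 1 - m • x) * x + m • (x * x) := by
        rw [pow_succ, succ_nsmul, ← smul_mul_assoc]; noncomm_ring
      have a1 := h1 (((1 + x) ^ m - 1 - m • x) + ((1 + x) ^ m - 1 - m • x) * x) (m • (x * x))
      have a2 := h1 ((1 + x) ^ m - 1 - m • x) (((1 + x) ^ m - 1 - m • x) * x)
      have a3 := h2 ((1 + x) ^ m - 1 - m • x) x
      have a4 := Nn m (x * x)
      have a5 := mul_le_mul_of_nonneg_left (h2 x x) (Nat.cast_nonneg (α := ℝ) m)
      have a6 := mul_le_mul_of_nonneg_right ih (h4 x)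
      rw [e, pow_succ]; push_cast; nlinarith
  obtain ⟨i, rfl⟩ := Nat.exists_eq_add_of_le hjk
  rw [Nat.add_sub_cancel_left]
  have e1 : (2 ^ i) • (s.p ^ (k + i) * b) = s.p ^ k * b := by
    have : ((2 ^ i : ℕ) : A) * s.p ^ i = 1 := by
      push_cast
      rw [← Commute.mul_pow (s.cen 2).symm, two, one_pow]
    rw [nsmul_eq_mul, add_comm, pow_add, mul_assoc, ← mul_assoc, this, one_mul]
  have h5 := key (s.p ^ (k + i) * b) (2 ^ i)
  rw [e1, Np] at h5
  have e2 : (1 + s.p ^ (k + i) * b) ^ 2 ^ i - 1 - s.p ^ k * b =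
      s.p ^ k * (s.q ^ k * ((1 + s.p ^ (k + i) * b) ^ 2 ^ i - 1) - b) := by
    rw [mul_sub, ← mul_assoc, s.pq_pow, one_mul]
  rw [e2, Np] at h5
  have e3 : ((2 ^ i : ℕ) : ℝ) * (N b / 2 ^ (k + i)) = N b / 2 ^ k := by
    push_cast; rw [pow_add]; field_simp
  have h0 : 0 ≤ N b / 2 ^ k := div_nonneg (h4 b) (by positivity)
  have h6 : (1 + N b / 2 ^ (k + i)) ^ 2 ^ i ≤ Real.exp (N b / 2 ^ k) := by
    rw [← e3, Real.exp_nat_mul, add_comm]
    exact pow_le_pow_left₀ (by have := h4 b; positivity) (Real.add_one_le_exp _) _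
  have h7 := Real.abs_exp_sub_one_sub_id_le (x := N b / 2 ^ k) (by rwa [abs_of_nonneg h0])
  have h8 := (abs_le.1 h7).2
  rw [e3] at h5
  have h9 : (0 : ℝ) < 2 ^ k := by positivity
  have : N (s.q ^ k * ((1 + s.p ^ (k + i) * b) ^ 2 ^ i - 1) - b) / 2 ^ k ≤
      (N b ^ 2 / 2 ^ k) / 2 ^ k := by
    have : (N b ^ 2 / 2 ^ k) / 2 ^ k = (N b / 2 ^ k) ^ 2 := by field_simp
    rw [this]; linarith
  exact (div_le_div_iff_of_pos_right h9).1 this

theorem idem_pow {f : A} (hf : f * f = f) (hc : Cen f) (x : A) (m : ℕ) :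
    f * ((1 + x) ^ m - 1) = (1 + f * x) ^ m - 1 := by
  induction m with
  | zero => simp
  | succ m ih =>
    have e : (1 + f * x) ^ m = 1 + f * ((1 + x) ^ m - 1) := by rw [ih]; abel
    have e2 : f * ((1 + x) ^ m - 1) * (f * x) = f * ((1 + x) ^ m - 1) * x := by
      rw [← mul_assoc, mul_assoc f, ← hc, ← mul_assoc, hf]
    rw [pow_succ, pow_succ, e, add_mul, mul_add (f * _), e2]; noncomm_ring

variable [FirstCountableTopology A] [T2Space A] [LocallyCompactSpace A]

/-- archimedean: upper directions of a family are tangent to the intersection -/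
theorem te (h : Arch s) {G : ℕ → Set A} (hG : ∀ n, UG (G n)) (ha : Antitone G) {f : A}
    (hf : f * f = f) (hc : Cen f) {X : A} (hX : X ∈ s.Dir G) (hfX : f * X = 0) :
    X ∈ s.Tan ((⋂ n, closure (G n)) ∩ Fx f) := by
  obtain ⟨N, h1, h2, h3, h4, hN⟩ := h.ex
  obtain ⟨j, b, hj, hb, hg⟩ := seq_of_Dir hX
  have tN : ∀ {u : ℕ → A}, Tendsto u atTop (𝓝 0) ↔ ∀ ε > 0, ∀ᶠ n in atTop, N (u n) < ε :=
    fun {u} => hN.tendsto_right_iff
  intro V hV
  obtain ⟨V', hV', hVV, hK⟩ := local_compact_nhds hV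
  obtain ⟨ε, hε, hεV⟩ := hN.mem_iff.1 ((continuous_add_const X).continuousAt.preimage_mem_nhds
    (x := 0) (t := V') (by simpa using hV'))
  have t2 : ∀ c : ℝ, Tendsto (fun k : ℕ => c / 2 ^ k) atTop (𝓝 0) := fun c =>
    tendsto_const_nhds.div_atTop (tendsto_pow_atTop_atTop_of_one_lt one_lt_two)
  filter_upwards [(t2 (N X + 1)).eventually (gt_mem_nhds one_pos),
    (t2 ((N X + 1) ^ 2)).eventually (gt_mem_nhds (half_pos hε))] with k k1 k2
  let a : ℕ → A := fun n => s.q ^ k * ((1 + s.p ^ j n * b n) ^ 2 ^ (j n - k) - 1)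
  have ea : ∀ n, 1 + s.p ^ k * a n = (1 + s.p ^ j n * b n) ^ 2 ^ (j n - k) := fun n => by
    simp only [a]; rw [← mul_assoc, s.pq_pow, one_mul]; abel
  have h9 : (0 : ℝ) < 2 ^ k := by positivity
  have hb0 := tN.1 (tendsto_sub_nhds_zero_iff.2 hb)
  have ev : ∀ᶠ n in atTop, a n ∈ V' := by
    filter_upwards [hj.eventually_ge_atTop k, hb0 1 one_pos, hb0 _ (half_pos hε)] with n n1 n2 n3
    have b1 : N (b n) ≤ N X + 1 := by
      have := h1 X (b n - X); rw [add_sub_cancel] at this; linarith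
    have b2 := est h1 h2 h3 h4 h.two n1 (b n) (((div_le_div_iff_of_pos_right h9).2 b1).trans k1.le)
    have b3 : N (b n) ^ 2 / 2 ^ k ≤ (N X + 1) ^ 2 / 2 ^ k :=
      (div_le_div_iff_of_pos_right h9).2 (pow_le_pow_left₀ (h4 _) b1 2)
    have b4 := h1 (a n - b n) (b n - X)
    have : a n - X ∈ {x | N x < ε} := by
      rw [sub_add_sub_cancel] at b4
      simp only [Set.mem_ofPred_eq]; linarith
    simpa using hεV this
  obtain ⟨a0, ha0, φ, hφ, hl⟩ := hK.tendsto_subseq' ev.frequently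
  have hl1 : Tendsto (fun n => 1 + s.p ^ k * a (φ n)) atTop (𝓝 (1 + s.p ^ k * a0)) :=
    (hl.const_mul _).const_add 1
  have hm : ∀ n, 1 + s.p ^ k * a0 ∈ closure (G n) := fun n => by
    refine mem_closure_of_tendsto hl1 ?_
    filter_upwards [hφ.tendsto_atTop.eventually_ge_atTop n] with m hm
    rw [ea]; exact ha hm ((hG _).pow (hg _) _)
  have hf0 : f * a0 = 0 := by
    have f1 : Tendsto (fun n => f * b n) atTop (𝓝 0) := hfX ▸ hb.const_mul f
    have f2 : Tendsto (fun n => f * a n - f * b n) atTop (𝓝 0) := by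
      refine tN.2 fun δ hδ => ?_
      filter_upwards [hj.eventually_ge_atTop k, tN.1 f1 1 one_pos, tN.1 f1 δ hδ] with n n1 n2 n3
      have o1 : (1 : ℝ) ≤ 2 ^ k := one_le_pow₀ one_le_two
      have b2 := est h1 h2 h3 h4 h.two n1 (f * b n) ((div_le_one h9).2 (n2.le.trans o1))
      have : f * a n = s.q ^ k * ((1 + s.p ^ j n * (f * b n)) ^ 2 ^ (j n - k) - 1) := by
        simp only [a]
        rw [← s.mv, ← idem_pow hf hc, ← mul_assoc, ← mul_assoc, s.cq.pow k f]
      rw [this]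
      have b3 : N (f * b n) ^ 2 / 2 ^ k ≤ N (f * b n) ^ 2 := div_le_self (sq_nonneg _) o1
      nlinarith [h4 (f * b n)]
    have f3 : Tendsto (fun n => f * a n) atTop (𝓝 0) := by simpa using f2.add f1
    exact tendsto_nhds_unique (hl.const_mul f) (f3.comp hφ.tendsto_atTop)
  exact ⟨a0, hVV ha0, Set.mem_iInter.2 hm, (hG 0).closure.uni _ (hm 0),
    (hG 0).closure.uni' (hm 0), by rw [mul_add, mul_one, s.mv, hf0, mul_zero, add_zero]⟩

/-- `p`-adic: a non-central element near `1` has a non-central logarithm -/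
theorem nc (h : Pad s) : ∃ V ∈ 𝓝 (1 : A), ∀ {H : Set A}, UG H → ∀ γ ∈ H, γ ∈ V → ∀ f y : A,
    Cen f → f * (γ * y - y * γ) ≠ 0 → ∃ X ∈ s.Tan H, ∃ y', f * (X * y' - y' * X) ≠ 0 := by
  classical
  obtain ⟨P, hP, R, ho, hK⟩ := h.ex
  have R0 : (R : Set A) ∈ 𝓝 (0 : A) := ho.mem_nhds R.zero_mem
  have pR : s.p ∈ R := hP ▸ natCast_mem R P
  refine ⟨_, ball_nhds (s := s) R0 2, ?_⟩
  rintro H hH γ hγ ⟨b0, hb0, e0⟩ f y0 hf hd
  -- normalise `y`
  obtain ⟨y, c0R, c0N⟩ : ∃ y, f * (γ * y - y * γ) ∈ R ∧ s.q * (f * (γ * y - y * γ)) ∉ R := by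
    set d := f * (γ * y0 - y0 * γ)
    obtain ⟨n, hn⟩ := ((s.tend.mul_const d).eventually (p := (· ∈ R))
      (by rw [zero_mul]; exact R0)).exists
    have ex : ∃ l, s.q ^ (l + 1) * (s.p ^ n * d) ∉ R := by
      by_contra hc
      push Not at hc
      have h0 : s.p ^ n * d ≠ 0 := fun h => hd (s.cancel (k := n) (by rw [h, mul_zero]))
      obtain ⟨l, hl⟩ := ((tendsto_add_atTop_nat 1).eventually
        (tube (s := s) hK (isOpen_compl_singleton.mem_nhds h0.symm))).exists
      have := hl _ (hc l)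
      rw [← mul_assoc (s.p ^ (l + 1)), s.pq_pow, one_mul] at this
      exact this rfl
    have cu := (s.cq.pow (Nat.find ex)).mul (s.cen.pow n)
    have e : ∀ u, Cen u → f * (γ * (u * y0) - u * y0 * γ) = u * d := fun u hu => by
      rw [← mul_assoc γ, ← hu γ, mul_assoc u, mul_assoc u, ← mul_sub, ← mul_assoc, hf u, mul_assoc]
    refine ⟨s.q ^ Nat.find ex * s.p ^ n * y0, ?_, ?_⟩
    · rw [e _ cu, mul_assoc]
      rcases h1 : Nat.find ex with _ | l
      · simpa using hn
      · have := Nat.find_min ex (m := l) (by omega)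
        exact not_not.1 this
    · rw [e _ cu, mul_assoc, ← mul_assoc, ← pow_succ']; exact Nat.find_spec ex
  have bin : ∀ x ∈ R, ∀ m : ℕ, ∃ r ∈ R, (1 + x) ^ m = 1 + m • x + x * x * r := by
    intro x hx m
    induction m with
    | zero => exact ⟨0, zero_mem _, by simp⟩
    | succ m ih =>
      obtain ⟨r, hr, e⟩ := ih
      refine ⟨m + r + r * x, add_mem (add_mem (natCast_mem R m) hr) (mul_mem hr hx), ?_⟩
      have : x * x * (m : A) = m • x * x := by
        rw [← (Nat.cast_commute m (x * x)).eq, nsmul_eq_mul, mul_assoc]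
      rw [pow_succ, e, succ_nsmul, mul_add (x * x), mul_add (x * x), this]; noncomm_ring
  have com : ∀ r ∈ R, ∀ c ∈ R, ∀ i : ℕ, f * ((1 + s.p ^ 2 * r) * y - y * (1 + s.p ^ 2 * r)) =
      s.p ^ i * c → ∀ m : ℕ, ∃ w ∈ R, f * ((1 + s.p ^ 2 * r) ^ m * y - y * (1 + s.p ^ 2 * r) ^ m)
        = s.p ^ i * (m • c + s.p ^ 2 * w) := by
    intro r hr c hc i e m
    have gR : 1 + s.p ^ 2 * r ∈ R := add_mem (one_mem _) (mul_mem (pow_mem pR 2) hr)
    induction m with
    | zero => exact ⟨0, zero_mem _, by simp⟩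
    | succ m ih =>
      obtain ⟨w, hw, e1⟩ := ih
      obtain ⟨r', hr', e2⟩ := bin _ (mul_mem (pow_mem pR 2) hr) m
      refine ⟨(m • r + r * (s.p ^ 2 * r) * r') * c + m • c * r + w * (1 + s.p ^ 2 * r),
        add_mem (add_mem (mul_mem (add_mem (nsmul_mem hr m) (mul_mem (mul_mem hr
          (mul_mem (pow_mem pR 2) hr)) hr')) hc) (mul_mem (nsmul_mem hc m) hr)) (mul_mem hw gR), ?_⟩
      set g := 1 + s.p ^ 2 * r with hg
      have e3 : f * (g ^ (m + 1) * y - y * g ^ (m + 1)) =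
          g ^ m * (f * (g * y - y * g)) + f * (g ^ m * y - y * g ^ m) * g := by
        rw [← mul_assoc (g ^ m), ← hf (g ^ m), pow_succ]; noncomm_ring
      rw [e3, e, e1, s.mv, mul_assoc, ← mul_add]
      congr 1
      rw [e2, succ_nsmul, add_mul (m • c), hg, mul_add (m • c), s.mv 2 (m • c), ← mul_smul_comm]
      noncomm_ring
  let b : ℕ → A := fun i => s.q ^ (i + 2) * (γ ^ P ^ i - 1)
  have eb : ∀ i, 1 + s.p ^ (i + 2) * b i = γ ^ P ^ i := fun i => by
    simp only [b]; rw [← mul_assoc, s.pq_pow, one_mul]; abel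
  have st : ∀ i, b i ∈ R → ∃ w ∈ R, b (i + 1) = b i + s.p ^ (i + 1) * w := by
    intro i hi
    obtain ⟨r, hr, e⟩ := bin _ (mul_mem (pow_mem pR (i + 2)) hi) P
    refine ⟨b i * b i * r, mul_mem (mul_mem hi hi) hr, s.cancel (k := i + 1 + 2) ?_⟩
    rw [eb, ← pow_mul, ← pow_succ, ← eb, add_assoc 1, add_right_inj] at e
    rw [e, nsmul_eq_mul, ← hP]
    generalize b i = c
    rw [mul_add, mul_assoc (s.p ^ (i + 2)) c, s.mv _ c, ← mul_assoc s.p,
      ← pow_succ', ← mul_assoc (s.p ^ (i + 1 + 2)), ← pow_add, ← mul_assoc (s.p ^ (i + 2)),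
      ← pow_add, mul_assoc (s.p ^ _)]
    congr 3; omega
  have b0' : b 0 = b0 := s.cancel (k := 0 + 2) (by
    have := eb 0; rw [pow_zero, pow_one, e0, add_right_inj] at this; exact this)
  have bR : ∀ i, b i ∈ R := by
    intro i
    induction i with
    | zero => rw [b0']; exact hb0
    | succ i ih =>
      obtain ⟨w, hw, e⟩ := st i ih
      rw [e]; exact add_mem ih (mul_mem (pow_mem pR _) hw)
  have cau : ∀ i l, ∃ w ∈ R, b (i + l) = b i + s.p ^ i * w := by
    intro i l
    induction l with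
    | zero => exact ⟨0, zero_mem _, by simp⟩
    | succ l ih =>
      obtain ⟨w, hw, e⟩ := ih
      obtain ⟨w', hw', e'⟩ := st _ (bR (i + l))
      refine ⟨w + s.p ^ (l + 1) * w', add_mem hw (mul_mem (pow_mem pR _) hw'), ?_⟩
      rw [← add_assoc, e', e, add_assoc i, pow_add]; noncomm_ring
  obtain ⟨β, -, φ, hφ, hl⟩ := hK.tendsto_subseq bR
  have lim : Tendsto b atTop (𝓝 β) := by
    intro V hV
    have h1 := (continuous_add (M := A)).continuousAt.preimage_mem_nhds (x := (β, 0)) (t := V)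
      (by simpa using hV)
    rw [nhds_prod_eq] at h1
    obtain ⟨V1, hV1, V2, hV2, h2⟩ := mem_prod_iff.1 h1
    obtain ⟨n, n1, n2⟩ := ((hl.eventually hV1).and
      (hφ.tendsto_atTop.eventually (tube (s := s) hK hV2))).exists
    rw [mem_map]
    filter_upwards [eventually_ge_atTop (φ n)] with i hi
    obtain ⟨l, rfl⟩ := Nat.exists_eq_add_of_le hi
    obtain ⟨w, hw, e⟩ := cau (φ n) l
    rw [Set.mem_preimage, e]
    exact h2 (Set.mk_mem_prod n1 (n2 w hw))
  refine ⟨β, Tan_of_seq (lim.comp (tendsto_sub_atTop_nat 2)) ?_, y, fun h0 => c0N ?_⟩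
  · filter_upwards [eventually_ge_atTop 2] with k hk
    obtain ⟨i, rfl⟩ := Nat.exists_eq_add_of_le' hk
    simp only [Function.comp_apply, Nat.add_sub_cancel, eb]
    exact hH.pow hγ _
  · set c0 := f * (γ * y - y * γ) with hc0
    have ind : ∀ i, ∃ w ∈ R, f * (γ ^ P ^ i * y - y * γ ^ P ^ i) = s.p ^ i * (c0 + s.p * w) := by
      intro i
      induction i with
      | zero => exact ⟨0, zero_mem _, by simp [hc0]⟩
      | succ i ih =>
        obtain ⟨w, hw, e⟩ := ih
        have e1 : γ ^ P ^ i = 1 + s.p ^ 2 * (s.p ^ i * b i) := by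
          rw [← eb, ← mul_assoc (s.p ^ 2), ← pow_add, add_comm 2]
        rw [e1] at e
        obtain ⟨w', hw', e'⟩ := com _ (mul_mem (pow_mem pR i) (bR i)) _
          (add_mem c0R (mul_mem pR hw)) i e P
        refine ⟨w + w', add_mem hw hw', ?_⟩
        rw [pow_succ P, pow_mul, e1, e', nsmul_eq_mul, ← hP, pow_succ, pow_succ, pow_succ]
        noncomm_ring
    have t1 : Tendsto (fun i => s.q * (c0 - s.p ^ 2 * (f * (b i * y - y * b i)))) atTop
        (𝓝 (s.q * (c0 - s.p ^ 2 * (f * (β * y - y * β))))) :=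
      (((((lim.mul_const y).sub (lim.const_mul y)).const_mul f).const_mul _).const_sub c0).const_mul _
    rw [h0, mul_zero, sub_zero] at t1
    refine hK.isClosed.mem_of_tendsto t1 (Eventually.of_forall fun i => ?_)
    obtain ⟨w, hw, e⟩ := ind i
    have : s.p ^ 2 * (f * (b i * y - y * b i)) = c0 + s.p * w := by
      apply s.cancel (k := i)
      rw [← e, ← eb, ← mul_assoc, ← pow_add, ← s.mv, mul_add y, s.mv _ y]
      noncomm_ring
    rw [this, sub_add_cancel_left, mul_neg, ← mul_assoc, s.qp, one_mul]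
    exact neg_mem hw

/-- commutators of rational unitary elements -/
theorem comS_Tan (R : Subring A) (hd : Dense (R : Set A)) (hp : s.p ∈ R) {h : A}
    (hh : 2 * h = 1) (hh' : h ∈ R) (hst : ∀ x ∈ R, star x ∈ R)
    (hi : ∀ x ∈ R, ∀ y, x * y = 1 → y * x = 1 → y ∈ R) {L : Set A} (hL : UG L)
    (hc : ∀ a ∈ (R : Set A) ∩ Fx 0, ∀ b ∈ (R : Set A) ∩ Fx 0, a * b * star a * star b ∈ L) :
    ∀ x ∈ comS A, x ∈ s.Tan L := by
  have u : UG ((R : Set A) ∩ Fx 0) :=
    ⟨⟨R.one_mem, ug_Fx.one⟩, fun a ha b hb => ⟨R.mul_mem ha.1 hb.1, ug_Fx.mul a ha.2 b hb.2⟩,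
      fun a ha => ⟨hst a ha.1, ug_Fx.star a ha.2⟩, fun a ha => ha.2.1⟩
  refine (AddSubgroup.closure_le (TanG (s := s) hL)).2 ?_
  rintro _ ⟨a, b, ha, hb, rfl⟩
  exact Tan_com u u hc (skew_mem_Tan R hd hp hh hh' hst hi ha)
    (skew_mem_Tan R hd hp hh hh' hst hi hb)

theorem Dir_comS (g : Good A) {SG : Set A} (hS : UG SG)
    (nd : ∀ z ∈ s.Dir fun _ => SG, Cen z → z = 0) (hs : ∀ x ∈ comS A, x ∈ s.Tan SG) {X : A}
    (hX : X ∈ s.Dir fun _ => SG) : X ∈ comS A := by
  obtain ⟨x, hx, hc⟩ := g.skew_dec (Dir_skew (fun _ => hS) hX)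
  have := nd _ (Dir_add (fun _ => hS) antitone_const (fun _ => subset_rfl) hX
    (hs _ (neg_mem hx))) (by rwa [← sub_eq_add_neg])
  rw [← sub_eq_add_neg, sub_eq_zero] at this
  rwa [this]

/-- a subgroup of `SG` whose tangent cone contains `[𝔲,𝔲]` is dense near `1` -/
theorem nbhd (g : Good A) {SG H : Set A} (hS : UG SG)
    (nd : ∀ z ∈ s.Dir fun _ => SG, Cen z → z = 0) (hH : UG H) (hHS : H ⊆ SG)
    (hs : ∀ x ∈ comS A, x ∈ s.Tan H) : ∃ V ∈ 𝓝 (1 : A), SG ∩ V ⊆ closure H := by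
  obtain ⟨-, h⟩ := opn (s := s) (fun _ => hS) antitone_const hH (fun _ => hHS) fun X hX =>
    hs _ (Dir_comS g hS nd (fun x hx => Tan_mono hHS (hs x hx)) hX)
  exact h

/-- **`p`-adic local theorem** -/
theorem padic (g : Good A) (hp : Pad s) {H L : Set A} (hH : UG H) (hL : UG L)
    (hc : ∀ g ∈ L, ∃ m, 0 < m ∧ ∀ x ∈ H, g * x ^ m * star g ∈ H)
    (hLs : ∀ x ∈ comS A, x ∈ s.Tan L)
    (hn : ∀ f : A, f * f = f → Cen f → f ≠ 0 → ∀ V ∈ 𝓝 (1 : A), ∃ γ ∈ H, γ ∈ V ∧
      ∃ y, f * (γ * y - y * γ) ≠ 0) : ∀ x ∈ comS A, x ∈ s.Tan H := by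
  obtain ⟨e, hee, he, -, h1, h2⟩ := g.lie (TanG (s := s) hH)
    (fun X hX => Dir_skew (fun _ => hH) (Tan_sub_Dir hX))
    fun x hx X hX => Tan_lie hH hL hc hX (hLs x hx)
  have : 1 - e = 0 := by
    by_contra hf
    obtain ⟨V, hV, h⟩ := nc hp
    obtain ⟨γ, h3, h4, y, hy⟩ := hn (1 - e) (by rw [mul_sub, mul_one, sub_mul, one_mul, hee]; abel)
      he.one_sub hf V hV
    obtain ⟨X, hX, y', hy'⟩ := h hH γ h3 h4 _ y he.one_sub hy
    apply hy'
    rw [mul_sub, ← mul_assoc, h2 X hX y', ← mul_assoc, ← he.one_sub y', mul_assoc, sub_self]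
  rw [sub_eq_zero] at this
  intro x hx
  have h3 := h1 x hx
  rwa [← this, one_mul] at h3

/-- **archimedean local theorem** -/
theorem arch (g : Good A) (hp : Arch s) {SG L : Set A} (hS : Spc s SG) {G : ℕ → Set A}
    (hG : ∀ n, UG (G n)) (ha : Antitone G) (hGS : ∀ n, G n ⊆ SG) (hL : UG L) (hLS : L ⊆ SG)
    (hc : ∀ g ∈ L, ∃ m, 0 < m ∧ ∀ n, ∃ n', ∀ x ∈ G n', g * x ^ m * star g ∈ G n)
    (hLs : ∀ x ∈ comS A, x ∈ s.Tan L)
    (hn : ∀ f : A, f * f = f → Cen f → f ≠ 0 → ∀ n, ∀ V ∈ 𝓝 (1 : A), ∃ γ ∈ G n, γ ∈ V ∧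
      f * γ ≠ f) : ∀ x ∈ comS A, x ∈ s.Tan (⋂ n, closure (G n)) := by
  set H := ⋂ n, closure (G n) with hHd
  have hH : UG H := UG.iInter fun n => (hG n).closure
  have hHc : IsClosed H := isClosed_iInter fun _ => isClosed_closure
  have hcS : ∀ n, closure (G n) ⊆ SG := fun n => hS.closed.closure_subset_iff.2 (hGS n)
  have hHS : H ⊆ SG := (Set.iInter_subset _ 0).trans (hcS 0)
  have hc' : ∀ g ∈ L, ∃ m, 0 < m ∧ ∀ x ∈ H, g * x ^ m * star g ∈ H := by
    intro g hg
    obtain ⟨m, hm, h⟩ := hc g hg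
    refine ⟨m, hm, fun x hx => Set.mem_iInter.2 fun n => ?_⟩
    obtain ⟨n', hn'⟩ := h n
    exact map_mem_closure (f := fun x => g * x ^ m * star g) (by fun_prop)
      (Set.mem_iInter.1 hx n') hn'
  obtain ⟨e, hee, he, se, h1, h2⟩ := g.lie (TanG (s := s) hH)
    (fun X hX => Dir_skew (fun _ => hH) (Tan_sub_Dir hX))
    fun x hx X hX => Tan_lie hH hL hc' hX (hLs x hx)
  have : 1 - e = 0 := by
    by_contra hf
    have hff : (1 - e) * (1 - e) = 1 - e := by rw [mul_sub, mul_one, sub_mul, one_mul, hee]; abel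
    obtain ⟨-, V, hV, o1⟩ := opn (s := s) (G := fun _ => SG ∩ Fx (1 - e))
      (fun _ => hS.ug.inter ug_Fx) antitone_const (hH.inter ug_Fx)
      (fun _ => Set.inter_subset_inter_left _ hHS) fun X hX => by
        have x1 := Dir_comS g hS.ug hS.nd (fun x hx => Tan_mono hLS (hLs x hx))
          (Dir_mono (fun _ => Set.inter_subset_left) hX)
        have x2 := Dir_Fx (Dir_mono (fun _ => Set.inter_subset_right) hX)
        have x3 : e * X = X := by rw [sub_mul, one_mul, sub_eq_zero] at x2; exact x2.symm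
        have x4 : X ∈ s.Tan H := x3 ▸ h1 X x1
        have := te hp (fun _ => hH) antitone_const hff he.one_sub (Tan_sub_Dir x4) x2
        rwa [Set.iInter_const, hHc.closure_eq] at this
    have an : Antitone fun n => closure (G n) ∩ Fx e := fun _ _ h =>
      Set.inter_subset_inter_left _ (closure_mono (ha h))
    have u1 : UG ({1} : Set A) := ⟨rfl, by rintro _ rfl _ rfl; simp, by rintro _ rfl; simp,
      by rintro _ rfl; simp⟩
    obtain ⟨n, V', hV', o2⟩ := opn (s := s) (G := fun n => closure (G n) ∩ Fx e)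
      (fun n => (hG n).closure.inter ug_Fx) an u1
      (fun n => by rintro _ rfl; exact ((hG n).closure.inter ug_Fx).one) fun X hX => by
        have x1 := te hp (fun n => (hG n).closure.inter ug_Fx) an (f := 0) (by simp)
          (fun x => by simp) hX (by simp)
        have x2 : X ∈ s.Tan H := Tan_mono (Set.inter_subset_left.trans (Set.iInter_mono fun n =>
          (closure_mono Set.inter_subset_left).trans closure_closure.subset)) x1
        have x3 := Dir_Fx (Dir_mono (fun _ => Set.inter_subset_right) hX)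
        have x4 := h2 X x2
        rw [sub_mul, one_mul, x3, sub_zero] at x4
        rw [hS.nd X (Dir_mono (fun n => Set.inter_subset_left.trans (hcS n)) hX) x4]
        exact (TanG (s := s) u1).zero_mem
    have c1 : Continuous fun x : A => e * x + (1 - e) := by fun_prop
    have c2 : Continuous fun x : A => (1 - e) * x + e := by fun_prop
    obtain ⟨γ, g1, ⟨g2, g3⟩, g4⟩ := hn _ hff he.one_sub hf n _ (inter_mem
      (c1.continuousAt.preimage_mem_nhds (t := V) (by simpa using hV))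
      (c2.continuousAt.preimage_mem_nhds (t := V') (by simpa using hV')))
    have p1 := hS.idem e hee he se γ (hGS n g1)
    have fe : (1 - e) * e = 0 := by rw [sub_mul, one_mul, hee, sub_self]
    have p2 : e * γ + (1 - e) ∈ closure (G n) := Set.mem_iInter.1
      (hHc.closure_subset_iff.2 Set.inter_subset_left (o1 ⟨⟨p1, hS.ug.uni _ p1, hS.ug.uni' p1, by
        rw [mul_add, ← mul_assoc, fe, zero_mul, zero_add, hff]⟩, g2⟩)) n
    have p3 := (hG n).closure.mul _ (subset_closure g1) _ ((hG n).closure.star _ p2)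
    have p4 : γ * star (e * γ + (1 - e)) = (1 - e) * γ + e := by
      rw [star_add, star_mul, se, star_sub, star_one, se, mul_add, ← mul_assoc, (hG n).uni _ g1,
        one_mul, he.one_sub γ, add_comm]
    rw [p4] at p3
    have p5 := o2 ⟨⟨p3, (hG n).closure.uni _ p3, (hG n).closure.uni' p3, by
      rw [mul_add, ← mul_assoc, he (1 - e), fe, zero_mul, zero_add, hee]⟩, g3⟩
    rw [closure_singleton, Set.mem_singleton_iff] at p5
    exact g4 (eq_sub_of_add_eq p5)
  rw [sub_eq_zero] at this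
  intro x hx
  have h3 := h1 x hx
  rwa [← this, one_mul] at h3

end Sc
end Crest.Agent.T24.Sa
end

-- ▼ part T24/SaA_92
section

/-! # Abstract adelic bookkeeping for strong approximation (no restricted products) -/

set_option autoImplicit false
set_option linter.unusedSectionVars false
set_option linter.style.haveILetI false
open Filter Topology

namespace Crest.Agent.T24.Sa

section Comm
variable {A : Type*} [Ring A] [StarRing A] [TopologicalSpace A] [IsTopologicalRing A]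
  [ContinuousStar A] [FirstCountableTopology A] [T2Space A] {s : Sc A}

theorem Sc.Tan_inter {S V : Set A} (hV : V ∈ 𝓝 (1 : A)) {X : A} (hX : X ∈ s.Tan S) :
    X ∈ s.Tan (S ∩ V) := by
  obtain ⟨a, ha, h⟩ := Sc.seq_of_Tan hX
  exact Sc.Tan_of_seq ha (h.and ((Sc.lim1 tendsto_id ha).eventually hV))

/-- the commutator trick -/
theorem Sc.comm_open (g : Good A) {H L : Set A} (hH : UG H) (hL : UG L)
    (hn : ∀ y ∈ L, ∀ x ∈ H, y * x * star y ∈ H) (hLs : ∀ x ∈ comS A, x ∈ s.Tan L) {n : A}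
    (h1 : n * star n = 1) (h2 : star n * n = 1) (hc : ∀ x ∈ L, n * x * star n * star x ∈ H)
    (hnc : ∀ f : A, Cen f → f ≠ 0 → ¬ Cen (f * n)) : ∀ x ∈ comS A, x ∈ s.Tan H := by
  obtain ⟨e, hee, he, -, e1, e2⟩ := g.lie (Sc.TanG (s := s) hH)
    (fun X hX => Sc.Dir_skew (fun _ => hH) (Sc.Tan_sub_Dir hX))
    fun x hx X hX => Sc.Tan_lie hH hL (fun y hy => ⟨1, one_pos, by simpa using hn y hy⟩) hX
      (hLs x hx)
  have : 1 - e = 0 := by
    by_contra hf
    have cf := he.one_sub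
    generalize 1 - e = f at hf cf e2
    have a1 : ∀ X ∈ comS A, Cen (f * (n * X * star n - X)) := by
      intro X hX
      apply e2
      obtain ⟨a, ha, h⟩ := Sc.seq_of_Tan (hLs X hX)
      have t := (((ha.const_mul n).mul_const (star n)).sub ha).mul (Sc.lim1s (s := s) tendsto_id ha)
      rw [mul_one] at t
      refine Sc.Tan_of_seq t (h.mono fun k hk => ?_)
      have h3 := hc _ hk
      have h4 := hL.uni _ hk
      simp only [id]
      generalize star (1 + s.p ^ k * a k) = w at h3 h4 ⊢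
      have : n * (1 + s.p ^ k * a k) * star n * w =
          (1 + s.p ^ k * a k) * w + s.p ^ k * ((n * a k * star n - a k) * w) := by
        rw [mul_add, mul_one, add_mul n, h1, s.mv]; noncomm_ring
      rwa [this, h4] at h3
    have a2 : ∀ u, star u = -u → Cen (f * (n * u * star n - u)) := by
      intro u hu
      obtain ⟨X, hX, hc⟩ := g.skew_dec hu
      have : n * u * star n - u = n * X * star n - X + (n * (u - X) * star n - (u - X)) := by
        noncomm_ring
      rw [this, ← hc n, mul_assoc (u - X), h1, mul_one, sub_self, add_zero]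
      exact a1 X hX
    obtain ⟨θ, θ', hθ, hs, hi⟩ := g.theta
    obtain ⟨h, hh⟩ := g.half
    refine hnc f cf hf (cen_of_dd g.idem hh fun r => ?_)
    obtain ⟨x, y, hx, hy, rfl⟩ := g.dec hθ hs hi r
    have a3 : Cen (f * (n * (x + θ * y) * star n - (x + θ * y))) := by
      have : f * (n * (x + θ * y) * star n - (x + θ * y)) =
          f * (n * x * star n - x) + θ * (f * (n * y * star n - y)) := by
        rw [← mul_assoc θ, hθ f, mul_assoc f θ, mul_sub θ, ← mul_assoc θ, ← mul_assoc θ, hθ n]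
        noncomm_ring
      rw [this]
      exact fun z => by rw [add_mul, mul_add, a2 x hx, (hθ.mul (a2 y hy)) z]
    generalize x + θ * y = r at a3
    have a4 : f * n * r - r * (f * n) = f * (n * r * star n - r) * n := by
      rw [mul_assoc f _ n, sub_mul, mul_assoc _ (star n), h2, mul_one, ← mul_assoc r, ← cf r]
      noncomm_ring
    rw [a4]
    generalize f * (n * r * star n - r) = c at a3
    rw [← mul_assoc, ← a3, mul_assoc c n, ← mul_assoc n, ← cf n, mul_assoc c, sub_self]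
  rw [sub_eq_zero] at this
  intro x hx
  have h3 := e1 x hx
  rwa [← this, one_mul] at h3

end Comm

/-- a group with its local components -/
structure Adl (Γ : Type*) [Group Γ] (G₀ : Type*) [Group G₀] {I : Type*} (G : I → Type*)
    [∀ u, Group (G u)] [∀ u, TopologicalSpace (G u)] where
  j₀ : Γ →* G₀
  j : ∀ u, Γ →* G u
  K : ∀ u, Subgroup (G u)
  opn : ∀ u, IsOpen (K u : Set (G u))
  fin : ∀ γ, {u | j u γ ∉ K u}.Finite

namespace Adl
variable {Γ : Type*} [Group Γ] {G₀ : Type*} [Group G₀] [TopologicalSpace G₀]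
  [IsTopologicalGroup G₀] {I : Type*} [DecidableEq I] {G : I → Type*} [∀ u, Group (G u)]
  [∀ u, TopologicalSpace (G u)] [∀ u, IsTopologicalGroup (G u)] (D : Adl Γ G₀ G)

/-- diagonal -/
def jP : Γ →* G₀ × ∀ u, G u := D.j₀.prod (MonoidHom.pi D.j)

/-- integral off `S` -/
def Gm (S : Set I) : Subgroup Γ where
  carrier := {γ | ∀ u ∉ S, D.j u γ ∈ D.K u}
  one_mem' u _ := by rw [map_one]; exact one_mem _
  mul_mem' ha hb u hu := by rw [map_mul]; exact mul_mem (ha u hu) (hb u hu)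
  inv_mem' ha u hu := by rw [map_inv]; exact inv_mem (ha u hu)

/-- the closure at level `S` -/
def H (N : Subgroup Γ) (S : Set I) : Subgroup (G₀ × ∀ u, G u) :=
  ((N ⊓ D.Gm S).map D.jP).topologicalClosure

theorem closed_H (N : Subgroup Γ) (S : Set I) : IsClosed (D.H N S : Set (G₀ × ∀ u, G u)) :=
  Subgroup.isClosed_topologicalClosure _

theorem H_mono (N : Subgroup Γ) {S S' : Set I} (h : S ⊆ S') : D.H N S ≤ D.H N S' :=
  closure_mono (Set.image_mono fun _ hγ => ⟨hγ.1, fun u hu => hγ.2 u fun h' => hu (h h')⟩)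

theorem mem_H {N : Subgroup Γ} {S : Set I} {γ : Γ} (h : γ ∈ N) (h' : γ ∈ D.Gm S) :
    D.jP γ ∈ D.H N S := subset_closure ⟨γ, ⟨h, h'⟩, rfl⟩

/-- the adelic closure -/
def HH (N : Subgroup Γ) : Subgroup (G₀ × ∀ u, G u) where
  carrier := {x | ∃ S : Set I, S.Finite ∧ x ∈ D.H N S}
  one_mem' := ⟨∅, Set.finite_empty, one_mem _⟩
  mul_mem' := fun ⟨S, hS, h⟩ ⟨S', hS', h'⟩ => ⟨S ∪ S', hS.union hS',
    mul_mem (D.H_mono N Set.subset_union_left h) (D.H_mono N Set.subset_union_right h')⟩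
  inv_mem' := fun ⟨S, hS, h⟩ => ⟨S, hS, inv_mem h⟩

theorem mem_HH {N : Subgroup Γ} {γ : Γ} (h : γ ∈ N) : D.jP γ ∈ D.HH N :=
  ⟨_, D.fin γ, D.mem_H h fun _ hu => not_not.1 hu⟩

theorem loc {N : Subgroup Γ} {S : Set I} {x : G₀ × ∀ u, G u} (hx : x ∈ D.HH N)
    (h : ∀ u ∉ S, x.2 u ∈ D.K u) : x ∈ D.H N S := by
  obtain ⟨S', hS', hx⟩ := hx
  have ho : IsOpen (⋂ u ∈ S' \ S, {y : G₀ × ∀ u, G u | y.2 u ∈ D.K u}) :=
    hS'.sdiff.isOpen_biInter fun u _ => (D.opn u).preimage (by fun_prop)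
  refine closure_mono ?_ (ho.inter_closure ⟨Set.mem_biInter fun u hu => h u hu.2, hx⟩)
  rintro _ ⟨h1, γ, ⟨h2, h3⟩, rfl⟩
  refine ⟨γ, ⟨h2, fun u hu => ?_⟩, rfl⟩
  by_cases h4 : u ∈ S'
  · exact Set.mem_iInter₂.1 h1 u ⟨h4, hu⟩
  · exact h3 u h4

/-- the component at `u` -/
def sg (G₀ : Type*) [Group G₀] (u : I) : G u →* G₀ × ∀ u, G u :=
  (MonoidHom.inr G₀ _).comp (MonoidHom.mulSingle G u)

theorem continuous_sg (u : I) : Continuous (sg (G := G) G₀ u) :=
  continuous_const.prodMk (continuous_mulSingle u)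

/-- the archimedean part of the closure -/
def V₀ (N : Subgroup Γ) : Subgroup G₀ := (D.HH N).comap (MonoidHom.inl _ _)

/-- the part of the closure at `u` -/
def V (N : Subgroup Γ) (u : I) : Subgroup (G u) := (D.HH N).comap (sg G₀ u)

theorem V₀_iff {N : Subgroup Γ} (S : Set I) (hS : S.Finite) {g : G₀} :
    g ∈ D.V₀ N ↔ (g, 1) ∈ D.H N S :=
  ⟨fun h => D.loc h fun _ _ => one_mem _, fun h => ⟨S, hS, h⟩⟩

theorem V_iff {N : Subgroup Γ} {u : I} {g : G u} : g ∈ D.V N u ↔ sg G₀ u g ∈ D.H N {u} :=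
  ⟨fun h => D.loc h fun u' hu => by
    change Pi.mulSingle u g u' ∈ _
    rw [Pi.mulSingle_eq_of_ne hu]; exact one_mem _, fun h => ⟨_, Set.finite_singleton u, h⟩⟩

theorem closed_V₀ (N : Subgroup Γ) : IsClosed (D.V₀ N : Set G₀) := by
  have : (D.V₀ N : Set G₀) = (fun g => (g, 1)) ⁻¹' (D.H N ∅ : Set (G₀ × ∀ u, G u)) :=
    Set.ext fun _ => D.V₀_iff ∅ Set.finite_empty
  rw [this]; exact (D.closed_H N ∅).preimage (by fun_prop)

theorem closed_V (N : Subgroup Γ) (u : I) : IsClosed (D.V N u : Set (G u)) := by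
  have : (D.V N u : Set (G u)) = sg G₀ u ⁻¹' D.H N {u} := Set.ext fun _ => D.V_iff
  rw [this]; exact (D.closed_H N _).preimage (continuous_sg u)

theorem glue {N : Subgroup Γ} {S : Set I} {x : G₀ × ∀ u, G u} (h₀ : x.1 ∈ D.V₀ N)
    (h : ∀ u, x.2 u ∈ D.V N u) (hK : ∀ u ∉ S, x.2 u ∈ D.K u) : x ∈ D.H N S := by
  let y : Finset I → G₀ × ∀ u, G u := fun F => (x.1, fun u => if u ∈ F then x.2 u else 1)
  have h1 : ∀ F, y F ∈ D.HH N := by
    intro F
    induction F using Finset.induction_on with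
    | empty => exact h₀
    | insert a F ha ih =>
      have : y (insert a F) = y F * sg G₀ a (x.2 a) := by
        refine Prod.ext (mul_one _).symm (funext fun u => ?_)
        change _ = (if u ∈ F then x.2 u else 1) * Pi.mulSingle a (x.2 a) u
        by_cases hu : u = a
        · subst hu; simp [y, ha]
        · simp [y, hu]
      rw [this]; exact mul_mem ih (h a)
  have h2 : Tendsto y atTop (𝓝 x) := by
    refine tendsto_const_nhds.prodMk_nhds (tendsto_pi_nhds.2 fun u => tendsto_const_nhds.congr' ?_)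
    filter_upwards [eventually_ge_atTop {u}] with F hF
    rw [if_pos (hF (Finset.mem_singleton_self u))]
  refine (D.closed_H N S).mem_of_tendsto h2 (Eventually.of_forall fun F => D.loc (h1 F) fun u hu => ?_)
  simp only [y]
  split_ifs
  · exact hK u hu
  · exact one_mem _

theorem conj {N : Subgroup Γ} [hN : N.Normal] {y x : G₀ × ∀ u, G u} (hy : y ∈ D.HH ⊤)
    (hx : x ∈ D.HH N) : y * x * y⁻¹ ∈ D.HH N := by
  obtain ⟨S, hS, hy⟩ := hy
  obtain ⟨S', hS', hx⟩ := hx
  refine ⟨S ∪ S', hS.union hS', ?_⟩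
  refine map_mem_closure₂ (f := fun y x : G₀ × ∀ u, G u => y * x * y⁻¹) (by fun_prop)
    (D.H_mono _ (S' := S ∪ S') Set.subset_union_left hy)
    (D.H_mono _ (S' := S ∪ S') Set.subset_union_right hx) ?_
  rintro _ ⟨a, ⟨-, ha⟩, rfl⟩ _ ⟨b, ⟨hb, hb'⟩, rfl⟩
  exact ⟨a * b * a⁻¹, ⟨hN.conj_mem _ hb _, (D.Gm _).mul_mem ((D.Gm _).mul_mem ha hb')
    ((D.Gm _).inv_mem ha)⟩, by simp⟩

theorem conj_V₀ {N : Subgroup Γ} [N.Normal] {y x : G₀} (hy : y ∈ D.V₀ ⊤) (hx : x ∈ D.V₀ N) :
    y * x * y⁻¹ ∈ D.V₀ N := by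
  have := D.conj hy hx
  rwa [← map_inv, ← map_mul, ← map_mul] at this

theorem conj_V {N : Subgroup Γ} [N.Normal] {u : I} {y x : G u} (hy : y ∈ D.V ⊤ u)
    (hx : x ∈ D.V N u) : y * x * y⁻¹ ∈ D.V N u := by
  have := D.conj hy hx
  rwa [← map_inv, ← map_mul, ← map_mul] at this

theorem comm_V₀ {N : Subgroup Γ} [N.Normal] {n : Γ} (hn : n ∈ N) {x : G₀} (hx : x ∈ D.V₀ ⊤) :
    D.j₀ n * x * (D.j₀ n)⁻¹ * x⁻¹ ∈ D.V₀ N := by
  have := mul_mem (D.mem_HH hn) (D.conj hx (inv_mem (D.mem_HH hn)))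
  rw [V₀, Subgroup.mem_comap]
  convert this using 1
  exact Prod.ext (by simp [jP, mul_assoc]) (by simp)

theorem comm_V {N : Subgroup Γ} [N.Normal] {n : Γ} (hn : n ∈ N) {u : I} {x : G u}
    (hx : x ∈ D.V ⊤ u) : D.j u n * x * (D.j u n)⁻¹ * x⁻¹ ∈ D.V N u := by
  have := mul_mem (D.mem_HH hn) (D.conj hx (inv_mem (D.mem_HH hn)))
  rw [V, Subgroup.mem_comap]
  convert this using 1
  refine Prod.ext (by simp [sg]) (funext fun u' => ?_)
  by_cases h : u' = u
  · subst h; simp [sg, jP, mul_assoc]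
  · simp [sg, jP, h]

theorem mem_of_box {C : Set (G₀ × ∀ u, G u)} (hC : IsClosed C) {x : G₀ × ∀ u, G u}
    (h : ∀ U₀ ∈ 𝓝 x.1, ∀ F : Set I, F.Finite → ∀ U : ∀ u, Set (G u), (∀ u, U u ∈ 𝓝 (x.2 u)) →
      ∃ y ∈ C, y.1 ∈ U₀ ∧ ∀ u ∈ F, y.2 u ∈ U u) : x ∈ C := by
  apply hC.closure_subset
  rw [mem_closure_iff_nhds]
  intro W hW
  rw [nhds_prod_eq] at hW
  obtain ⟨U₀, h₀, W', hW', h1⟩ := mem_prod_iff.1 hW
  rw [nhds_pi] at hW'
  obtain ⟨F, hF, U, hU, h2⟩ := mem_pi.1 hW'
  obtain ⟨y, hy, h3, h4⟩ := h U₀ h₀ F hF U hU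
  exact ⟨y, h1 (Set.mk_mem_prod h3 (h2 h4)), hy⟩

theorem crit₀ {N : Subgroup Γ} {g : G₀}
    (h : ∀ U₀ ∈ 𝓝 g, ∀ F : Set I, F.Finite → ∀ U : ∀ u, Set (G u), (∀ u, U u ∈ 𝓝 1) →
      ∃ γ ∈ N, γ ∈ D.Gm ∅ ∧ D.j₀ γ ∈ U₀ ∧ ∀ u ∈ F, D.j u γ ∈ U u) : g ∈ D.V₀ N := by
  refine (D.V₀_iff ∅ Set.finite_empty).2 (mem_of_box (D.closed_H _ _) fun U₀ h₀ F hF U hU => ?_)
  obtain ⟨γ, h1, h2, h3, h4⟩ := h U₀ h₀ F hF U hU
  exact ⟨_, D.mem_H h1 h2, h3, h4⟩

theorem crit {N : Subgroup Γ} (h₀ : D.V₀ N = ⊤) {v : I} {g : G v}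
    (h : ∀ W ∈ 𝓝 g, ∀ F : Set I, F.Finite → v ∉ F → ∀ U : ∀ u, Set (G u), (∀ u ∈ F, U u ∈ 𝓝 1) →
      ∃ γ ∈ N, γ ∈ D.Gm {v} ∧ D.j v γ ∈ W ∧ ∀ u ∈ F, D.j u γ ∈ U u) : g ∈ D.V N v := by
  refine D.V_iff.2 (mem_of_box (D.closed_H _ _) fun U₀ hU₀ F hF U hU => ?_)
  obtain ⟨γ, h1, h2, h3, h4⟩ := h (U v) (by simpa [sg] using hU v) (F \ {v}) hF.sdiff (by simp) U
    fun u hu => by simpa [sg, Pi.mulSingle_eq_of_ne hu.2] using hU u
  refine ⟨_, mul_mem (D.mem_H h1 h2) (inv_mem ((D.V₀_iff {v} (Set.finite_singleton v)).1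
    (h₀ ▸ Subgroup.mem_top (D.j₀ γ)))), ?_, fun u hu => ?_⟩
  · simpa [jP, sg] using mem_of_mem_nhds hU₀
  · by_cases h5 : u = v
    · subst h5; simpa [jP] using h3
    · simpa [jP] using h4 u ⟨hu, h5⟩

theorem critT {N : Subgroup Γ} (h₀ : D.V₀ N = ⊤) {T : Set I} (hT : T.Finite)
    (h₁ : ∀ u ∉ T, D.V N u = ⊤) {v : I} (hv : v ∈ T) {g : G v}
    (h : ∀ U : ∀ u, Set (G u), (∀ u, U u ∈ 𝓝 (Pi.mulSingle v g u)) →
      ∃ γ ∈ N, ∀ u ∈ T, D.j u γ ∈ U u) : g ∈ D.V N v := by
  classical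
  refine ⟨T, hT, mem_of_box (D.closed_H _ _) fun U₀ hU₀ F _ U hU => ?_⟩
  obtain ⟨γ, h1, h2⟩ := h U hU
  have h3 : ((D.j₀ γ, fun u => if u ∈ T then 1 else D.j u γ) : G₀ × ∀ u, G u) ∈ D.HH N :=
    ⟨_, D.fin γ, D.glue (h₀ ▸ Subgroup.mem_top _) (fun u => by
      simp only
      split_ifs with h4
      · exact one_mem _
      · exact h₁ u h4 ▸ Subgroup.mem_top _) fun u hu => by
      simp only
      split_ifs
      · exact one_mem _
      · exact not_not.1 hu⟩
  refine ⟨_, D.loc (mul_mem (D.mem_HH h1) (inv_mem h3)) fun u hu => by simp [jP, hu], ?_,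
    fun u _ => ?_⟩
  · simpa [jP, sg] using mem_of_mem_nhds hU₀
  · by_cases h4 : u ∈ T
    · simpa [jP, h4] using h2 u h4
    · have h5 : u ≠ v := fun h => h4 (h ▸ hv)
      simpa [jP, h4, sg, h5] using mem_of_mem_nhds (hU u)

/-- congruence subgroups -/
def Dl (S F : Set I) (W : ∀ u, Subgroup (G u)) : Subgroup Γ :=
  D.Gm S ⊓ ⨅ u ∈ F, (W u).comap (D.j u)

theorem mem_Dl {S F : Set I} {W : ∀ u, Subgroup (G u)} {γ : Γ} :
    γ ∈ D.Dl S F W ↔ γ ∈ D.Gm S ∧ ∀ u ∈ F, D.j u γ ∈ W u := by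
  simp [Dl, Subgroup.mem_iInf]

theorem exists_pow {G : Type*} [Group G] [TopologicalSpace G] [IsTopologicalGroup G]
    {K W : Subgroup G} (hK : IsCompact (K : Set G)) (hW : IsOpen (W : Set G)) :
    ∃ m, 0 < m ∧ ∀ x ∈ K, x ^ m ∈ W := by
  haveI : CompactSpace K := isCompact_iff_compactSpace.1 hK
  haveI := Subgroup.quotient_finite_of_isOpen (W.subgroupOf K) (hW.preimage continuous_subtype_val)
  have : (W.subgroupOf K).FiniteIndex := Subgroup.finiteIndex_of_finite_quotient
  exact ⟨(W.relIndex K).factorial, Nat.factorial_pos _, fun x hx =>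
    (Subgroup.pow_mem_of_relIndex_ne_zero_of_dvd this.1 hx fun m h1 h2 => Nat.dvd_factorial h1 h2).1⟩

/-- commensuration -/
theorem commens (hK : ∀ u, IsCompact (D.K u : Set (G u))) {S F : Set I} (hF : F.Finite)
    (hSF : ∀ u ∈ F, u ∉ S) {W : ∀ u, Subgroup (G u)} (hW : ∀ u, IsOpen (W u : Set (G u))) (g : Γ) :
    ∃ m, 0 < m ∧ ∀ γ ∈ D.Gm S, g * γ ^ m * g⁻¹ ∈ D.Dl S F W := by
  have h1 : ∀ u, ∃ m, 0 < m ∧ ∀ x ∈ D.K u, x ^ m ∈
      (W u ⊓ D.K u).comap (MulAut.conj (D.j u g)).toMonoidHom := fun u =>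
    exists_pow (hK u) (((hW u).inter (D.opn u)).preimage (f := fun x => D.j u g * x * (D.j u g)⁻¹)
      (by fun_prop))
  choose m hm h2 using h1
  have hF' := hF.union (D.fin g)
  refine ⟨∏ u ∈ hF'.toFinset, m u, Finset.prod_pos fun u _ => hm u, fun γ hγ => ?_⟩
  have h3 : ∀ u ∈ hF'.toFinset, u ∉ S →
      D.j u (g * γ ^ (∏ u ∈ hF'.toFinset, m u) * g⁻¹) ∈ W u ⊓ D.K u := by
    intro u hu hu'
    obtain ⟨c, hc⟩ := Finset.dvd_prod_of_mem m hu
    have := pow_mem (h2 u _ (hγ u hu')) c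
    rw [← pow_mul, ← hc] at this
    simpa using this
  refine D.mem_Dl.2 ⟨fun u hu => ?_, fun u hu => (h3 u (by simp [hu]) (hSF u hu)).1⟩
  by_cases h4 : u ∈ hF'.toFinset
  · exact (h3 u h4 hu).2
  · have h5 : D.j u g ∈ D.K u := by
      by_contra h; exact h4 (by simp [h])
    rw [map_mul, map_mul, map_pow, map_inv]
    exact mul_mem (mul_mem h5 (pow_mem (hγ u hu) _)) (inv_mem h5)

theorem eq_top_of_coc {G : Type*} [Group G] [TopologicalSpace G] [IsTopologicalGroup G]
    (loc : ∀ H : Subgroup G, IsOpen (H : Set G) → H.Normal → H = ⊤) {Ω : Subgroup G}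
    (hΩ : IsOpen (Ω : Set G)) {C : Set G} (hC : IsCompact C) (h : ∀ x, ∃ y ∈ Ω, y⁻¹ * x ∈ C) :
    Ω = ⊤ := by
  have h1 : ((fun c : G => ((c⁻¹ : G) : G ⧸ Ω)) '' C).Finite := by
    haveI := QuotientGroup.discreteTopology hΩ
    exact (hC.image (QuotientGroup.continuous_mk.comp continuous_inv)).finite_of_discrete
  haveI : Finite (G ⧸ Ω) := by
    refine Set.finite_univ_iff.1 (h1.subset fun q _ => ?_)
    obtain ⟨x, rfl⟩ := QuotientGroup.mk_surjective q
    obtain ⟨y, hy, hc⟩ := h x⁻¹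
    exact ⟨_, hc, QuotientGroup.eq.2 (by simpa using inv_mem hy)⟩
  haveI : Ω.FiniteIndex := Subgroup.finiteIndex_of_finite_quotient
  exact top_le_iff.1 ((loc _ (Subgroup.isOpen_of_isClosed_of_finiteIndex _
    (Ω.normalCore_isClosed (Ω.isClosed_of_isOpen hΩ))) inferInstance).symm.le.trans Ω.normalCore_le)

/-- the local inputs of strong approximation -/
structure Inp (nc : Γ → Prop) (T : Set I) (W : ∀ u, ℕ → Subgroup (G u)) : Prop where
  cpt : ∀ u, IsCompact (D.K u : Set (G u))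
  anti : ∀ u, Antitone (W u)
  wo : ∀ u n, IsOpen (W u n : Set (G u))
  wn : ∀ u n, ∀ g ∈ D.K u, ∀ x ∈ W u n, g * x * g⁻¹ ∈ W u n
  wb : ∀ u, ∀ U ∈ 𝓝 (1 : G u), ∃ n, (W u n : Set (G u)) ⊆ U
  nt : ∀ U₀ ∈ 𝓝 (1 : G₀), ∀ F : Set I, F.Finite → ∀ U : ∀ u, Set (G u), (∀ u, U u ∈ 𝓝 1) →
    ∃ γ ∈ D.Gm ∅, nc γ ∧ D.j₀ γ ∈ U₀ ∧ ∀ u ∈ F, D.j u γ ∈ U u
  l₀ : ∀ Q : ℕ → Subgroup Γ, Antitone Q →
    (∀ g, ∃ m, 0 < m ∧ ∀ n, ∃ n', ∀ γ ∈ Q n', g * γ ^ m * g⁻¹ ∈ Q n) →
    (∀ n, ∀ U ∈ 𝓝 (1 : G₀), ∃ γ ∈ Q n, nc γ ∧ D.j₀ γ ∈ U) →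
    ∃ V ∈ 𝓝 (1 : G₀), ∀ n, V ⊆ closure (D.j₀ '' Q n)
  lv : ∀ v, ∀ Q : Subgroup Γ, (∀ g, ∃ m, 0 < m ∧ ∀ γ ∈ Q, g * γ ^ m * g⁻¹ ∈ Q) →
    (∀ U ∈ 𝓝 (1 : G v), ∃ γ ∈ Q, nc γ ∧ D.j v γ ∈ U) → closure (D.j v '' Q) ∈ 𝓝 (1 : G v)
  loc₀ : ∀ H : Subgroup G₀, IsOpen (H : Set G₀) → H = ⊤
  locv : ∀ v ∉ T, ∀ H : Subgroup (G v), IsOpen (H : Set (G v)) → H.Normal → H = ⊤
  coc : ∀ v, ∃ C : Set (G v), IsCompact C ∧ ∀ x, ∃ γ ∈ D.Gm {v}, (D.j v γ)⁻¹ * x ∈ C
  finT : T.Finite
  wa : ∀ v ∈ T, ∀ H : Subgroup (G v), (∀ g, (∀ U : ∀ u, Set (G u),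
    (∀ u, U u ∈ 𝓝 (Pi.mulSingle v g u)) → ∃ γ, ∀ u ∈ T, D.j u γ ∈ U u) → g ∈ H) →
    closure (H : Set (G v)) ∈ 𝓝 (1 : G v)
  c₀ : ∀ H : Subgroup G₀, H.Normal → ∀ n, nc n → (∀ x, D.j₀ n * x * (D.j₀ n)⁻¹ * x⁻¹ ∈ H) →
    closure (H : Set G₀) ∈ 𝓝 (1 : G₀)
  cv : ∀ v, ∀ H L : Subgroup (G v), (L : Set (G v)) ∈ 𝓝 (1 : G v) →
    (∀ y ∈ L, ∀ x ∈ H, y * x * y⁻¹ ∈ H) → ∀ n, nc n →
    (∀ x ∈ L, D.j v n * x * (D.j v n)⁻¹ * x⁻¹ ∈ H) → closure (H : Set (G v)) ∈ 𝓝 (1 : G v)

variable {D} {nc : Γ → Prop} {T : Set I} {W : ∀ u, ℕ → Subgroup (G u)}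

theorem Inp.lev (h : D.Inp nc T W) {F : Set I} (hF : F.Finite) {U : ∀ u, Set (G u)}
    (hU : ∀ u ∈ F, U u ∈ 𝓝 1) : ∃ n, ∀ u ∈ F, (W u n : Set (G u)) ⊆ U u := by
  have : ∀ᶠ n in atTop, ∀ u ∈ F, (W u n : Set (G u)) ⊆ U u := by
    refine (eventually_all_finite hF).2 fun u hu => ?_
    obtain ⟨n, hn⟩ := h.wb u _ (hU u hu)
    filter_upwards [eventually_ge_atTop n] with m hm
    exact fun x hx => hn (h.anti u hm hx)
  exact this.exists

theorem Inp.top₀ (h : D.Inp nc T W) : D.V₀ ⊤ = ⊤ := by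
  refine top_le_iff.1 fun g _ => D.crit₀ fun U₀ hU₀ F hF U hU => ?_
  obtain ⟨V, hV, h1⟩ := h.l₀ (fun n => D.Dl ∅ F fun u => W u n)
    (fun _ _ hn γ hγ => D.mem_Dl.2 ⟨(D.mem_Dl.1 hγ).1, fun u hu =>
      h.anti u hn ((D.mem_Dl.1 hγ).2 u hu)⟩) (fun g => by
      obtain ⟨m, hm, h1⟩ := D.commens h.cpt (S := ∅) hF (fun _ _ => id) (fun u => h.wo u 0) g
      refine ⟨m, hm, fun n => ?_⟩
      obtain ⟨n', hn'⟩ := h.lev hF
        (U := fun u => (fun x => D.j u g * x ^ m * (D.j u g)⁻¹) ⁻¹' W u n) fun u _ =>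
        ((h.wo u n).preimage (by fun_prop)).mem_nhds (by simp)
      refine ⟨n', fun γ hγ => D.mem_Dl.2 ⟨(D.mem_Dl.1 (h1 γ (D.mem_Dl.1 hγ).1)).1, fun u hu => ?_⟩⟩
      simpa using hn' u hu ((D.mem_Dl.1 hγ).2 u hu)) (fun n U hU => by
      obtain ⟨γ, h1, h2, h3, h4⟩ := h.nt U hU F hF (fun u => W u n) fun u =>
        (h.wo u n).mem_nhds (one_mem _)
      exact ⟨γ, D.mem_Dl.2 ⟨h1, h4⟩, h2, h3⟩)
  obtain ⟨n, hn⟩ := h.lev hF fun u _ => hU u
  have h2 := h.loc₀ ((D.Dl ∅ F fun u => W u n).map D.j₀).topologicalClosure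
    (Subgroup.isOpen_of_mem_nhds _ (mem_of_superset hV (h1 n)))
  obtain ⟨_, h3, γ, h4, rfl⟩ := mem_closure_iff_nhds.1
    (h2 ▸ Subgroup.mem_top g : g ∈ ((D.Dl ∅ F fun u => W u n).map D.j₀).topologicalClosure) U₀ hU₀
  exact ⟨γ, trivial, (D.mem_Dl.1 h4).1, h3, fun u hu => hn u hu ((D.mem_Dl.1 h4).2 u hu)⟩

theorem Inp.opn_Dl (h : D.Inp nc T W) (v : I) {F : Set I} (hF : F.Finite) (hv : v ∉ F) (n : ℕ) :
    IsOpen (((D.Dl {v} F fun u => W u n).map (D.j v)).topologicalClosure : Set (G v)) := by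
  refine Subgroup.isOpen_of_mem_nhds _ (h.lv v _ (fun g => ?_) fun U hU => ?_)
  · obtain ⟨m, hm, h1⟩ := D.commens h.cpt (S := {v}) hF (fun u hu h' => hv (h' ▸ hu))
      (fun u => h.wo u n) g
    exact ⟨m, hm, fun γ hγ => h1 γ (D.mem_Dl.1 hγ).1⟩
  · obtain ⟨γ, h1, h2, -, h4⟩ := h.nt _ univ_mem (insert v F) (hF.insert v)
      (Function.update (fun u => (W u n : Set (G u))) v U) fun u => by
        by_cases hu : u = v
        · subst hu; simpa using hU
        · simpa [hu] using (h.wo u n).mem_nhds (one_mem _)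
    refine ⟨γ, D.mem_Dl.2 ⟨fun u _ => h1 u id, fun u hu => ?_⟩, h2, by simpa using h4 v (by simp)⟩
    have h5 : u ≠ v := fun h' => hv (h' ▸ hu)
    simpa [h5] using h4 u (by simp [hu])

theorem Inp.topv (h : D.Inp nc T W) {v : I} (hv : v ∉ T) : D.V ⊤ v = ⊤ := by
  refine top_le_iff.1 fun g _ => D.crit h.top₀ fun U' hU' F hF hvF U hU => ?_
  obtain ⟨n, hn⟩ := h.lev hF hU
  obtain ⟨C, hC, h1⟩ := h.coc v
  have h2 := eq_top_of_coc (h.locv v hv) (h.opn_Dl v Set.finite_empty id 0) hC fun x => by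
    obtain ⟨γ, h2, h3⟩ := h1 x
    exact ⟨_, subset_closure ⟨γ, D.mem_Dl.2 ⟨h2, fun _ h => h.elim⟩, rfl⟩, h3⟩
  have h3 := h.locv v hv _ (h.opn_Dl v hF hvF n) ⟨fun x hx y => by
    refine map_mem_closure₂ (f := fun y x : G v => y * x * y⁻¹) (by fun_prop)
      (h2 ▸ Subgroup.mem_top y :
        y ∈ ((D.Dl {v} ∅ fun u => W u 0).map (D.j v)).topologicalClosure) hx ?_
    rintro _ ⟨a, ha, rfl⟩ _ ⟨b, hb, rfl⟩
    have ha' := (D.mem_Dl.1 ha).1
    refine ⟨a * b * a⁻¹, D.mem_Dl.2 ⟨mul_mem (mul_mem ha' (D.mem_Dl.1 hb).1) (inv_mem ha'),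
      fun u hu => ?_⟩, by simp⟩
    simpa using h.wn u n _ (ha' u fun h' => hvF (h' ▸ hu)) _ ((D.mem_Dl.1 hb).2 u hu)⟩
  obtain ⟨_, h4, γ, h5, rfl⟩ := mem_closure_iff_nhds.1 (h3 ▸ Subgroup.mem_top g :
    g ∈ ((D.Dl {v} F fun u => W u n).map (D.j v)).topologicalClosure) U' hU'
  exact ⟨γ, trivial, (D.mem_Dl.1 h5).1, h4, fun u hu => hn u hu ((D.mem_Dl.1 h5).2 u hu)⟩

theorem Inp.nhds_top (h : D.Inp nc T W) (v : I) : (D.V ⊤ v : Set (G v)) ∈ 𝓝 (1 : G v) := by
  by_cases hv : v ∈ T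
  · rw [← (D.closed_V ⊤ v).closure_eq]
    refine h.wa v hv _ fun g hg => D.critT h.top₀ h.finT (fun u hu => h.topv hu) hv fun U hU => ?_
    obtain ⟨γ, hγ⟩ := hg U hU
    exact ⟨γ, trivial, hγ⟩
  · rw [h.topv hv]; exact univ_mem

/-- **abstract strong approximation** -/
theorem Inp.main (h : D.Inp nc T W) {N : Subgroup Γ} [N.Normal] {n : Γ} (hn : n ∈ N) (hc : nc n) :
    D.V₀ N = ⊤ ∧ (∀ v, IsOpen (D.V N v : Set (G v))) ∧ ∀ v ∉ T, D.V N v = ⊤ := by
  have h1 : ∀ v, IsOpen (D.V N v : Set (G v)) := fun v => by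
    refine Subgroup.isOpen_of_mem_nhds _ (g := 1) ?_
    rw [← (D.closed_V N v).closure_eq]
    exact h.cv v _ _ (h.nhds_top v) (fun _ hy _ hx => D.conj_V hy hx) n hc fun _ => D.comm_V hn
  refine ⟨h.loc₀ _ (Subgroup.isOpen_of_mem_nhds _ (g := 1) ?_), h1, fun v hv => h.locv v hv _ (h1 v)
    ⟨fun x hx y => D.conj_V (h.topv hv ▸ Subgroup.mem_top y) hx⟩⟩
  rw [← (D.closed_V₀ N).closure_eq]
  exact h.c₀ _ ⟨fun x hx y => D.conj_V₀ (h.top₀ ▸ Subgroup.mem_top y) hx⟩ n hc
    fun x => D.comm_V₀ hn (h.top₀ ▸ Subgroup.mem_top x)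

end Adl
end Crest.Agent.T24.Sa
end

-- ▼ part T24/SaB_92

/-! # The local algebras `BC k K B R` satisfy the hypotheses of the local theorems -/

set_option autoImplicit false
set_option linter.unusedSectionVars false
set_option linter.style.haveILetI false

noncomputable section

namespace Crest.Agent.T24.Sa

open Module NumberField Csa Asa Filter Topology
open scoped TensorProduct

section Scale

theorem inv_fd (F : Type*) [NontriviallyNormedField F] [CompleteSpace F] {A : Type*} [Ring A]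
    [Algebra F A] [FiniteDimensional F A] [TopologicalSpace A] [IsTopologicalAddGroup A]
    [ContinuousSMul F A] [T2Space A] :
    ∀ V ∈ 𝓝 (1 : A), ∀ᶠ x in 𝓝 (1 : A), ∃ y ∈ V, x * y = 1 ∧ y * x = 1 := by
  intro V hV
  have h := (Opn.inverse_continuousAt F (A := A) isUnit_one).preimage_mem_nhds (t := V)
    (by simpa using hV)
  filter_upwards [h, Opn.ev_isUnit F (A := A) isUnit_one] with x h1 h2
  exact ⟨_, h1, Ring.mul_inverse_cancel _ h2, Ring.inverse_mul_cancel _ h2⟩

theorem exists_arch {A : Type*} [Ring A] [StarRing A] [Algebra ℝ A] [FiniteDimensional ℝ A]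
    [t : TopologicalSpace A] [IsTopologicalAddGroup A] [ContinuousSMul ℝ A] [T2Space A] :
    ∃ s : Sc A, Arch s := by
  have hi := inv_fd ℝ (A := A)
  have c : Continuous (algebraMap ℝ A) := continuous_algebraMap ℝ A
  have two : (2 : A) * algebraMap ℝ A (1 / 2) = 1 := by
    rw [← map_ofNat (algebraMap ℝ A) 2, ← map_mul]; norm_num
  let s : Sc A :=
    { p := algebraMap ℝ A (1 / 2)
      q := algebraMap ℝ A 2
      pq := by rw [← map_mul]; norm_num
      cen := fun x => Algebra.commutes _ _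
      star_p := star_half two
      tend := by
        have := (c.tendsto 0).comp (tendsto_pow_atTop_nhds_zero_of_lt_one (r := (1 / 2 : ℝ))
          (by norm_num) (by norm_num))
        simpa only [map_zero, Function.comp_def, map_pow] using this
      inv := hi
      div := fun m hm V hV => by
        have hm' : (0 : ℝ) < m := by exact_mod_cast hm
        have h1 := (tendsto_nat_floor_div_atTop (R := ℝ)).comp
          ((tendsto_pow_atTop_atTop_of_one_lt (one_lt_two (α := ℝ))).atTop_div_const hm')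
        obtain ⟨i, hi⟩ := (((c.tendsto 1).comp h1).eventually (p := (· ∈ V))
          (by simpa using hV)).exists
        refine ⟨⌊(2 : ℝ) ^ i / m⌋₊, i, 0, ?_⟩
        rw [pow_zero, mul_one, ← map_pow, ← map_nsmul, ← map_zsmul]
        convert hi using 2
        simp only [Function.comp_apply, nsmul_eq_mul, zsmul_eq_mul, Int.cast_natCast, one_div,
          inv_pow]
        field_simp }
  refine ⟨s, two, ?_⟩
  obtain rfl := Opn.top_nrmR ℝ A
  letI := Opn.nrmR ℝ A
  letI := Opn.nrmA ℝ A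
  refine ⟨fun x => ‖x‖, norm_add_le, norm_mul_le, fun x => ?_, norm_nonneg, ?_⟩
  · change ‖algebraMap ℝ A (1 / 2) * x‖ = _
    rw [← Algebra.smul_def, norm_smul]; norm_num; ring
  · convert Metric.nhds_basis_ball (x := (0 : A)) using 2
    ext x; simp

theorem exists_pad (F : Type*) [NontriviallyNormedField F] [CompleteSpace F] [IsUltrametricDist F]
    [CharZero F] {P : ℕ} (hP : P.Prime) (h1 : ‖(P : F)‖ < 1) {A : Type*} [Ring A] [StarRing A]
    [Algebra F A] [FiniteDimensional F A] [TopologicalSpace A] [IsTopologicalAddGroup A]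
    [ContinuousSMul F A] [T2Space A] : ∃ s : Sc A, s.p = P := by
  have c : Continuous (algebraMap F A) := continuous_algebraMap F A
  have P0 : (P : F) ≠ 0 := by exact_mod_cast hP.ne_zero
  have t0 := tendsto_pow_atTop_nhds_zero_of_norm_lt_one h1
  refine ⟨{ p := P
            q := algebraMap F A (P : F)⁻¹
            pq := by rw [← map_natCast (algebraMap F A), ← map_mul, mul_inv_cancel₀ P0, map_one]
            cen := fun x => (Nat.cast_commute P x).eq
            star_p := star_natCast P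
            tend := by
              simpa only [map_zero, Function.comp_def, map_pow, map_natCast] using
                (c.tendsto 0).comp t0
            inv := inv_fd F
            div := fun m hm V hV => ?_ }, rfl⟩
  obtain ⟨a, m', h2, rfl⟩ := Nat.exists_eq_pow_mul_and_not_dvd hm.ne' P hP.ne_one
  have hV' := c.continuousAt.preimage_mem_nhds (x := 1) (t := V) (by simpa using hV)
  obtain ⟨ε, hε, hb⟩ := Metric.mem_nhds_iff.1 hV'
  obtain ⟨e, he⟩ := (t0.norm.eventually (gt_mem_nhds (by simpa using hε))).exists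
  obtain ⟨u, v, huv⟩ := Nat.isCoprime_iff_coprime.2
    (((Nat.Prime.coprime_iff_not_dvd hP).2 h2).symm.pow_right e)
  refine ⟨u, 0, a, ?_⟩
  rw [pow_zero, one_mul, ← map_pow, ← map_nsmul, ← map_zsmul]
  apply hb
  have e1 : u • (P ^ a * m') • ((P : F)⁻¹) ^ a = 1 - v * (P : F) ^ e := by
    have : (u : F) * m' + v * (P : F) ^ e = 1 := by exact_mod_cast huv
    rw [← this, nsmul_eq_mul, zsmul_eq_mul, inv_pow]; push_cast; field_simp; ring
  rw [e1, Metric.mem_ball, dist_eq_norm, sub_sub_cancel_left, norm_neg, norm_mul]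
  exact (mul_le_of_le_one_left (norm_nonneg _) (IsUltrametricDist.norm_intCast_le_one F v)).trans_lt
    he

end Scale

section Glob
variable {K : Type*} [Field K] [CharZero K] {B : Type*} [Ring B] [Algebra K B]
  [Algebra.IsCentral K B] [IsSimpleRing B] [FiniteDimensional K B]

theorem dens_all (f : B →ₗ[K] B) : ∃ S : Finset (B × B), ∀ x, f x = ∑ p ∈ S, p.1 * x * p.2 := by
  classical
  let b := finBasis K B
  obtain ⟨S, hS⟩ := dens f (Finset.univ.image b)
  refine ⟨S, fun x => ?_⟩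
  have : f = ∑ p ∈ S, (LinearMap.mulRight K p.2).comp (LinearMap.mulLeft K p.1) :=
    b.ext fun i => by rw [hS _ (Finset.mem_image_of_mem _ (Finset.mem_univ i))]; simp
  rw [this]; simp

variable (K) in
theorem span_B (x : B) : ∃ c : K, x - algebraMap K B c ∈ comA B := by
  let W : Submodule K B :=
    { carrier := {x | ∃ c : K, x - algebraMap K B c ∈ comA B}
      zero_mem' := ⟨0, by simp⟩
      add_mem' := fun ⟨c, hc⟩ ⟨c', hc'⟩ => ⟨c + c', by
        convert add_mem hc hc' using 1; rw [map_add]; abel⟩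
      smul_mem' := fun a x ⟨c, hc⟩ => ⟨a * c, by
        rw [map_mul, ← Algebra.smul_def, ← smul_sub]
        generalize x - algebraMap K B c = y at hc
        induction hc using AddSubgroup.closure_induction with
        | mem y hy =>
          obtain ⟨u, v, rfl⟩ := hy
          exact AddSubgroup.subset_closure ⟨a • u, v, by simp [smul_sub]⟩
        | zero => simp
        | add y z _ _ hy hz => rw [smul_add]; exact add_mem hy hz
        | neg y _ hy => rw [smul_neg]; exact neg_mem hy⟩ }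
  by_contra hx
  obtain ⟨l, h1, h2⟩ := Submodule.exists_dual_map_eq_bot_of_notMem (p := W) (x := x) hx
    inferInstance
  have h3 : ∀ y ∈ W, l y = 0 := fun y hy => by
    have : l y ∈ W.map l := Submodule.mem_map_of_mem hy
    rwa [h2, Submodule.mem_bot] at this
  let T : B →ₗ[K] Dual K B := (LinearMap.mul K B).compr₂ (Trd K)
  have Ti : Function.Injective T := (injective_iff_map_eq_zero T).2 fun y hy =>
    eq_zero_of_Trd (K := K) fun z => by simpa [T] using LinearMap.congr_fun hy z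
  obtain ⟨c, rfl⟩ := (LinearMap.injective_iff_surjective_of_finrank_eq_finrank
    (Subspace.dual_finrank_eq).symm).1 Ti l
  have hc : c ∈ Subalgebra.center K B := by
    rw [Subalgebra.mem_center_iff]
    intro y
    apply sub_eq_zero.1
    refine eq_zero_of_Trd (K := K) fun z => ?_
    have := h3 (z * y - y * z) ⟨0, by
      rw [map_zero, sub_zero]; exact AddSubgroup.subset_closure ⟨z, y, rfl⟩⟩
    simp only [T, LinearMap.compr₂_apply, LinearMap.mul_apply', map_sub] at this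
    rw [sub_mul, map_sub, mul_assoc, Trd_mul_comm, mul_assoc, mul_assoc, this]
  rw [Algebra.IsCentral.center_eq_bot, Algebra.mem_bot] at hc
  obtain ⟨a, rfl⟩ := hc
  have := h3 1 ⟨1, by simp⟩
  simp only [T, LinearMap.compr₂_apply, LinearMap.mul_apply', mul_one, Trd_algebraMap] at this
  have hd : (deg K B : K) ≠ 0 := by exact_mod_cast (deg_pos K B).ne'
  rw [(mul_eq_zero.1 this).resolve_left hd] at h1
  simp at h1

end Glob

section BC
variable (k K B : Type*) [Field k] [NumberField k] [Field K] [NumberField K] [Algebra k K]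
  [StarRing K] [Quad k K] [Ring B] [StarRing B] [Algebra K B] [StarModule K B]
  [Algebra.IsCentral K B] [IsSimpleRing B] [FiniteDimensional K B] [Algebra k B]
  [IsScalarTower k K B] (R : Type*) [CommRing R] [Algebra k R]

open BC

variable {k K B R}

theorem cen_inc (c : K) : Cen (inc k K B R (algebraMap K B c)) := fun x => by
  refine ind x (by simp) (fun r b => ?_) fun x y hx hy => by rw [mul_add, add_mul, hx, hy]
  rw [mul_smul_comm, smul_mul_assoc, ← map_mul, ← map_mul, Algebra.commutes]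

theorem Cen.smul {z : BC k K B R} (hz : Cen z) (r : R) : Cen (r • z) := fun x => by
  rw [mul_smul_comm, smul_mul_assoc, hz]

theorem alg_inj : Function.Injective (algebraMap R (BC k K B R)) :=
  Algebra.TensorProduct.includeLeft_injective (R := k) (S := k) (A := R) (B := B)
    (algebraMap k B).injective

theorem half_BC : (2 : BC k K B R) * inc k K B R (algebraMap k B (1 / 2)) = 1 := by
  rw [← map_ofNat (inc k K B R) 2, ← map_mul, ← map_ofNat (algebraMap k B) 2, ← map_mul]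
  norm_num

theorem eq_zero_of_mul_inc {f : BC k K B R} (hf : Cen f) {b : B} (hb : b ≠ 0)
    (h : f * inc k K B R b = 0) : f = 0 := by
  let I : TwoSidedIdeal B := TwoSidedIdeal.mk' {x | f * inc k K B R x = 0} (by simp)
    (fun {a b} ha hb => by simp only [Set.mem_ofPred_eq] at *; rw [map_add, mul_add, ha, hb, add_zero])
    (fun {a} ha => by simp only [Set.mem_ofPred_eq] at *; rw [map_neg, mul_neg, ha, neg_zero])
    (fun {a b} hb => by
      simp only [Set.mem_ofPred_eq] at *; rw [map_mul, ← mul_assoc, hf, mul_assoc, hb, mul_zero])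
    (fun {a b} ha => by simp only [Set.mem_ofPred_eq] at *; rw [map_mul, ← mul_assoc, ha, zero_mul])
  have := IsSimpleRing.one_mem_of_ne_zero_mem I hb (by rwa [TwoSidedIdeal.mem_mk'])
  rw [TwoSidedIdeal.mem_mk'] at this
  simpa using this

section Th
variable {θ : K} (h0 : θ ≠ 0) (hθ : star θ = -θ)
include h0 hθ

theorem op_mem (l : B →ₗ[K] K) {S : Finset (B × B)}
    (hS : ∀ x, algebraMap K B (l x) = ∑ p ∈ S, p.1 * x * p.2) (x : BC k K B R) :
    ∃ r r' : R, ∑ p ∈ S, inc k K B R p.1 * x * inc k K B R p.2 =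
      algebraMap R _ r + r' • inc k K B R (algebraMap K B θ) := by
  refine ind x ⟨0, 0, by simp⟩ (fun r b => ?_) ?_
  · obtain ⟨a, a', e⟩ := exists_coord (Quad.fr (k := k) (K := K)) Quad.star_k h0 hθ (l b)
    refine ⟨r * algebraMap k R a, r * algebraMap k R a', ?_⟩
    simp only [mul_smul_comm, smul_mul_assoc, ← map_mul, ← Finset.smul_sum, ← map_sum, ← hS]
    rw [e, map_add, map_mul, ← IsScalarTower.algebraMap_apply, ← IsScalarTower.algebraMap_apply,
      ← Algebra.smul_def, map_add, map_smul, AlgHom.commutes, smul_add, mul_smul, map_mul,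
      ← IsScalarTower.algebraMap_apply, ← Algebra.smul_def, algebraMap_smul]
  · rintro x y ⟨r, r', e⟩ ⟨s, s', e'⟩
    refine ⟨r + s, r' + s', ?_⟩
    simp only [mul_add, add_mul, Finset.sum_add_distrib, e, e', map_add, add_smul]; abel

theorem cen_eq {z : BC k K B R} (hz : Cen z) :
    ∃ r r' : R, z = algebraMap R _ r + r' • inc k K B R (algebraMap K B θ) := by
  have hd : (deg K B : K) ≠ 0 := by exact_mod_cast (deg_pos K B).ne'
  obtain ⟨S, hS⟩ := dens_all ((Algebra.linearMap K B).comp ((deg K B : K)⁻¹ • Trd K))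
  obtain ⟨r, r', e⟩ := op_mem h0 hθ ((deg K B : K)⁻¹ • Trd K) hS z
  refine ⟨r, r', ?_⟩
  have h1 := hS 1
  simp only [LinearMap.comp_apply, LinearMap.smul_apply, Trd_one, smul_eq_mul, inv_mul_cancel₀ hd,
    Algebra.linearMap_apply, map_one, mul_one] at h1
  rw [← e]
  simp only [← hz (inc k K B R _), mul_assoc, ← map_mul, ← Finset.mul_sum, ← map_sum, ← h1,
    map_one, mul_one]

theorem star_cen (r r' : R) : star (algebraMap R (BC k K B R) r + r' • inc k K B R (algebraMap K B θ))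
    = algebraMap R _ r - r' • inc k K B R (algebraMap K B θ) := by
  rw [star_add, star_rsmul, star_inc, T24.star_algebraMap, hθ, map_neg, map_neg, smul_neg,
    Algebra.algebraMap_eq_smul_one, star_rsmul, star_one, sub_eq_add_neg]

end Th

theorem th_unit {θ : K} (h0 : θ ≠ 0) :
    inc k K B R (algebraMap K B θ) * inc k K B R (algebraMap K B θ⁻¹) = 1 := by
  rw [← map_mul, ← map_mul, mul_inv_cancel₀ h0, map_one, map_one]

variable (k K B R)

theorem idem_BC [IsArtinianRing R] [IsReduced R] : Idem (BC k K B R) := by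
  obtain ⟨θ, h0, hθ⟩ := exists_skew (Quad.ne (k := k) (K := K))
  let Z := Subalgebra.center R (BC k K B R)
  haveI : IsNoetherian R (BC k K B R) := inferInstance
  haveI : Module.Finite R Z := Module.Finite.of_injective Z.val.toLinearMap Subtype.val_injective
  haveI : IsArtinianRing Z := IsArtinianRing.of_finite R Z
  have nil : ∀ r : R, IsNilpotent (2 * algebraMap R (BC k K B R) r) → r = 0 := by
    intro r hr
    have h1 := (Commute.isNilpotent_mul_left (cen_inc (R := R) (k := k) (B := B)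
      (algebraMap k K (1 / 2)) _) hr)
    rw [← IsScalarTower.algebraMap_apply, ← mul_assoc, cen_half half_BC 2, half_BC, one_mul] at h1
    obtain ⟨n, hn⟩ := h1
    exact IsNilpotent.eq_zero ⟨n, alg_inj (k := k) (K := K) (B := B) (by rw [map_pow, hn, map_zero])⟩
  haveI : IsReduced Z := ⟨fun z hz => by
    have cz : Cen (z : BC k K B R) := fun x => (Subalgebra.mem_center_iff.1 z.2 x).symm
    have n1 : IsNilpotent (z : BC k K B R) := hz.map Z.val
    have n2 : IsNilpotent (star (z : BC k K B R)) := by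
      obtain ⟨n, hn⟩ := n1; exact ⟨n, by rw [← star_pow, hn, star_zero]⟩
    obtain ⟨r, r', e⟩ := cen_eq h0 hθ cz
    have n3 := Commute.isNilpotent_add (cz _) n1 n2
    have n4 := Commute.isNilpotent_mul_left ((cen_inc θ⁻¹) _) (Commute.isNilpotent_sub (cz _) n1 n2)
    rw [e, star_cen h0 hθ] at n3 n4
    have a1 := nil r (by convert n3 using 1; rw [two_mul]; abel)
    have a2 := nil r' (by
      convert n4 using 1
      rw [add_sub_sub_cancel, mul_add, mul_smul_comm, cen_inc θ⁻¹, th_unit h0,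
        Algebra.algebraMap_eq_smul_one, two_mul])
    apply Subtype.ext
    rw [e, a1, a2]; simp⟩
  haveI : IsSemisimpleRing Z := IsArtinianRing.isSemisimpleRing_of_isReduced _
  intro M hM
  let M0 : Ideal Z :=
    { carrier := {z | (z : BC k K B R) ∈ M}
      zero_mem' := M.zero_mem
      add_mem' := M.add_mem
      smul_mem' := fun c z hz => (hM c z hz).1 }
  obtain ⟨e, hee, he⟩ := IsSemisimpleRing.ideal_eq_span_idempotent M0
  have eM : (e : BC k K B R) ∈ M := (he ▸ Ideal.mem_span_singleton_self e : e ∈ M0)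
  refine ⟨e, congrArg Subtype.val hee, fun x => (Subalgebra.mem_center_iff.1 e.2 x).symm,
    fun x => ⟨fun hx => ?_, fun hx => hx ▸ (hM x e eM).2⟩⟩
  let b := finBasis K B
  choose S hS using fun i => dens_all ((Algebra.linearMap K B).comp (b.coord i))
  have e1 : ∀ y : BC k K B R, y = ∑ i, (∑ p ∈ S i, inc k K B R p.1 * y * inc k K B R p.2) *
      inc k K B R (b i) := by
    intro y
    refine ind y (by simp) (fun r c => ?_) fun y z hy hz => ?_
    · simp only [mul_smul_comm, smul_mul_assoc, ← map_mul, ← Finset.smul_sum, ← map_sum, ← hS]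
      congr 2
      conv_lhs => rw [← b.sum_repr c]
      simp [Algebra.smul_def]
    · simp only [mul_add, add_mul, Finset.sum_add_distrib, ← hy, ← hz]
  rw [e1 x, Finset.mul_sum]
  refine Finset.sum_congr rfl fun i _ => ?_
  obtain ⟨r, r', e2⟩ := op_mem h0 hθ (b.coord i) (hS i) x
  have m1 : ∑ p ∈ S i, inc k K B R p.1 * x * inc k K B R p.2 ∈ M :=
    sum_mem fun p _ => (hM _ _ (hM _ _ hx).1).2
  have m2 : ∑ p ∈ S i, inc k K B R p.1 * x * inc k K B R p.2 ∈ Z := by
    rw [e2]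
    exact add_mem (Z.algebraMap_mem r) (Z.smul_mem (Subalgebra.mem_center_iff.2 fun y =>
      (cen_inc θ y).symm) r')
  have m3 : (⟨_, m2⟩ : Z) ∈ Ideal.span {e} := he ▸ m1
  obtain ⟨c, hc⟩ := Ideal.mem_span_singleton'.1 m3
  have : e * (⟨_, m2⟩ : Z) = ⟨_, m2⟩ := by rw [← hc, mul_left_comm, hee.eq]
  rw [← mul_assoc]; congr 1
  exact congrArg Subtype.val this

theorem good_BC [IsArtinianRing R] [IsReduced R] : Good (BC k K B R) := by
  obtain ⟨θ, h0, hθ⟩ := exists_skew (Quad.ne (k := k) (K := K))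
  refine ⟨⟨_, half_BC⟩, ⟨_, _, cen_inc θ, ?_, th_unit h0⟩, idem_BC k K B R, fun x => ?_⟩
  · rw [star_inc, T24.star_algebraMap, hθ, map_neg, map_neg]
  refine ind x ⟨0, fun x => by simp, by simp⟩ (fun r b => ?_) ?_
  · obtain ⟨c, hc⟩ := span_B K b
    refine ⟨_, (cen_inc c).smul r, ?_⟩
    rw [← smul_sub, ← map_sub]
    generalize b - algebraMap K B c = y at hc
    induction hc using AddSubgroup.closure_induction with
    | mem y hy =>
      obtain ⟨u, v, rfl⟩ := hy
      exact AddSubgroup.subset_closure ⟨r • inc k K B R u, inc k K B R v, by simp [smul_sub]⟩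
    | zero => simp
    | add y z _ _ hy hz => rw [map_add, smul_add]; exact add_mem hy hz
    | neg y _ hy => rw [map_neg, smul_neg]; exact neg_mem hy
  · rintro x y ⟨z, hz, h⟩ ⟨z', hz', h'⟩
    exact ⟨z + z', fun x => by rw [add_mul, mul_add, hz, hz'], by
      convert add_mem h h' using 1; abel⟩

/-- the local special unitary group as a set -/
def SG : Set (BC k K B R) := {g | g ∈ unitary (BC k K B R) ∧ nrd k K B R g = 1}

theorem ug_SG : UG (SG k K B R) :=
  ⟨⟨one_mem _, map_one _⟩,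
    fun a ha b hb => ⟨mul_mem ha.1 hb.1, by rw [map_mul, ha.2, hb.2, one_mul]⟩,
    fun a ha => ⟨Unitary.star_mem ha.1, by
      have := congrArg (nrd k K B R) ha.1.2
      rwa [map_mul, ha.2, one_mul, map_one] at this⟩,
    fun a ha => ha.1.2⟩

theorem spR_cen (θ : K) (r r' : R) :
    spR k K B R (algebraMap R _ r + r' • inc k K B R (algebraMap K B θ)) =
      (algebraMap R (R ⊗[k] AlgebraicClosure K) r +
        r' • (1 : R) ⊗ₜ[k] algebraMap K (AlgebraicClosure K) θ) • 1 := by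
  rw [map_add, map_smul, AlgHom.commutes, spR_inc, AlgHom.commutes, add_smul, algebraMap_smul,
    smul_assoc, Algebra.algebraMap_eq_smul_one]
  congr 2
  ext i j
  by_cases h : i = j <;> simp [Matrix.algebraMap_matrix_apply, h]

variable [TopologicalSpace R] [IsTopologicalRing R] [T2Space R]

theorem cont_eval {C σ : Type*} [CommRing C] [Algebra R C] (l : C →ₗ[R] R)
    (Q : MvPolynomial σ C) :
    Continuous fun x : σ → R => l (MvPolynomial.eval (fun i => algebraMap R C (x i)) Q) := by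
  induction Q using MvPolynomial.induction_on with
  | C c => simpa using continuous_const
  | add p q hp hq => simp only [map_add]; exact hp.add hq
  | mul_X p i hp =>
    simp only [map_mul, MvPolynomial.eval_X, mul_comm _ (algebraMap R C _), ← Algebra.smul_def,
      map_smul, smul_eq_mul]
    exact (continuous_apply i).mul hp

theorem det_expand (l : R ⊗[k] AlgebraicClosure K →ₗ[R] R) :
    ∃ Q : R × BC k K B R → R, Continuous Q ∧ ∀ t a, l (nrd k K B R (1 + t • a)) =
      l 1 + t * l (spR k K B R a).trace + t ^ 2 * Q (t, a) := by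
  haveI := finite_kB k K B
  let e := bas k K B R (finBasis k B)
  let C := R ⊗[k] AlgebraicClosure K
  let M : Matrix (Fin (deg K B)) (Fin (deg K B)) (MvPolynomial (Option (Fin (finrank k B))) C) :=
    ∑ j, (MvPolynomial.X (some j) : MvPolynomial (Option (Fin (finrank k B))) C) •
      (spR k K B R (e j)).map MvPolynomial.C
  obtain ⟨Q, hQ⟩ : ∃ Q, (1 + (MvPolynomial.X none :
      MvPolynomial (Option (Fin (finrank k B))) C) • M).det =
    1 + M.trace * MvPolynomial.X none + Q * MvPolynomial.X none ^ 2 :=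
    ⟨_, Matrix.det_one_add_smul _ M⟩
  let x : R × BC k K B R → Option (Fin (finrank k B)) → R := fun z o => o.elim z.1 (e.repr z.2)
  have hx : Continuous x := continuous_pi fun o => by
    cases o with
    | none => exact continuous_fst
    | some j => exact (IsModuleTopology.continuous_of_linearMap (e.coord j)).comp continuous_snd
  refine ⟨_, (cont_eval R l Q).comp hx, fun t a => ?_⟩
  let ev := MvPolynomial.eval fun i => algebraMap R C (x (t, a) i)
  have h1 : ev.mapMatrix M = spR k K B R a := by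
    conv_rhs => rw [← e.sum_repr a, map_sum]
    ext i j
    simp only [M, ev, RingHom.mapMatrix_apply, Matrix.map_apply, Matrix.sum_apply, map_sum,
      Matrix.smul_apply, smul_eq_mul, map_mul, MvPolynomial.eval_X, MvPolynomial.eval_C, map_smul]
    exact Finset.sum_congr rfl fun c _ => (Algebra.smul_def _ _).symm
  have h2 := congrArg ev hQ
  rw [RingHom.map_det, map_add, map_add, map_add, map_one, map_one, map_mul, map_mul, map_pow,
    AddMonoidHom.map_trace, MvPolynomial.eval_X] at h2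
  have h3 : ev.mapMatrix ((MvPolynomial.X none :
      MvPolynomial (Option (Fin (finrank k B))) C) • M) = t • spR k K B R a := by
    rw [← h1]; ext i j
    simp only [ev, RingHom.mapMatrix_apply, Matrix.map_apply, Matrix.smul_apply, smul_eq_mul,
      map_mul, MvPolynomial.eval_X]
    exact (Algebra.smul_def _ _).symm
  rw [h3] at h2
  change _ = 1 + (ev.mapMatrix M).trace * algebraMap R C t + ev Q * algebraMap R C t ^ 2 at h2
  rw [nrd_def, map_add, map_one, map_smul, h2, h1, ← map_pow, mul_comm _ (algebraMap R C _),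
    mul_comm _ (algebraMap R C _), ← Algebra.smul_def, ← Algebra.smul_def, map_add, map_add,
    map_smul, map_smul]
  rfl

theorem spc_SG [FirstCountableTopology R] (s : Sc (BC k K B R)) {t : R} (ht : IsUnit t)
    (ht0 : Tendsto (fun n : ℕ => t ^ n) atTop (𝓝 0)) (hs : s.p = algebraMap R _ t) :
    Spc s (SG k K B R) := by
  obtain ⟨θ, h0, hθ⟩ := exists_skew (Quad.ne (k := k) (K := K))
  haveI := (crd₀ k K B R).toHomeomorph.isInducing.firstCountableTopology
  refine ⟨ug_SG k K B R, isClosed_unitary.inter (isClosed_nrd k K B R 1), fun z hz cz => ?_,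
    fun e hee he _ g hg => ⟨?_, ?_⟩⟩
  · have sk := Sc.Dir_skew (fun _ => ug_SG k K B R) hz
    obtain ⟨j, a, hj, ha, h⟩ := Sc.seq_of_Dir hz
    have tr : (spR k K B R z).trace = 0 := by
      let b := Algebra.TensorProduct.basis R (Basis.ofVectorSpace k (AlgebraicClosure K))
      refine b.ext_elem fun i => ?_
      obtain ⟨Q, hQ, e⟩ := det_expand k K B R (b.coord i)
      have c1 : Continuous fun a => b.coord i (spR k K B R a).trace :=
        IsModuleTopology.continuous_of_linearMap ((b.coord i).comp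
          ((Matrix.traceLinearMap _ R _).comp (spR k K B R).toLinearMap))
      have t1 := ((c1.tendsto z).comp ha).add ((ht0.comp hj).mul
        ((hQ.tendsto (0, z)).comp ((ht0.comp hj).prodMk_nhds ha)))
      rw [zero_mul, add_zero] at t1
      rw [map_zero, Finsupp.zero_apply]
      refine tendsto_nhds_unique t1 (tendsto_const_nhds.congr fun n => ?_)
      have e1 := e (t ^ j n) (a n)
      have e2 := (h n).2
      rw [hs, ← map_pow, ← Algebra.smul_def] at e2
      rw [e2, add_assoc, left_eq_add, sq, mul_assoc, ← mul_add] at e1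
      exact ((ht.pow _).mul_right_eq_zero.1 e1).symm
    obtain ⟨r, r', rfl⟩ := cen_eq h0 hθ cz
    rw [star_cen h0 hθ] at sk
    have r0 : algebraMap R (BC k K B R) r = 0 := two_cancel half_BC (by
      rw [two_mul, ← sub_eq_zero.2 sk]; abel)
    rw [spR_cen, alg_inj (k := k) (K := K) (B := B) (r0.trans (map_zero _).symm), map_zero,
      zero_add, Matrix.trace_smul, Matrix.trace_one, Fintype.card_fin, smul_eq_mul,
      Algebra.smul_def, mul_assoc] at tr
    have u : IsUnit ((1 : R) ⊗ₜ[k] algebraMap K (AlgebraicClosure K) θ *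
        (deg K B : R ⊗[k] AlgebraicClosure K)) := by
      have hd : (deg K B : AlgebraicClosure K) ≠ 0 := by exact_mod_cast (deg_pos K B).ne'
      have := (IsUnit.mk0 _ (mul_ne_zero ((map_ne_zero (algebraMap K (AlgebraicClosure K))).2 h0)
        hd)).map (Algebra.TensorProduct.includeRight (R := k) (A := R))
      rwa [map_mul, map_natCast] at this
    have r1 : r' = 0 := Algebra.TensorProduct.includeLeft_injective (R := k) (S := k) (A := R)
      (B := AlgebraicClosure K) (algebraMap k _).injective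
      ((u.mul_left_eq_zero.1 tr).trans (map_zero _).symm)
    rw [r0, r1]; simp
  · rename_i se
    have fe : (1 - e) * e = 0 := by rw [sub_mul, one_mul, hee, sub_self]
    have ef : e * (1 - e) = 0 := by rw [he, fe]
    have ff : (1 - e) * (1 - e) = 1 - e := by rw [mul_sub, mul_one, fe, sub_zero]
    have key : ∀ a b : BC k K B R, a * b = 1 → (e * a + (1 - e)) * (e * b + (1 - e)) = 1 := by
      intro a b hab
      rw [add_mul, mul_add, mul_add, ff, ← mul_assoc (1 - e), fe, zero_mul, mul_assoc e a,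
        ← mul_assoc a, ← he a, mul_assoc e a, hab, mul_one, hee, mul_assoc, ← he.one_sub a,
        ← mul_assoc, ef, zero_mul]
      abel
    rw [Unitary.mem_iff, star_add, star_mul, se, star_sub, star_one, se, ← he]
    exact ⟨key _ _ hg.1.1, key _ _ hg.1.2⟩
  · obtain ⟨r, r', e1⟩ := cen_eq h0 hθ he
    obtain ⟨ε, hε⟩ : ∃ ε : R ⊗[k] AlgebraicClosure K, spR k K B R e = ε • 1 :=
      ⟨_, by rw [e1, spR_cen]⟩
    have i0 : Fin (deg K B) := ⟨0, deg_pos K B⟩
    have εε : ε * ε = ε := by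
      have := congrArg (fun x => spR k K B R x i0 i0) hee
      simpa [hε, smul_smul] using this
    have pw : ∀ η : R ⊗[k] AlgebraicClosure K, η * η = η → η ^ Fintype.card (Fin (deg K B)) = η :=
      fun η h => by
        rw [Fintype.card_fin, ← Nat.succ_pred_eq_of_pos (deg_pos K B)]
        exact IsIdempotentElem.pow_succ_eq _ h
    have g2 := hg.2
    rw [nrd_def] at g2 ⊢
    rw [map_add, map_mul, map_sub, map_one, hε, smul_mul_assoc, one_mul]
    set N := ε • spR k K B R g + (1 - ε • 1)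
    have n1 : ε • N = ε • spR k K B R g := by
      simp only [N, smul_add, smul_sub, smul_smul, εε, sub_self, add_zero]
    have n2 : (1 - ε) • N = (1 - ε) • 1 := by
      simp only [N, smul_add, smul_sub, smul_smul, sub_mul, one_mul, εε, sub_self, zero_smul,
        zero_add, sub_zero]
    have d1 := congrArg Matrix.det n1
    have d2 := congrArg Matrix.det n2
    rw [Matrix.det_smul, Matrix.det_smul, pw _ εε, g2] at d1
    rw [Matrix.det_smul, Matrix.det_smul, pw _ (by rw [mul_sub, mul_one, sub_mul, one_mul, εε]; abel),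
      Matrix.det_one] at d2
    linear_combination d1 + d2

variable [Nontrivial R]

theorem inc_inj : Function.Injective (inc k K B R) :=
  haveI : Nontrivial (BC k K B R) := (alg_inj (k := k) (K := K) (B := B) (R := R)).nontrivial
  RingHom.injective (inc k K B R).toRingHom

theorem isUnit_of_inc {b : B} (h : IsUnit (inc k K B R b)) : IsUnit b := by
  haveI : IsArtinianRing B := IsArtinianRing.of_finite K B
  refine IsArtinianRing.isUnit_iff_mem_nonZeroDivisors.2 ⟨fun x hx => ?_, fun x hx => ?_⟩ <;>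
    apply inc_inj k K B R
  · exact (h.mul_right_eq_zero.1 (by rw [← map_mul, hx, map_zero])).trans (map_zero _).symm
  · exact (h.mul_left_eq_zero.1 (by rw [← map_mul, hx, map_zero])).trans (map_zero _).symm

theorem dense_inc (hd : DenseRange (algebraMap k R)) : DenseRange (inc k K B R) := by
  haveI := finite_kB k K B
  let e := finBasis k B
  have := (crd k K B R e).symm.surjective.denseRange.comp (DenseRange.piMap fun _ => hd)
    (crd k K B R e).symm.continuous
  refine DenseRange.of_comp (g := e.equivFun.symm) ?_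
  convert this using 1
  funext x
  change _ = (bas k K B R e).equivFun.symm _
  simp [Basis.equivFun_symm_apply, bas_apply]

/-- the tangent cone of the rational points of `SU` -/
theorem comS_rat [FirstCountableTopology R] [LocallyCompactSpace R]
    (hd : DenseRange (algebraMap k R)) (s : Sc (BC k K B R))
    (hp : ∃ b, inc k K B R b = s.p) {L : Set (BC k K B R)} (hL : UG L)
    (h : ∀ g : SU K B, inc k K B R ((g : unitary B) : B) ∈ L) : ∀ x ∈ comS (BC k K B R), x ∈ s.Tan L := by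
  haveI := (crd₀ k K B R).toHomeomorph.isInducing.firstCountableTopology
  refine Sc.comS_Tan (inc k K B R).toRingHom.range (dense_inc k K B R hd) hp half_BC ⟨_, rfl⟩
    (by rintro _ ⟨b, rfl⟩; exact ⟨star b, rfl⟩) ?_ hL ?_
  · rintro _ ⟨b, rfl⟩ y h1 h2
    obtain ⟨u, rfl⟩ := isUnit_of_inc k K B R (b := b) ⟨⟨_, _, h1, h2⟩, rfl⟩
    refine ⟨(u⁻¹ : Bˣ), ?_⟩
    exact left_inv_eq_right_inv (a := inc k K B R u) (by
      change inc k K B R _ * _ = 1
      rw [← map_mul, u.inv_mul, map_one]) h1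
  · have u : ∀ a : B, inc k K B R a ∈ Fx (0 : BC k K B R) → a ∈ unitary B := fun a ha =>
      ⟨inc_inj k K B R (by rw [map_mul, map_one]; exact ha.2.1),
        inc_inj k K B R (by rw [map_mul, map_one]; exact ha.1)⟩
    rintro _ ⟨⟨a, rfl⟩, ha⟩ _ ⟨⟨b, rfl⟩, hb⟩
    have := h ⟨_, comm_mem_SU K ⟨a, u a ha⟩ ⟨b, u b hb⟩⟩
    simp only [Submonoid.coe_mul, map_mul] at this
    exact this

end BC
end Crest.Agent.T24.Sa
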