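import Crest.Agent.T24.HeisD_83
import Crest.Agent.T24.EmbL_22
import Crest.Agent.T24.HolZ_56
import Crest.Agent.T24.NaJcSg_53_Mg
import Crest.Agent.T24.BcB_98
import Crest.Agent.T24.LocL_59
import Crest.Agent.T24.SaB_92_Mg
import Crest.Agent.T24.CocS_98
import Crest.Agent.T24.NstK_39
import Crest.Agent.T24.TLink_31
import Crest.Agent.T24.SplEx_33

-- ▼ part T24/Heis_83
section

/-! Row 24, HEIS: deep unitary elements commute modulo `N` (odd degree). -/

set_option autoImplicit false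
set_option linter.unusedSectionVars false

noncomputable section

namespace Crest.Agent.T24.Heis

open Module NumberField IsDedekindDomain WithZero Csa Asa Filter Topology Polynomial
open scoped NumberField Valued

universe u v w

section
variable (k K B : Type*) [Field k] [NumberField k] [Field K] [NumberField K] [Algebra k K]
  [StarRing K] [Quad k K] [Ring B] [StarRing B] [Algebra K B] [StarModule K B]
  [Algebra.IsCentral K B] [IsSimpleRing B] [FiniteDimensional K B] [Algebra k B]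
  [IsScalarTower k K B]

include k in
theorem embN : EmbN K B := by
  intro a ha hs
  have hfix : ∀ c : K, star c = c → ∃ x : k, algebraMap k K x = c := fun c hc =>
    exists_of_star_eq Quad.fr Quad.star_k (Quad.ne (k := k)) hc
  obtain ⟨P₀, -, -, h₀⟩ := exists_rch_herm (K := K) hfix ha
  obtain ⟨S, h⟩ := Emb.embNear k K B
  obtain ⟨m, ε, hε, h⟩ := h P₀ a ⟨ha, h₀.symm⟩ ((separable_map (algebraMap k K)).1 (h₀ ▸ hs)) S
    (fun _ => Set.univ) (fun _ => Set.univ) subset_rfl (fun _ _ => univ_mem) fun _ => univ_mem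
  have hV : ∀ᶠ c in nb (0 : K), (∀ v ∈ S, ∀ x : k, algebraMap k K x = c →
      v.valuation k x ≤ exp (-(m : ℤ))) ∧ ∀ ψ : K →+* ℂ, ab (.inr ψ) (c - 0) < ε := by
    refine .and ((eventually_all_finset S).2 fun v _ => ?_) (eventually_all.2 fun ψ =>
      (cv_nb 0 _ trivial).eventually (gt_mem_nhds hε))
    obtain ⟨w, rfl⟩ := exists_over (K := K) k v
    obtain ⟨e, -, he⟩ := val_below (k := k) w
    filter_upwards [(cv_nb (0 : K)).ev_val (w := w) trivial
      (pow_ne_zero e (exp_ne_zero (a := -(m : ℤ))))] with c hc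
    rintro x rfl
    rw [sub_zero, he] at hc
    exact (lt_of_pow_lt_pow_left₀ e zero_le hc).le
  refine ⟨_, hV, fun P h1 h2 h3 h4 h5 => ?_⟩
  obtain ⟨Q, rfl⟩ := exists_map_of_star hfix h3
  have hQ : Q.Monic := monic_of_injective (algebraMap k K).injective h1
  have h6 : ∀ j, algebraMap k K (Q.coeff j - P₀.coeff j) ∈ {c | (∀ v ∈ S, ∀ x : k,
      algebraMap k K x = c → v.valuation k x ≤ exp (-(m : ℤ))) ∧
      ∀ ψ : K →+* ℂ, ab (.inr ψ) (c - 0) < ε} := fun j => by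
    rw [map_sub, ← coeff_map, ← coeff_map, h₀]
    rcases lt_trichotomy j (deg K B) with hj | rfl | hj
    · exact h5 j hj
    · convert mem_of_nb hV
      rw [sub_eq_zero]
      exact (h2 ▸ h1.coeff_natDegree).trans
        (rch_natDegree (K := K) a ▸ (rch_monic K a).coeff_natDegree).symm
    · rw [coeff_eq_zero_of_natDegree_lt (h2 ▸ hj),
        coeff_eq_zero_of_natDegree_lt ((rch_natDegree (K := K) a).symm ▸ hj), sub_zero]
      exact mem_of_nb hV
  obtain ⟨th, h7, -⟩ := h Q hQ (hQ.irreducible_of_irreducible_map _ _ h4)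
    ((natDegree_map (algebraMap k K)).symm.trans h2) (fun v hv i => (h6 i).1 v hv _ rfl)
    fun φ i => by
      have := (h6 i).2 (ComplexEmbedding.lift K (Complex.ofRealHom.comp φ))
      rwa [sub_zero, ab_inr, ComplexEmbedding.lift_algebraMap_apply, RingHom.comp_apply,
        Complex.ofRealHom_eq_coe, Complex.norm_real, Real.norm_eq_abs] at this
  exact ⟨th, h7⟩

include k in
/-- **HEIS** -/
theorem heis' (hd : 3 ≤ deg K B) (ho : Odd (deg K B)) (m : ℕ) : ∃ m₁ : ℕ,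
    ∀ N : Subgroup (unitary B), (∀ u : unitary B, ∀ g ∈ SUm K B m, u * g * u⁻¹ * g⁻¹ ∈ N) →
      ∀ x ∈ Um K B m₁, ∀ y ∈ Um K B m₁, x * y * x⁻¹ * y⁻¹ ∈ N := by
  obtain ⟨m₁, h1, h2⟩ := ((lp_all (K := K) (B := B) k (by omega) ho m).and
    (eventually_ge_atTop m)).exists
  refine ⟨m₁, fun N H x hx y hy => Hy.heis k H (Loc.finite_TT (by omega)) (embN k K B) (eisEx k) hd
    (Um_anti h2 hx) (Um_anti h2 hy) fun p => ?_⟩
  convert h1 ![x, y] (Fin.forall_fin_two.2 ⟨hx, hy⟩) p using 1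
  exact funext (Fin.forall_fin_two.2 ⟨rfl, rfl⟩)

include k in
theorem heis (hd : 3 ≤ deg K B) (ho : Odd (deg K B)) : HolZ.Heis K B := fun m N _ _ H =>
  (heis' k K B hd ho m).imp fun _ h => h N H

end

/-- the central step in odd degree from weak approximation and holonomy -/
theorem cenOddStmt_of (hW : Ev.WaNStmt.{u, v, w}) (hZ : HolZ.HolStmt.{u, v, w}) :
    CenOddStmt.{u, v, w} := fun D hd ha ho =>
  HolZ.cenU_of (by omega) (Loc.valStmt D (by omega)) (Loc.cofStmt D) (heis D.k D.K D.B hd ho)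
    (hW D hd ha) (hZ D hd ho)

end Crest.Agent.T24.Heis
end
end

-- ▼ part T24/LocInf_15
section

/-!
# Row 24 (helper15): `SU (k_∞)` is path connected (first half of `LocG`)
-/

set_option autoImplicit false
set_option linter.unusedSectionVars false

noncomputable section

namespace Crest.Agent.T24

open Module Csa BC NumberField
open scoped TensorProduct

universe u v w x

namespace L15

variable (k : Type u) (K : Type v) (B : Type w) [Field k] [NumberField k] [Field K] [NumberField K]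
  [Algebra k K] [StarRing K] [Quad k K] [Ring B] [StarRing B] [Algebra K B] [StarModule K B]
  [Algebra.IsCentral K B] [IsSimpleRing B] [FiniteDimensional K B] [Algebra k B]
  [IsScalarTower k K B]

/-- `SU (R)` is path connected -/
def Con (R : Type*) [CommRing R] [Algebra k R] [TopologicalSpace R] [IsTopologicalRing R] : Prop :=
  SUc k K B R ≤ Pth (SUc k K B R)

theorem con_emb (F : Type x) [Field F] [CharZero F] [Algebra k F] [TopologicalSpace F]
    [IsTopologicalRing F] (ι : K →ₐ[k] F)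
    (h : ∀ (C : Type (max x w)) [Ring C] [Algebra F C] [Algebra.IsCentral F C] [IsSimpleRing C]
      [FiniteDimensional F C] [TopologicalSpace C] [IsTopologicalRing C] [ContinuousSMul F C],
      SL1 F C ≤ Pth (SL1 F C)) : Con k K B F := by
  let _ : Algebra K F := ι.toRingHom.toAlgebra
  have : IsScalarTower k K F := IsScalarTower.of_algebraMap_eq fun c => (ι.commutes c).symm
  let _ : TopologicalSpace (F ⊗[K] B) := moduleTopology F _
  have : IsModuleTopology F (F ⊗[K] B) := ⟨rfl⟩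
  have : IsTopologicalRing (F ⊗[K] B) := IsModuleTopology.isTopologicalRing F _
  have : IsSimpleRing (F ⊗[K] B) := isSimpleRing_tensor
  have : Algebra.IsCentral F (F ⊗[K] B) := isCentral_tensor
  let s := SM.taut k K B F
  intro u hu
  have := Pth.map (S' := SUc k K B F) s.uHomeo.symm.toMulEquiv.toMonoidHom s.uHomeo.symm.continuous
    (fun g hg => (s.mem_SUc_iff _).2 ((congrArg (Nrd F) (s.hat_mk' _ _)).trans hg))
    (h (F ⊗[K] B) (show s.uHomeo u ∈ SL1 F (F ⊗[K] B) from (s.mem_SUc_iff u).1 hu))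
  exact (s.uHomeo.symm_apply_apply u) ▸ this

theorem con_complex [Algebra k ℂ] : Con k K B ℂ :=
  haveI := finite_kK k K
  con_emb k K B ℂ IsAlgClosed.lift @sl_complex

theorem con_real [Algebra k ℝ] : Con k K B ℝ := by
  rcases isEmpty_or_nonempty (K →ₐ[k] ℝ) with h | ⟨⟨ι⟩⟩
  · obtain ⟨ε, hε⟩ := exists_eps (BC k K K ℝ) Quad.fr Quad.star_k (Quad.ne (k := ℝ))
    have e : SUc k K B ℝ = Wall.su (BC k K K ℝ) (BC k K B ℝ) := Subgroup.ext fun u => mem_SUc_E u
    rw [Con, e]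
    exact su_pth ε hε
  · exact con_emb k K B ℝ ι @sl_real

section prod
variable {k K B} {R : Type*} [CommRing R] [Algebra k R] {ι₁ ι₂ : Type*} {F₁ : ι₁ → Type*}
  {F₂ : ι₂ → Type*} [∀ i, CommRing (F₁ i)] [∀ i, Algebra k (F₁ i)] [∀ i, CommRing (F₂ i)]
  [∀ i, Algebra k (F₂ i)] (p₁ : ∀ i, R →ₐ[k] F₁ i) (p₂ : ∀ i, R →ₐ[k] F₂ i)

theorem repr_map {M : Type*} [Ring M] [Algebra K M] [Algebra k M] [IsScalarTower k K M] {R' ι : Type*}
    [CommRing R'] [Algebra k R'] (f : R →ₐ[k] R') (e : Basis ι k M) (y : BC k K M R) (a : ι) :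
    (bas k K M R' e).repr (map k K M R f y) a = f ((bas k K M R e).repr y a) := by
  refine ind y (by simp) (fun r b => ?_) (fun y z hy hz => ?_)
  · rw [map_smul', map_inc, map_smul, map_smul, Finsupp.smul_apply, Finsupp.smul_apply, repr_inc,
      repr_inc, smul_eq_mul, smul_eq_mul, map_mul, f.commutes]
  · rw [map_add, map_add, map_add, Finsupp.add_apply, Finsupp.add_apply, map_add, hy, hz]

theorem ext_map (hinj : ∀ r r', (∀ i, p₁ i r = p₁ i r') → (∀ i, p₂ i r = p₂ i r') → r = r')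
    {M : Type*} [Ring M] [Algebra K M] [Algebra k M] [IsScalarTower k K M] {y z : BC k K M R}
    (h₁ : ∀ i, map k K M R (p₁ i) y = map k K M R (p₁ i) z)
    (h₂ : ∀ i, map k K M R (p₂ i) y = map k K M R (p₂ i) z) : y = z :=
  (bas k K M R (Basis.ofVectorSpace k M)).ext_elem fun a => hinj _ _
    (fun i => by rw [← repr_map, ← repr_map, h₁]) fun i => by rw [← repr_map, ← repr_map, h₂]

variable [TopologicalSpace R] [IsTopologicalRing R] [∀ i, TopologicalSpace (F₁ i)]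
  [∀ i, IsTopologicalRing (F₁ i)] [∀ i, TopologicalSpace (F₂ i)] [∀ i, IsTopologicalRing (F₂ i)]

theorem con_prod (hinj : ∀ r r', (∀ i, p₁ i r = p₁ i r') → (∀ i, p₂ i r = p₂ i r') → r = r')
    (q : (∀ i, F₁ i) × (∀ i, F₂ i) → R) (hq : Continuous q) (h₁ : ∀ y i, p₁ i (q y) = y.1 i)
    (h₂ : ∀ y i, p₂ i (q y) = y.2 i) (c₁ : ∀ i, Con k K B (F₁ i)) (c₂ : ∀ i, Con k K B (F₂ i)) :
    Con k K B R := by
  have := finite_kB k K B
  intro u hu
  have mU : ∀ {R' : Type _} [CommRing R'] [Algebra k R'] (f : R →ₐ[k] R'),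
      map k K B R f u ∈ unitary (BC k K B R') := fun f => by
    rw [Unitary.mem_iff, ← BC.map_star, ← map_mul, ← map_mul, u.2.1, u.2.2, map_one]
    exact ⟨rfl, rfl⟩
  have mU' : ∀ {R' : Type _} [CommRing R'] [Algebra k R'] (f : R →ₐ[k] R'),
      map k K B R f u ∈ unitary (BC k K B R') := fun f => by
    rw [Unitary.mem_iff, ← BC.map_star, ← map_mul, ← map_mul, u.2.1, u.2.2, map_one]
    exact ⟨rfl, rfl⟩
  have hu' := (mem_SUc_iff u).1 hu
  choose f₁ a₁ b₁ d₁ e₁ using fun i => c₁ i (x := ⟨_, mU (p₁ i)⟩)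
    ((mem_SUc_iff _).2 ((nrdK_map _ _).trans (by rw [hu', map_one])))
  choose f₂ a₂ b₂ d₂ e₂ using fun i => c₂ i (x := ⟨_, mU' (p₂ i)⟩)
    ((mem_SUc_iff _).2 ((nrdK_map _ _).trans (by rw [hu', map_one])))
  let e := finBasis k B
  let g : ℝ → BC k K B R := fun t => ∑ a, q (fun i => (bas k K B _ e).repr (f₁ i t) a,
    fun i => (bas k K B _ e).repr (f₂ i t) a) • inc k K B R (e a)
  have g₁ : ∀ t i, map k K B R (p₁ i) (g t) = f₁ i t := fun t i => by
    simp only [g, map_sum, map_smul', map_inc, h₁]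
    exact (eq_sum e _).symm
  have g₂ : ∀ t i, map k K B R (p₂ i) (g t) = f₂ i t := fun t i => by
    simp only [g, map_sum, map_smul', map_inc, h₂]
    exact (eq_sum e _).symm
  have gc : Continuous g := continuous_finsetSum _ fun a _ => by
    refine Continuous.smul (f := fun t => q _) (g := fun _ => inc k K B R (e a))
      (hq.comp (Continuous.prodMk (continuous_pi fun i => ?_) (continuous_pi fun i => ?_)))
      continuous_const
    · exact (IsModuleTopology.continuous_of_linearMap ((bas k K B (F₁ i) e).coord a)).comp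
        (continuous_subtype_val.comp (a₁ i))
    · exact (IsModuleTopology.continuous_of_linearMap ((bas k K B (F₂ i) e).coord a)).comp
        (continuous_subtype_val.comp (a₂ i))
  have gU : ∀ t, g t ∈ unitary (BC k K B R) := fun t => Unitary.mem_iff.2
    ⟨ext_map p₁ p₂ hinj (fun i => by rw [map_mul, BC.map_star, g₁, map_one, (f₁ i t).2.1])
      fun i => by rw [map_mul, BC.map_star, g₂, map_one, (f₂ i t).2.1],
    ext_map p₁ p₂ hinj (fun i => by rw [map_mul, BC.map_star, g₁, map_one, (f₁ i t).2.2])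
      fun i => by rw [map_mul, BC.map_star, g₂, map_one, (f₂ i t).2.2]⟩
  refine ⟨fun t => ⟨g t, gU t⟩, gc.subtype_mk _, Subtype.ext (ext_map p₁ p₂ hinj (fun i => ?_)
    fun i => ?_), Subtype.ext (ext_map p₁ p₂ hinj (fun i => ?_) fun i => ?_),
    fun t => (mem_SUc_iff _).2 (ext_map p₁ p₂ hinj (fun i => ?_) fun i => ?_)⟩
  · exact (g₁ 0 i).trans (by rw [b₁]; exact (map_one _).symm)
  · exact (g₂ 0 i).trans (by rw [b₂]; exact (map_one _).symm)
  · exact (g₁ 1 i).trans (by rw [d₁])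
  · exact (g₂ 1 i).trans (by rw [d₂])
  · rw [← nrdK_map, map_one, g₁]; exact (mem_SUc_iff _).1 (e₁ i t)
  · rw [← nrdK_map, map_one, g₂]; exact (mem_SUc_iff _).1 (e₂ i t)

end prod

variable {k} in
/-- `F` as a `k`-algebra through `ρ` -/
@[nolint unusedArguments]
def Via {F : Type} [CommRing F] (_ρ : k →+* F) : Type := F

section via
variable {k} {F : Type} [CommRing F] (ρ : k →+* F)
instance : CommRing (Via ρ) := ‹CommRing F›
instance : Algebra k (Via ρ) := RingHom.toAlgebra (S := F) ρ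
instance [h : TopologicalSpace F] : TopologicalSpace (Via ρ) := h
instance [TopologicalSpace F] [h : IsTopologicalRing F] : IsTopologicalRing (Via ρ) := h
end via

open InfinitePlace in
theorem con_inf : Con k K B (Inf k) := by
  let p₁ : ∀ w : {w : InfinitePlace k // IsReal w}, Inf k →ₐ[k] Via (embedding_of_isReal w.2) :=
    fun w => { (Pi.evalRingHom (fun _ => ℝ) w).comp (RingHom.fst _ _) with commutes' := fun _ => rfl }
  let p₂ : ∀ w : {w : InfinitePlace k // IsComplex w}, Inf k →ₐ[k] Via w.1.embedding :=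
    fun w => { (Pi.evalRingHom (fun _ => ℂ) w).comp (RingHom.snd _ _) with commutes' := fun _ => rfl }
  refine con_prod p₁ p₂ (fun r r' h₁ h₂ => Prod.ext (funext h₁) (funext h₂)) (fun y => y)
    continuous_id (fun _ _ => rfl) (fun _ _ => rfl) (fun w => ?_) fun w => ?_
  · let _ := (embedding_of_isReal w.2).toAlgebra
    exact con_real k K B
  · let _ := w.1.embedding.toAlgebra
    exact con_complex k K B

end L15

/-- the first half of `LocG` -/
theorem locG_inf (k K B : Type*) [Field k] [NumberField k] [Field K] [NumberField K]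
    [Algebra k K] [StarRing K] [Quad k K] [Ring B] [StarRing B] [Algebra K B] [StarModule K B]
    [Algebra.IsCentral K B] [IsSimpleRing B] [FiniteDimensional K B] [Algebra k B]
    [IsScalarTower k K B] (H : Subgroup (SUc k K B (Inf k)))
    (hH : IsOpen (H : Set (SUc k K B (Inf k)))) : H = ⊤ :=
  L15.eq_top_of_pth (L15.con_inf k K B) H hH

end Crest.Agent.T24
end
end

-- ▼ part T24/LocZ_59
section

/-! # Row 24 (helper59): `LocGStmt` -/

set_option autoImplicit false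

namespace Crest.Agent.T24

universe u v w

theorem locGStmt : LocGStmt.{u, v, w} := Loc.locGStmt_of fun D _ => locG_inf D.k D.K D.B

end Crest.Agent.T24
end

-- ▼ part T24/Sa_92

/-! # Strong approximation for non-central normal subgroups of `SU(B, τ)` -/

set_option autoImplicit false
set_option linter.unusedSectionVars false
set_option linter.style.haveILetI false

noncomputable section

namespace Crest.Agent.T24.Sa

open Module NumberField IsDedekindDomain Csa Asa Filter Topology BC WithZero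
open scoped Valued Pointwise

universe u v w

theorem exists_notMem_of_coc {Γ G₁ G₂ : Type*} [Group Γ] [Group G₁] [Group G₂] [TopologicalSpace G₁]
    [IsTopologicalGroup G₁] [TopologicalSpace G₂] [IsTopologicalGroup G₂] [NoncompactSpace G₁]
    (i₁ : Γ →* G₁) (i₂ : Γ →* G₂) (Δ : Subgroup Γ) {C₁ : Set G₁} {C₂ : Set G₂} (h₁ : IsCompact C₁)
    (h₂ : IsCompact C₂) (h : ∀ x₁ x₂, ∃ γ ∈ Δ, (i₁ γ)⁻¹ * x₁ ∈ C₁ ∧ (i₂ γ)⁻¹ * x₂ ∈ C₂)
    {Z : Set Γ} (hZ : Z.Finite) {W : Set G₂} (hW : W ∈ 𝓝 1) : ∃ γ ∈ Δ, γ ∉ Z ∧ i₂ γ ∈ W := by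
  by_contra hc
  push Not at hc
  obtain ⟨V, hV, hVW⟩ := exists_nhds_split_inv hW
  obtain ⟨t, -, ht⟩ := h₂.elim_nhds_subcover (fun y => (fun c => c * y⁻¹) ⁻¹' V) fun y _ =>
    (continuous_mul_const y⁻¹).continuousAt.preimage_mem_nhds (by simpa using hV)
  have h1 : ∀ y : G₂, {γ ∈ Δ | (i₂ γ)⁻¹ * y⁻¹ ∈ V}.Finite := by
    intro y
    rcases Set.eq_empty_or_nonempty {γ ∈ Δ | (i₂ γ)⁻¹ * y⁻¹ ∈ V} with h | ⟨γ, h1, h2⟩
    · rw [h]; exact Set.finite_empty
    refine (hZ.image (γ * ·)).subset fun γ' ⟨h3, h4⟩ => ⟨γ⁻¹ * γ', ?_, by simp⟩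
    by_contra h5
    refine hc _ (mul_mem (inv_mem h1) h3) h5 ?_
    simpa [div_eq_mul_inv, mul_assoc] using hVW _ h2 _ h4
  have h2 : IsCompact (⋃ γ ∈ ⋃ y ∈ t, {γ ∈ Δ | (i₂ γ)⁻¹ * y⁻¹ ∈ V}, (i₁ γ * ·) '' C₁) :=
    (t.finite_toSet.biUnion fun y _ => h1 y).isCompact_biUnion fun γ _ =>
      h₁.image (continuous_const_mul _)
  refine h2.ne_univ (Set.eq_univ_of_forall fun x => ?_)
  obtain ⟨γ, h3, h4, h5⟩ := h x 1
  obtain ⟨y, hy, h6⟩ := Set.mem_iUnion₂.1 (ht h5)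
  exact Set.mem_biUnion (Set.mem_biUnion hy ⟨h3, by simpa using h6⟩) ⟨_, h4, by simp⟩

variable (k K B : Type*) [Field k] [NumberField k] [Field K] [NumberField K] [Algebra k K]
  [StarRing K] [Quad k K] [Ring B] [StarRing B] [Algebra K B] [StarModule K B]
  [Algebra.IsCentral K B] [IsSimpleRing B] [FiniteDimensional K B] [Algebra k B]
  [IsScalarTower k K B]

/-- non-central in `B` -/
def nc (γ : SU K B) : Prop := ∃ b : B, ((γ : unitary B) : B) * b ≠ b * (γ : unitary B)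

theorem finite_not_nc : {γ : SU K B | ¬ nc K B γ}.Finite := by
  classical
  refine (((Polynomial.nthRoots (deg K B) (1 : K)).toFinset.finite_toSet.image
    (algebraMap K B)).preimage (f := fun γ : SU K B => ((γ : unitary B) : B))
    (Subtype.val_injective.comp Subtype.val_injective).injOn).subset fun γ hγ => ?_
  have hc : ((γ : unitary B) : B) ∈ Subalgebra.center K B := by
    rw [Subalgebra.mem_center_iff]
    intro b; by_contra h; exact hγ ⟨b, fun h' => h h'.symm⟩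
  rw [Algebra.IsCentral.center_eq_bot, Algebra.mem_bot] at hc
  obtain ⟨c, hc⟩ := hc
  refine ⟨c, ?_, hc⟩
  have := mem_SU.1 γ.2
  rw [← hc, Nrd_algebraMap] at this
  simpa [Polynomial.mem_nthRoots (deg_pos K B)] using this

section Local
variable {k K B} {R : Type*} [CommRing R] [Algebra k R]

/-- the underlying element -/
def cv (g : SUc k K B R) : BC k K B R := ((g : Uc k K B R) : BC k K B R)

theorem cv_mul (a b : SUc k K B R) : cv (a * b) = cv a * cv b := rfl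
theorem cv_inv (a : SUc k K B R) : cv a⁻¹ = star (cv a) := rfl
theorem cv_one : cv (1 : SUc k K B R) = 1 := rfl
theorem cv_mem (a : SUc k K B R) : cv a ∈ SG k K B R := ⟨a.1.2, a.2⟩
theorem exists_cv {x : BC k K B R} (h : x ∈ SG k K B R) : ∃ g, cv g = x := ⟨⟨⟨x, h.1⟩, h.2⟩, rfl⟩
theorem im_sub (Q : Set (SUc k K B R)) : cv '' Q ⊆ SG k K B R := by
  rintro _ ⟨g, -, rfl⟩; exact cv_mem g

theorem ug_im (Q : Subgroup (SUc k K B R)) : UG (cv '' (Q : Set (SUc k K B R))) :=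
  ⟨⟨1, Q.one_mem, rfl⟩, by rintro _ ⟨a, ha, rfl⟩ _ ⟨b, hb, rfl⟩; exact ⟨_, Q.mul_mem ha hb, rfl⟩,
    by rintro _ ⟨a, ha, rfl⟩; exact ⟨_, Q.inv_mem ha, rfl⟩,
    by rintro _ ⟨a, -, rfl⟩; exact a.1.2.2⟩

theorem nc_f {γ : SU K B} (h : nc K B γ) {f : BC k K B R} (hf : Cen f) (h0 : f ≠ 0) :
    ∃ y, f * (cv (toG k K B R γ) * y - y * cv (toG k K B R γ)) ≠ 0 := by
  obtain ⟨b, hb⟩ := h
  refine ⟨inc k K B R b, fun h => h0 (eq_zero_of_mul_inc hf (sub_ne_zero.2 hb) ?_)⟩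
  rwa [map_sub, map_mul, map_mul]

variable [TopologicalSpace R] [IsTopologicalRing R] [T2Space R] [SecondCountableTopology R]
  [LocallyCompactSpace R]

theorem cv_ind : IsInducing (cv : SUc k K B R → BC k K B R) :=
  IsInducing.subtypeVal.comp IsInducing.subtypeVal

theorem cv_nhds {U : Set (SUc k K B R)} {g : SUc k K B R} (h : U ∈ 𝓝 g) :
    ∃ V ∈ 𝓝 (cv g), cv ⁻¹' V ⊆ U := by
  rwa [cv_ind.nhds_eq_comap, mem_comap] at h

/-- the local data -/
structure LD (s : Sc (BC k K B R)) : Prop where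
  good : Good (BC k K B R)
  spc : Spc s (SG k K B R)
  rat : ∀ L, UG L → (∀ g : SU K B, cv (toG k K B R g) ∈ L) → ∀ x ∈ comS (BC k K B R), x ∈ s.Tan L

variable {s : Sc (BC k K B R)}

theorem LD.nhds_of (h : LD s) {H : Set (BC k K B R)} (hH : UG H) (hS : H ⊆ SG k K B R)
    (hs : ∀ x ∈ comS (BC k K B R), x ∈ s.Tan H) : cv ⁻¹' closure H ∈ 𝓝 (1 : SUc k K B R) := by
  obtain ⟨V, hV, h1⟩ := Sc.nbhd h.good h.spc.ug h.spc.nd hH hS hs
  exact mem_of_superset (cv_ind.continuous.continuousAt.preimage_mem_nhds hV)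
    fun g hg => h1 ⟨cv_mem g, hg⟩

theorem LD.nhds_im (h : LD s) (Q : Subgroup (SUc k K B R))
    (hs : ∀ x ∈ comS (BC k K B R), x ∈ s.Tan (cv '' (Q : Set (SUc k K B R)))) :
    closure (Q : Set (SUc k K B R)) ∈ 𝓝 (1 : SUc k K B R) := by
  rw [cv_ind.closure_eq_preimage_closure_image]
  exact h.nhds_of (ug_im Q) (im_sub _) hs

theorem LD.arch (h : LD s) (ha : Arch s) (Q : ℕ → Subgroup (SU K B)) (hQ : Antitone Q)
    (hc : ∀ g, ∃ m, 0 < m ∧ ∀ n, ∃ n', ∀ γ ∈ Q n', g * γ ^ m * g⁻¹ ∈ Q n)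
    (hn : ∀ n, ∀ U ∈ 𝓝 (1 : SUc k K B R), ∃ γ ∈ Q n, nc K B γ ∧ toG k K B R γ ∈ U) :
    ∃ V ∈ 𝓝 (1 : SUc k K B R), ∀ n, V ⊆ closure (toG k K B R '' Q n) := by
  have u := fun n => ug_im ((Q n).map (toG k K B R))
  have h1 := Sc.arch h.good ha h.spc u
    (fun _ _ hn => Set.image_mono (Set.image_mono (hQ hn))) (fun n => im_sub _)
    (ug_im (toG k K B R).range) (im_sub _) (by
      rintro _ ⟨_, ⟨g, rfl⟩, rfl⟩
      obtain ⟨m, hm, h2⟩ := hc g
      refine ⟨m, hm, fun n => ?_⟩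
      obtain ⟨n', h3⟩ := h2 n
      refine ⟨n', ?_⟩
      rintro _ ⟨_, ⟨γ, hγ, rfl⟩, rfl⟩
      exact ⟨_, ⟨_, h3 γ hγ, rfl⟩, by rw [map_mul, map_mul, map_pow, map_inv]; rfl⟩)
    (h.rat _ (ug_im _) fun g => ⟨_, ⟨g, rfl⟩, rfl⟩) (fun f _ hf h0 n V hV => by
      obtain ⟨γ, h2, h3, h4⟩ := hn n _ (cv_ind.continuous.continuousAt.preimage_mem_nhds hV)
      refine ⟨_, ⟨_, ⟨γ, h2, rfl⟩, rfl⟩, h4, fun h5 => ?_⟩
      obtain ⟨y, hy⟩ := nc_f h3 hf h0
      apply hy
      rw [mul_sub, ← mul_assoc, h5, ← mul_assoc, hf, mul_assoc, h5, sub_self])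
  refine ⟨_, h.nhds_of (UG.iInter fun n => (u n).closure) ((Set.iInter_subset _ 0).trans
    (h.spc.closed.closure_subset_iff.2 (im_sub _))) h1, fun n g hg => ?_⟩
  rw [cv_ind.closure_eq_preimage_closure_image]
  exact isClosed_closure.closure_subset_iff.2 (Set.iInter_subset _ n) hg

theorem LD.pad (h : LD s) (hp : Pad s) (Q : Subgroup (SU K B))
    (hc : ∀ g, ∃ m, 0 < m ∧ ∀ γ ∈ Q, g * γ ^ m * g⁻¹ ∈ Q)
    (hn : ∀ U ∈ 𝓝 (1 : SUc k K B R), ∃ γ ∈ Q, nc K B γ ∧ toG k K B R γ ∈ U) :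
    closure (toG k K B R '' Q) ∈ 𝓝 (1 : SUc k K B R) :=
  h.nhds_im (Q.map (toG k K B R)) (Sc.padic h.good hp (ug_im _) (ug_im (toG k K B R).range) (by
      rintro _ ⟨_, ⟨g, rfl⟩, rfl⟩
      obtain ⟨m, hm, h2⟩ := hc g
      refine ⟨m, hm, ?_⟩
      rintro _ ⟨_, ⟨γ, hγ, rfl⟩, rfl⟩
      exact ⟨_, ⟨_, h2 γ hγ, rfl⟩, by rw [map_mul, map_mul, map_pow, map_inv]; rfl⟩)
    (h.rat _ (ug_im _) fun g => ⟨_, ⟨g, rfl⟩, rfl⟩) fun f _ hf h0 V hV => by
      obtain ⟨γ, h2, h3, h4⟩ := hn _ (cv_ind.continuous.continuousAt.preimage_mem_nhds hV)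
      exact ⟨_, ⟨_, ⟨γ, h2, rfl⟩, rfl⟩, h4, nc_f h3 hf h0⟩)

theorem LD.comm (h : LD s) (H L : Subgroup (SUc k K B R))
    (hL : (L : Set (SUc k K B R)) ∈ 𝓝 (1 : SUc k K B R))
    (hn : ∀ y ∈ L, ∀ x ∈ H, y * x * y⁻¹ ∈ H) (n : SU K B) (hc : nc K B n)
    (h1 : ∀ x ∈ L, toG k K B R n * x * (toG k K B R n)⁻¹ * x⁻¹ ∈ H) :
    closure (H : Set (SUc k K B R)) ∈ 𝓝 (1 : SUc k K B R) := by
  obtain ⟨V, hV, hVL⟩ := cv_nhds hL
  refine h.nhds_im H (Sc.comm_open h.good (ug_im H) (ug_im L) ?_ (fun x hx => Sc.Tan_mono ?_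
    (Sc.Tan_inter hV (h.rat _ h.spc.ug (fun g => cv_mem _) x hx))) (n := cv (toG k K B R n))
    (cv_mem _).1.2 (cv_mem _).1.1 ?_ fun f hf h0 h2 => ?_)
  · rintro _ ⟨y, hy, rfl⟩ _ ⟨x, hx, rfl⟩; exact ⟨_, hn y hy x hx, rfl⟩
  · rintro x ⟨h2, h3⟩
    obtain ⟨g, rfl⟩ := exists_cv h2
    exact ⟨g, hVL h3, rfl⟩
  · rintro _ ⟨x, hx, rfl⟩; exact ⟨_, h1 x hx, rfl⟩
  · obtain ⟨y, hy⟩ := nc_f hc hf h0
    apply hy
    rw [mul_sub, ← mul_assoc, h2, ← mul_assoc, ← mul_assoc, hf, sub_self]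

omit [TopologicalSpace R] [IsTopologicalRing R] [T2Space R] [SecondCountableTopology R]
  [LocallyCompactSpace R] in
theorem com_mem_SG {a b : BC k K B R} (ha : a ∈ unitary (BC k K B R))
    (hb : b ∈ unitary (BC k K B R)) : a * b * star a * star b ∈ SG k K B R := by
  refine ⟨mul_mem (mul_mem (mul_mem ha hb) (Unitary.star_mem ha)) (Unitary.star_mem hb), ?_⟩
  have h1 := congrArg (nrd k K B R) ha.2
  have h2 := congrArg (nrd k K B R) hb.2
  simp only [map_mul, map_one] at h1 h2 ⊢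
  linear_combination (nrd k K B R b * nrd k K B R (star b)) * h1 + h2

theorem LD.com (h : LD s) (H : Subgroup (SUc k K B R))
    (hH : ∀ a ∈ unitary (BC k K B R), ∀ b ∈ unitary (BC k K B R), ∀ g,
      cv g = a * b * star a * star b → g ∈ H) :
    closure (H : Set (SUc k K B R)) ∈ 𝓝 (1 : SUc k K B R) := by
  refine h.nhds_im H (Sc.comS_Tan ⊤ (by simp) trivial half_BC trivial (fun _ _ => trivial)
    (fun _ _ _ _ _ => trivial) (ug_im H) fun a ha b hb => ?_)
  obtain ⟨g, hg⟩ := exists_cv (com_mem_SG ⟨ha.2.2.1, ha.2.1⟩ ⟨hb.2.2.1, hb.2.1⟩)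
  exact ⟨g, hH a ⟨ha.2.2.1, ha.2.1⟩ b ⟨hb.2.2.1, hb.2.1⟩ g hg, hg⟩

end Local

theorem dense_inf : DenseRange (algebraMap k (Inf k)) := by
  refine Metric.denseRange_iff.2 fun b ε hε => ?_
  obtain ⟨x, -, hx⟩ := weak (∅ : Finset (Pl k)) (fun _ => 0) 0 b hε
  refine ⟨x, ?_⟩
  rw [dist_comm, dist_eq_norm]
  exact (mixedEmbedding.norm_eq_sup'_normAtPlace _).trans_lt
    ((Finset.sup'_lt_iff _).2 fun w _ => hx w)

theorem ld_inf : ∃ s : Sc (BC k K B (Inf k)), LD s ∧ Arch s := by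
  letI : Algebra ℝ (BC k K B (Inf k)) := Algebra.compHom _ (algebraMap ℝ (Inf k))
  haveI : IsScalarTower ℝ (Inf k) (BC k K B (Inf k)) := IsScalarTower.of_algebraMap_eq fun _ => rfl
  haveI : FiniteDimensional ℝ (BC k K B (Inf k)) := Module.Finite.trans (Inf k) _
  haveI : ContinuousSMul ℝ (BC k K B (Inf k)) :=
    ⟨((continuous_algebraMap ℝ (Inf k)).comp continuous_fst).smul continuous_snd⟩
  haveI : IsArtinianRing (Inf k) := IsArtinianRing.of_finite ℝ _
  haveI : IsReduced (Inf k) := inferInstanceAs (IsReduced (mixedEmbedding.mixedSpace k))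
  obtain ⟨s, hs⟩ := exists_arch (A := BC k K B (Inf k))
  have u : ∀ x : BC k K B (Inf k), 2 * x = 1 → s.p = x := fun x hx =>
    left_inv_eq_right_inv ((s.cen 2).trans hs.two) hx
  refine ⟨s, ⟨good_BC k K B _, spc_SG k K B _ s (t := algebraMap ℝ _ (1 / 2))
    ((IsUnit.mk0 _ (by norm_num)).map _) ?_ (u _ ?_), fun L hL =>
    comS_rat k K B _ (dense_inf k) s ⟨_, (u _ half_BC).symm⟩ hL⟩, hs⟩
  · simpa only [map_zero, Function.comp_def, map_pow] using
      ((continuous_algebraMap ℝ (Inf k)).tendsto 0).comp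
        (tendsto_pow_atTop_nhds_zero_of_lt_one (r := (1 / 2 : ℝ)) (by norm_num) (by norm_num))
  · rw [← IsScalarTower.algebraMap_apply, ← map_ofNat (algebraMap ℝ (BC k K B (Inf k))) 2,
      ← map_mul]
    norm_num

variable {k K B}

theorem exists_prime (v : Pl k) : ∃ P : ℕ, P.Prime ∧ ‖(P : Kv v)‖ < 1 := by
  have h : ∀ n : ℕ, n ≠ 0 → (n : 𝓞 k) ∈ v.asIdeal → ∃ P : ℕ, P.Prime ∧ (P : 𝓞 k) ∈ v.asIdeal := by
    intro n
    induction n using Nat.recOnMul with
    | zero => exact fun h => absurd rfl h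
    | one => exact fun _ h => absurd (by simpa using h) ((Ideal.ne_top_iff_one _).1 v.isPrime.ne_top)
    | prime p hp => exact fun _ h => ⟨p, hp, h⟩
    | mul a b ha hb =>
      intro h0 h
      rw [Nat.cast_mul] at h
      exact (v.isPrime.mem_or_mem h).elim (ha (left_ne_zero_of_mul h0)) (hb (right_ne_zero_of_mul h0))
  obtain ⟨P, hP, h1⟩ := h _ (Ideal.absNorm_eq_zero_iff.not.2 v.ne_bot) (Ideal.absNorm_mem _)
  refine ⟨P, hP, ?_⟩
  rw [Valued.toNormedField.norm_lt_one_iff, ← map_natCast (algebraMap k (Kv v)), NstK39.val_alg,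
    ← map_natCast (algebraMap (𝓞 k) k)]
  exact (v.valuation_lt_one_iff_mem _).2 h1

/-- the local order -/
def Rv (Λ : Ord K B) (v : Pl k) : Subring (BC k K B (Kv v)) :=
  ((Λ.At v).map (inc k K B (Kv v)).toRingHom).topologicalClosure

theorem isOpen_Rv (Λ : Ord K B) (v : Pl k) : IsOpen (Rv Λ v : Set (BC k K B (Kv v))) := by
  obtain ⟨V, hV, h⟩ := NstK39.At_nhds Λ v
  refine (Rv Λ v).toAddSubgroup.isOpen_of_mem_nhds (g := 0)
    (mem_of_superset (interior_mem_nhds.2 hV) fun y hy => ?_)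
  refine closure_mono ?_ ((TL31.dense_inc k K B v).open_subset_closure_inter isOpen_interior hy)
  rintro _ ⟨h1, x, rfl⟩
  exact ⟨x, h x (interior_subset h1), rfl⟩

theorem inc_mem_Rv {Λ : Ord K B} {v : Pl k} {x : B} : inc k K B (Kv v) x ∈ Rv Λ v ↔ x ∈ Λ.At v := by
  refine ⟨fun hx => ?_, fun hx => subset_closure ⟨x, hx, rfl⟩⟩
  obtain ⟨V, hV, h⟩ := NstK39.At_nhds Λ v
  obtain ⟨_, h1, y, hy, rfl⟩ := mem_closure_iff_nhds.1 hx _
    ((continuous_sub_left (inc k K B (Kv v) x)).continuousAt.preimage_mem_nhds (t := V)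
      (by simpa using hV))
  have := add_mem (h (x - y) (by rw [map_sub]; exact h1)) hy
  rwa [sub_add_cancel] at this

theorem star_mem_Rv {Λ : Ord K B} {v : Pl k} {x : BC k K B (Kv v)} (h : x ∈ Rv Λ v) :
    star x ∈ Rv Λ v :=
  map_mem_closure continuous_star h (by rintro _ ⟨y, hy, rfl⟩; exact ⟨_, Λ.star_mem_At v hy, rfl⟩)

theorem isCompact_Rv (Λ : Ord K B) (v : Pl k) : IsCompact (Rv Λ v : Set (BC k K B (Kv v))) := by
  obtain ⟨e, he⟩ := Λ.exists_basis_out (k := k)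
  have h1 := (crd k K B (Kv v) e).toHomeomorph.isCompact_preimage.2
    (isCompact_univ_pi fun _ => Coc.isCompact_int v)
  refine h1.of_isClosed_subset isClosed_closure (h1.isClosed.closure_subset_iff.2 ?_)
  rintro _ ⟨x, ⟨c, hc, hx⟩, rfl⟩ i -
  obtain ⟨r, hr⟩ := he _ hx i
  change Valued.v (crd k K B (Kv v) e (inc k K B (Kv v) x) i) ≤ 1
  rw [TL31.crd_inc, NstK39.val_alg]
  have h2 := val_int v r
  rw [hr, map_smul, Finsupp.smul_apply, smul_eq_mul, map_mul,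
    show v.valuation k (c : k) = 1 from v.valuation_eq_one_iff_notMem.2 hc, one_mul] at h2
  exact h2

theorem ld_fin (Λ : Ord K B) (v : Pl k) :
    ∃ s : Sc (BC k K B (Kv v)), LD s ∧ Pad s ∧ s.p ∈ Rv Λ v := by
  obtain ⟨P, hP, h1⟩ := exists_prime v
  haveI := Loc.charZero_adic k v
  obtain ⟨s, hs⟩ := exists_pad (Kv v) hP h1 (A := BC k K B (Kv v))
  exact ⟨s, ⟨good_BC k K B _, spc_SG k K B _ s (t := P)
    (IsUnit.mk0 _ (by exact_mod_cast hP.ne_zero)) (tendsto_pow_atTop_nhds_zero_of_norm_lt_one h1)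
    (by rw [hs, map_natCast]), fun L hL => comS_rat k K B _ (v.denseRange_algebraMap k) s
      ⟨P, by rw [hs, map_natCast]⟩ hL⟩, ⟨P, hs, _, isOpen_Rv Λ v, isCompact_Rv Λ v⟩,
    hs ▸ natCast_mem _ P⟩

/-- the integral points -/
def Kc (Λ : Ord K B) (v : Pl k) : Subgroup (SUc k K B (Kv v)) where
  carrier := {g | cv g ∈ Rv Λ v}
  one_mem' := (Rv Λ v).one_mem
  mul_mem' := (Rv Λ v).mul_mem
  inv_mem' := star_mem_Rv

theorem isOpen_Kc (Λ : Ord K B) (v : Pl k) : IsOpen (Kc Λ v : Set (SUc k K B (Kv v))) :=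
  (isOpen_Rv Λ v).preimage cv_ind.continuous

theorem isCompact_Kc (Λ : Ord K B) (v : Pl k) : IsCompact (Kc Λ v : Set (SUc k K B (Kv v))) :=
  ((isClosed_unitary (R := BC k K B (Kv v))).isClosedEmbedding_subtypeVal.comp
    (isClosed_SUc k K B _).isClosedEmbedding_subtypeVal).isCompact_preimage (isCompact_Rv Λ v)

theorem toG_mem_Kc {Λ : Ord K B} {v : Pl k} {γ : SU K B} :
    toG k K B (Kv v) γ ∈ Kc Λ v ↔ ((γ : unitary B) : B) ∈ Λ.At v := inc_mem_Rv

/-- principal congruence subgroups -/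
theorem exists_W (Λ : Ord K B) (v : Pl k) : ∃ W : ℕ → Subgroup (SUc k K B (Kv v)), Antitone W ∧
    (∀ n, IsOpen (W n : Set (SUc k K B (Kv v)))) ∧
    (∀ n, ∀ g ∈ Kc Λ v, ∀ x ∈ W n, g * x * g⁻¹ ∈ W n) ∧
    ∀ U ∈ 𝓝 (1 : SUc k K B (Kv v)), ∃ n, (W n : Set (SUc k K B (Kv v))) ⊆ U := by
  obtain ⟨s, -, -, hp⟩ := ld_fin Λ v
  let W : ℕ → Subgroup (SUc k K B (Kv v)) := fun n =>
    { carrier := {g | ∃ a ∈ Rv Λ v, cv g = 1 + s.p ^ n * a}
      one_mem' := ⟨0, zero_mem _, by simp [cv_one]⟩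
      mul_mem' := fun ⟨a, ha, e⟩ ⟨b, hb, e'⟩ =>
        ⟨a + b + a * (s.p ^ n * b), add_mem (add_mem ha hb) (mul_mem ha (mul_mem (pow_mem hp n) hb)),
          by rw [cv_mul, e, e']; noncomm_ring⟩
      inv_mem' := fun ⟨a, ha, e⟩ => ⟨star a, star_mem_Rv ha, by
        rw [cv_inv, e, star_add, star_one, star_mul, s.star_pow, s.cen.pow]⟩ }
  refine ⟨W, antitone_nat_of_succ_le fun n g ⟨a, ha, e⟩ =>
    ⟨_, mul_mem hp ha, by rw [e, pow_succ, mul_assoc]⟩, fun n => ?_, ?_, fun U hU => ?_⟩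
  · have := (cv_ind.continuous.continuousAt (x := (1 : SUc k K B (Kv v)))).preimage_mem_nhds
      (Sc.ball_nhds (s := s) ((isOpen_Rv Λ v).mem_nhds (zero_mem _)) n)
    exact Subgroup.isOpen_of_mem_nhds _ (g := 1) this
  · rintro n g hg x ⟨a, ha, e⟩
    refine ⟨cv g * a * star (cv g), mul_mem (mul_mem hg ha) (star_mem_Rv hg), ?_⟩
    rw [cv_mul, cv_mul, cv_inv, e, mul_add, mul_one, add_mul, (cv_mem g).1.2, s.mv, mul_assoc]
  · obtain ⟨V, hV, h⟩ := cv_nhds hU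
    obtain ⟨n, hn⟩ := (Sc.tube (s := s) (isCompact_Rv Λ v) ((continuous_const_add 1).continuousAt.preimage_mem_nhds (x := 0)
      (t := V) (by simpa [cv_one] using hV))).exists
    exact ⟨n, fun g ⟨a, ha, e⟩ => h (by rw [Set.mem_preimage, e]; exact hn a ha)⟩

/-- weak approximation for `U` at finitely many finite places -/
theorem wa_U {σ : Type*} [Finite σ] (p : σ → Pl k) (hp : Function.Injective p)
    [Nonempty σ] (g : ∀ i, BC k K B (Kv (p i))) (hg : ∀ i, star (g i) * g i = 1)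
    {V : Set (∀ i, BC k K B (Kv (p i)))} (hV : V ∈ 𝓝 g) :
    ∃ u : unitary B, (fun i => inc k K B (Kv (p i)) u) ∈ V := by
  obtain ⟨θ, h0, hθ⟩ := exists_skew (Quad.ne (k := k) (K := K))
  haveI := finite_kB k K B
  haveI := fun i => Loc.charZero_adic k (p i)
  have d1 : DenseRange fun (c : k) i => algebraMap k (Kv (p i)) c := fun a => by
    choose x _ hx using Coc.approx_p p hp a
    refine mem_closure_of_tendsto (f := fun m i => algebraMap k (Kv (p i)) (x m)) (b := atTop)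
      (tendsto_pi_nhds.2 fun i => ?_) (Eventually.of_forall fun m => ⟨_, rfl⟩)
    simpa using (Coc.tendsto_of_val (p i) fun m => hx m i).const_sub (a i)
  obtain ⟨u, h1, -, h2⟩ := Opn.wa_unitary' (F := fun i => Kv (p i))
    (τ := (starAddEquiv (R := B)).toAddMonoidHom) ⟨star_mul, star_star⟩
    (by simpa only [map_ofNat] using (IsUnit.mk0 (2 : k) two_ne_zero).map (algebraMap k B))
    (σ := fun i => (starAddEquiv (R := BC k K B (Kv (p i)))).toAddMonoidHom)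
    (fun i => ⟨⟨star_mul, star_star⟩, fun c => by
      change star (algebraMap (Kv (p i)) (BC k K B (Kv (p i))) c) = _
      rw [Algebra.algebraMap_eq_smul_one, star_rsmul, star_one]⟩) (fun _ => two_ne_zero)
    (fun i => (inc k K B (Kv (p i))).toRingHom) (fun _ _ => rfl)
    (Opn.wa_vec (fun i => algebraMap k (Kv (p i))) d1
      (fun i => (inc k K B (Kv (p i))).toRingHom.toAddMonoidHom)
      (fun i c b => by
        change inc k K B _ _ = _ • inc k K B _ _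
        rw [map_smul, algebraMap_smul]) (finBasis k B) fun i => by
        rw [← (bas k K B (Kv (p i)) (finBasis k B)).span_eq]
        congr 2
        exact funext fun j => (bas_apply k K B _ _ j).symm)
    (fun b hb => isUnit_of_inc k K B _ (hb (Classical.arbitrary σ)))
    ((IsUnit.mk0 θ h0).map (algebraMap K B)) (fun i z => cen_inc θ z)
    (by change star (algebraMap K B θ) = _; rw [T24.star_algebraMap, hθ, map_neg]) hg hV
  haveI : IsArtinianRing B := IsArtinianRing.of_finite K B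
  exact ⟨⟨u, h1, mul_eq_one_comm.1 h1⟩, h2⟩

open scoped Classical in
/-- the adelic data away from `v₀` -/
def adl (Λ : Ord K B) (v₀ : Pl k) :
    Adl (SU K B) (SUc k K B (Inf k)) fun u : {v : Pl k // v ≠ v₀} => SUc k K B (Kv u.1) where
  j₀ := toG k K B _
  j _ := toG k K B _
  K u := Kc Λ u.1
  opn u := isOpen_Kc Λ u.1
  fin γ := by
    simp only [toG_mem_Kc]
    exact (NstK39.finite_not_At Λ _).preimage Subtype.val_injective.injOn

open scoped Classical in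
theorem mem_Gm {Λ : Ord K B} {v₀ : Pl k} {S : Finset (Pl k)} {γ : SU K B} :
    γ ∈ (adl Λ v₀).Gm {u | u.1 ∈ S} ↔ γ ∈ Λ.Gam (insert v₀ S) := by
  refine ⟨fun h => Ord.mem_Off.2 fun v hv => ?_, fun h u hu => toG_mem_Kc.2 (Ord.mem_Off.1 h _ ?_)⟩
  · rw [Finset.mem_insert, not_or] at hv
    exact toG_mem_Kc.1 (h ⟨v, hv.1⟩ hv.2)
  · rw [Finset.mem_insert, not_or]; exact ⟨u.2, hu⟩

theorem noncompact_SL {n : ℕ} (hn : 2 ≤ n) (v : Pl k) :
    NoncompactSpace (Matrix.SpecialLinearGroup (Fin n) (Kv v)) := by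
  refine ⟨fun h => ?_⟩
  have h01 : (⟨0, by omega⟩ : Fin n) ≠ ⟨1, by omega⟩ := by simp
  have hc : Continuous ((↑) : Matrix.SpecialLinearGroup (Fin n) (Kv v) →
      Matrix (Fin n) (Fin n) (Kv v)) :=
    continuous_subtype_val
  have := h.image (hc.matrix_elem ⟨0, by omega⟩ ⟨1, by omega⟩)
  refine this.ne_univ (Set.eq_univ_of_forall fun c =>
    ⟨⟨Matrix.transvection _ _ c, Matrix.det_transvection_of_ne _ _ h01 c⟩, trivial, ?_⟩)
  simp [Matrix.transvection, Matrix.one_apply_ne h01]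

open scoped Classical in
theorem inp_nt (hd : 2 ≤ deg K B) (hC : Coc k K B) (Λ : Ord K B) {v₀ : Pl k} (s₀ : Spl K B v₀)
    {U₀ : Set (SUc k K B (Inf k))} (hU₀ : U₀ ∈ 𝓝 1) {F : Set {v : Pl k // v ≠ v₀}} (hF : F.Finite)
    (U : ∀ u : {v : Pl k // v ≠ v₀}, Set (SUc k K B (Kv u.1))) (hU : ∀ u, U u ∈ 𝓝 1) :
    ∃ γ ∈ (adl Λ v₀).Gm ∅, nc K B γ ∧ toG k K B _ γ ∈ U₀ ∧ ∀ u ∈ F, toG k K B _ γ ∈ U u := by
  obtain ⟨S, hS, hF⟩ : ∃ S : Finset (Pl k), (∀ v ∈ S, v ≠ v₀) ∧ ∀ u ∈ F, u.1 ∈ S :=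
    ⟨hF.toFinset.image Subtype.val, fun v hv => by
      obtain ⟨u, -, rfl⟩ := Finset.mem_image.1 hv; exact u.2,
      fun u hu => Finset.mem_image_of_mem _ (hF.mem_toFinset.2 hu)⟩
  obtain ⟨-, C₁, C₂, c1, c2, h⟩ := (hC Λ S).2.2.2 v₀ (fun h => hS _ h rfl) s₀
  haveI := noncompact_SL hd v₀
  have hW : (U₀ ×ˢ Set.univ.pi fun v : S => U ⟨v.1, hS _ v.2⟩ ∩ Kc Λ v.1 : Set (GS k K B S)) ∈
      𝓝 (1 : GS k K B S) := prod_mem_nhds hU₀ (set_pi_mem_nhds Set.finite_univ fun v _ =>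
    inter_mem (hU ⟨v.1, hS _ v.2⟩) ((isOpen_Kc Λ v.1).mem_nhds (one_mem _)))
  obtain ⟨γ, g1, g2, g3, g4⟩ := exists_notMem_of_coc s₀.toSL (jS k K B S) _ c1 c2 h
    (finite_not_nc K B) hW
  refine ⟨γ, fun u _ => ?_, not_not.1 g2, g3, fun u hu => (g4 ⟨u.1, hF u hu⟩ trivial).1⟩
  by_cases hu : u.1 ∈ S
  · exact (g4 ⟨u.1, hu⟩ trivial).2
  · exact mem_Gm.2 g1 u hu

open scoped Classical in
theorem inp_coc (hC : Coc k K B) (Λ : Ord K B) {v₀ : Pl k} (s₀ : Spl K B v₀)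
    (v : {v : Pl k // v ≠ v₀}) : ∃ C : Set (SUc k K B (Kv v.1)), IsCompact C ∧
      ∀ x, ∃ γ ∈ (adl Λ v₀).Gm {v}, (toG k K B _ γ)⁻¹ * x ∈ C := by
  obtain ⟨-, C₁, C₂, -, c2, h⟩ := (hC Λ {v.1}).2.2.2 v₀ (by simpa using v.2.symm) s₀
  refine ⟨_, c2.image (f := fun y : GS k K B {v.1} => y.2 ⟨v.1, Finset.mem_singleton_self _⟩)
    (by fun_prop), fun x => ?_⟩
  obtain ⟨γ, g1, -, g2⟩ := h 1 (1, Pi.mulSingle ⟨v.1, Finset.mem_singleton_self _⟩ x)
  refine ⟨γ, fun u hu => mem_Gm.2 g1 u fun h' => hu (Subtype.ext (by simpa using h')), _, g2, ?_⟩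
  simp only [Prod.snd_mul, Pi.mul_apply, Pi.mulSingle_eq_same]
  rfl

open scoped Classical in
theorem inp_wa {v₀ : Pl k} {T : Set {v : Pl k // v ≠ v₀}} (fT : T.Finite) {v : {v : Pl k // v ≠ v₀}}
    (hv : v ∈ T) {a b : BC k K B (Kv v.1)} (ha : a ∈ unitary _) (hb : b ∈ unitary _)
    {g : SUc k K B (Kv v.1)} (hg : cv g = a * b * star a * star b)
    (U : ∀ u : {v : Pl k // v ≠ v₀}, Set (SUc k K B (Kv u.1)))
    (hU : ∀ u, U u ∈ 𝓝 (Pi.mulSingle (M := fun u : {v : Pl k // v ≠ v₀} => SUc k K B (Kv u.1)) v g u)) :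
    ∃ γ : SU K B, ∀ u ∈ T, toG k K B _ γ ∈ U u := by
  haveI := fT.to_subtype
  haveI : Nonempty T := ⟨⟨v, hv⟩⟩
  choose V hV hVU using fun u => cv_nhds (hU u)
  let A := fun i : T => BC k K B (Kv i.1.1)
  let a₀ : ∀ i, A i := Pi.mulSingle (M := A) ⟨v, hv⟩ a
  let b₀ : ∀ i, A i := Pi.mulSingle (M := A) ⟨v, hv⟩ b
  have hc : Continuous fun z : (∀ i, A i) × ∀ i, A i =>
      fun i => z.1 i * z.2 i * star (z.1 i) * star (z.2 i) := by fun_prop
  have h5 := hc.continuousAt.preimage_mem_nhds (x := (a₀, b₀))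
    (t := Set.univ.pi fun i : T => V i.1) (set_pi_mem_nhds Set.finite_univ fun i _ => by
      have := hV i.1
      by_cases hi : i = ⟨v, hv⟩
      · subst hi
        rw [Pi.mulSingle_eq_same, hg] at this
        simp only [a₀, b₀, Pi.mulSingle_eq_same]
        exact this
      · have hi' : i.1 ≠ v := fun h => hi (Subtype.ext h)
        rw [Pi.mulSingle_eq_of_ne hi', cv_one] at this
        simp only [a₀, b₀, Pi.mulSingle_eq_of_ne hi, star_one, mul_one]
        exact this)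
  rw [nhds_prod_eq] at h5
  obtain ⟨V₁, hV₁, V₂, hV₂, h6⟩ := mem_prod_iff.1 h5
  have un : ∀ c ∈ unitary (A ⟨v, hv⟩), ∀ i, star (Pi.mulSingle (M := A) ⟨v, hv⟩ c i) *
      Pi.mulSingle (M := A) ⟨v, hv⟩ c i = 1 := fun c hc i => by
    by_cases hi : i = ⟨v, hv⟩
    · subst hi; rw [Pi.mulSingle_eq_same]; exact hc.1
    · rw [Pi.mulSingle_eq_of_ne hi, star_one, mul_one]
  have inj : Function.Injective fun i : T => i.1.1 :=
    Subtype.val_injective.comp Subtype.val_injective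
  obtain ⟨x, hx⟩ := wa_U _ inj a₀ (un a ha) hV₁
  obtain ⟨y, hy⟩ := wa_U _ inj b₀ (un b hb) hV₂
  refine ⟨⟨_, comm_mem_SU K x y⟩, fun u hu => hVU u ?_⟩
  have := h6 (Set.mk_mem_prod hx hy) ⟨u, hu⟩ trivial
  change inc k K B (Kv u.1) ((x * y * x⁻¹ * y⁻¹ : unitary B) : B) ∈ V u
  simp only [Submonoid.coe_mul, map_mul]
  exact this

open scoped Classical in
theorem inp (hd : 2 ≤ deg K B) (hC : Coc k K B) (hL : LocG k K B) (Λ : Ord K B) {v₀ : Pl k}
    (s₀ : Spl K B v₀) : ∃ W, (adl Λ v₀).Inp (nc K B) {u | u.1 ∈ Tk k K B} W := by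
  choose W h1 h2 h3 h4 using exists_W (k := k) Λ
  obtain ⟨s, hs, ha⟩ := ld_inf k K B
  choose t ht hp _ using ld_fin (k := k) Λ
  have fT : {u : {v : Pl k // v ≠ v₀} | u.1 ∈ Tk k K B}.Finite :=
    (TL31.finite_Tk k K B hd).preimage Subtype.val_injective.injOn
  exact ⟨fun u => W u.1, fun u => isCompact_Kc Λ u.1, fun u => h1 u.1, fun u => h2 u.1,
    fun u => h3 u.1, fun u => h4 u.1, fun U₀ hU₀ F hF => inp_nt hd hC Λ s₀ hU₀ hF, hs.arch ha,
    fun v => (ht v.1).pad (hp v.1), hL.1, fun v hv => hL.2 v.1 hv, inp_coc hC Λ s₀, fT,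
    fun v hv H hH => (ht v.1).com H fun a ha b hb g hg => hH g (inp_wa fT hv ha hb hg),
    fun H hH n hn h => hs.comm H ⊤ univ_mem (fun y _ x hx => hH.conj_mem x hx y)
      n hn fun x _ => h x, fun v => (ht v.1).comm⟩

open scoped Classical in
theorem sa (hd : 2 ≤ deg K B) (hC : Coc k K B) (hL : LocG k K B) : Sa k K B := by
  rintro N hN Λ v₀ ⟨s₀⟩
  obtain ⟨W, h⟩ := inp hd hC hL Λ s₀
  haveI : (N.subgroupOf (SU K B)).Normal := ⟨fun x hx g => hN.nrm g g.2 x hx⟩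
  obtain ⟨x, hx, g, -, hg⟩ := hN.nc
  obtain ⟨h1, h2, h3⟩ := h.main (N := N.subgroupOf (SU K B)) (n := ⟨x, hN.le hx⟩) hx
    ⟨g, fun h => hg (Subtype.ext h)⟩
  refine ⟨fun v => if hv : v = v₀ then ⊤ else (adl Λ v₀).V (N.subgroupOf (SU K B)) ⟨v, hv⟩,
    fun v => ?_, fun v hv => ?_, fun S hS g hg => ?_⟩
  · beta_reduce
    split_ifs with hv
    · exact isOpen_univ
    · exact h2 ⟨v, hv⟩
  · beta_reduce
    split_ifs with hv'
    · rfl
    · exact h3 ⟨v, hv'⟩ hv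
  have ne : ∀ v : S, v.1 ≠ v₀ := fun v h => hS (h ▸ v.2)
  have h4 := (adl Λ v₀).glue (N := N.subgroupOf (SU K B)) (S := {u | u.1 ∈ S})
    (x := (g.1, fun u => if hu : u.1 ∈ S then g.2 ⟨u.1, hu⟩ else 1)) (h1 ▸ Subgroup.mem_top _)
    (fun u => by
      simp only
      split_ifs with hu
      · have := hg ⟨u.1, hu⟩
        simp only [dif_neg u.2] at this
        exact this
      · exact one_mem _) fun u hu => by
      simp only [dif_neg (show u.1 ∉ S from hu)]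
      exact one_mem _
  have h5 := map_mem_closure (f := fun y : SUc k K B (Inf k) × ∀ u : {v : Pl k // v ≠ v₀},
      SUc k K B (Kv u.1) => ((y.1, fun v => y.2 ⟨v.1, ne v⟩) : GS k K B S)) (by fun_prop) h4
    (t := jS k K B S '' {γ | γ ∈ Λ.Gam (insert v₀ S) ∧ (γ : unitary B) ∈ N}) (by
      rintro _ ⟨γ, ⟨h5, h6⟩, rfl⟩
      exact ⟨γ, ⟨mem_Gm.1 h6, h5⟩, rfl⟩)
  simpa using h5

theorem saStmt : SaStmt.{u, v, w} := fun D hd ha =>
  sa (by omega) (cocStmt D ha) (locGStmt D hd)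


end Crest.Agent.T24.Sa
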