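import Crest.Agent.T24.HnDef_7
import Crest.Agent.R018.SLatB_824
import Crest.Agent.R018.HerbA_530

/-!
# Row 24, Hasse norm theorem: the `S`-unit theorem for square classes, killing the class group
-/

set_option autoImplicit false

noncomputable section

open scoped NumberField nonZeroDivisors
open IsDedekindDomain Module

namespace Crest.Agent.T24.Hn

open Crest.Agent.R018.MinkUx824 Crest.Agent.R018.Selmerx380 Crest.Agent.R018.SLatx824
open Crest.Agent.R018.SLatBx824 Crest.Agent.R018.HerbAx530

section Grp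

variable {G G' : Type*} [CommGroup G] [CommGroup G']

/-- the squares of a subgroup -/
abbrev sqr (B : Subgroup G) : Subgroup G := B.map (powMonoidHom 2)


theorem sq_le (B : Subgroup G) : sqr B ≤ B := by
  rintro _ ⟨y, hy, rfl⟩
  exact pow_mem hy 2

theorem map_sq (f : G →* G') (B : Subgroup G) : (sqr B).map f = sqr (B.map f) := by
  ext x
  constructor
  · rintro ⟨_, ⟨y, hy, rfl⟩, rfl⟩
    exact ⟨f y, ⟨y, hy, rfl⟩, by simp⟩
  · rintro ⟨_, ⟨y, hy, rfl⟩, rfl⟩
    exact ⟨y ^ 2, ⟨y, hy, rfl⟩, by simp⟩

theorem sq_index_mul (f : G →* G') (h2 : ∀ y : G', y ^ 2 = 1 → y = 1) (B : Subgroup G) :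
    (sqr B).relIndex B =
      (sqr (B.map f)).relIndex (B.map f) * (sqr (f.ker ⊓ B)).relIndex (f.ker ⊓ B) := by
  rw [relIndex_eq_mul f (sq_le B), map_sq]
  congr 2
  ext x
  constructor
  · rintro ⟨hx, y, hy, rfl⟩
    refine ⟨y, ⟨?_, hy⟩, rfl⟩
    apply h2
    rw [← map_pow]
    exact hx
  · rintro ⟨y, ⟨hy, hy'⟩, rfl⟩
    exact ⟨pow_mem hy 2, y, hy', rfl⟩

theorem sq_index_free [Module.Free ℤ (Additive G)] [Module.Finite ℤ (Additive G)]
    (H : Subgroup G) (hH : H.index ≠ 0) :
    (sqr H).relIndex H = 2 ^ finrank ℤ (Additive G) := by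
  rw [← Subgroup.relIndex_toAddSubgroup]
  have h1 : Subgroup.toAddSubgroup (sqr H) =
      (Subgroup.toAddSubgroup H).map (nsmulAddMonoidHom (α := Additive G) 2) := by
    ext x
    constructor
    · rintro ⟨y, hy, hx⟩
      exact ⟨Additive.ofMul y, hy, hx⟩
    · rintro ⟨y, hy, hx⟩
      exact ⟨Additive.toMul y, hy, hx⟩
  have : (Subgroup.toAddSubgroup H).FiniteIndex := ⟨by rwa [Subgroup.index_toAddSubgroup]⟩
  rw [h1, AddSubgroup.relIndex_map_nsmul, AddSubgroup.finrank_eq_of_finiteIndex]

theorem sq_top_relIndex : (sqr (⊤ : Subgroup G)).relIndex ⊤ = (powMonoidHom 2 : G →* G).range.index := by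
  rw [Subgroup.relIndex_top_right, MonoidHom.range_eq_map]

theorem sq_index_inj (f : G →* G') (hf : Function.Injective f) (B : Subgroup G) :
    (sqr (B.map f)).relIndex (B.map f) = (sqr B).relIndex B := by
  rw [← map_sq, Subgroup.relIndex_map_map_of_injective _ _ hf]

end Grp

section SU

variable (F : Type*) [Field F] [NumberField F]

theorem sq_units : (sqr (⊤ : Subgroup (𝓞 F)ˣ)).relIndex ⊤ =
    2 ^ Fintype.card (NumberField.InfinitePlace F) := by
  have h2 : ∀ y : (𝓞 F)ˣ ⧸ NumberField.Units.torsion F, y ^ 2 = 1 → y = 1 := by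
    intro y hy
    obtain ⟨u, rfl⟩ := QuotientGroup.mk_surjective y
    rw [← QuotientGroup.mk_pow, QuotientGroup.eq_one_iff] at hy
    rw [QuotientGroup.eq_one_iff]
    exact IsOfFinOrder.of_pow hy two_ne_zero
  rw [sq_index_mul (G' := (𝓞 F)ˣ ⧸ NumberField.Units.torsion F)
    (QuotientGroup.mk' (NumberField.Units.torsion F)) h2, sq_index_free,
    NumberField.Units.finrank_modTorsion, QuotientGroup.ker_mk', inf_top_eq]
  · have h3 : (sqr (NumberField.Units.torsion F)).relIndex (NumberField.Units.torsion F) = 2 := by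
      have h4 := sq_index_inj (NumberField.Units.torsion F).subtype Subtype.val_injective ⊤
      rw [← MonoidHom.range_eq_map, Subgroup.range_subtype] at h4
      rw [h4, sq_top_relIndex, IsCyclic.index_powMonoidHom_range]
      exact Nat.gcd_eq_right (NumberField.Units.even_torsionOrder F).two_dvd
    rw [h3, NumberField.Units.rank, ← pow_succ, Nat.sub_add_cancel Fintype.card_pos]
  · rw [← MonoidHom.range_eq_map, MonoidHom.range_eq_top.mpr (QuotientGroup.mk'_surjective _)]
    simp

variable {F}

/-- the orders at the places of `S` -/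
def ordS (S : Finset (Pl F)) : Fˣ →* Multiplicative (S → ℤ) where
  toFun x := Multiplicative.ofAdd fun q : S => ord (𝓞 F) q.1 x
  map_one' := by
    rw [← ofAdd_zero]
    congr 1
    funext q
    simp [ord_one]
  map_mul' a b := by
    rw [← ofAdd_add]
    congr 1
    funext q
    simp [ord_mul]

omit [NumberField F] in
theorem iu_inj : Function.Injective (iu F) := by
  intro a b h
  have := congrArg (fun x : Fˣ => (x : F)) h
  simp only [coe_iu] at this
  exact Units.ext (by exact_mod_cast this)

end SU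

universe u

theorem suStmt : SUStmt.{u} := by
  classical
  intro F _ _ S
  have h2 : ∀ y : Multiplicative (S → ℤ), y ^ 2 = 1 → y = 1 := by
    intro y hy
    have h := congrArg Multiplicative.toAdd hy
    rw [toAdd_pow, toAdd_one] at h
    have : Multiplicative.toAdd y = 0 := by
      funext q
      have := congrFun h q
      simp only [Pi.smul_apply, nsmul_eq_mul, Pi.zero_apply] at this
      simp only [Pi.zero_apply]
      push_cast at this
      omega
    rw [← ofAdd_toAdd y, this, ofAdd_zero]
  have hk : (ordS S).ker ⊓ (S : Set (Pl F)).unit F = (⊤ : Subgroup (𝓞 F)ˣ).map (iu F) := by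
    rw [← MonoidHom.range_eq_map]
    ext x
    rw [mem_iu_range_iff, Subgroup.mem_inf, mem_unit_iff, MonoidHom.mem_ker]
    constructor
    · rintro ⟨h, h'⟩ w
      by_cases hw : w ∈ S
      · exact congrFun (congrArg Multiplicative.toAdd h) ⟨w, hw⟩
      · exact h' w hw
    · intro h
      refine ⟨?_, fun w _ => h w⟩
      rw [← ofAdd_zero]
      exact congrArg Multiplicative.ofAdd (funext fun q => h q.1)
  have : Module.Free ℤ (Additive (Multiplicative (S → ℤ))) :=
    Module.Free.of_equiv (AddEquiv.additiveMultiplicative (S → ℤ)).symm.toIntLinearEquiv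
  have : Module.Finite ℤ (Additive (Multiplicative (S → ℤ))) :=
    Module.Finite.equiv (AddEquiv.additiveMultiplicative (S → ℤ)).symm.toIntLinearEquiv
  have hr : finrank ℤ (Additive (Multiplicative (S → ℤ))) = S.card := by
    rw [(AddEquiv.additiveMultiplicative (S → ℤ)).toIntLinearEquiv.finrank_eq]
    simp
  have hi : (((S : Set (Pl F)).unit F).map (ordS S)).index ≠ 0 := by
    have hne : NeZero (hL F) := ⟨hL_pos.ne'⟩
    let ρ : Multiplicative (S → ℤ) →* Multiplicative (S → ZMod (hL F)) :=
      AddMonoidHom.toMultiplicative ((Int.castAddHom (ZMod (hL F))).compLeft S)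
    have h1 : ρ.ker.index ≠ 0 := by
      rw [Subgroup.index_ker]
      exact Nat.card_pos.ne'
    intro h0
    apply h1
    refine Nat.eq_zero_of_zero_dvd (h0 ▸ Subgroup.index_dvd_of_le ?_)
    intro z hz
    have h3 : ∀ q : S, ∃ c : ℤ, Multiplicative.toAdd z q = hL F * c := by
      intro q
      have h4 : ((Multiplicative.toAdd z q : ℤ) : ZMod (hL F)) = 0 :=
        congrFun (congrArg Multiplicative.toAdd (MonoidHom.mem_ker.mp hz)) q
      rwa [ZMod.intCast_zmod_eq_zero_iff_dvd] at h4
    choose c hc using h3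
    choose y hy using fun q : S => exists_gen (L := F) q.1
    have h5 : ∀ w, ord (𝓞 F) w (∏ q, y q ^ c q) =
        ∑ q : S, c q * (if w = q then (hL F : ℤ) else 0) := by
      intro w
      rw [ord_prod]
      simp only [ord_zpow, hy]
    refine ⟨∏ q, y q ^ c q, ?_, ?_⟩
    · rw [SetLike.mem_coe, mem_unit_iff]
      intro w hw
      rw [h5]
      apply Finset.sum_eq_zero
      intro q _
      rw [if_neg, mul_zero]
      rintro rfl
      exact hw q.2
    · rw [← ofAdd_toAdd z]
      refine congrArg Multiplicative.ofAdd (funext fun w => ?_)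
      rw [h5, hc, Finset.sum_eq_single w]
      · simp [mul_comm]
      · intro q _ hq
        rw [if_neg, mul_zero]
        intro h
        exact hq (Subtype.ext h.symm)
      · simp
  change (sqr _).relIndex _ = _
  rw [sq_index_mul (ordS S) h2, hk, sq_index_inj (iu F) iu_inj, sq_units, sq_index_free _ hi, hr, pow_add]

section Kill

variable {F : Type*} [Field F] [NumberField F]

theorem Kill.mono {S S' : Finset (Pl F)} (h : Kill S) (hS : S ⊆ S') : Kill S' := by
  intro n hn
  obtain ⟨x, hx⟩ := h n hn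
  exact ⟨x, fun v hv => hx v fun h' => hv (hS h')⟩

theorem Kill.ord {S : Finset (Pl F)} (h : Kill S) (n : Pl F → ℤ) (hn : {v | n v ≠ 0}.Finite) :
    ∃ x : Fˣ, ∀ v, v ∉ S → ord (𝓞 F) v x = n v := by
  obtain ⟨x, hx⟩ := h (fun v => -n v) (by simpa using hn)
  refine ⟨x, fun v hv => ?_⟩
  have := hx v hv
  rw [valuation_eq_exp, WithZero.exp_inj] at this
  omega

variable (F) in
theorem exists_kill : ∃ S : Finset (Pl F), Kill S := by
  classical
  let cl : Pl F → ClassGroup (𝓞 F) := fun w => ClassGroup.mk F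
    (Units.mk0 (w.asIdeal : FractionalIdeal (𝓞 F)⁰ F) (FractionalIdeal.coeIdeal_ne_zero.mpr w.ne_bot))
  have hfin : (Set.range cl).Finite := Set.toFinite _
  have : Fintype (Set.range cl) := hfin.fintype
  choose r hr using fun c : Set.range cl => c.2
  refine ⟨Finset.univ.image r, fun n hn => ?_⟩
  have h1 : ∀ w : Pl F, ∃ x : Fˣ, ∀ v, v ∉ Finset.univ.image r →
      ord (𝓞 F) v x = if v = w then 1 else 0 := by
    intro w
    obtain ⟨x, hx⟩ := exists_ord_of_class_eq F w (r ⟨cl w, w, rfl⟩) (hr ⟨cl w, w, rfl⟩).symm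
    refine ⟨x, fun v hv => ?_⟩
    have h2 : r ⟨cl w, w, rfl⟩ ≠ v := by
      rintro rfl
      exact hv (Finset.mem_image_of_mem r (Finset.mem_univ _))
    rw [hx, FractionalIdeal.count_maximal_coprime F v h2, sub_zero]
    by_cases h : v = w
    · subst h
      rw [if_pos rfl, FractionalIdeal.count_self]
    · rw [if_neg h, FractionalIdeal.count_maximal_coprime F v (Ne.symm h)]
  choose y hy using h1
  refine ⟨∏ w ∈ hn.toFinset, y w ^ (-n w), fun v hv => ?_⟩
  rw [valuation_eq_exp, ord_prod]
  congr 1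
  simp only [ord_zpow, hy _ v hv]
  by_cases h : v ∈ hn.toFinset
  · rw [Finset.sum_eq_single v]
    · simp
    · intro q _ hq
      rw [if_neg (Ne.symm hq), mul_zero]
    · intro h'; exact absurd h h'
  · have h0 : n v = 0 := by simpa using h
    rw [h0, Finset.sum_eq_zero, neg_zero]
    intro q hq
    rw [if_neg, mul_zero]
    rintro rfl
    exact h hq

end Kill

end Crest.Agent.T24.Hn
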