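import Mathlib
import Crest.Agent.T49.GauB_64

/-!
# Row 24 (helper13): the Zorn–Weil proof of the Albert–Brauer–Hasse–Noether theorem, definitions

`D` a division algebra of finite dimension over `ℚ`, `O` an order.  The completed zeta function
`zeta O s * Gam s` of `O` continues with simple poles at `0, 1` only (`ZfStmt`).  If `D` is central
of degree `n` over a number field `F` and split at all places, it is the product of the
`n` shifted completed zeta functions of `F`; this is absurd at `s = 1 - 1/n` unless `n = 1`.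
-/

set_option autoImplicit false

noncomputable section

namespace Crest.Agent.T24.Ab

open MeasureTheory NumberField IsDedekindDomain Module
open scoped ENNReal
open Crest.Agent.T49.Gau (rho)
open Crest.Agent.T49.Lat (cast)

universe u v

/-- right `O`-stable additive subgroups that contain `O` with finite index -/
def Sup {D : Type*} [Ring D] (O : Subring D) : Set (AddSubgroup D) :=
  {I | O.toAddSubgroup ≤ I ∧ (∀ x ∈ I, ∀ o ∈ O, x * o ∈ I) ∧ O.toAddSubgroup.relIndex I ≠ 0}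

/-- the zeta function of an order (sum over superlattices) -/
def zeta {D : Type*} [Ring D] (O : Subring D) (s : ℝ) : ℝ≥0∞ :=
  ∑' I : Sup O, ENNReal.ofReal ((O.toAddSubgroup.relIndex I.1 : ℝ) ^ (-s))

/-- the standard lattice `R^n` -/
def std {F : Type*} [Field F] (R : Subring F) (n : ℕ) : AddSubgroup (Fin n → F) :=
  AddSubgroup.pi Set.univ fun _ => R.toAddSubgroup

/-- `R`-stable additive subgroups of `F^n` that contain `R^n` with finite index -/
def SupV {F : Type*} [Field F] (R : Subring F) (n : ℕ) : Set (AddSubgroup (Fin n → F)) :=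
  {W | std R n ≤ W ∧ (∀ x ∈ W, ∀ o ∈ R, o • x ∈ W) ∧ (std R n).relIndex W ≠ 0}

/-- the zeta function of `R^n` -/
def zetaV {F : Type*} [Field F] (R : Subring F) (n : ℕ) (s : ℝ) : ℝ≥0∞ :=
  ∑' W : SupV R n, ENNReal.ofReal (((std R n).relIndex W.1 : ℝ) ^ (-s))

/-- the ring of integers as a subring -/
def intR (F : Type*) [Field F] : Subring F := (algebraMap (𝓞 F) F).range

/-- `O / r O ≃ M_n (𝓞 F / r)` for every `r` -/
def MatMod (F : Type*) [Field F] {D : Type*} [Ring D] (O : Subring D) (n : ℕ) : Prop :=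
  ∀ r : ℕ, 0 < r → ∃ ρ : O →+* Matrix (Fin n) (Fin n) (𝓞 F ⧸ Ideal.span {(r : 𝓞 F)}),
    Function.Surjective ρ ∧ ∀ x : O, ρ x = 0 ↔ ∃ y : O, x = r • y

/-- the archimedean algebra -/
abbrev AA (W₁ W₂ : Type*) (n : ℕ) : Type _ :=
  (W₁ → Matrix (Fin n) (Fin n) ℝ) × (W₂ → Matrix (Fin n) (Fin n) ℂ)

/-- its underlying normed and measured space -/
abbrev EE (W₁ W₂ : Type*) (n : ℕ) : Type _ :=
  (W₁ → Fin n → Fin n → ℝ) × (W₂ → Fin n → Fin n → ℂ)

/-- the Euclidean space of all entries -/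
abbrev HH (W₁ W₂ : Type*) (n : ℕ) : Type _ :=
  PiLp 2 fun _ : (W₁ ⊕ W₂) × Fin n × Fin n => ℂ

/-- the identity `AA → EE` -/
def cE (W₁ W₂ : Type*) (n : ℕ) : AA W₁ W₂ n ≃ₗ[ℝ] EE W₁ W₂ n where
  toFun a := (fun w i j => a.1 w i j, fun w i j => a.2 w i j)
  invFun g := (fun w => Matrix.of (g.1 w), fun w => Matrix.of (g.2 w))
  map_add' _ _ := rfl
  map_smul' _ _ := rfl
  left_inv _ := rfl
  right_inv _ := rfl

/-- all entries, as complex numbers -/
def QE (W₁ W₂ : Type*) (n : ℕ) : EE W₁ W₂ n →ₗ[ℝ] HH W₁ W₂ n where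
  toFun g := WithLp.toLp 2 fun p =>
    Sum.elim (fun w => ((g.1 w p.2.1 p.2.2 : ℝ) : ℂ)) (fun w => g.2 w p.2.1 p.2.2) p.1
  map_add' g h := by
    ext ⟨w | w, i, j⟩ <;> simp
  map_smul' c g := by
    ext ⟨w | w, i, j⟩ <;> simp

/-- the archimedean zeta integral -/
def Gam {A E H : Type*} [Ring A] [Algebra ℝ A] [NormedAddCommGroup E] [NormedSpace ℝ E]
    [MeasurableSpace E] [NormedAddCommGroup H] [InnerProductSpace ℝ H] (μ : Measure E)
    (c : A ≃ₗ[ℝ] E) (Q : E →ₗ[ℝ] H) (s : ℝ) : ℝ≥0∞ :=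
  ∫⁻ g, ENNReal.ofReal
    (rho (Q g) * |LinearMap.det (LinearMap.mulLeft ℝ (c.symm g))| ^ (s - 1)) ∂μ

/-- the archimedean zeta integral of `n × n` matrices -/
def GamE (W₁ W₂ : Type*) [Fintype W₁] [Fintype W₂] (n : ℕ) (s : ℝ) : ℝ≥0∞ :=
  Gam (volume : Measure (EE W₁ W₂ n)) (cE W₁ W₂ n) (QE W₁ W₂ n) s

/-- the Mellin transform of the averaged theta function (without its constant term) -/
def mel {ι H : Type*} [Fintype ι] [NormedAddCommGroup H] [InnerProductSpace ℝ H]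
    [MeasurableSpace H] (ν : Measure (ι → H)) (s : ℝ) : ℝ≥0∞ :=
  ∫⁻ t in Set.Ioi (0 : ℝ), ENNReal.ofReal (t ^ (Fintype.card ι * s - 1)) *
    ∫⁻ ω, ∑' x : {x : ι → ℤ // x ≠ 0},
      ENNReal.ofReal (rho (t • Fintype.linearCombination ℝ ω (cast x.1))) ∂ν

/-- FE: a finite measure on a bounded family of lattices has a theta functional equation -/
def FeStmt : Prop :=
  ∀ (ι : Type u) [Fintype ι] [Nonempty ι] (H : Type v) [NormedAddCommGroup H]
    [InnerProductSpace ℝ H] [FiniteDimensional ℝ H] [MeasurableSpace H] [BorelSpace H]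
    (ν : Measure (ι → H)) [IsFiniteMeasure ν], ν ≠ 0 → ∀ a b : ℝ, 0 < a →
    (∀ᵐ ω ∂ν, ∀ y : ι → ℝ, a * ‖y‖ ≤ ‖Fintype.linearCombination ℝ ω y‖ ∧
      ‖Fintype.linearCombination ℝ ω y‖ ≤ b * ‖y‖) →
    ∃ Z : ℂ → ℂ, Differentiable ℂ Z ∧ Z 0 ≠ 0 ∧ Z 1 ≠ 0 ∧
      ∀ s : ℝ, 1 < s → mel ν s ≠ ⊤ ∧ Z s = ((s * (1 - s) * (mel ν s).toReal : ℝ) : ℂ)

/-- GAM: the archimedean factor of `M_n` -/
def GamStmt : Prop :=
  ∀ (W₁ W₂ : Type u) [Fintype W₁] [Fintype W₂] (n : ℕ), ∃ C : ℝ≥0∞, C ≠ 0 ∧ C ≠ ⊤ ∧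
    ∀ s : ℝ, 1 ≤ s → GamE W₁ W₂ n s = C * ∏ i ∈ Finset.range n, GamE W₁ W₂ 1 (n * s - i)

/-- CNT: counting superlattices of `𝓞^n` -/
def CntStmt : Prop :=
  ∀ (F : Type u) [Field F] [NumberField F] (n : ℕ) (s : ℝ),
    zetaV (intR F) n s = ∏ i ∈ Finset.range n, zeta (intR F) (s - i)

/-- MOR: Morita comparison of the two counts -/
def MorStmt : Prop :=
  ∀ (F : Type u) [Field F] [NumberField F] (D : Type v) [DivisionRing D] [CharZero D]
    (O : Subring D) (n : ℕ), 0 < n → MatMod F O n → ∀ s : ℝ, zeta O s = zetaV (intR F) n (n * s)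


/-- ARCH: the archimedean embedding sends rational bases to real bases -/
def ArchStmt : Prop :=
  ∀ (F : Type u) [Field F] [NumberField F] (D : Type v) [DivisionRing D] [CharZero D] [Algebra F D]
    [Algebra.IsCentral F D] (n : ℕ), 0 < n → finrank F D = n ^ 2 →
    (∀ σ : F →+* ℝ, ∃ φ : D →+* Matrix (Fin n) (Fin n) ℝ,
      ∀ c : F, φ (algebraMap F D c) = Matrix.scalar (Fin n) (σ c)) →
    ∃ j : D →+* AA {w : InfinitePlace F // w.IsReal} {w : InfinitePlace F // w.IsComplex} n,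
      ∀ (N : ℕ) (b : Basis (Fin N) ℚ D),
        ∃ e : Basis (Fin N) ℝ
          (AA {w : InfinitePlace F // w.IsReal} {w : InfinitePlace F // w.IsComplex} n),
          ∀ i, e i = j (b i)

/-- ZF: continuation of the completed zeta function of an order in a division algebra -/
def ZfStmt : Prop :=
  ∀ (D : Type u) [DivisionRing D] [CharZero D] (N : ℕ) (b : Basis (Fin N) ℚ D) (O : Subring D),
    O.toAddSubgroup = AddSubgroup.closure (Set.range b) →
    ∀ (W₁ W₂ : Type v) [Fintype W₁] [Fintype W₂] (n : ℕ) (j : D →+* AA W₁ W₂ n)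
      (e : Basis (Fin N) ℝ (AA W₁ W₂ n)), (∀ i, e i = j (b i)) →
    ∃ Z : ℂ → ℂ, Differentiable ℂ Z ∧ Z 0 ≠ 0 ∧ Z 1 ≠ 0 ∧
      ∀ s : ℝ, 1 < s → zeta O s * GamE W₁ W₂ n s ≠ ⊤ ∧ zeta O s * GamE W₁ W₂ n s ≠ 0 ∧
        Z s = (((1 - s) * (1 - 2 ^ (-s)) * (zeta O s * GamE W₁ W₂ n s).toReal : ℝ) : ℂ)

/-- ABHN for division algebras -/
def AbhnStmt : Prop :=
  ∀ (F : Type u) [Field F] [NumberField F] (D : Type v) [DivisionRing D] [Algebra F D]
    [Algebra.IsCentral F D] (n : ℕ), 0 < n → finrank F D = n ^ 2 →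
    (∀ w : HeightOneSpectrum (𝓞 F),
      Nonempty (D →ₐ[F] Matrix (Fin n) (Fin n) (w.adicCompletion F))) →
    (∀ σ : F →+* ℝ, ∃ φ : D →+* Matrix (Fin n) (Fin n) ℝ,
      ∀ c : F, φ (algebraMap F D c) = Matrix.scalar (Fin n) (σ c)) → n = 1

end Crest.Agent.T24.Ab
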