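import Crest.Agent.T24.AbDef_13

-- ▼ part T24/AbLat_13
section

/-!
# Row 24 (helper13): superlattices of an order in a division algebra
-/

set_option autoImplicit false
set_option linter.unusedSectionVars false

noncomputable section

namespace Crest.Agent.T24.Ab.Unf

open Module LinearMap

variable {D : Type*} [DivisionRing D] [CharZero D]

/-- the module of left multiplication -/
def nm (x : D) : ℚ := |LinearMap.det (mulLeft ℚ x)|

theorem nm_mul (x y : D) : nm (x * y) = nm x * nm y := by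
  unfold nm
  rw [mulLeft_mul, LinearMap.det_comp, abs_mul]

theorem nm_one : nm (1 : D) = 1 := by
  unfold nm
  rw [mulLeft_one, LinearMap.det_id, abs_one]

theorem nm_pos {x : D} (hx : x ≠ 0) : 0 < nm x := by
  have h := nm_mul x x⁻¹
  rw [mul_inv_cancel₀ hx, nm_one] at h
  refine lt_of_le_of_ne (abs_nonneg _) fun h0 => ?_
  have : nm x = 0 := h0.symm
  rw [this, zero_mul] at h
  exact one_ne_zero h

theorem det_mulRight [FiniteDimensional ℚ D] (x : D) :
    LinearMap.det (mulRight ℚ x) = LinearMap.det (mulLeft ℚ x) := by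
  let τ : D →ₗ[ℚ] ℚ := (LinearMap.trace ℚ D).comp (LinearMap.mul ℚ D)
  let Φ : D →ₗ[ℚ] Dual ℚ D := (LinearMap.mul ℚ D).compr₂ τ
  have hΦ : ∀ a c, Φ a c = τ (a * c) := fun _ _ => rfl
  have hi : Function.Injective Φ := by
    refine (injective_iff_map_eq_zero Φ).2 fun a ha => ?_
    by_contra h0
    have h1 := hΦ a a⁻¹
    rw [ha, mul_inv_cancel₀ h0] at h1
    have h2 : τ 1 = finrank ℚ D := by
      have : LinearMap.mul ℚ D 1 = LinearMap.id := by ext; simp
      simp only [τ, LinearMap.comp_apply, this, LinearMap.trace_id]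
    rw [h2, LinearMap.zero_apply] at h1
    exact (Nat.cast_ne_zero.2 (finrank_pos (R := ℚ) (M := D)).ne') h1.symm
  let Φ' := Φ.linearEquivOfInjective hi Subspace.dual_finrank_eq.symm
  have h3 : (mulLeft ℚ x).dualMap = Φ'.toLinearMap ∘ₗ mulRight ℚ x ∘ₗ Φ'.symm.toLinearMap := by
    refine LinearMap.ext fun f => ?_
    obtain ⟨a, rfl⟩ := Φ'.surjective f
    refine LinearMap.ext fun c => ?_
    simp only [LinearMap.comp_apply, LinearEquiv.coe_coe, LinearEquiv.symm_apply_apply,
      dualMap_apply, mulLeft_apply, mulRight_apply]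
    change Φ a (x * c) = Φ (a * x) c
    rw [hΦ, hΦ, mul_assoc]
  rw [← LinearMap.det_conj (mulRight ℚ x) Φ', ← h3, LinearMap.det_dualMap]

/-- `x⁻¹ I` -/
def mv (I : AddSubgroup D) (x : D) : AddSubgroup D := I.comap (AddMonoidHom.mulLeft x)

@[simp] theorem mem_mv {I : AddSubgroup D} {x y : D} : y ∈ mv I x ↔ x * y ∈ I := Iff.rfl

theorem mv_mv (I : AddSubgroup D) (x y : D) : mv (mv I x) y = mv I (x * y) := by
  ext z; simp [mul_assoc]

theorem mv_one (I : AddSubgroup D) : mv I 1 = I := by ext z; simp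

variable {N : ℕ} {b : Basis (Fin N) ℚ D} {O : Subring D}

theorem closure_eq (c : Fin N → D) :
    AddSubgroup.closure (Set.range c) = (Submodule.span ℤ (Set.range c)).toAddSubgroup :=
  (Submodule.span_int_eq_addSubgroupClosure _).symm

theorem mem_closure_iff {c : Fin N → D} {x : D} :
    x ∈ AddSubgroup.closure (Set.range c) ↔ ∃ z : Fin N → ℤ, ∑ i, z i • c i = x := by
  rw [closure_eq, Submodule.mem_toAddSubgroup, Submodule.mem_span_range_iff_exists_fun]

/-- multiplication by a nonzero element as a linear equivalence -/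
def lmul (x : D) (hx : x ≠ 0) : D ≃ₗ[ℚ] D :=
  LinearEquiv.ofLinearMap (mulLeft ℚ x) (mulLeft ℚ x⁻¹)
    (by ext y; simp [← mul_assoc, mul_inv_cancel₀ hx])
    (by ext y; simp [← mul_assoc, inv_mul_cancel₀ hx])

theorem mv_closure (c : Basis (Fin N) ℚ D) {x : D} (hx : x ≠ 0) :
    mv (AddSubgroup.closure (Set.range c)) x =
      AddSubgroup.closure (Set.range (c.map (lmul x hx).symm)) := by
  ext y
  rw [mem_mv, mem_closure_iff, mem_closure_iff]
  refine exists_congr fun z => ?_
  have : ∑ i, z i • (c.map (lmul x hx).symm) i = x⁻¹ * ∑ i, z i • c i := by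
    rw [Finset.mul_sum]
    refine Finset.sum_congr rfl fun i _ => ?_
    rw [mul_smul_comm]; rfl
  rw [this, inv_mul_eq_iff_eq_mul₀ hx]

theorem exists_basis (hO : O.toAddSubgroup = AddSubgroup.closure (Set.range b))
    {I : AddSubgroup D} (hI : I ∈ Sup O) :
    ∃ c : Basis (Fin N) ℚ D, I = AddSubgroup.closure (Set.range c) := by
  obtain ⟨h1, -, h3⟩ := hI
  set r := O.toAddSubgroup.relIndex I with hr
  have hr0 : (r : D) ≠ 0 := Nat.cast_ne_zero.2 h3
  have hle : I ≤ mv O.toAddSubgroup (r : D) := fun x hx => by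
    rw [mem_mv, ← nsmul_eq_mul]
    exact AddSubgroup.nsmul_relIndex_mem _ hx
  rw [hO, mv_closure b hr0, closure_eq] at hle
  let P : Submodule ℤ D := I.toIntSubmodule
  have hP : P ≤ Submodule.span ℤ (Set.range (b.map (lmul (r : D) hr0).symm)) := hle
  have hfg : P.FG := Submodule.FG.of_le (Submodule.fg_span (Set.finite_range _)) hP
  have : Module.Finite ℤ P := Module.Finite.iff_fg.2 hfg
  let β := Module.finBasis ℤ P
  let c : Fin (finrank ℤ P) → D := fun i => β i
  have hli : LinearIndependent ℤ c := β.linearIndependent.map' P.subtype P.ker_subtype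
  have hsp : Submodule.span ℤ (Set.range c) = P := by
    have := congrArg (Submodule.map P.subtype) β.span_eq
    rwa [Submodule.map_span, ← Set.range_comp, Submodule.map_top, Submodule.range_subtype] at this
  have hli' : LinearIndependent ℚ c := (LinearIndependent.iff_fractionRing ℤ ℚ).1 hli
  have hsp' : ⊤ ≤ Submodule.span ℚ (Set.range c) := by
    rw [← b.span_eq, Submodule.span_le]
    rintro _ ⟨i, rfl⟩
    refine Submodule.span_subset_span ℤ ℚ _ ?_
    rw [hsp]
    exact h1 (hO ▸ AddSubgroup.subset_closure ⟨i, rfl⟩)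
  let c' := Basis.mk hli' hsp'
  have hN : finrank ℤ P = N := by
    have e1 := finrank_eq_card_basis c'
    have e2 := finrank_eq_card_basis b
    rw [Fintype.card_fin] at e1 e2
    rw [← e1, e2]
  refine ⟨c'.reindex (finCongr hN), ?_⟩
  rw [Basis.range_reindex, Basis.coe_mk, ← Submodule.span_int_eq_addSubgroupClosure, hsp]
  rfl

open Classical in
/-- a basis of a superlattice -/
def bas (b : Basis (Fin N) ℚ D) (I : AddSubgroup D) : Basis (Fin N) ℚ D :=
  if h : ∃ c : Basis (Fin N) ℚ D, I = AddSubgroup.closure (Set.range c) then h.choose else b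

theorem bas_spec (hO : O.toAddSubgroup = AddSubgroup.closure (Set.range b))
    {I : AddSubgroup D} (hI : I ∈ Sup O) : I = AddSubgroup.closure (Set.range (bas b I)) := by
  have h := exists_basis hO hI
  unfold bas
  rw [dif_pos h]
  exact h.choose_spec

/-- the index -/
def idx (O : Subring D) (I : AddSubgroup D) : ℕ := O.toAddSubgroup.relIndex I

theorem idx_eq (hO : O.toAddSubgroup = AddSubgroup.closure (Set.range b))
    {I : AddSubgroup D} (hI : I ∈ Sup O) : (idx O I : ℚ) = |(bas b I).det b| :=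
  AddSubgroup.relIndex_eq_abs_det _ _ hI.1 b (bas b I) hO (bas_spec hO hI)

theorem idx_pos {I : AddSubgroup D} (hI : I ∈ Sup O) : 0 < idx O I := Nat.pos_of_ne_zero hI.2.2

theorem le_mv {I : AddSubgroup D} (hI : I ∈ Sup O) {x : D} (hx : x ∈ I) :
    O.toAddSubgroup ≤ mv I x := fun o ho => hI.2.1 x hx o ho

theorem idx_mv (hO : O.toAddSubgroup = AddSubgroup.closure (Set.range b))
    {I : AddSubgroup D} (hI : I ∈ Sup O) {x : D} (hx : x ∈ I) (h0 : x ≠ 0) :
    (idx O (mv I x) : ℚ) = nm x * idx O I := by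
  have h1 : mv I x = AddSubgroup.closure (Set.range ((bas b I).map (lmul x h0).symm)) := by
    rw [← mv_closure, ← bas_spec hO hI]
  have h2 := AddSubgroup.relIndex_eq_abs_det _ _ (le_mv hI hx) b _ hO h1
  rw [idx_eq hO hI, idx, h2, Basis.det_map, LinearEquiv.symm_symm, nm, ← abs_mul,
    ← Basis.det_comp]
  rfl

theorem mv_mem (hO : O.toAddSubgroup = AddSubgroup.closure (Set.range b))
    {I : AddSubgroup D} (hI : I ∈ Sup O) {x : D} (hx : x ∈ I) (h0 : x ≠ 0) : mv I x ∈ Sup O := by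
  refine ⟨le_mv hI hx, fun y hy o ho => ?_, ?_⟩
  · rw [mem_mv, ← mul_assoc]
    exact hI.2.1 _ hy o ho
  · have h := idx_mv hO hI hx h0
    have h2 : (0 : ℚ) < nm x * idx O I := mul_pos (nm_pos h0) (Nat.cast_pos.2 (idx_pos hI))
    rw [← h] at h2
    exact (Nat.cast_pos.1 h2).ne'

theorem self_mem (O : Subring D) : O.toAddSubgroup ∈ Sup O :=
  ⟨le_rfl, fun _ hx _ ho => O.mul_mem hx ho, by simp⟩

theorem one_mem {I : AddSubgroup D} (hI : I ∈ Sup O) : (1 : D) ∈ I := hI.1 O.one_mem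

theorem countable_D (b : Basis (Fin N) ℚ D) : Countable D := b.equivFun.injective.countable

theorem countable_sup (hO : O.toAddSubgroup = AddSubgroup.closure (Set.range b)) :
    Countable (Sup O) := by
  have := countable_D b
  refine Function.Injective.countable (f := fun I : Sup O => (bas b I.1 : Fin N → D)) ?_
  intro I J h
  refine Subtype.ext ?_
  rw [bas_spec hO I.2, bas_spec hO J.2]
  exact congrArg (fun c : Fin N → D => AddSubgroup.closure (Set.range c)) h

theorem finite_sup (hO : O.toAddSubgroup = AddSubgroup.closure (Set.range b)) (M : ℕ) :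
    {I | I ∈ Sup O ∧ idx O I ≤ M}.Finite := by
  have h0 : ((M.factorial : ℕ) : D) ≠ 0 := Nat.cast_ne_zero.2 M.factorial_ne_zero
  set B := mv O.toAddSubgroup ((M.factorial : ℕ) : D) with hB
  have hBS : B ∈ Sup O := mv_mem hO (self_mem O) (natCast_mem O _) h0
  let K := O.toAddSubgroup.addSubgroupOf B
  have : K.FiniteIndex := ⟨hBS.2.2⟩
  have : Finite (AddSubgroup (B ⧸ K)) := Finite.of_injective _ SetLike.coe_injective
  refine Set.Finite.of_finite_image (f := fun I : AddSubgroup D =>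
    (I.addSubgroupOf B).map (QuotientAddGroup.mk' K)) (Set.toFinite _) ?_
  have key : ∀ I ∈ {I | I ∈ Sup O ∧ idx O I ≤ M}, I ≤ B ∧ K ≤ I.addSubgroupOf B := by
    rintro I ⟨h1, h2⟩
    refine ⟨fun x hx => ?_, fun x hx => h1.1 hx⟩
    rw [hB, mem_mv, ← nsmul_eq_mul]
    obtain ⟨k, hk⟩ := Nat.dvd_factorial (idx_pos h1) h2
    rw [hk, mul_comm, mul_smul]
    exact O.toAddSubgroup.nsmul_mem (AddSubgroup.nsmul_relIndex_mem _ hx) k
  intro I hI J hJ h
  have h1 := congrArg (AddSubgroup.comap (QuotientAddGroup.mk' K)) h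
  simp only [AddSubgroup.comap_map_eq, QuotientAddGroup.ker_mk'] at h1
  rw [sup_eq_left.2 (key I hI).2, sup_eq_left.2 (key J hJ).2] at h1
  have h2 := congrArg (AddSubgroup.map B.subtype) h1
  rwa [AddSubgroup.addSubgroupOf_map_subtype, AddSubgroup.addSubgroupOf_map_subtype,
    inf_eq_left.2 (key I hI).1, inf_eq_left.2 (key J hJ).1] at h2

theorem bas_injective (c : Basis (Fin N) ℚ D) :
    Function.Injective fun z : Fin N → ℤ => ∑ i, z i • c i := by
  intro z w h
  have hli : LinearIndependent ℤ c := (LinearIndependent.iff_fractionRing ℤ ℚ).2 c.linearIndependent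
  have := Fintype.linearIndependent_iffₛ.1 hli z w h
  exact funext this

end Crest.Agent.T24.Ab.Unf
end
end

-- ▼ part T24/AbUnf_13
section

/-!
# Row 24 (helper13): unfolding of the theta integral of a division algebra
-/

set_option autoImplicit false
set_option linter.unusedSectionVars false

noncomputable section

namespace Crest.Agent.T24.Ab.Unf

open Module LinearMap MeasureTheory
open scoped ENNReal
open Crest.Agent.T49.Gau (rho continuous_rho rho_pos)
open Crest.Agent.T49.Lat (cast cast_apply)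

variable {D : Type*} [DivisionRing D] [CharZero D] {N : ℕ} {b : Basis (Fin N) ℚ D}
  {O : Subring D}
variable {A : Type*} [Ring A] [Algebra ℝ A] {j : D →+* A} {e : Basis (Fin N) ℝ A}
variable {E : Type*} [NormedAddCommGroup E] [NormedSpace ℝ E] [FiniteDimensional ℝ E]
  [MeasurableSpace E] [BorelSpace E] {μ : Measure E} [μ.IsAddHaarMeasure] {c : A ≃ₗ[ℝ] E}

theorem j_smul (j : D →+* A) (q : ℚ) (x : D) : j (q • x) = (q : ℝ) • j x := by
  let _ : Module ℚ A := Module.compHom A (Rat.castHom ℝ)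
  exact map_rat_smul j q x

theorem repr_j (he : ∀ i, e i = j (b i)) (x : D) (i : Fin N) :
    e.repr (j x) i = (b.repr x i : ℝ) := by
  conv_lhs => rw [← b.sum_repr x, map_sum]
  simp only [j_smul, ← he]
  rw [e.repr_sum_self]

theorem det_j (he : ∀ i, e i = j (b i)) (f : D →ₗ[ℚ] D) (g : A →ₗ[ℝ] A)
    (h : ∀ x, g (j x) = j (f x)) : LinearMap.det g = ((LinearMap.det f : ℚ) : ℝ) := by
  rw [← LinearMap.det_toMatrix e, ← LinearMap.det_toMatrix b]
  change _ = Rat.castHom ℝ _
  rw [RingHom.map_det]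
  congr 1
  ext i k
  rw [RingHom.mapMatrix_apply, Matrix.map_apply, toMatrix_apply, toMatrix_apply, he, h,
    repr_j he]
  rfl

theorem bdet_j (he : ∀ i, e i = j (b i)) (v : Fin N → D) :
    e.det (fun i => j (v i)) = ((b.det v : ℚ) : ℝ) := by
  rw [Basis.det_apply, Basis.det_apply]
  change _ = Rat.castHom ℝ _
  rw [RingHom.map_det]
  congr 1
  ext i k
  rw [RingHom.mapMatrix_apply, Matrix.map_apply, Basis.toMatrix_apply, Basis.toMatrix_apply,
    repr_j he]
  rfl

/-- the module of `g` -/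
def Dl (c : A ≃ₗ[ℝ] E) (g : E) : ℝ := |LinearMap.det (mulLeft ℝ (c.symm g))|

/-- right multiplication -/
def act (j : D →+* A) (c : A ≃ₗ[ℝ] E) (x : D) : E →ₗ[ℝ] E :=
  c.toLinearMap ∘ₗ mulRight ℝ (j x) ∘ₗ c.symm.toLinearMap

theorem act_apply (x : D) (g : E) : act j c x g = c (c.symm g * j x) := rfl

theorem act_act (x y : D) (g : E) : act j c y (act j c x g) = act j c (x * y) g := by
  simp only [act_apply, LinearEquiv.symm_apply_apply, map_mul, mul_assoc]

theorem act_one (g : E) : act j c 1 g = g := by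
  simp only [act_apply, map_one, mul_one, LinearEquiv.apply_symm_apply]


theorem continuous_act (x : D) : Continuous (act j c x) := (act j c x).continuous_of_finiteDimensional

theorem Dl_nonneg (g : E) : 0 ≤ Dl c g := abs_nonneg _

theorem det_act (he : ∀ i, e i = j (b i)) (x : D) : |LinearMap.det (act j c x)| = (nm x : ℝ) := by
  have : FiniteDimensional ℚ D := b.finiteDimensional_of_finite
  unfold act
  rw [LinearMap.det_conj, det_j he (mulRight ℚ x) _ (fun y => by simp), det_mulRight, nm,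
    Rat.cast_abs]

theorem Dl_act (he : ∀ i, e i = j (b i)) (x : D) (g : E) :
    Dl c (act j c x g) = nm x * Dl c g := by
  unfold Dl
  rw [act_apply, LinearEquiv.symm_apply_apply, mulLeft_mul, LinearMap.det_comp,
    det_j he (mulLeft ℚ x) (mulLeft ℝ (j x)) (fun y => by simp), abs_mul, nm, Rat.cast_abs,
    mul_comm]

theorem finrank_A (e : Basis (Fin N) ℝ A) : finrank ℝ A = N := by
  rw [finrank_eq_card_basis e, Fintype.card_fin]

theorem Dl_smul (e : Basis (Fin N) ℝ A) (t : ℝ) (g : E) : Dl c (t • g) = |t| ^ N * Dl c g := by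
  have : Module.Finite ℝ A := Module.Finite.of_basis e
  unfold Dl
  have h : mulLeft ℝ (c.symm (t • g)) = t • mulLeft ℝ (c.symm g) := by
    ext y; simp
  rw [h, LinearMap.det_smul, finrank_A e, abs_mul, abs_pow]

theorem continuous_Dl (e : Basis (Fin N) ℝ A) : Continuous (Dl c) := by
  let L : E →ₗ[ℝ] Matrix (Fin N) (Fin N) ℝ :=
    (toMatrix e e).toLinearMap ∘ₗ LinearMap.mul ℝ A ∘ₗ c.symm.toLinearMap
  have h : Dl c = fun g => |(L g).det| := by
    funext g
    unfold Dl
    rw [← LinearMap.det_toMatrix e]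
    rfl
  rw [h]
  exact (L.continuous_of_finiteDimensional.matrix_det).abs

theorem Dl_one : Dl c (c 1) = 1 := by
  unfold Dl
  rw [LinearEquiv.symm_apply_apply, mulLeft_one, LinearMap.det_id, abs_one]

/-- the invariant measure -/
def ms (μ : Measure E) (c : A ≃ₗ[ℝ] E) : Measure E :=
  μ.withDensity fun g => ENNReal.ofReal (Dl c g)⁻¹

instance : SFinite (ms μ c) := by unfold ms; infer_instance

theorem lint_ms (e : Basis (Fin N) ℝ A) {F : E → ℝ≥0∞} (hF : Measurable F) :
    ∫⁻ g, F g ∂ms μ c = ∫⁻ g, ENNReal.ofReal (Dl c g)⁻¹ * F g ∂μ :=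
  lintegral_withDensity_eq_lintegral_mul _
    ((continuous_Dl e).measurable.inv.ennreal_ofReal) hF

theorem inv_ms (e : Basis (Fin N) ℝ A) (L : E →ₗ[ℝ] E) {κ : ℝ} (hκ : 0 < κ)
    (h1 : |LinearMap.det L| = κ) (h2 : ∀ g, Dl c (L g) = κ * Dl c g) {F : E → ℝ≥0∞}
    (hF : Measurable F) : ∫⁻ g, F (L g) ∂ms μ c = ∫⁻ g, F g ∂ms μ c := by
  have hL : Measurable L := L.continuous_of_finiteDimensional.measurable
  have hd : LinearMap.det L ≠ 0 := fun h => by rw [h, abs_zero] at h1; exact hκ.ne h1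
  have hm : Measurable fun g => ENNReal.ofReal (Dl c g)⁻¹ * F g :=
    ((continuous_Dl e).measurable.inv.ennreal_ofReal).mul hF
  rw [lint_ms e (F := fun g => F (L g)) (hF.comp hL), lint_ms e hF]
  have h3 : ∀ g, ENNReal.ofReal (Dl c g)⁻¹ * F (L g) =
      ENNReal.ofReal κ * (ENNReal.ofReal (Dl c (L g))⁻¹ * F (L g)) := fun g => by
    rw [← mul_assoc, ← ENNReal.ofReal_mul hκ.le, h2, mul_inv, ← mul_assoc, mul_inv_cancel₀ hκ.ne',
      one_mul]
  rw [lintegral_congr h3, lintegral_const_mul _ (f := fun g => ENNReal.ofReal (Dl c (L g))⁻¹ * F (L g))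
    (hm.comp hL), ← lintegral_map hm hL,
    Measure.map_linearMap_addHaar_eq_smul_addHaar μ hd, lintegral_smul_measure, abs_inv, h1,
    smul_eq_mul, ← mul_assoc, ← ENNReal.ofReal_mul hκ.le, mul_inv_cancel₀ hκ.ne',
    ENNReal.ofReal_one, one_mul]

theorem inv_act (he : ∀ i, e i = j (b i)) {x : D} (hx : x ≠ 0) {F : E → ℝ≥0∞}
    (hF : Measurable F) : ∫⁻ g, F (act j c x g) ∂ms μ c = ∫⁻ g, F g ∂ms μ c :=
  inv_ms e _ (Rat.cast_pos.2 (nm_pos hx)) (det_act he x) (Dl_act he x) hF

theorem inv_smul (e : Basis (Fin N) ℝ A) {t : ℝ} (ht : 0 < t) {F : E → ℝ≥0∞}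
    (hF : Measurable F) : ∫⁻ g, F (t • g) ∂ms μ c = ∫⁻ g, F g ∂ms μ c := by
  refine inv_ms (μ := μ) (c := c) e (t • LinearMap.id) (pow_pos ht N) ?_ (fun g => ?_) hF
  · rw [LinearMap.det_smul, LinearMap.det_id, mul_one, ← c.finrank_eq, finrank_A e, abs_pow,
      abs_of_pos ht]
  · rw [LinearMap.smul_apply, LinearMap.id_apply, Dl_smul e, abs_of_pos ht]

/-! ### the lattice `g I` -/

/-- the covolume -/
def cv (O : Subring D) (c : A ≃ₗ[ℝ] E) (I : AddSubgroup D) (g : E) : ℝ := Dl c g / idx O I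

theorem cv_mv (hO : O.toAddSubgroup = AddSubgroup.closure (Set.range b))
    (he : ∀ i, e i = j (b i)) {I : AddSubgroup D} (hI : I ∈ Sup O) {x : D} (hx : x ∈ I)
    (h0 : x ≠ 0) (g : E) : cv O c (mv I x) (act j c x g) = cv O c I g := by
  have h1 : (idx O (mv I x) : ℝ) = nm x * idx O I := by exact_mod_cast idx_mv hO hI hx h0
  have h2 : (nm x : ℝ) ≠ 0 := (Rat.cast_pos.2 (nm_pos h0)).ne'
  unfold cv
  rw [h1, Dl_act he, mul_div_mul_left _ _ h2]

theorem det_lat (hO : O.toAddSubgroup = AddSubgroup.closure (Set.range b))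
    (he : ∀ i, e i = j (b i)) {I : AddSubgroup D} (hI : I ∈ Sup O) (g : E) :
    |(e.map c).det fun i => act j c (bas b I i) g| = cv O c I g := by
  have h1 : (c.symm ∘ fun i => act j c (bas b I i) g) =
      mulLeft ℝ (c.symm g) ∘ fun i => j (bas b I i) := by
    funext i; simp [act_apply]
  have h2 : |b.det (bas b I)| * idx O I = 1 := by
    rw [idx_eq hO hI, ← abs_mul, Basis.det_mul_det, Basis.det_self, abs_one]
  have h3 : |((b.det (bas b I) : ℚ) : ℝ)| * idx O I = 1 := by exact_mod_cast h2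
  rw [Basis.det_map, h1, Basis.det_comp, bdet_j he, abs_mul, cv, div_eq_mul_inv,
    eq_inv_of_mul_eq_one_left h3]
  rfl

theorem exists_lat (hO : O.toAddSubgroup = AddSubgroup.closure (Set.range b))
    (he : ∀ i, e i = j (b i)) {I : AddSubgroup D} (hI : I ∈ Sup O) {g : E}
    (hg : cv O c I g ≠ 0) : ∃ β : Basis (Fin N) ℝ E, ∀ i, β i = act j c (bas b I i) g := by
  have h1 : (e.map c).det (fun i => act j c (bas b I i) g) ≠ 0 := fun h => by
    have := det_lat (c := c) hO he hI g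
    rw [h, abs_zero] at this
    exact hg this.symm
  obtain ⟨h2, h3⟩ := ((e.map c).is_basis_iff_det).2 (isUnit_iff_ne_zero.2 h1)
  exact ⟨Basis.mk h2 h3.ge, fun i => by rw [Basis.coe_mk]⟩

theorem act_sum (v : Fin N → D) (z : Fin N → ℤ) (g : E) :
    act j c (∑ i, z i • v i) g = ∑ i, z i • act j c (v i) g := by
  simp only [act_apply, map_sum, map_zsmul, Finset.mul_sum, mul_smul_comm]

theorem mink (μ : Measure E) [μ.IsAddHaarMeasure]
    (hO : O.toAddSubgroup = AddSubgroup.closure (Set.range b)) (he : ∀ i, e i = j (b i)) :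
    ∃ R : ℝ, ∀ I ∈ Sup O, ∀ g : E, cv O c I g ≠ 0 → cv O c I g < 2 →
      ∃ x ∈ I, x ≠ 0 ∧ ‖act j c x g‖ ≤ R := by
  have hV : μ (ZSpan.fundamentalDomain (e.map c)) < ⊤ :=
    (ZSpan.fundamentalDomain_isBounded _).measure_lt_top
  have hfin : ENNReal.ofReal 2 * μ (ZSpan.fundamentalDomain (e.map c)) * 2 ^ finrank ℝ E < ⊤ :=
    ENNReal.mul_lt_top (ENNReal.mul_lt_top ENNReal.ofReal_lt_top hV)
      (ENNReal.pow_lt_top ENNReal.ofNat_lt_top)
  have hN : Nonempty (Fin N) := b.index_nonempty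
  have : Nontrivial E := by
    obtain ⟨i⟩ := hN
    exact nontrivial_of_ne _ _ ((e.map c).ne_zero i)
  have h1 : Filter.Tendsto (fun r : ℕ => μ (Metric.closedBall (0 : E) r)) Filter.atTop
      (nhds (μ (⋃ r : ℕ, Metric.closedBall (0 : E) r))) :=
    tendsto_measure_iUnion_atTop fun r s h => Metric.closedBall_subset_closedBall (by exact_mod_cast h)
  rw [Metric.iUnion_closedBall_nat, measure_univ_of_isAddLeftInvariant] at h1
  obtain ⟨r, hr⟩ := (h1.eventually (lt_mem_nhds hfin)).exists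
  refine ⟨r, fun I hI g h0 h2 => ?_⟩
  obtain ⟨β, hβ⟩ := exists_lat hO he hI h0
  have hb : (β : Fin N → E) = fun i => act j c (bas b I i) g := funext hβ
  have h3 : μ (ZSpan.fundamentalDomain β) * 2 ^ finrank ℝ E < μ (Metric.closedBall (0 : E) r) := by
    refine lt_of_le_of_lt ?_ hr
    rw [ZSpan.measure_fundamentalDomain β μ (e.map c), hb, det_lat hO he hI]
    gcongr
  have : Countable (Submodule.span ℤ (Set.range β)).toAddSubgroup :=
    inferInstanceAs (Countable (Submodule.span ℤ (Set.range β)))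
  obtain ⟨⟨y, hy⟩, h4, h5⟩ := exists_ne_zero_mem_lattice_of_measure_mul_two_pow_lt_measure
    (ZSpan.isAddFundamentalDomain' β μ) (fun x hx => by simpa using hx)
    (convex_closedBall (0 : E) r) h3
  obtain ⟨z, hz⟩ := (Submodule.mem_span_range_iff_exists_fun ℤ).1 hy
  have h6 : act j c (∑ i, z i • bas b I i) g = y := by
    rw [act_sum, ← hz]; simp only [hβ]
  refine ⟨∑ i, z i • bas b I i, ?_, fun h => h4 (Subtype.ext ?_), ?_⟩
  · rw [bas_spec hO hI]
    exact mem_closure_iff.2 ⟨z, by rw [← bas_spec hO hI]⟩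
  · change y = 0
    rw [← h6, h, act_apply, map_zero, mul_zero, map_zero]
  · rw [h6]; simpa using h5

theorem finite_short (hO : O.toAddSubgroup = AddSubgroup.closure (Set.range b))
    (he : ∀ i, e i = j (b i)) {I : AddSubgroup D} (hI : I ∈ Sup O) {g : E}
    (hg : cv O c I g ≠ 0) (R : ℝ) : {x | x ∈ I ∧ ‖act j c x g‖ ≤ R}.Finite := by
  obtain ⟨β, hβ⟩ := exists_lat hO he hI hg
  have h1 := ZSpan.setFinite_inter β (Metric.isBounded_closedBall (x := (0 : E)) (r := R))
  have hD : Dl c g ≠ 0 := fun h => hg (by rw [cv, h, zero_div])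
  refine Set.Finite.of_finite_image (f := fun x => act j c x g) (h1.subset ?_) ?_
  · rintro _ ⟨x, ⟨h2, h3⟩, rfl⟩
    refine ⟨by simpa using h3, ?_⟩
    rw [bas_spec hO hI] at h2
    obtain ⟨z, rfl⟩ := mem_closure_iff.1 h2
    refine (Submodule.mem_span_range_iff_exists_fun ℤ).2 ⟨z, ?_⟩
    simp only [act_sum, hβ]
  · intro x _ y _ h
    by_contra hne
    have h2 : act j c (x - y) g = 0 := by
      have h' : act j c x g = act j c y g := h
      rw [act_apply, map_sub, mul_sub, map_sub, ← act_apply, ← act_apply, h', sub_self]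
    have h3 := act_act (j := j) (c := c) (x - y) (x - y)⁻¹ g
    rw [h2, map_zero, mul_inv_cancel₀ (sub_ne_zero.2 hne), act_one] at h3
    have hN : 0 < N := Fin.pos_iff_nonempty.2 b.index_nonempty
    have h4 := Dl_smul (c := c) e 0 g
    rw [zero_smul, abs_zero, zero_pow hN.ne', zero_mul, h3] at h4
    exact hD h4

end Crest.Agent.T24.Ab.Unf
end
end

-- ▼ part T24/AbZf_13

/-!
# Row 24 (helper13): continuation of the zeta function of a division algebra
-/

set_option autoImplicit false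
set_option linter.unusedSectionVars false

noncomputable section

namespace Crest.Agent.T24.Ab.Unf

open Module LinearMap MeasureTheory
open scoped ENNReal
open Crest.Agent.T49.Gau (rho continuous_rho rho_pos)
open Crest.Agent.T49.Lat (cast cast_apply)

variable {D : Type*} [DivisionRing D] [CharZero D] {N : ℕ} {b : Basis (Fin N) ℚ D}
  {O : Subring D}
variable {A : Type*} [Ring A] [Algebra ℝ A] {j : D →+* A} {e : Basis (Fin N) ℝ A}
variable {E : Type*} [NormedAddCommGroup E] [NormedSpace ℝ E] [FiniteDimensional ℝ E]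
  [MeasurableSpace E] [BorelSpace E] {μ : Measure E} [μ.IsAddHaarMeasure] {c : A ≃ₗ[ℝ] E}

/-- nonzero elements -/
def nzs (I : AddSubgroup D) : Set D := {x | x ∈ I ∧ x ≠ 0}

/-- the ball -/
def bl (R : ℝ) (g : E) : ℝ≥0∞ := (Metric.closedBall (0 : E) R).indicator 1 g

/-- the window on the covolume -/
def wn (κ : ℝ) : ℝ≥0∞ := (Set.Ico (1 : ℝ) 2).indicator 1 κ

open Classical in
/-- the window -/
def win (O : Subring D) (c : A ≃ₗ[ℝ] E) (I : AddSubgroup D) (g : E) : ℝ≥0∞ :=
  if I ∈ Sup O then wn (cv O c I g) else 0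

/-- the number of short vectors -/
def cnt (j : D →+* A) (c : A ≃ₗ[ℝ] E) (R : ℝ) (I : AddSubgroup D) (g : E) : ℝ≥0∞ :=
  ∑' x : D, (nzs I).indicator (fun x => bl R (act j c x g)) x

/-- the weight -/
def ph (O : Subring D) (j : D →+* A) (c : A ≃ₗ[ℝ] E) (R : ℝ) (I : AddSubgroup D) (g : E) : ℝ≥0∞ :=
  win O c I g * bl R g / cnt j c R I g

theorem meas_bl (R : ℝ) : Measurable (bl R : E → ℝ≥0∞) :=
  measurable_one.indicator measurableSet_closedBall

theorem meas_wn : Measurable wn := measurable_one.indicator measurableSet_Ico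

theorem meas_win (e : Basis (Fin N) ℝ A) (I : AddSubgroup D) : Measurable (win O c I) := by
  unfold win
  split_ifs
  · exact meas_wn.comp ((continuous_Dl e).measurable.div_const _)
  · exact measurable_const

theorem meas_sum (b : Basis (Fin N) ℚ D) (I : AddSubgroup D) {F : E → ℝ≥0∞} (hF : Measurable F) :
    Measurable fun g => ∑' x : D, (nzs I).indicator (fun x => F (act j c x g)) x := by
  have := countable_D b
  refine Measurable.tsum fun x => ?_
  by_cases h : x ∈ nzs I
  · simp only [Set.indicator_of_mem h]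
    exact hF.comp (continuous_act x).measurable
  · simp only [Set.indicator_of_notMem h]
    exact measurable_const

theorem meas_ph (b : Basis (Fin N) ℚ D) (e : Basis (Fin N) ℝ A) (R : ℝ) (I : AddSubgroup D) :
    Measurable (ph O j c R I) :=
  ((meas_win e I).mul (meas_bl R)).div (meas_sum b I (meas_bl R))

theorem cnt_mv (R : ℝ) (I : AddSubgroup D) {x : D} (hx : x ≠ 0) (g : E) :
    cnt j c R (mv I x) (act j c x g) = cnt j c R I g := by
  unfold cnt
  rw [← (Equiv.mulLeft₀ x hx).tsum_eq fun y => (nzs I).indicator (fun x => bl R (act j c x g)) y]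
  refine tsum_congr fun y => ?_
  have h : y ∈ nzs (mv I x) ↔ x * y ∈ nzs I := by simp [nzs, hx]
  rw [Equiv.mulLeft₀_apply]
  by_cases hy : x * y ∈ nzs I
  · rw [Set.indicator_of_mem hy, Set.indicator_of_mem (h.2 hy), act_act]
  · rw [Set.indicator_of_notMem hy, Set.indicator_of_notMem (mt h.1 hy)]

theorem win_mv (hO : O.toAddSubgroup = AddSubgroup.closure (Set.range b))
    (he : ∀ i, e i = j (b i)) {I : AddSubgroup D} (hI : I ∈ Sup O) {x : D} (hx : x ∈ nzs I)
    (g : E) : win O c (mv I x) (act j c x g) = win O c I g := by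
  unfold win
  rw [if_pos hI, if_pos (mv_mem hO hI hx.1 hx.2), cv_mv hO he hI hx.1 hx.2]

theorem win_ne {I : AddSubgroup D} {g : E} (h : win O c I g ≠ 0) :
    I ∈ Sup O ∧ 1 ≤ cv O c I g ∧ cv O c I g < 2 := by
  unfold win at h
  split_ifs at h with h1
  · exact ⟨h1, (Set.mem_of_indicator_ne_zero h : cv O c I g ∈ Set.Ico (1 : ℝ) 2)⟩
  · exact absurd rfl h

theorem win_le (I : AddSubgroup D) (g : E) : win O c I g ≤ 1 := by
  unfold win
  split_ifs
  · exact Set.indicator_le_self' (fun _ _ => zero_le_one) _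
  · exact zero_le_one

theorem cnt_ne_top (hO : O.toAddSubgroup = AddSubgroup.closure (Set.range b))
    (he : ∀ i, e i = j (b i)) {I : AddSubgroup D} (hI : I ∈ Sup O) {g : E}
    (hg : cv O c I g ≠ 0) (R : ℝ) : cnt j c R I g ≠ ⊤ := by
  unfold cnt
  rw [tsum_eq_sum (s := (finite_short hO he hI hg R).toFinset) ?_]
  · refine ENNReal.sum_ne_top.2 fun x _ => ne_top_of_le_ne_top ENNReal.one_ne_top ?_
    refine Set.indicator_apply_le' (fun _ => ?_) (fun _ => zero_le_one)
    exact Set.indicator_le_self' (fun _ _ => zero_le_one) _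
  · intro x hx
    rw [Set.Finite.mem_toFinset] at hx
    refine Set.indicator_apply_eq_zero.2 fun h => Set.indicator_of_notMem (fun h' => hx ⟨h.1, ?_⟩) _
    simpa using h'

theorem one_le_cnt {R : ℝ} {I : AddSubgroup D} {g : E} {x : D} (hx : x ∈ nzs I)
    (h : ‖act j c x g‖ ≤ R) : 1 ≤ cnt j c R I g := by
  refine le_trans ?_ (ENNReal.le_tsum x)
  rw [Set.indicator_of_mem hx, bl, Set.indicator_of_mem (by simpa using h)]
  rfl

/-- the Minkowski property of the radius -/
def Mk (O : Subring D) (j : D →+* A) (c : A ≃ₗ[ℝ] E) (R : ℝ) : Prop :=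
  ∀ I ∈ Sup O, ∀ g : E, cv O c I g ≠ 0 → cv O c I g < 2 → ∃ x ∈ I, x ≠ 0 ∧ ‖act j c x g‖ ≤ R

theorem sum_ph (hO : O.toAddSubgroup = AddSubgroup.closure (Set.range b))
    (he : ∀ i, e i = j (b i)) {R : ℝ} (hR : Mk O j c R) {I : AddSubgroup D} (hI : I ∈ Sup O)
    (g : E) :
    ∑' x : D, (nzs I).indicator (fun x => ph O j c R (mv I x) (act j c x g)) x = win O c I g := by
  have h1 : ∀ x : D, (nzs I).indicator (fun x => ph O j c R (mv I x) (act j c x g)) x =
      win O c I g * (cnt j c R I g)⁻¹ * (nzs I).indicator (fun x => bl R (act j c x g)) x := by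
    intro x
    by_cases hx : x ∈ nzs I
    · rw [Set.indicator_of_mem hx, Set.indicator_of_mem hx, ph, win_mv hO he hI hx,
        cnt_mv R I hx.2, div_eq_mul_inv, mul_right_comm]
    · rw [Set.indicator_of_notMem hx, Set.indicator_of_notMem hx, mul_zero]
  rw [tsum_congr h1, ENNReal.tsum_mul_left]
  by_cases hw : win O c I g = 0
  · rw [hw, zero_mul, zero_mul]
  obtain ⟨-, h2, h3⟩ := win_ne hw
  have h4 : cv O c I g ≠ 0 := by linarith
  obtain ⟨x, h5, h6, h7⟩ := hR I hI g h4 h3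
  have h8 : cnt j c R I g ≠ 0 := (lt_of_lt_of_le zero_lt_one (one_le_cnt ⟨h5, h6⟩ h7)).ne'
  change win O c I g * (cnt j c R I g)⁻¹ * cnt j c R I g = _
  rw [mul_assoc, ENNReal.inv_mul_cancel h8 (cnt_ne_top hO he hI h4 R), mul_one]

theorem ph_eq_zero {R : ℝ} {I : AddSubgroup D} (hI : I ∉ Sup O) (g : E) : ph O j c R I g = 0 := by
  rw [ph, win, if_neg hI, zero_mul, ENNReal.zero_div]

open Classical in
/-- the involution `(I, x) ↦ (x⁻¹ I, x⁻¹)` -/
def sw (p : AddSubgroup D × D) : AddSubgroup D × D := if p.2 = 0 then p else (mv p.1 p.2, p.2⁻¹)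

theorem sw_sw : Function.Involutive (sw : AddSubgroup D × D → _) := by
  rintro ⟨I, x⟩
  by_cases hx : x = 0
  · simp [sw, hx]
  · simp [sw, hx, mv_mv, mv_one]

/-- **unfolding** -/
theorem unfold (hO : O.toAddSubgroup = AddSubgroup.closure (Set.range b))
    (he : ∀ i, e i = j (b i)) {R : ℝ} (hR : Mk O j c R) {F : E → ℝ≥0∞} (hF : Measurable F) :
    ∑' I : Sup O, ∫⁻ g, ph O j c R I g *
        ∑' x : D, (nzs I.1).indicator (fun x => F (act j c x g)) x ∂ms μ c =
      ∑' I : Sup O, ∫⁻ g, win O c I g * F g ∂ms μ c := by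
  have := countable_D b
  let h : AddSubgroup D × D → ℝ≥0∞ := fun p =>
    (nzs p.1).indicator (fun x => ∫⁻ g, ph O j c R p.1 g * F (act j c x g) ∂ms μ c) p.2
  let k : AddSubgroup D × D → ℝ≥0∞ := fun p =>
    (Sup O).indicator (fun I => (nzs I).indicator
      (fun x => ∫⁻ g, ph O j c R (mv I x) (act j c x g) * F g ∂ms μ c) p.2) p.1
  have h1 : ∀ I : AddSubgroup D, ∫⁻ g, ph O j c R I g *
      ∑' x : D, (nzs I).indicator (fun x => F (act j c x g)) x ∂ms μ c = ∑' x, h (I, x) := by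
    intro I
    simp only [← ENNReal.tsum_mul_left]
    rw [lintegral_tsum]
    · refine tsum_congr fun x => ?_
      by_cases hx : x ∈ nzs I
      · simp only [h, Set.indicator_of_mem hx]
      · simp only [h, Set.indicator_of_notMem hx, mul_zero, lintegral_zero]
    · intro x
      refine ((meas_ph b e R I).mul ?_).aemeasurable
      by_cases hx : x ∈ nzs I
      · simp only [Set.indicator_of_mem hx]
        exact hF.comp (continuous_act x).measurable
      · simp only [Set.indicator_of_notMem hx]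
        exact measurable_const
  have h2 : ∀ I : Sup O, ∫⁻ g, win O c I g * F g ∂ms μ c = ∑' x, k (I, x) := by
    intro I
    simp only [← sum_ph hO he hR I.2, ← ENNReal.tsum_mul_right]
    rw [lintegral_tsum]
    · refine tsum_congr fun x => ?_
      by_cases hx : x ∈ nzs I.1
      · simp only [k, Set.indicator_of_mem hx, Set.indicator_of_mem I.2]
      · simp only [k, Set.indicator_of_notMem hx, zero_mul, lintegral_zero,
          Set.indicator_of_mem I.2]
    · intro x
      refine (Measurable.mul ?_ hF).aemeasurable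
      by_cases hx : x ∈ nzs I.1
      · simp only [Set.indicator_of_mem hx]
        exact (meas_ph b e R _).comp (continuous_act x).measurable
      · simp only [Set.indicator_of_notMem hx]
        exact measurable_const
  have h3 : ∀ p, h (sw p) = k p := by
    rintro ⟨I, x⟩
    by_cases hx : x = 0
    · have : ∀ J : AddSubgroup D, (0 : D) ∉ nzs J := fun J h => h.2 rfl
      simp only [sw, hx, if_true, h, k, Set.indicator_of_notMem (this _)]
      simp
    simp only [sw, hx, if_false, h, k]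
    by_cases hI : I ∈ Sup O ∧ x ∈ I
    · have h4 : x⁻¹ ∈ nzs (mv I x) := ⟨by simp [hx, one_mem hI.1], inv_ne_zero hx⟩
      rw [Set.indicator_of_mem h4, Set.indicator_of_mem hI.1,
        Set.indicator_of_mem (show x ∈ nzs I from ⟨hI.2, hx⟩),
        ← inv_act (μ := μ) he hx (F := fun g => ph O j c R (mv I x) g * F (act j c x⁻¹ g))
          ((meas_ph b e R _).mul (hF.comp (continuous_act x⁻¹).measurable))]
      refine lintegral_congr fun g => ?_
      simp only [act_act, mul_inv_cancel₀ hx, act_one]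
    · have h5 : (Sup O).indicator (fun I => (nzs I).indicator
          (fun x => ∫⁻ g, ph O j c R (mv I x) (act j c x g) * F g ∂ms μ c) x) I = 0 :=
        Set.indicator_apply_eq_zero.2 fun h6 =>
          Set.indicator_of_notMem (fun h7 => hI ⟨h6, h7.1⟩) _
      rw [h5]
      refine Set.indicator_apply_eq_zero.2 fun h6 => ?_
      have h7 : mv I x ∉ Sup O := fun h8 => by
        have h9 := mv_mem hO h8 h6.1 h6.2
        have h10 : (x : D) ∈ mv (mv I x) x⁻¹ := by
          rw [mem_mv, inv_mul_cancel₀ hx]; exact one_mem h8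
        rw [mv_mv, mul_inv_cancel₀ hx, mv_one] at h9 h10
        exact hI ⟨h9, h10⟩
      simp only [ph_eq_zero h7, zero_mul, lintegral_zero]
  rw [tsum_congr fun I : Sup O => h1 I, tsum_congr h2,
    tsum_subtype_eq_of_support_subset (f := fun I => ∑' x, h (I, x)),
    tsum_subtype_eq_of_support_subset (f := fun I => ∑' x, k (I, x)),
    ← ENNReal.tsum_prod, ← ENNReal.tsum_prod, ← sw_sw.toPerm.tsum_eq]
  · exact tsum_congr h3
  · intro I hI
    by_contra h4
    exact hI (by simp only [k, Set.indicator_of_notMem h4, tsum_zero])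
  · intro I hI
    by_contra h4
    refine hI ?_
    simp [h, ph_eq_zero h4]

/-! ### the measure on lattices -/

variable {H : Type*} [NormedAddCommGroup H] [InnerProductSpace ℝ H] [FiniteDimensional ℝ H]
  [MeasurableSpace H] [BorelSpace H] {Q : E →ₗ[ℝ] H}

/-- the basis of the lattice `g I` -/
def tup (b : Basis (Fin N) ℚ D) (j : D →+* A) (c : A ≃ₗ[ℝ] E) (Q : E →ₗ[ℝ] H) (I : AddSubgroup D)
    (g : E) : Fin N → H := fun i => Q (act j c (bas b I i) g)

theorem continuous_tup (I : AddSubgroup D) : Continuous (tup b j c Q I) :=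
  continuous_pi fun _ => Q.continuous_of_finiteDimensional.comp (continuous_act _)

/-- the measure on lattices -/
def nu (μ : Measure E) (b : Basis (Fin N) ℚ D) (O : Subring D) (j : D →+* A) (c : A ≃ₗ[ℝ] E)
    (Q : E →ₗ[ℝ] H) (R : ℝ) : Measure (Fin N → H) :=
  Measure.sum fun I : Sup O => ((ms μ c).withDensity (ph O j c R I)).map (tup b j c Q I)

theorem lint_nu (e : Basis (Fin N) ℝ A) (R : ℝ) {G : (Fin N → H) → ℝ≥0∞} (hG : Measurable G) :
    ∫⁻ ω, G ω ∂nu μ b O j c Q R =
      ∑' I : Sup O, ∫⁻ g, ph O j c R I g * G (tup b j c Q I g) ∂ms μ c := by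
  unfold nu
  rw [lintegral_sum_measure]
  refine tsum_congr fun I => ?_
  rw [lintegral_map hG (continuous_tup _).measurable,
    lintegral_withDensity_eq_lintegral_mul _ (meas_ph b e R _)
      (g := fun g => G (tup b j c Q I g)) (hG.comp (continuous_tup _).measurable)]
  rfl

theorem ph_ne {R : ℝ} {I : AddSubgroup D} {g : E} (h : ph O j c R I g ≠ 0) :
    I ∈ Sup O ∧ 1 ≤ cv O c I g ∧ ‖g‖ ≤ R := by
  have h1 : win O c I g * bl R g ≠ 0 := fun h0 => h (by rw [ph, h0, ENNReal.zero_div])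
  obtain ⟨h2, h3, -⟩ := win_ne (left_ne_zero_of_mul h1)
  have h4 : g ∈ Metric.closedBall (0 : E) R := Set.mem_of_indicator_ne_zero (right_ne_zero_of_mul h1)
  exact ⟨h2, h3, by simpa using h4⟩

theorem idx_le {I : AddSubgroup D} (hI : I ∈ Sup O) {g : E} (h : 1 ≤ cv O c I g) :
    (idx O I : ℝ) ≤ Dl c g := by
  have h1 : (0 : ℝ) < idx O I := Nat.cast_pos.2 (idx_pos hI)
  rwa [cv, le_div_iff₀ h1, one_mul] at h

theorem one_le_Dl {I : AddSubgroup D} (hI : I ∈ Sup O) {g : E} (h : 1 ≤ cv O c I g) :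
    1 ≤ Dl c g := le_trans (Nat.one_le_cast.2 (idx_pos hI)) (idx_le hI h)

theorem ph_le (R : ℝ) (I : AddSubgroup D) (g : E) :
    ENNReal.ofReal (Dl c g)⁻¹ * ph O j c R I g ≤ bl R g := by
  by_cases h : ph O j c R I g = 0
  · rw [h, mul_zero]; exact zero_le
  obtain ⟨h1, h2, h3⟩ := ph_ne h
  have h4 : 1 ≤ cnt j c R I g :=
    one_le_cnt (x := 1) ⟨one_mem h1, one_ne_zero⟩ (by rwa [act_one])
  have h5 : ENNReal.ofReal (Dl c g)⁻¹ ≤ 1 :=
    ENNReal.ofReal_le_one.2 (inv_le_one_of_one_le₀ (one_le_Dl h1 h2))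
  calc _ ≤ 1 * (1 * bl R g / 1) := by
        unfold ph
        gcongr
        exact win_le I g
    _ = _ := by simp

theorem finite_supp (hO : O.toAddSubgroup = AddSubgroup.closure (Set.range b))
    (e : Basis (Fin N) ℝ A) (R : ℝ) : {I | ∃ g, ph O j c R I g ≠ 0}.Finite := by
  obtain ⟨M, hM⟩ := (isCompact_closedBall (0 : E) R).bddAbove_image
    (continuous_Dl (c := c) e).continuousOn
  refine (finite_sup hO ⌈M⌉₊).subset ?_
  rintro I ⟨g, hg⟩
  obtain ⟨h1, h2, h3⟩ := ph_ne hg
  refine ⟨h1, ?_⟩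
  have h4 : Dl c g ≤ M := hM ⟨g, by simpa using h3, rfl⟩
  exact_mod_cast ((idx_le h1 h2).trans h4).trans (Nat.le_ceil M)

theorem finite_nu (hO : O.toAddSubgroup = AddSubgroup.closure (Set.range b))
    (e : Basis (Fin N) ℝ A) (R : ℝ) : IsFiniteMeasure (nu μ b O j c Q R) := by
  refine ⟨?_⟩
  rw [← lintegral_one, lint_nu e R measurable_const]
  have hf : {I : Sup O | ∃ g, ph O j c R I g ≠ 0}.Finite :=
    Set.Finite.preimage (f := Subtype.val) (s := {I | ∃ g, ph O j c R I g ≠ 0})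
      Subtype.val_injective.injOn (finite_supp (j := j) (c := c) hO e R)
  rw [tsum_eq_sum (s := hf.toFinset) ?_]
  · refine ENNReal.sum_lt_top.2 fun I _ => ?_
    simp only [mul_one]
    rw [lint_ms e (meas_ph b e R _)]
    refine lt_of_le_of_lt (lintegral_mono (g := bl R) fun g => ph_le (O := O) (j := j) R I.1 g) ?_
    exact (lintegral_indicator_one measurableSet_closedBall).trans_lt measure_closedBall_lt_top
  · intro I hI
    have : ∀ g, ph O j c R I g = 0 := fun g => by
      by_contra h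
      exact hI (hf.mem_toFinset.2 ⟨g, h⟩)
    simp [this]

theorem lc_tup (I : AddSubgroup D) (g : E) (y : Fin N → ℝ) :
    Fintype.linearCombination ℝ (tup b j c Q I g) y = Q (∑ i, y i • act j c (bas b I i) g) := by
  rw [Fintype.linearCombination_apply, map_sum]
  simp only [map_smul, tup]

theorem bounds_one (hO : O.toAddSubgroup = AddSubgroup.closure (Set.range b))
    (he : ∀ i, e i = j (b i)) (hQ : Function.Injective Q) (R : ℝ) {I : AddSubgroup D}
    (hI : I ∈ Sup O) : ∃ a : ℝ, 0 < a ∧ ∃ a' : ℝ, ∀ g : E, ‖g‖ ≤ R → 1 ≤ Dl c g →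
      ∀ y : Fin N → ℝ, a * ‖y‖ ≤ ‖Fintype.linearCombination ℝ (tup b j c Q I g) y‖ ∧
        ‖Fintype.linearCombination ℝ (tup b j c Q I g) y‖ ≤ a' * ‖y‖ := by
  let f : E × (Fin N → ℝ) → ℝ := fun p => ‖Fintype.linearCombination ℝ (tup b j c Q I p.1) p.2‖
  have hf : Continuous f := by
    simp only [f, Fintype.linearCombination_apply]
    refine (continuous_finsetSum _ fun i _ => ?_).norm
    exact ((continuous_apply i).comp continuous_snd).smul
      ((continuous_apply i).comp ((continuous_tup I).comp continuous_fst))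
  have hK : IsCompact ((Metric.closedBall (0 : E) R ∩ {g | 1 ≤ Dl c g}) ×ˢ
      Metric.sphere (0 : Fin N → ℝ) 1) :=
    ((isCompact_closedBall _ _).inter_right
      (isClosed_le continuous_const (continuous_Dl e))).prod (isCompact_sphere _ _)
  obtain ⟨a, ha, h1⟩ := hK.exists_forall_le' hf.continuousOn (a := 0) (by
    rintro ⟨g, y⟩ ⟨⟨-, h2⟩, h3⟩
    have h4 : cv O c I g ≠ 0 :=
      (div_pos (lt_of_lt_of_le zero_lt_one h2) (Nat.cast_pos.2 (idx_pos hI))).ne'
    obtain ⟨β, hβ⟩ := exists_lat hO he hI h4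
    refine norm_pos_iff.2 fun h5 => ?_
    rw [lc_tup, map_eq_zero_iff Q hQ] at h5
    simp only [← hβ] at h5
    have h6 : y = 0 := funext (Fintype.linearIndependent_iff.1 β.linearIndependent y h5)
    simp [h6] at h3)
  obtain ⟨a', h2⟩ := hK.bddAbove_image hf.continuousOn
  refine ⟨a, ha, a', fun g h3 h4 y => ?_⟩
  by_cases hy : y = 0
  · simp [hy]
  have h5 : 0 < ‖y‖ := norm_pos_iff.2 hy
  have h6 : (g, ‖y‖⁻¹ • y) ∈ (Metric.closedBall (0 : E) R ∩ {g | 1 ≤ Dl c g}) ×ˢ
      Metric.sphere (0 : Fin N → ℝ) 1 :=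
    ⟨⟨by simpa using h3, h4⟩, by simp [norm_smul, h5.ne']⟩
  have h7 : f (g, ‖y‖⁻¹ • y) = ‖y‖⁻¹ * ‖Fintype.linearCombination ℝ (tup b j c Q I g) y‖ := by
    simp only [f, map_smul, norm_smul, norm_inv, norm_norm]
  have h8 := h1 _ h6
  have h9 := h2 ⟨_, h6, rfl⟩
  rw [h7] at h8 h9
  rw [le_inv_mul_iff₀ h5] at h8
  rw [inv_mul_le_iff₀ h5] at h9
  exact ⟨by rwa [mul_comm], by rwa [mul_comm]⟩

theorem bounds (hO : O.toAddSubgroup = AddSubgroup.closure (Set.range b))
    (he : ∀ i, e i = j (b i)) (hQ : Function.Injective Q) (R : ℝ) :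
    ∃ a a' : ℝ, 0 < a ∧ ∀ᵐ ω ∂nu μ b O j c Q R, ∀ y : Fin N → ℝ,
      a * ‖y‖ ≤ ‖Fintype.linearCombination ℝ ω y‖ ∧
        ‖Fintype.linearCombination ℝ ω y‖ ≤ a' * ‖y‖ := by
  have hf : {I : Sup O | ∃ g, ph O j c R I g ≠ 0}.Finite :=
    Set.Finite.preimage (f := Subtype.val) (s := {I | ∃ g, ph O j c R I g ≠ 0})
      Subtype.val_injective.injOn (finite_supp (j := j) (c := c) hO e R)
  choose a ha a' h using fun I : Sup O => bounds_one (c := c) hO he hQ R I.2
  obtain ⟨M, hM⟩ := (hf.image fun I => (a I)⁻¹).bddAbove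
  obtain ⟨M', hM'⟩ := (hf.image a').bddAbove
  refine ⟨(max M 1)⁻¹, M', by positivity, ?_⟩
  have hc : IsClosed {ω : Fin N → H | ∀ y : Fin N → ℝ,
      (max M 1)⁻¹ * ‖y‖ ≤ ‖Fintype.linearCombination ℝ ω y‖ ∧
        ‖Fintype.linearCombination ℝ ω y‖ ≤ M' * ‖y‖} := by
    rw [Set.ofPred_forall]
    refine isClosed_iInter fun y => ?_
    have : Continuous fun ω : Fin N → H => ‖Fintype.linearCombination ℝ ω y‖ := by
      simp only [Fintype.linearCombination_apply]
      fun_prop
    exact (isClosed_le continuous_const this).inter (isClosed_le this continuous_const)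
  unfold nu
  refine Measure.ae_sum_iff' hc.measurableSet |>.2 fun I => ?_
  rw [ae_map_iff (continuous_tup _).measurable.aemeasurable hc.measurableSet,
    ae_withDensity_iff (meas_ph b e R _)]
  refine Filter.Eventually.of_forall fun g hg y => ?_
  obtain ⟨h1, h2, h3⟩ := ph_ne hg
  obtain ⟨h4, h5⟩ := h I g h3 (one_le_Dl h1 h2) y
  have h6 : (a I)⁻¹ ≤ max M 1 := (hM ⟨I, ⟨g, hg⟩, rfl⟩).trans (le_max_left _ _)
  have h7 : a' I ≤ M' := hM' ⟨I, ⟨g, hg⟩, rfl⟩
  refine ⟨le_trans ?_ h4, h5.trans ?_⟩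
  · exact mul_le_mul_of_nonneg_right (inv_le_of_inv_le₀ (ha I) h6) (norm_nonneg _)
  · exact mul_le_mul_of_nonneg_right h7 (norm_nonneg _)

theorem sum_lat (hO : O.toAddSubgroup = AddSubgroup.closure (Set.range b))
    {I : AddSubgroup D} (hI : I ∈ Sup O) (f : D → ℝ≥0∞) :
    ∑' z : {z : Fin N → ℤ // z ≠ 0}, f (∑ i, z.1 i • bas b I i) =
      ∑' x : D, (nzs I).indicator f x := by
  rw [← tsum_subtype]
  have h0 : ∀ z : Fin N → ℤ, z ≠ 0 → ∑ i, z i • bas b I i ∈ nzs I := fun z hz => by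
    refine ⟨?_, fun h => hz (bas_injective (bas b I) ?_)⟩
    · have := (mem_closure_iff (c := bas b I)).2 ⟨z, rfl⟩
      rwa [← bas_spec hO hI] at this
    · simpa using h
  let k : {z : Fin N → ℤ // z ≠ 0} → nzs I := fun z => ⟨_, h0 z.1 z.2⟩
  have hk : Function.Bijective k := by
    refine ⟨fun z w h => Subtype.ext (bas_injective (bas b I) (congrArg Subtype.val h)), ?_⟩
    rintro ⟨x, h1, h2⟩
    have h3 := h1
    rw [bas_spec hO hI] at h3
    obtain ⟨z, hz⟩ := mem_closure_iff.1 h3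
    exact ⟨⟨z, fun h => h2 (by rw [← hz, h]; simp)⟩, Subtype.ext hz⟩
  exact (Equiv.ofBijective k hk).tsum_eq fun x => f x

theorem meas_rho (t : ℝ) : Measurable fun g : E => ENNReal.ofReal (rho (t • Q g)) :=
  (continuous_rho.comp (Q.continuous_of_finiteDimensional.const_smul t)).measurable.ennreal_ofReal

theorem theta_nu (hO : O.toAddSubgroup = AddSubgroup.closure (Set.range b))
    (he : ∀ i, e i = j (b i)) {R : ℝ} (hR : Mk O j c R) {t : ℝ} (ht : 0 < t) :
    ∫⁻ ω, ∑' x : {x : Fin N → ℤ // x ≠ 0},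
        ENNReal.ofReal (rho (t • Fintype.linearCombination ℝ ω (cast x.1))) ∂nu μ b O j c Q R =
      ∑' I : Sup O, ∫⁻ g, win O c I (t⁻¹ • g) * ENNReal.ofReal (rho (Q g)) ∂ms μ c := by
  rw [lint_nu e]
  · have h1 : ∀ (I : Sup O) (g : E), ∑' x : {x : Fin N → ℤ // x ≠ 0}, ENNReal.ofReal
        (rho (t • Fintype.linearCombination ℝ (tup b j c Q I g) (cast x.1))) =
        ∑' x : D, (nzs I.1).indicator (fun x => ENNReal.ofReal (rho (t • Q (act j c x g)))) x := by
      intro I g
      rw [← sum_lat hO I.2]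
      refine tsum_congr fun z => ?_
      rw [lc_tup, act_sum]
      simp only [cast_apply, Int.cast_smul_eq_zsmul]
    simp only [h1]
    rw [unfold hO he hR (meas_rho t)]
    refine tsum_congr fun I => ?_
    rw [← inv_smul e (inv_pos.2 ht) (F := fun g => win O c I g * ENNReal.ofReal (rho (t • Q g)))
      ((meas_win e _).mul (meas_rho t))]
    refine lintegral_congr fun g => ?_
    rw [map_smul, smul_smul, mul_inv_cancel₀ ht.ne', one_smul]
  · refine Measurable.tsum fun x => ?_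
    refine (continuous_rho.comp (Continuous.const_smul ?_ t)).measurable.ennreal_ofReal
    simp only [Fintype.linearCombination_apply]
    fun_prop

theorem inner_mel (hN : 0 < N) {s : ℝ} (hs : 0 < s) {κ : ℝ} (hκ : 0 ≤ κ) :
    ∫⁻ t in Set.Ioi (0 : ℝ), ENNReal.ofReal (t ^ ((N : ℝ) * s - 1)) * wn (t⁻¹ ^ N * κ) =
      ENNReal.ofReal (κ ^ s * ((1 - 2 ^ (-s)) / (N * s))) := by
  rcases hκ.eq_or_lt with rfl | hκ
  · have : wn 0 = 0 := Set.indicator_of_notMem (by simp) _
    simp [this, Real.zero_rpow hs.ne']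
  have hN' : (0 : ℝ) < N := Nat.cast_pos.2 hN
  set u := (κ / 2) ^ (N : ℝ)⁻¹ with hu
  set w := κ ^ (N : ℝ)⁻¹ with hw
  have hu0 : 0 < u := by positivity
  have huw : u ≤ w := Real.rpow_le_rpow (by positivity) (by linarith) (by positivity)
  have h1 : ∀ t ∈ Set.Ioi (0 : ℝ), ENNReal.ofReal (t ^ ((N : ℝ) * s - 1)) * wn (t⁻¹ ^ N * κ) =
      (Set.Ioc u w).indicator (fun t => ENNReal.ofReal (t ^ ((N : ℝ) * s - 1))) t := by
    intro t ht
    have ht' : 0 < t := ht
    have htN : 0 < t ^ N := pow_pos ht' N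
    have h2 : t⁻¹ ^ N * κ ∈ Set.Ico (1 : ℝ) 2 ↔ t ∈ Set.Ioc u w := by
      rw [Set.mem_Ico, Set.mem_Ioc, inv_pow, le_inv_mul_iff₀ htN, inv_mul_lt_iff₀ htN, mul_one, hu,
        hw, Real.rpow_inv_lt_iff_of_pos (by positivity) ht'.le hN',
        Real.le_rpow_inv_iff_of_pos ht'.le hκ.le hN', Real.rpow_natCast, and_comm,
        div_lt_iff₀ two_pos]
    by_cases h3 : t ∈ Set.Ioc u w
    · rw [Set.indicator_of_mem h3, wn, Set.indicator_of_mem (h2.2 h3), Pi.one_apply, mul_one]
    · rw [Set.indicator_of_notMem h3, wn, Set.indicator_of_notMem (mt h2.1 h3), mul_zero]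
  have h4 : -1 < (N : ℝ) * s - 1 := by nlinarith [mul_pos hN' hs]
  rw [setLIntegral_congr_fun measurableSet_Ioi h1, lintegral_indicator measurableSet_Ioc,
    Measure.restrict_restrict measurableSet_Ioc,
    Set.inter_eq_left.2 (show Set.Ioc u w ⊆ Set.Ioi 0 from fun t ht => lt_trans hu0 ht.1),
    ← ofReal_integral_eq_lintegral_ofReal, ← intervalIntegral.integral_of_le huw,
    integral_rpow (Or.inl h4), sub_add_cancel]
  · congr 1
    have e1 : w ^ ((N : ℝ) * s) = κ ^ s := by
      rw [hw, ← Real.rpow_mul hκ.le, ← mul_assoc, inv_mul_cancel₀ hN'.ne', one_mul]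
    have e2 : u ^ ((N : ℝ) * s) = κ ^ s * 2 ^ (-s) := by
      rw [hu, ← Real.rpow_mul (by positivity), ← mul_assoc, inv_mul_cancel₀ hN'.ne', one_mul,
        Real.div_rpow hκ.le zero_le_two, Real.rpow_neg zero_le_two, div_eq_mul_inv]
    rw [e1, e2]; ring
  · exact (intervalIntegral.intervalIntegrable_rpow' h4 (a := u) (b := w)).1
  · refine (ae_restrict_iff' measurableSet_Ioc).2 (Filter.Eventually.of_forall fun t ht => ?_)
    exact Real.rpow_nonneg (lt_trans hu0 ht.1).le _

theorem mel_nu (hO : O.toAddSubgroup = AddSubgroup.closure (Set.range b))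
    (he : ∀ i, e i = j (b i)) {R : ℝ} (hR : Mk O j c R) {s : ℝ} (hs : 1 < s) :
    mel (nu μ b O j c Q R) s =
      ENNReal.ofReal ((1 - 2 ^ (-s)) / (N * s)) * (zeta O s * Gam μ c Q s) := by
  have := countable_sup hO
  have hN : 0 < N := Fin.pos_iff_nonempty.2 b.index_nonempty
  have hs0 : 0 < s := by linarith
  have hw : 0 ≤ (1 - 2 ^ (-s)) / ((N : ℝ) * s) :=
    div_nonneg (sub_nonneg.2 (Real.rpow_le_one_of_one_le_of_nonpos one_le_two (by linarith)))
      (by positivity)
  have hρ : Measurable fun g : E => ENNReal.ofReal (rho (Q g)) := by simpa using meas_rho (Q := Q) 1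
  have hm : ∀ I : Sup O, Measurable fun p : ℝ × E => ENNReal.ofReal (p.1 ^ ((N : ℝ) * s - 1)) *
      (win O c I (p.1⁻¹ • p.2) * ENNReal.ofReal (rho (Q p.2))) := fun I =>
    ((measurable_fst.pow_const _).ennreal_ofReal).mul
      (((meas_win e _).comp (measurable_fst.inv.smul measurable_snd)).mul (hρ.comp measurable_snd))
  have h1 : ∀ t ∈ Set.Ioi (0 : ℝ), ENNReal.ofReal (t ^ ((Fintype.card (Fin N) : ℝ) * s - 1)) *
      ∫⁻ ω, ∑' x : {x : Fin N → ℤ // x ≠ 0},
        ENNReal.ofReal (rho (t • Fintype.linearCombination ℝ ω (cast x.1))) ∂nu μ b O j c Q R =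
      ∑' I : Sup O, ∫⁻ g, ENNReal.ofReal (t ^ ((N : ℝ) * s - 1)) *
        (win O c I (t⁻¹ • g) * ENNReal.ofReal (rho (Q g))) ∂ms μ c := by
    intro t ht
    rw [theta_nu hO he hR ht, ← ENNReal.tsum_mul_left, Fintype.card_fin]
    exact tsum_congr fun I => (lintegral_const_mul' _ _ ENNReal.ofReal_ne_top).symm
  unfold mel
  rw [setLIntegral_congr_fun measurableSet_Ioi h1,
    lintegral_tsum fun I => (hm I).lintegral_prod_right'.aemeasurable, zeta,
    ← ENNReal.tsum_mul_right, ← ENNReal.tsum_mul_left]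
  refine tsum_congr fun I => ?_
  have hi : (0 : ℝ) < idx O I := Nat.cast_pos.2 (idx_pos I.2)
  rw [lintegral_lintegral_swap (hm I).aemeasurable,
    lint_ms e (hm I).lintegral_prod_left', Gam, ← lintegral_const_mul' _ _ ENNReal.ofReal_ne_top,
    ← lintegral_const_mul' _ _ ENNReal.ofReal_ne_top]
  refine lintegral_congr fun g => ?_
  have h2 : ∀ t ∈ Set.Ioi (0 : ℝ), ENNReal.ofReal (t ^ ((N : ℝ) * s - 1)) *
      (win O c I (t⁻¹ • g) * ENNReal.ofReal (rho (Q g))) =
      ENNReal.ofReal (t ^ ((N : ℝ) * s - 1)) * wn (t⁻¹ ^ N * cv O c I g) *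
        ENNReal.ofReal (rho (Q g)) := by
    intro t ht
    have ht' : 0 < t := ht
    rw [win, if_pos I.2, cv, cv, Dl_smul e, abs_of_pos (inv_pos.2 ht'), mul_div_assoc, mul_assoc]
  have h3 : 0 ≤ cv O c I g := div_nonneg (Dl_nonneg g) hi.le
  rw [setLIntegral_congr_fun measurableSet_Ioi h2, lintegral_mul_const' _ _ ENNReal.ofReal_ne_top,
    inner_mel hN hs0 h3, ← ENNReal.ofReal_mul (mul_nonneg (Real.rpow_nonneg h3 _) hw),
    ← ENNReal.ofReal_mul (inv_nonneg.2 (Dl_nonneg g)),
    ← ENNReal.ofReal_mul (Real.rpow_nonneg (Nat.cast_nonneg _) _), ← ENNReal.ofReal_mul hw]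
  congr 1
  change _ = _ * ((idx O I : ℝ) ^ (-s) * (rho (Q g) * Dl c g ^ (s - 1)))
  rw [cv, Real.div_rpow (Dl_nonneg g) hi.le, Real.rpow_neg hi.le,
    Real.rpow_sub_one' (Dl_nonneg g) (by linarith)]
  ring

theorem zeta_ne_zero (O : Subring D) (s : ℝ) : zeta O s ≠ 0 := by
  refine (lt_of_lt_of_le ?_ (ENNReal.le_tsum (⟨_, self_mem O⟩ : Sup O))).ne'
  simp

theorem gam_ne_zero (e : Basis (Fin N) ℝ A) (s : ℝ) : Gam μ c Q s ≠ 0 := by
  have hm : Measurable fun g : E => ENNReal.ofReal (rho (Q g) * Dl c g ^ (s - 1)) :=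
    ((continuous_rho.comp Q.continuous_of_finiteDimensional).measurable.mul
      ((continuous_Dl e).measurable.pow_const _)).ennreal_ofReal
  refine ((lintegral_pos_iff_support hm).2 ?_).ne'
  have ho : IsOpen {g : E | 0 < Dl c g} := isOpen_lt continuous_const (continuous_Dl e)
  refine lt_of_lt_of_le (ho.measure_pos μ ⟨c 1, by simp [Dl_one]⟩) (measure_mono fun g hg => ?_)
  exact (ENNReal.ofReal_pos.2 (mul_pos (rho_pos _) (Real.rpow_pos_of_pos hg _))).ne'

theorem QE_injective (W₁ W₂ : Type*) (n : ℕ) : Function.Injective (QE W₁ W₂ n) := by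
  intro g h hgh
  have key : ∀ p, QE W₁ W₂ n g p = QE W₁ W₂ n h p := fun p => by rw [hgh]
  refine Prod.ext ?_ ?_
  · funext w i k
    exact Complex.ofReal_injective (key (Sum.inl w, i, k))
  · funext w i k
    exact key (Sum.inr w, i, k)

theorem haar_EE (W₁ W₂ : Type*) [Fintype W₁] [Fintype W₂] (n : ℕ) :
    (volume : Measure (EE W₁ W₂ n)).IsAddHaarMeasure := by
  have : (volume : Measure (Fin n → ℂ)).IsAddHaarMeasure := Measure.pi.isAddHaarMeasure _
  have : (volume : Measure (Fin n → Fin n → ℂ)).IsAddHaarMeasure := Measure.pi.isAddHaarMeasure _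
  have : (volume : Measure (Fin n → Fin n → ℝ)).IsAddHaarMeasure := Measure.pi.isAddHaarMeasure _
  have : (volume : Measure (W₁ → Fin n → Fin n → ℝ)).IsAddHaarMeasure :=
    Measure.pi.isAddHaarMeasure _
  have : (volume : Measure (W₂ → Fin n → Fin n → ℂ)).IsAddHaarMeasure :=
    Measure.pi.isAddHaarMeasure _
  exact Measure.prod.instIsAddHaarMeasure volume volume

end Crest.Agent.T24.Ab.Unf

namespace Crest.Agent.T24.Ab

open Unf MeasureTheory

universe u v

theorem zfStmt (hF : FeStmt.{0, v}) : ZfStmt.{u, v} := by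
  intro D _ _ N b O hO W₁ W₂ _ _ n j e he
  have hN : 0 < N := Fin.pos_iff_nonempty.2 b.index_nonempty
  have hN' : (0 : ℝ) < N := Nat.cast_pos.2 hN
  have : Nonempty (Fin N) := b.index_nonempty
  let _ : MeasurableSpace (HH W₁ W₂ n) := borel _
  have : BorelSpace (HH W₁ W₂ n) := ⟨rfl⟩
  have := haar_EE W₁ W₂ n
  obtain ⟨R, hR⟩ := mink (c := cE W₁ W₂ n) volume hO he
  have := finite_nu (μ := volume) (j := j) (c := cE W₁ W₂ n) (Q := QE W₁ W₂ n) hO e R
  have hpos : ∀ s : ℝ, 1 < s → 0 < (1 - 2 ^ (-s)) / ((N : ℝ) * s) := fun s hs =>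
    div_pos (sub_pos.2 (Real.rpow_lt_one_of_one_lt_of_neg one_lt_two (by linarith)))
      (by positivity)
  have hne : ∀ s : ℝ, zeta O s * GamE W₁ W₂ n s ≠ 0 := fun s =>
    mul_ne_zero (zeta_ne_zero O s) (gam_ne_zero e s)
  have hν : nu volume b O j (cE W₁ W₂ n) (QE W₁ W₂ n) R ≠ 0 := fun h => by
    have h1 := mel_nu (μ := volume) (Q := QE W₁ W₂ n) hO he hR one_lt_two
    rw [h] at h1
    refine mul_ne_zero (ENNReal.ofReal_pos.2 (hpos 2 one_lt_two)).ne' (hne 2) (h1.symm.trans ?_)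
    simp [mel]
  obtain ⟨a, a', ha, hb⟩ := bounds (μ := volume) (c := cE W₁ W₂ n) hO he (QE_injective W₁ W₂ n) R
  obtain ⟨Z, h1, h2, h3, h4⟩ := hF (Fin N) (HH W₁ W₂ n) _ hν a a' ha hb
  have hNc : (N : ℂ) ≠ 0 := Nat.cast_ne_zero.2 hN.ne'
  refine ⟨fun s => N * Z s, h1.const_mul _, mul_ne_zero hNc h2, mul_ne_zero hNc h3, fun s hs => ?_⟩
  obtain ⟨h5, h6⟩ := h4 s hs
  rw [mel_nu hO he hR hs] at h5 h6
  refine ⟨fun h => h5 ?_, hne s, ?_⟩
  · change _ * (zeta O s * GamE W₁ W₂ n s) = _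
    rw [h, ENNReal.mul_top (ENNReal.ofReal_pos.2 (hpos s hs)).ne']
  · change (N : ℂ) * Z s = _
    rw [h6, ENNReal.toReal_mul, ENNReal.toReal_ofReal (hpos s hs).le, ← Complex.ofReal_natCast,
      ← Complex.ofReal_mul]
    congr 1
    have : s ≠ 0 := by linarith
    unfold GamE
    field_simp

end Crest.Agent.T24.Ab
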