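import Crest.Agent.T24.AbDef_13
import Mathlib
import Crest.Agent.T24.AbZf_13

-- ▼ part T24/AbFe_29
section

/-!
# Row 24 (helper29): the functional equation of an averaged theta function
-/

set_option autoImplicit false
set_option linter.unusedSectionVars false

noncomputable section

namespace Crest.Agent.T24.Ab

open MeasureTheory Real Set Filter Asymptotics
open scoped ENNReal
open Crest.Agent.T49.Gau
open Crest.Agent.T49.Lat (cast)

universe u v

namespace Fe29

variable {ι : Type*} [Fintype ι] {H : Type*} [NormedAddCommGroup H] [InnerProductSpace ℝ H]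

theorem exists_ref (ι : Type*) [Fintype ι] {c : ℝ} (hc : 0 < c) :
    ∃ R : (ι → ℝ) →ₗ[ℝ] EuclideanSpace ℝ ι, Function.Injective R ∧ ∀ y, ‖R y‖ ≤ c * ‖y‖ := by
  let e : (ι → ℝ) →ₗ[ℝ] EuclideanSpace ℝ ι := (WithLp.linearEquiv 2 ℝ (ι → ℝ)).symm.toLinearMap
  have he : Function.Injective e := (WithLp.linearEquiv 2 ℝ (ι → ℝ)).symm.injective
  obtain ⟨K, hK, h⟩ := (LinearMap.toContinuousLinearMap e).bound
  refine ⟨(c / K) • e, inj_smul he (div_pos hc hK).ne', fun y => ?_⟩
  have h1 : ‖e y‖ ≤ K * ‖y‖ := h y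
  rw [LinearMap.smul_apply, norm_smul, Real.norm_of_nonneg (div_pos hc hK).le]
  calc c / K * ‖e y‖ ≤ c / K * (K * ‖y‖) := by gcongr
    _ = c * ‖y‖ := by field_simp

theorem inj_of_low {B : (ι → ℝ) →ₗ[ℝ] H} {c : ℝ} (hc : 0 < c) (h : ∀ y, c * ‖y‖ ≤ ‖B y‖) :
    Function.Injective B := by
  obtain ⟨R, hR, hR'⟩ := exists_ref ι hc
  exact inj_of_le hR fun y => (hR' y).trans (h y)

theorem one_le_norm_cast {x : ι → ℤ} (hx : x ≠ 0) : 1 ≤ ‖cast x‖ := by
  obtain ⟨i, hi⟩ := Function.ne_iff.1 hx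
  refine le_trans ?_ (norm_le_pi_norm (cast x) i)
  have : (1 : ℤ) ≤ |x i| := Int.one_le_abs hi
  show (1 : ℝ) ≤ |((x i : ℤ) : ℝ)|
  exact_mod_cast this

theorem low_smul {B : (ι → ℝ) →ₗ[ℝ] H} {c t : ℝ} (ht : 0 ≤ t) (h : ∀ y, c * ‖y‖ ≤ ‖B y‖) (y : ι → ℝ) :
    t * c * ‖y‖ ≤ ‖(t • B) y‖ := by
  rw [LinearMap.smul_apply, norm_smul, Real.norm_of_nonneg ht, mul_assoc]
  exact mul_le_mul_of_nonneg_left (h y) ht

/-- uniform bounds -/
theorem unif (ι : Type*) [Fintype ι] (H : Type*) [NormedAddCommGroup H] [InnerProductSpace ℝ H]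
    {c : ℝ} (hc : 0 < c) : ∃ T : ℝ, 0 ≤ T ∧ ∀ B : (ι → ℝ) →ₗ[ℝ] H, (∀ y, c * ‖y‖ ≤ ‖B y‖) →
      th B 0 ≤ T ∧ kap B ≤ T := by
  obtain ⟨R, hR, hR'⟩ := exists_ref ι hc
  refine ⟨th R 0, th_nonneg _ _, fun B h => ?_⟩
  have h1 : th B 0 ≤ th R 0 := th_zero_mono hR fun y => (hR' y).trans (h y)
  exact ⟨h1, (kap_le_th (inj_of_low hc h)).trans h1⟩

/-- uniform decay -/
theorem tail (ι : Type*) [Fintype ι] (H : Type*) [NormedAddCommGroup H] [InnerProductSpace ℝ H]
    {c : ℝ} (hc : 0 < c) : ∃ C : ℝ, 0 ≤ C ∧ ∀ B : (ι → ℝ) →ₗ[ℝ] H, (∀ y, c * ‖y‖ ≤ ‖B y‖) →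
      ∀ t : ℝ, 1 ≤ t → 0 ≤ th (t • B) 0 - 1 ∧ th (t • B) 0 - 1 ≤ C * exp (-c ^ 2 * t) := by
  classical
  obtain ⟨T, hT, h⟩ := unif ι H hc
  refine ⟨((1 / 2 : ℝ) ^ Fintype.card ι)⁻¹ * T, by positivity, fun B hB t ht => ?_⟩
  have ht0 : 0 < t := by linarith
  have hl := low_smul ht0.le hB
  have hi := inj_of_low (mul_pos ht0 hc) hl
  refine ⟨by linarith [one_le_th hi], ?_⟩
  have h1 : th (t • B) 0 ≤ T := (h _ fun y => le_trans (by
    have := norm_nonneg y
    have : 1 * c ≤ t * c := by gcongr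
    nlinarith) (hl y)).1
  have h2 := tail_le_gen hi 0 (R := t * c) (s := 1 / 2) (mul_pos ht0 hc).le (by norm_num) (by norm_num)
    (f := fun x => if x = 0 then 0 else 1) (fun x => by split_ifs <;> simp) (fun x hx => by
      by_cases h0 : x = 0
      · simp [h0]
      · exfalso
        have := hl (cast x)
        have h3 := one_le_norm_cast h0
        rw [add_zero] at hx
        nlinarith [mul_pos ht0 hc])
  rw [th_zero_sub_one hi]
  refine le_trans (le_of_eq ?_) (h2.trans ?_)
  · congr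
  have h3 : exp (-π * (1 - (1 / 2 : ℝ) ^ 2) * (t * c) ^ 2) ≤ exp (-c ^ 2 * t) := by
    refine exp_le_exp.2 ?_
    have h4 : c ^ 2 * t ≤ (t * c) ^ 2 := by nlinarith [sq_nonneg c, mul_nonneg (sq_nonneg c) ht0.le]
    nlinarith [Real.pi_gt_three, sq_nonneg (t * c)]
  calc _ ≤ ((1 / 2 : ℝ) ^ Fintype.card ι)⁻¹ * exp (-c ^ 2 * t) * T := by
        have := th_nonneg (t • B) (0 : H)
        gcongr
    _ = _ := by ring

theorem dual_low {A B : (ι → ℝ) →ₗ[ℝ] H} (h : IsDual A B) {b : ℝ} (hb : 0 < b)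
    (hA : ∀ y, ‖A y‖ ≤ b * ‖y‖) (y : ι → ℝ) : b⁻¹ * ‖y‖ ≤ ‖B y‖ := by
  have h0 : 0 ≤ y ⬝ᵥ y := Finset.sum_nonneg fun i _ => mul_self_nonneg _
  have h1 : ‖y‖ ≤ √(y ⬝ᵥ y) := (pi_norm_le_iff_of_nonneg (sqrt_nonneg _)).2 fun i => by
    rw [Real.norm_eq_abs]
    refine abs_le_sqrt ?_
    rw [sq]
    exact Finset.single_le_sum (f := fun i => y i * y i) (fun i _ => mul_self_nonneg _)
      (Finset.mem_univ i)
  have h2 : ‖y‖ ^ 2 ≤ y ⬝ᵥ y := by
    have := pow_le_pow_left₀ (norm_nonneg _) h1 2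
    rwa [sq_sqrt h0] at this
  have h3 : y ⬝ᵥ y ≤ ‖B y‖ * (b * ‖y‖) :=
    (le_abs_self _).trans ((h.abs_dot_le y y).trans (by gcongr; exact hA y))
  rw [inv_mul_le_iff₀ hb]
  rcases (norm_nonneg y).eq_or_lt with h4 | h4
  · rw [← h4]; positivity
  · exact le_of_mul_le_mul_right (by nlinarith) h4

/-- the pointwise functional equation -/
theorem fe_pt {A B : (ι → ℝ) →ₗ[ℝ] H} (h : IsDual A B) {t : ℝ} (ht : 0 < t) :
    (t ^ Fintype.card ι)⁻¹ * th (t⁻¹ • A) 0 - kap A = kap A * (th (t • B) 0 - 1) := by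
  have h1 := (h.smul (inv_ne_zero ht.ne')).th_zero_eq
  rw [inv_inv, kap_smul A (inv_pos.2 ht).le, inv_pow, inv_inv] at h1
  rw [h1]
  field_simp

/-- the theta function without its constant term -/
def G (t : ℝ) (ω : ι → H) : ℝ≥0∞ :=
  ∑' x : {x : ι → ℤ // x ≠ 0}, ENNReal.ofReal (rho (t • Fintype.linearCombination ℝ ω (cast x.1)))

theorem G_eq {t : ℝ} {ω : ι → H} (hi : Function.Injective (t • Fintype.linearCombination ℝ ω)) :
    G t ω = ENNReal.ofReal (th (t • Fintype.linearCombination ℝ ω) 0 - 1) := by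
  classical
  have hs := summable_rho hi 0
  simp only [add_zero, LinearMap.smul_apply] at hs
  have h1 : th (t • Fintype.linearCombination ℝ ω) 0 - 1 =
      ∑' x : {x : ι → ℤ // x ≠ 0}, rho (t • Fintype.linearCombination ℝ ω (cast x.1)) := by
    rw [th_zero_sub_one hi]
    have := tsum_subtype {x : ι → ℤ | x ≠ 0}
      fun x => rho (t • Fintype.linearCombination ℝ ω (cast x))
    refine Eq.trans (tsum_congr fun x => ?_) this.symm
    by_cases h0 : x = 0
    · simp [h0]
    · simp [h0]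
  rw [h1, ENNReal.ofReal_tsum_of_nonneg (fun _ => (rho_pos _).le) (hs.subtype _)]
  rfl

theorem G_anti (ω : ι → H) {s t : ℝ} (hs : 0 ≤ s) (hst : s ≤ t) : G t ω ≤ G s ω := by
  refine ENNReal.tsum_le_tsum fun x => ENNReal.ofReal_le_ofReal (rho_le_of_norm_le ?_)
  rw [norm_smul, norm_smul, Real.norm_of_nonneg hs, Real.norm_of_nonneg (hs.trans hst)]
  gcongr

theorem cont_lc : Continuous fun p : (ι → H) × (ι → ℝ) => Fintype.linearCombination ℝ p.1 p.2 := by
  simp only [Fintype.linearCombination_apply]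
  fun_prop

variable [FiniteDimensional ℝ H] [MeasurableSpace H] [BorelSpace H]

theorem G_meas (t : ℝ) : Measurable (G t : (ι → H) → ℝ≥0∞) := by
  have := FiniteDimensional.proper_real H
  refine Measurable.tsum fun x => ENNReal.measurable_ofReal.comp (Continuous.measurable ?_)
  exact continuous_rho.comp ((cont_lc.comp (Continuous.prodMk_left (cast x.1))).const_smul t)

theorem kap_meas : StronglyMeasurable fun ω : ι → H => kap (Fintype.linearCombination ℝ ω) := by
  have := FiniteDimensional.proper_real H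
  exact StronglyMeasurable.integral_prod_right' (ν := volume)
    (f := fun p : (ι → H) × (ι → ℝ) => rho (Fintype.linearCombination ℝ p.1 p.2))
    (continuous_rho.comp cont_lc).stronglyMeasurable

theorem locInt_of {f : ℝ → ℝ} (h : ∀ k ⊆ Ioi (0 : ℝ), IsCompact k → IntegrableOn f k) :
    LocallyIntegrableOn (fun t => (f t : ℂ)) (Ioi 0) :=
  (locallyIntegrableOn_iff isOpen_Ioi.isLocallyClosed).2 fun k hk hc => (h k hk hc).ofReal

theorem bigO_of {f : ℝ → ℂ} {C c : ℝ} (hc : 0 < c) (h : ∀ t, 1 ≤ t → ‖f t‖ ≤ C * exp (-c * t)) (r : ℝ) :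
    f =O[atTop] (· ^ r) := by
  refine IsBigO.trans (IsBigO.of_bound C ?_) (isLittleO_exp_neg_mul_rpow_atTop hc r).isBigO
  filter_upwards [eventually_ge_atTop 1] with t ht
  rw [Real.norm_of_nonneg (exp_pos _).le]
  exact h t ht

end Fe29

open Fe29 in
theorem feStmt : FeStmt.{u, v} := by
  intro ι _ _ H _ _ _ _ _ ν _ hν a b ha hab
  set N := Fintype.card ι with hN
  have hN0 : (0 : ℝ) < N := by exact_mod_cast Fintype.card_pos
  set A : (ι → H) → (ι → ℝ) →ₗ[ℝ] H := fun ω => Fintype.linearCombination ℝ ω with hA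
  set F : ℝ → ℝ≥0∞ := fun t => ∫⁻ ω, G t ω ∂ν with hF
  have hGe : ∀ t, 0 < t → ∀ᵐ ω ∂ν, G t ω = ENNReal.ofReal (th (t • A ω) 0 - 1) ∧
      0 ≤ th (t • A ω) 0 - 1 := fun t ht => by
    filter_upwards [hab] with ω hω
    have hi := inj_of_low (mul_pos ht ha) (low_smul ht.le fun y => (hω y).1)
    exact ⟨G_eq hi, by linarith [one_le_th hi]⟩
  have hFt : ∀ t, 0 < t → F t ≠ ⊤ := fun t ht => by
    obtain ⟨T, -, hT⟩ := unif ι H (mul_pos ht ha)
    refine ne_top_of_le_ne_top (b := ∫⁻ _, ENNReal.ofReal T ∂ν) ?_ (lintegral_mono_ae ?_)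
    · rw [lintegral_const]
      exact ENNReal.mul_ne_top ENNReal.ofReal_ne_top (measure_ne_top _ _)
    · filter_upwards [hab, hGe t ht] with ω hω h1
      rw [h1.1]
      exact ENNReal.ofReal_le_ofReal
        (by linarith [(hT _ (low_smul ht.le fun y => (hω y).1)).1])
  have hGr : ∀ t, 0 < t → ∀ᵐ ω ∂ν, (G t ω).toReal = th (t • A ω) 0 - 1 := fun t ht => by
    filter_upwards [hGe t ht] with ω h1
    rw [h1.1, ENNReal.toReal_ofReal h1.2]
  have hInt : ∀ t, 0 < t → Integrable (fun ω => th (t • A ω) 0 - 1) ν ∧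
      ∫ ω, (th (t • A ω) 0 - 1) ∂ν = (F t).toReal := fun t ht => by
    refine ⟨(integrable_toReal_of_lintegral_ne_top (G_meas t).aemeasurable (hFt t ht)).congr
      (hGr t ht), ?_⟩
    rw [← integral_congr_ae (hGr t ht)]
    exact integral_toReal (G_meas t).aemeasurable (ae_lt_top (G_meas t) (hFt t ht))
  have hanti : AntitoneOn (fun t => (F t).toReal) (Ioi 0) := fun s hs t _ hst =>
    ENNReal.toReal_mono (hFt s hs) (lintegral_mono fun ω => G_anti ω (le_of_lt hs) hst)
  set f0 : ℝ := ν.real univ with hf0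
  have hf00 : 0 < f0 := by
    rw [hf0, measureReal_def]
    exact ENNReal.toReal_pos (by simpa using hν) (measure_ne_top _ _)
  obtain ⟨T, hT0, hT⟩ := unif ι H ha
  have hkI : Integrable (fun ω => kap (A ω)) ν := by
    refine Integrable.of_bound kap_meas.aestronglyMeasurable T ?_
    filter_upwards [hab] with ω hω
    rw [Real.norm_of_nonneg (kap_pos (inj_of_low ha fun y => (hω y).1)).le]
    exact (hT _ fun y => (hω y).1).2
  set g0 : ℝ := ∫ ω, kap (A ω) ∂ν with hg0
  have hg00 : 0 < g0 := by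
    have hp : ∀ᵐ ω ∂ν, 0 < kap (A ω) := by
      filter_upwards [hab] with ω hω
      exact kap_pos (inj_of_low ha fun y => (hω y).1)
    rw [hg0, integral_pos_iff_support_of_nonneg_ae (hp.mono fun ω h => h.le) hkI]
    have : Function.support (fun ω => kap (A ω)) =ᵐ[ν] univ := by
      filter_upwards [hp] with ω h
      exact eq_true h.ne'
    rw [measure_congr this]
    simpa [pos_iff_ne_zero] using hν
  set f : ℝ → ℝ := fun t => f0 + (F t).toReal with hf
  have hfa : AntitoneOn f (Ioi 0) := fun s hs t ht hst => add_le_add_right (hanti hs ht hst) _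
  set g : ℝ → ℝ := fun t => (t ^ N)⁻¹ * f (1 / t) with hg
  obtain ⟨C, hC0, hC⟩ := tail ι H ha
  have hb : 0 < |b| + 1 := by positivity
  obtain ⟨C', hC0', hC'⟩ := tail ι H (inv_pos.2 hb)
  let P : WeakFEPair ℂ :=
    { f := fun t => f t
      g := fun t => g t
      k := N
      ε := 1
      f₀ := f0
      g₀ := g0
      hf_int := locInt_of fun k hk hc => (hfa.mono hk).integrableOn_isCompact hc
      hg_int := locInt_of fun k hk hc => by
        have h1 : MonotoneOn (fun t => f (1 / t)) k := fun s hs t ht hst =>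
          hfa (mem_Ioi.2 (one_div_pos.2 (hk ht))) (mem_Ioi.2 (one_div_pos.2 (hk hs)))
            (one_div_le_one_div_of_le (hk hs) hst)
        refine IntegrableOn.continuousOn_mul ?_ (h1.integrableOn_isCompact hc) hc
        exact (continuousOn_pow N).inv₀ fun t ht => (pow_pos (hk ht) N).ne'
      hk := hN0
      hε := one_ne_zero
      h_feq := fun x hx => by
        have : x ^ N ≠ 0 := (pow_pos hx N).ne'
        rw [one_mul, smul_eq_mul, ← Complex.ofReal_mul, rpow_natCast, hg]
        congr 1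
        field_simp
      hf_top := bigO_of (C := C * f0) (pow_pos ha 2) fun t ht => by
        have ht0 : 0 < t := by linarith
        rw [← Complex.ofReal_sub, Complex.norm_real, hf]
        simp only [add_sub_cancel_left]
        rw [← (hInt t ht0).2]
        refine (norm_integral_le_of_norm_le_const (C := C * exp (-a ^ 2 * t)) ?_).trans
          (le_of_eq (by ring))
        filter_upwards [hab] with ω hω
        obtain ⟨h1, h2⟩ := hC _ (fun y => (hω y).1) t ht
        rwa [Real.norm_of_nonneg h1]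
      hg_top := bigO_of (C := T * C' * f0) (pow_pos (inv_pos.2 hb) 2) fun t ht => by
        have ht0 : 0 < t := by linarith
        obtain ⟨i1, i2⟩ := hInt t⁻¹ (inv_pos.2 ht0)
        have e : g t - g0 =
            ∫ ω, ((t ^ N)⁻¹ * (1 + (th (t⁻¹ • A ω) 0 - 1)) - kap (A ω)) ∂ν := by
          have i3 : Integrable (fun ω => (t ^ N)⁻¹ * (1 + (th (t⁻¹ • A ω) 0 - 1))) ν :=
            ((integrable_const _).add i1).const_mul _
          rw [integral_sub i3 hkI, integral_const_mul,
            integral_add (integrable_const _) i1, i2, integral_const, smul_eq_mul, mul_one, hg]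
          simp only [hf, one_div]
          rfl
        rw [← Complex.ofReal_sub, Complex.norm_real, e]
        refine (norm_integral_le_of_norm_le_const
          (C := T * (C' * exp (-(|b| + 1)⁻¹ ^ 2 * t))) ?_).trans (le_of_eq (by ring))
        filter_upwards [hab] with ω hω
        have hi := inj_of_low ha fun y => (hω y).1
        obtain ⟨B, hB⟩ := exists_dual hi
        obtain ⟨h1, h2⟩ := hC' B (dual_low hB hb fun y => (hω y).2.trans
          (mul_le_mul_of_nonneg_right (by linarith [le_abs_self b]) (norm_nonneg _))) t ht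
        rw [add_sub_cancel, fe_pt hB ht0, Real.norm_of_nonneg (mul_nonneg (kap_pos hi).le h1)]
        exact mul_le_mul (hT _ fun y => (hω y).1).2 h2 h1 hT0 }
  have hNc : (N : ℂ) ≠ 0 := by exact_mod_cast hN0.ne'
  refine ⟨fun s => s * (1 - s) * P.Λ₀ (N * s) - (1 - s) * f0 / N - s * g0 / N, ?_, ?_, ?_, ?_⟩
  · have := P.differentiable_Λ₀
    fun_prop
  · have : (f0 : ℂ) ≠ 0 := by exact_mod_cast hf00.ne'
    simp [this, hNc]
  · have : (g0 : ℂ) ≠ 0 := by exact_mod_cast hg00.ne'
    simp [this, hNc]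
  intro s hs
  have hk : P.k < ((N * s : ℝ) : ℂ).re := by
    rw [Complex.ofReal_re]
    show (N : ℝ) < N * s
    nlinarith
  obtain ⟨m1, m2⟩ := P.hasMellin hk
  set φ : ℝ → ℝ := fun t => t ^ (N * s - 1) * (F t).toReal with hφ
  have hφe : EqOn (fun t : ℝ => (t : ℂ) ^ (((N * s : ℝ) : ℂ) - 1) • (P.f t - P.f₀))
      (fun t => (φ t : ℂ)) (Ioi 0) := fun t ht => by
    show (t : ℂ) ^ (((N * s : ℝ) : ℂ) - 1) • ((f t : ℂ) - (f0 : ℂ)) = (φ t : ℂ)
    have e : ((φ t : ℝ) : ℂ) = (t : ℂ) ^ ((N * s - 1 : ℝ) : ℂ) * ((F t).toReal : ℂ) := by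
      rw [← Complex.ofReal_cpow (le_of_lt ht), ← Complex.ofReal_mul]
    rw [e, smul_eq_mul]
    simp only [hf]
    push_cast
    ring
  have hφI : IntegrableOn φ (Ioi 0) := by
    have := (IntegrableOn.congr_fun m1 hφe measurableSet_Ioi).re
    exact this.congr (Eventually.of_forall fun t => by simp)
  have hm : mel ν s = ENNReal.ofReal (∫ t in Ioi 0, φ t) := by
    rw [ofReal_integral_eq_lintegral_ofReal hφI
      ((ae_restrict_mem measurableSet_Ioi).mono fun t ht =>
        mul_nonneg (rpow_nonneg (le_of_lt ht) _) ENNReal.toReal_nonneg)]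
    refine setLIntegral_congr_fun measurableSet_Ioi fun t ht => ?_
    simp only [hφ]
    rw [ENNReal.ofReal_mul (rpow_nonneg (le_of_lt ht) _), ENNReal.ofReal_toReal (hFt t ht)]
    rfl
  have hΛ : P.Λ ((N * s : ℝ) : ℂ) = ((∫ t in Ioi 0, φ t : ℝ) : ℂ) := by
    rw [← m2, mellin, setIntegral_congr_fun measurableSet_Ioi hφe]
    exact integral_ofReal
  refine ⟨hm ▸ ENNReal.ofReal_ne_top, ?_⟩
  rw [hm, ENNReal.toReal_ofReal (setIntegral_nonneg measurableSet_Ioi fun t ht =>
    mul_nonneg (rpow_nonneg (le_of_lt ht) _) ENNReal.toReal_nonneg)]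
  have e := P.Λ₀_eq ((N * s : ℝ) : ℂ)
  rw [hΛ] at e
  have e' : P.Λ₀ (N * s) = ((∫ t in Ioi 0, φ t : ℝ) : ℂ) + 1 / (N * s) * f0 + 1 / (N - N * s) * g0 := by
    simpa [P] using e
  have hs0 : (s : ℂ) ≠ 0 := by exact_mod_cast (by linarith : s ≠ 0)
  have hs1 : (1 : ℂ) - s ≠ 0 := by exact_mod_cast (by linarith : 1 - s ≠ 0)
  have hs2 : (N : ℂ) - N * s = N * (1 - s) := by ring
  simp only
  rw [e', hs2]
  push_cast
  field_simp
  ring

end Crest.Agent.T24.Ab
end
end

-- ▼ part T24/Gam_83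
section

/-! Row 24, module GAM: the Gaussian determinant integral over `ℝ` and `ℂ`,
`∫ |det g|^s exp(-π |g|²) dg = ∏_{j<n} Γ_ℝ(s + κ(j+1)) / Γ_ℝ(κ(j+1))`, `κ = [𝕜 : ℝ]`. -/

set_option autoImplicit false
set_option linter.unusedSectionVars false

open MeasureTheory Real Set
open scoped ENNReal

namespace Crest.Agent.T24.Gam83

theorem pi_wd {J : Type*} [Fintype J] {α : J → Type*} [∀ j, MeasurableSpace (α j)]
    (μ : ∀ j, Measure (α j)) [∀ j, SigmaFinite (μ j)] (f : ∀ j, α j → ℝ)
    (h0 : ∀ j x, 0 ≤ f j x) (hi : ∀ j, Integrable (f j) (μ j))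
    [∀ j, SigmaFinite ((μ j).withDensity fun x => ENNReal.ofReal (f j x))] :
    Measure.pi (fun j => (μ j).withDensity fun x => ENNReal.ofReal (f j x)) =
      (Measure.pi μ).withDensity fun y => ENNReal.ofReal (∏ j, f j (y j)) := by
  refine Measure.pi_eq fun s hs => ?_
  rw [withDensity_apply _ (MeasurableSet.univ_pi hs), ← lintegral_indicator
    (MeasurableSet.univ_pi hs)]
  have h1 : ∀ y : ∀ j, α j, (Set.pi Set.univ s).indicator
      (fun y => ENNReal.ofReal (∏ j, f j (y j))) y =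
      ENNReal.ofReal (∏ j, (s j).indicator (f j) (y j)) := by
    intro y
    by_cases hy : y ∈ Set.pi Set.univ s
    · rw [Set.indicator_of_mem hy]
      congr 1
      exact Finset.prod_congr rfl fun j _ => (Set.indicator_of_mem (hy j trivial) _).symm
    · rw [Set.indicator_of_notMem hy]
      simp only [Set.mem_pi, Set.mem_univ, forall_const, not_forall] at hy
      obtain ⟨j, hj⟩ := hy
      rw [Finset.prod_eq_zero (Finset.mem_univ j) (Set.indicator_of_notMem hj _),
        ENNReal.ofReal_zero]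
  simp_rw [h1]
  have h2 : ∀ j x, 0 ≤ (s j).indicator (f j) x := fun j x =>
    Set.indicator_nonneg (fun x _ => h0 j x) x
  rw [← ofReal_integral_eq_lintegral_ofReal
    (Integrable.fintype_prod_dep fun j => (hi j).indicator (hs j))
    (ae_of_all _ fun y => Finset.prod_nonneg fun j _ => h2 j _), integral_fintype_prod_eq_prod,
    ENNReal.ofReal_prod_of_nonneg fun j _ => integral_nonneg (h2 j)]
  refine Finset.prod_congr rfl fun j _ => ?_
  rw [withDensity_apply _ (hs j), integral_indicator (hs j),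
    ofReal_integral_eq_lintegral_ofReal (hi j).integrableOn (ae_of_all _ (h0 j))]

theorem mp_wd {α β : Type*} [MeasurableSpace α] [MeasurableSpace β]
    {μ : Measure α} {ν : Measure β} {T : α → β} (hT : MeasurePreserving T μ ν) {f : β → ℝ≥0∞}
    (hf : Measurable f) : MeasurePreserving T (μ.withDensity fun x => f (T x)) (ν.withDensity f) := by
  refine ⟨hT.measurable, ?_⟩
  ext s hs
  rw [Measure.map_apply hT.measurable hs, withDensity_apply _ (hT.measurable hs),
    withDensity_apply _ hs, hT.setLIntegral_comp_preimage hs hf]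

variable {𝕜 : Type} [RCLike 𝕜] [MeasurableSpace 𝕜] [BorelSpace 𝕜]

/-- squared Euclidean norm -/
noncomputable def nsq {ι : Type} [Fintype ι] (x : ι → 𝕜) : ℝ := ∑ i, ‖x i‖ ^ 2

theorem nsq_nonneg {ι : Type} [Fintype ι] (x : ι → 𝕜) : 0 ≤ nsq x :=
  Finset.sum_nonneg fun _ _ => by positivity

theorem continuous_nsq {ι : Type} [Fintype ι] : Continuous (nsq : (ι → 𝕜) → ℝ) := by
  unfold nsq; fun_prop

theorem sqrt_nsq {ι : Type} [Fintype ι] (x : ι → 𝕜) :
    √(nsq x) = ‖(WithLp.toLp 2 x : EuclideanSpace 𝕜 ι)‖ := by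
  rw [EuclideanSpace.norm_eq]; rfl

/-- one-dimensional Gaussian -/
noncomputable def g1 (μ : Measure 𝕜) : Measure 𝕜 :=
  μ.withDensity fun x => ENNReal.ofReal (exp (-π * ‖x‖ ^ 2))

/-- Gaussian on vectors -/
noncomputable def gv (μ : Measure 𝕜) (ι : Type) [Fintype ι] : Measure (ι → 𝕜) :=
  Measure.pi fun _ : ι => g1 μ

/-- Gaussian on square matrices (as families of rows) -/
noncomputable def gm (μ : Measure 𝕜) (n : ℕ) : Measure (Fin n → Fin n → 𝕜) :=
  Measure.pi fun _ : Fin n => gv μ (Fin n)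

/-- the normalisation hypothesis -/
def Nrm (μ : Measure 𝕜) : Prop := ∫ x, exp (-π * ‖x‖ ^ 2) ∂μ = 1

theorem Nrm.int {μ : Measure 𝕜} (h : Nrm μ) : Integrable (fun x : 𝕜 => exp (-π * ‖x‖ ^ 2)) μ :=
  Integrable.of_integral_ne_zero (by rw [h]; exact one_ne_zero)

theorem Nrm.prob {μ : Measure 𝕜} (h : Nrm μ) : IsProbabilityMeasure (g1 μ) := by
  constructor
  rw [g1, withDensity_apply _ MeasurableSet.univ, Measure.restrict_univ,
    ← ofReal_integral_eq_lintegral_ofReal h.int (ae_of_all _ fun x => (exp_pos _).le), h]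
  simp

theorem Nrm.probv {μ : Measure 𝕜} (h : Nrm μ) (ι : Type) [Fintype ι] :
    IsProbabilityMeasure (gv μ ι) := by
  have := h.prob
  unfold gv; infer_instance

theorem prod_exp {ι : Type} [Fintype ι] (x : ι → 𝕜) :
    ∏ i, exp (-π * ‖x i‖ ^ 2) = exp (-π * nsq x) := by
  rw [← Real.exp_sum, nsq, Finset.mul_sum]

variable (μ : Measure 𝕜) [μ.IsAddHaarMeasure]

theorem gv_eq (h : Nrm μ) (ι : Type) [Fintype ι] :
    gv μ ι = (Measure.pi fun _ : ι => μ).withDensity
      fun x => ENNReal.ofReal (exp (-π * nsq x)) := by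
  have := h.prob
  have h2 : ∀ _ : ι, SigmaFinite (μ.withDensity fun x => ENNReal.ofReal (exp (-π * ‖x‖ ^ 2))) :=
    fun _ => inferInstanceAs (SigmaFinite (g1 μ))
  have h3 := pi_wd (fun _ : ι => μ) (fun _ x => exp (-π * ‖x‖ ^ 2))
    (fun _ _ => (exp_pos _).le) (fun _ => h.int)
  simp only [prod_exp] at h3
  exact h3

theorem int_nsq (h : Nrm μ) (ι : Type) [Fintype ι] :
    ∫ x : ι → 𝕜, exp (-π * nsq x) ∂(Measure.pi fun _ : ι => μ) = 1 := by
  simp only [← prod_exp]
  rw [integral_fintype_prod_eq_prod (fun (_ : ι) (x : 𝕜) => exp (-π * ‖x‖ ^ 2))]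
  have : ∫ x, exp (-π * ‖x‖ ^ 2) ∂μ = 1 := h
  simp only [this, Finset.prod_const_one]

theorem gm_eq (h : Nrm μ) (n : ℕ) :
    gm μ n = (Measure.pi fun _ : Fin n => Measure.pi fun _ : Fin n => μ).withDensity
      fun g => ENNReal.ofReal (exp (-π * ∑ i, nsq (g i))) := by
  have := h.probv (Fin n)
  have hi : Integrable (fun x : Fin n → 𝕜 => exp (-π * nsq x)) (Measure.pi fun _ => μ) :=
    Integrable.of_integral_ne_zero (by rw [int_nsq μ h]; exact one_ne_zero)
  have h2 : ∀ _ : Fin n, SigmaFinite ((Measure.pi fun _ : Fin n => μ).withDensity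
      fun x => ENNReal.ofReal (exp (-π * nsq x))) := fun _ => by
    rw [← gv_eq μ h]; infer_instance
  have h3 := @pi_wd _ _ _ _ (fun _ : Fin n => Measure.pi fun _ : Fin n => μ) _
    (fun _ x => exp (-π * nsq x)) (fun _ _ => (exp_pos _).le) (fun _ => hi) h2
  simp only [← Real.exp_sum, ← Finset.mul_sum] at h3
  rw [← h3, gm, gv_eq μ h]

/-- a linear map preserving `nsq` preserves the Gaussian -/
theorem mp_lin (h : Nrm μ) {ι : Type} [Fintype ι] (T : (ι → 𝕜) →ₗ[ℝ] (ι → 𝕜))
    (hT : ∀ x, nsq (T x) = nsq x) : MeasurePreserving T (gv μ ι) (gv μ ι) := by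
  classical
  have hinj : Function.Injective T := by
    rw [injective_iff_map_eq_zero]
    intro x hx
    have h1 := hT x
    rw [hx] at h1
    have h2 : nsq x = 0 := by rw [← h1]; simp [nsq]
    funext i
    have := (Finset.sum_eq_zero_iff_of_nonneg (fun _ _ => by positivity)).1 h2 i (Finset.mem_univ i)
    simpa using this
  have hdet : LinearMap.det T ≠ 0 := by
    have : IsUnit T := (LinearMap.isUnit_iff_ker_eq_bot T).2 (LinearMap.ker_eq_bot.2 hinj)
    exact (this.map LinearMap.det).ne_zero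
  have hm : Measurable T := T.continuous_of_finiteDimensional.measurable
  have hw : Measurable fun x : ι → 𝕜 => ENNReal.ofReal (exp (-π * nsq x)) :=
    (by have := continuous_nsq (𝕜 := 𝕜) (ι := ι); fun_prop :
      Continuous fun x : ι → 𝕜 => exp (-π * nsq x)).measurable.ennreal_ofReal
  have h1 := Measure.map_linearMap_addHaar_eq_smul_addHaar (Measure.pi fun _ : ι => μ) hdet
  have h2 : ∫⁻ x, ENNReal.ofReal (exp (-π * nsq x)) ∂(Measure.pi fun _ : ι => μ) = 1 := by
    have := (h.probv ι).measure_univ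
    rwa [gv_eq μ h, withDensity_apply _ MeasurableSet.univ, Measure.restrict_univ] at this
  have h3 : ENNReal.ofReal |(LinearMap.det T)⁻¹| = 1 := by
    have h4 : ∫⁻ x, ENNReal.ofReal (exp (-π * nsq x)) ∂(Measure.map T (Measure.pi fun _ : ι => μ))
        = 1 := by
      rw [lintegral_map hw hm]; simp only [hT]; exact h2
    rw [h1, lintegral_smul_measure, h2] at h4
    simpa using h4
  have h5 : MeasurePreserving T (Measure.pi fun _ : ι => μ) (Measure.pi fun _ : ι => μ) :=
    ⟨hm, by rw [h1, h3, one_smul]⟩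
  have h6 := mp_wd h5 hw
  simp only [hT] at h6
  rw [gv_eq μ h]
  exact h6

/-- a unitary map rotating `c` to the first axis -/
theorem exists_rot {n : ℕ} (c : Fin (n + 1) → 𝕜) :
    ∃ T : (Fin (n + 1) → 𝕜) →ₗ[𝕜] (Fin (n + 1) → 𝕜), (∀ x, nsq (T x) = nsq x) ∧
      T c = Pi.single 0 ((√(nsq c) : ℝ) : 𝕜) ∧
      ∀ g : Fin (n + 1) → Fin (n + 1) → 𝕜,
        ‖(Matrix.of fun i => T (g i)).det‖ = ‖(Matrix.of g).det‖ := by
  by_cases hc : c = 0
  · refine ⟨LinearMap.id, fun _ => rfl, ?_, fun _ => rfl⟩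
    subst hc
    simp [nsq]
  set v : EuclideanSpace 𝕜 (Fin (n + 1)) := WithLp.toLp 2 c with hv
  have hv0 : ‖v‖ ≠ 0 := by
    rw [norm_ne_zero_iff]
    intro h
    apply hc
    have := congrArg WithLp.ofLp h
    simpa [hv] using this
  have hor : Orthonormal 𝕜 (({0} : Set (Fin (n + 1))).domRestrict
      (fun _ => ((‖v‖⁻¹ : ℝ) : 𝕜) • v)) := by
    constructor
    · intro i
      simp [norm_smul, hv0]
    · intro i j hij
      exact absurd (Subsingleton.elim i j) hij
  obtain ⟨b, hb⟩ := hor.exists_orthonormalBasis_extension_of_card_eq (by simp)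
  have hb0 := hb 0 rfl
  let T : (Fin (n + 1) → 𝕜) →ₗ[𝕜] (Fin (n + 1) → 𝕜) :=
    (WithLp.linearEquiv 2 𝕜 (Fin (n + 1) → 𝕜)).toLinearMap ∘ₗ b.repr.toLinearEquiv.toLinearMap ∘ₗ
      (WithLp.linearEquiv 2 𝕜 (Fin (n + 1) → 𝕜)).symm.toLinearMap
  have hT : ∀ x, T x = WithLp.ofLp (b.repr (WithLp.toLp 2 x)) := fun _ => rfl
  refine ⟨T, fun x => ?_, ?_, fun g => ?_⟩
  · have h1 : √(nsq (T x)) = √(nsq x) := by
      rw [sqrt_nsq, sqrt_nsq, hT, WithLp.toLp_ofLp, LinearIsometryEquiv.norm_map]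
    exact (Real.sqrt_inj (nsq_nonneg _) (nsq_nonneg _)).1 h1
  · have h1 : v = ((‖v‖ : ℝ) : 𝕜) • b 0 := by
      rw [hb0, smul_smul, ← RCLike.ofReal_mul, mul_inv_cancel₀ hv0]; simp
    rw [hT, ← hv, sqrt_nsq, ← hv]
    conv_lhs => rw [h1]
    rw [map_smul, b.repr_self]
    funext i
    by_cases hi : i = 0
    · subst hi; simp [RCLike.real_smul_eq_coe_mul]
    · simp [hi]
  · let a := EuclideanSpace.basisFun (Fin (n + 1)) 𝕜
    let w : Fin (n + 1) → EuclideanSpace 𝕜 (Fin (n + 1)) := fun i => WithLp.toLp 2 (g i)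
    have h1 := a.toBasis.toMatrix_mul_toMatrix b.toBasis w
    have h2 : a.toBasis.toMatrix w = (Matrix.of g).transpose := by
      ext i j; simp [Module.Basis.toMatrix_apply, a, w]
    have h3 : b.toBasis.toMatrix w = (Matrix.of fun i => T (g i)).transpose := by
      ext i j; simp [Module.Basis.toMatrix_apply, w, hT]
    have h4 := a.det_to_matrix_orthonormalBasis b
    rw [Module.Basis.det_apply] at h4
    have h5 := congrArg (fun M => ‖Matrix.det M‖) h1
    simp only [Matrix.det_mul, norm_mul, h2, h3, Matrix.det_transpose, OrthonormalBasis.coe_toBasis,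
      h4, one_mul] at h5
    exact h5

theorem measurable_det (n : ℕ) :
    Measurable fun g : Fin n → Fin n → 𝕜 => ‖(Matrix.of g).det‖ := by
  have : Continuous fun g : Fin n → Fin n → 𝕜 => (Matrix.of g).det :=
    Continuous.matrix_det (A := fun g : Fin n → Fin n → 𝕜 => Matrix.of g) continuous_id
  exact this.norm.measurable

theorem det_cons {n : ℕ} (a : 𝕜) (r : Fin n → Fin (n + 1) → 𝕜) :
    (Matrix.of (Fin.cons (Pi.single 0 a) r : Fin (n + 1) → Fin (n + 1) → 𝕜)).det =
      a * (Matrix.of fun i j => r i (Fin.succ j)).det := by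
  rw [Matrix.det_succ_row_zero, Fin.sum_univ_succ]
  have : ∀ j : Fin n, (Pi.single 0 a : Fin (n + 1) → 𝕜) (Fin.succ j) = 0 := fun j => by
    simp
  simp only [Matrix.of_apply, Fin.cons_zero, this, mul_zero, zero_mul, Finset.sum_const_zero,
    add_zero, Pi.single_eq_same]
  simp only [Fin.val_zero, pow_zero, one_mul]
  congr 2

/-- the recursion, in `lintegral` form -/
theorem lint_succ (h : Nrm μ) (n : ℕ) {F : ℝ → ℝ≥0∞} (hF : Measurable F) :
    ∫⁻ g, F ‖(Matrix.of g).det‖ ∂(gm μ (n + 1)) =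
      ∫⁻ p : (Fin (n + 1) → 𝕜) × (Fin n → Fin n → 𝕜), F (√(nsq p.1) * ‖(Matrix.of p.2).det‖)
        ∂((gv μ (Fin (n + 1))).prod (gm μ n)) := by
  have := h.prob
  have := h.probv (Fin (n + 1))
  have := h.probv (Fin n)
  have hP : IsProbabilityMeasure (gm μ n) := by unfold gm; infer_instance
  have hs : Measurable fun x : Fin (n + 1) → 𝕜 => √(nsq x) :=
    (continuous_nsq.sqrt).measurable
  have h1 := (measurePreserving_piFinSuccAbove (fun _ : Fin (n + 1) => gv μ (Fin (n + 1))) 0).symm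
  have hF' : Measurable fun g : Fin (n + 1) → Fin (n + 1) → 𝕜 => F ‖(Matrix.of g).det‖ :=
    hF.comp (measurable_det (n + 1))
  rw [gm, ← h1.lintegral_comp hF', lintegral_prod, lintegral_prod]
  · refine lintegral_congr fun c => ?_
    obtain ⟨T, hT1, hT2, hT3⟩ := exists_rot c
    have m1 := mp_lin μ h (T.restrictScalars ℝ) hT1
    have m2 : MeasurePreserving (fun x : Fin (n + 1) → 𝕜 => fun j : Fin n => x (Fin.succ j))
        (gv μ (Fin (n + 1))) (gv μ (Fin n)) :=
      measurePreserving_snd.comp (measurePreserving_piFinSuccAbove (fun _ : Fin (n + 1) => g1 μ) 0)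
    have m3 := measurePreserving_pi (fun _ : Fin n => gv μ (Fin (n + 1))) (fun _ => gv μ (Fin n))
      (fun _ => m2.comp m1)
    have hG : Measurable fun g : Fin n → Fin n → 𝕜 => F (√(nsq c) * ‖(Matrix.of g).det‖) :=
      hF.comp ((measurable_det n).const_mul _)
    rw [gm, ← m3.lintegral_comp hG]
    refine lintegral_congr fun r => ?_
    congr 1
    have e1 : (MeasurableEquiv.piFinSuccAbove (fun _ : Fin (n + 1) => Fin (n + 1) → 𝕜) 0).symm (c, r)
        = Fin.cons c r := by
      simp [MeasurableEquiv.piFinSuccAbove_symm_apply, Fin.consEquiv]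
    rw [e1, ← hT3]
    have e2 : (fun i => T ((Fin.cons c r : Fin (n + 1) → Fin (n + 1) → 𝕜) i)) =
        Fin.cons (Pi.single 0 ((√(nsq c) : ℝ) : 𝕜)) (fun i => T (r i)) := by
      funext i
      refine Fin.cases ?_ (fun i => ?_) i
      · simpa using hT2
      · simp
    rw [e2, det_cons, norm_mul, RCLike.norm_ofReal, abs_of_nonneg (Real.sqrt_nonneg _)]
    rfl
  · exact (hF.comp ((hs.comp measurable_fst).mul
      ((measurable_det n).comp measurable_snd))).aemeasurable
  · exact (hF'.comp h1.measurable).aemeasurable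

/-- the recursion, as an identity of laws -/
theorem map_succ (h : Nrm μ) (n : ℕ) :
    (gm μ (n + 1)).map (fun g => ‖(Matrix.of g).det‖) =
      ((gv μ (Fin (n + 1))).prod (gm μ n)).map
        (fun p : (Fin (n + 1) → 𝕜) × (Fin n → Fin n → 𝕜) =>
          √(nsq p.1) * ‖(Matrix.of p.2).det‖) := by
  have hs : Measurable fun x : Fin (n + 1) → 𝕜 => √(nsq x) :=
    (continuous_nsq.sqrt).measurable
  have hm : Measurable fun p : (Fin (n + 1) → 𝕜) × (Fin n → Fin n → 𝕜) =>
      √(nsq p.1) * ‖(Matrix.of p.2).det‖ :=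
    (hs.comp measurable_fst).mul ((measurable_det n).comp measurable_snd)
  ext s hs'
  rw [← lintegral_indicator_one hs', ← lintegral_indicator_one hs',
    lintegral_map (measurable_one.indicator hs') (measurable_det _),
    lintegral_map (measurable_one.indicator hs') hm]
  exact lint_succ μ h n (measurable_one.indicator hs')

theorem half_gam {a : ℂ} (ha : 0 < a.re) :
    ∫ y in Ioi (0 : ℝ), (y : ℂ) ^ (a - 1) * Complex.exp (-π * (y : ℂ) ^ 2) = Complex.Gammaℝ a / 2 := by
  have h1 := Complex.integral_cpow_mul_exp_neg_mul_Ioi (a := a / 2) (r := π)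
    (by simp; linarith) pi_pos
  have h2 := integral_comp_rpow_Ioi_of_pos
    (g := fun t : ℝ => (t : ℂ) ^ (a / 2 - 1) * Complex.exp (-(π * t))) (p := 2) two_pos
  rw [h1] at h2
  have h3 : ∫ x in Ioi (0 : ℝ), (2 * x ^ ((2 : ℝ) - 1)) •
      (((x ^ (2 : ℝ) : ℝ) : ℂ) ^ (a / 2 - 1) * Complex.exp (-(π * ((x ^ (2 : ℝ) : ℝ) : ℂ)))) =
      ∫ y in Ioi (0 : ℝ), 2 * ((y : ℂ) ^ (a - 1) * Complex.exp (-π * (y : ℂ) ^ 2)) := by
    refine setIntegral_congr_fun measurableSet_Ioi fun x hx => ?_
    have hx' : (0 : ℝ) < x := hx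
    have hx0 : (x : ℂ) ≠ 0 := by exact_mod_cast hx'.ne'
    have e1 : ((x ^ (2 : ℝ) : ℝ) : ℂ) = (x : ℂ) * x := by
      rw [Real.rpow_two]; push_cast; ring
    have e2 : (x : ℂ) ^ (a - 1) = x * ((x : ℂ) ^ (a / 2 - 1) * (x : ℂ) ^ (a / 2 - 1)) := by
      rw [← Complex.cpow_add _ _ hx0,
        show a - 1 = 1 + (a / 2 - 1 + (a / 2 - 1)) by ring, Complex.cpow_add _ _ hx0,
        Complex.cpow_one]
    rw [e1, Complex.mul_cpow_ofReal_nonneg hx'.le hx'.le, e2]
    have : (2 : ℝ) - 1 = 1 := by norm_num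
    rw [this, Real.rpow_one, Complex.real_smul]
    push_cast
    ring_nf
  rw [h3, integral_const_mul] at h2
  rw [Complex.Gammaℝ_def, eq_div_iff two_ne_zero, mul_comm, h2, one_div, Complex.inv_cpow, ← Complex.cpow_neg,
    neg_div]
  rw [Complex.arg_ofReal_of_nonneg pi_pos.le]
  exact pi_pos.ne

/-- radial moments of the Gaussian -/
theorem radial (h : Nrm μ) (m : ℕ) {s : ℂ}
    (hs : 0 < s.re + (Module.finrank ℝ 𝕜 * (m + 1) : ℕ)) :
    ∫ x, ((√(nsq x) : ℝ) : ℂ) ^ s ∂(gv μ (Fin (m + 1))) =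
      Complex.Gammaℝ (s + (Module.finrank ℝ 𝕜 * (m + 1) : ℕ)) /
        Complex.Gammaℝ ((Module.finrank ℝ 𝕜 * (m + 1) : ℕ) : ℂ) := by
  set N : ℕ := Module.finrank ℝ 𝕜 * (m + 1) with hN
  have hN0 : 0 < N := Nat.mul_pos Module.finrank_pos (Nat.succ_pos m)
  let e : (Fin (m + 1) → 𝕜) ≃L[ℝ] EuclideanSpace 𝕜 (Fin (m + 1)) :=
    (PiLp.continuousLinearEquiv 2 ℝ (fun _ : Fin (m + 1) => 𝕜)).symm
  let ν : Measure (EuclideanSpace 𝕜 (Fin (m + 1))) := (Measure.pi fun _ => μ).map e
  have hν : ν.IsAddHaarMeasure := e.isAddHaarMeasure_map _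
  have hdim : Module.finrank ℝ (EuclideanSpace 𝕜 (Fin (m + 1))) = N := by
    rw [← e.toLinearEquiv.finrank_eq, Module.finrank_pi_fintype, hN]
    simp [mul_comm]
  have hw : Measurable fun x : Fin (m + 1) → 𝕜 => exp (-π * nsq x) :=
    (by have := continuous_nsq (𝕜 := 𝕜) (ι := Fin (m + 1)); fun_prop :
      Continuous fun x : Fin (m + 1) → 𝕜 => exp (-π * nsq x)).measurable
  have key : ∀ t : ℂ, 0 < t.re + N → ∫ x, ((√(nsq x) : ℝ) : ℂ) ^ t ∂(gv μ (Fin (m + 1))) =
      (N * ν.real (Metric.ball 0 1) : ℝ) * (Complex.Gammaℝ (t + N) / 2) := by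
    intro t ht
    have h1 := integral_fun_norm_addHaar ν
      (fun y : ℝ => (y : ℂ) ^ t * Complex.exp (-π * (y : ℂ) ^ 2))
    rw [hdim] at h1
    have h2 : ∫ y in Ioi (0 : ℝ), y ^ (N - 1) • ((y : ℂ) ^ t * Complex.exp (-π * (y : ℂ) ^ 2)) =
        Complex.Gammaℝ (t + N) / 2 := by
      rw [← half_gam (by simpa using ht)]
      refine setIntegral_congr_fun measurableSet_Ioi fun x hx => ?_
      have hx' : (0 : ℝ) < x := hx
      have hx0 : (x : ℂ) ≠ 0 := by exact_mod_cast hx'.ne'
      have e1 : t + N - 1 = ((N - 1 : ℕ) : ℂ) + t := by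
        rw [Nat.cast_sub hN0]; push_cast; ring
      simp only [Complex.real_smul]
      rw [e1, Complex.cpow_add _ _ hx0, Complex.cpow_natCast]
      push_cast
      ring
    rw [h2] at h1
    have h3 : ∫ x, ((‖x‖ : ℝ) : ℂ) ^ t * Complex.exp (-π * ((‖x‖ : ℝ) : ℂ) ^ 2) ∂ν =
        ∫ x, ((√(nsq x) : ℝ) : ℂ) ^ t ∂(gv μ (Fin (m + 1))) := by
      rw [gv_eq μ h]
      have h4 := integral_withDensity_eq_integral_toReal_smul
        (μ := Measure.pi fun _ : Fin (m + 1) => μ) hw.ennreal_ofReal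
        (ae_of_all _ fun _ => ENNReal.ofReal_lt_top) (fun x => ((√(nsq x) : ℝ) : ℂ) ^ t)
      rw [h4]
      have h5 := e.toHomeomorph.measurableEmbedding.integral_map
        (μ := Measure.pi fun _ : Fin (m + 1) => μ)
        (fun x => ((‖x‖ : ℝ) : ℂ) ^ t * Complex.exp (-π * ((‖x‖ : ℝ) : ℂ) ^ 2))
      refine h5.trans (integral_congr_ae (ae_of_all _ fun x => ?_))
      have h6 : ‖e.toHomeomorph x‖ = √(nsq x) := (sqrt_nsq x).symm
      simp only [h6, ENNReal.toReal_ofReal (exp_pos _).le, Complex.real_smul]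
      rw [← Complex.ofReal_pow, Real.sq_sqrt (nsq_nonneg x)]
      push_cast
      ring
    rw [← h3, h1, nsmul_eq_mul, Complex.real_smul]
    push_cast
    ring
  have h0 := key 0 (by simpa using hN0)
  have := h.probv (Fin (m + 1))
  simp only [Complex.cpow_zero, integral_const, probReal_univ, one_smul, zero_add] at h0
  have hG : Complex.Gammaℝ (N : ℂ) ≠ 0 := Complex.Gammaℝ_ne_zero_of_re_pos (by simpa using hN0)
  rw [key s hs, eq_div_iff hG]
  linear_combination (-Complex.Gammaℝ (s + N)) * h0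

/-- moments of `|det|` under the Gaussian probability measure -/
theorem gm_cpow (h : Nrm μ) (n : ℕ) {s : ℂ} (hs : 0 < s.re + Module.finrank ℝ 𝕜) :
    ∫ g, ((‖(Matrix.of g).det‖ : ℝ) : ℂ) ^ s ∂(gm μ n) =
      ∏ j ∈ Finset.range n, Complex.Gammaℝ (s + (Module.finrank ℝ 𝕜 * (j + 1) : ℕ)) /
        Complex.Gammaℝ ((Module.finrank ℝ 𝕜 * (j + 1) : ℕ) : ℂ) := by
  induction n with
  | zero =>
    have := h.probv (Fin 0)
    have hP : IsProbabilityMeasure (gm μ 0) := by unfold gm; infer_instance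
    simp
  | succ n ih =>
    have := h.probv (Fin (n + 1))
    have := h.probv (Fin n)
    have hP : IsProbabilityMeasure (gm μ n) := by unfold gm; infer_instance
    have hs' : Measurable fun x : Fin (n + 1) → 𝕜 => √(nsq x) :=
      (continuous_nsq.sqrt).measurable
    have hm : Measurable fun p : (Fin (n + 1) → 𝕜) × (Fin n → Fin n → 𝕜) =>
        √(nsq p.1) * ‖(Matrix.of p.2).det‖ :=
      (hs'.comp measurable_fst).mul ((measurable_det n).comp measurable_snd)
    have hφ : Measurable fun a : ℝ => (a : ℂ) ^ s := by fun_prop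
    have h1 := integral_map (μ := gm μ (n + 1)) (measurable_det (n + 1)).aemeasurable
      hφ.aestronglyMeasurable
    have h2 := integral_map (μ := (gv μ (Fin (n + 1))).prod (gm μ n)) hm.aemeasurable
      hφ.aestronglyMeasurable
    rw [← h1, map_succ μ h, h2, Finset.prod_range_succ, ← ih, ← radial μ h n, mul_comm,
      ← integral_prod_mul]
    · refine integral_congr_ae (ae_of_all _ fun p => ?_)
      simp only
      rw [Complex.ofReal_mul, Complex.mul_cpow_ofReal_nonneg (Real.sqrt_nonneg _) (norm_nonneg _)]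
    · have : (Module.finrank ℝ 𝕜 : ℝ) ≤ (Module.finrank ℝ 𝕜 * (n + 1) : ℕ) := by
        exact_mod_cast Nat.le_mul_of_pos_right _ (Nat.succ_pos n)
      linarith

/-- **Gaussian determinant integral**, complex exponent. -/
theorem det_cpow (h : Nrm μ) (n : ℕ) {s : ℂ} (hs : 0 < s.re + Module.finrank ℝ 𝕜) :
    ∫ g : Fin n → Fin n → 𝕜, ((‖(Matrix.of g).det‖ : ℝ) : ℂ) ^ s *
        (exp (-π * ∑ i, ∑ j, ‖g i j‖ ^ 2) : ℝ)
        ∂(Measure.pi fun _ : Fin n => Measure.pi fun _ : Fin n => μ) =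
      ∏ j ∈ Finset.range n, Complex.Gammaℝ (s + (Module.finrank ℝ 𝕜 * (j + 1) : ℕ)) /
        Complex.Gammaℝ ((Module.finrank ℝ 𝕜 * (j + 1) : ℕ) : ℂ) := by
  rw [← gm_cpow μ h n hs, gm_eq μ h]
  have hw : Measurable fun g : Fin n → Fin n → 𝕜 => exp (-π * ∑ i, nsq (g i)) :=
    (by unfold nsq; fun_prop :
      Continuous fun g : Fin n → Fin n → 𝕜 => exp (-π * ∑ i, nsq (g i))).measurable
  rw [integral_withDensity_eq_integral_toReal_smul hw.ennreal_ofReal
    (ae_of_all _ fun _ => ENNReal.ofReal_lt_top)]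
  refine integral_congr_ae (ae_of_all _ fun g => ?_)
  simp only [ENNReal.toReal_ofReal (exp_pos _).le, Complex.real_smul, nsq]
  ring


theorem nrm_real : Nrm (volume : Measure ℝ) := by
  have := integral_gaussian π
  rw [div_self pi_pos.ne', Real.sqrt_one] at this
  simpa [Nrm] using this

theorem nrm_complex : Nrm (volume : Measure ℂ) := by
  have := Complex.integral_exp_neg_mul_rpow (p := 2) (b := π) one_le_two pi_pos
  have e1 : (-2 / 2 : ℝ) = -1 := by norm_num
  have e2 : (2 / 2 + 1 : ℝ) = 2 := by norm_num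
  rw [e1, e2, Real.Gamma_two, Real.rpow_neg_one, mul_inv_cancel₀ pi_pos.ne', mul_one] at this
  simpa [Nrm] using this

end Crest.Agent.T24.Gam83
end

-- ▼ part T24/AbGam_83
section

/-! Row 24, ABHN module: the archimedean factor `GamStmt`. -/

set_option autoImplicit false
set_option linter.unusedSectionVars false

open MeasureTheory Real Set
open scoped ENNReal

noncomputable section

namespace Crest.Agent.T24.Gam83

open Crest.Agent.T24.Ab
open Crest.Agent.T49.Gau (rho)

theorem det_mulLeft {K : Type*} [CommRing K] {n : ℕ} (a : Matrix (Fin n) (Fin n) K) :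
    LinearMap.det (LinearMap.mulLeft K a) = a.det ^ n := by
  let e : Matrix (Fin n) (Fin n) K ≃ₗ[K] (Fin n → Fin n → K) :=
    (Matrix.transposeLinearEquiv (Fin n) (Fin n) K K).trans (Matrix.ofLinearEquiv K).symm
  rw [← LinearMap.det_conj _ e]
  have h : (e : _ →ₗ[K] _) ∘ₗ LinearMap.mulLeft K a ∘ₗ (e.symm : _ →ₗ[K] _) =
      LinearMap.pi fun j : Fin n => (Matrix.toLin' a).comp (LinearMap.proj j) := by
    refine LinearMap.ext fun b => ?_
    funext j i
    simp [e, Matrix.mul_apply, Matrix.mulVec, dotProduct, mul_comm]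
  rw [h, LinearMap.det_pi]
  simp

theorem det_mulLeft_C {n : ℕ} (a : Matrix (Fin n) (Fin n) ℂ) :
    LinearMap.det (LinearMap.mulLeft ℝ a) = ‖a.det‖ ^ (2 * n) := by
  have h : LinearMap.mulLeft ℝ a = (LinearMap.mulLeft ℂ a).restrictScalars ℝ := rfl
  rw [h, LinearMap.det_restrictScalars, det_mulLeft, Algebra.norm_complex_apply, map_pow,
    Complex.normSq_eq_norm_sq, pow_mul]

theorem det_mulLeft_pi {W A : Type*} [Fintype W] [Ring A] [Algebra ℝ A] [Module.Finite ℝ A]
    (a : W → A) :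
    LinearMap.det (LinearMap.mulLeft ℝ a) = ∏ w, LinearMap.det (LinearMap.mulLeft ℝ (a w)) := by
  rw [← LinearMap.det_pi]
  rfl

theorem det_AA {W₁ W₂ : Type*} [Fintype W₁] [Fintype W₂] {n : ℕ} (g : EE W₁ W₂ n) :
    |LinearMap.det (LinearMap.mulLeft ℝ ((cE W₁ W₂ n).symm g))| =
      (∏ w, ‖(Matrix.of (g.1 w)).det‖ ^ n) * ∏ w, ‖(Matrix.of (g.2 w)).det‖ ^ (2 * n) := by
  have h : LinearMap.mulLeft ℝ ((cE W₁ W₂ n).symm g) =
      (LinearMap.mulLeft ℝ (fun w => Matrix.of (g.1 w))).prodMap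
        (LinearMap.mulLeft ℝ (fun w => Matrix.of (g.2 w))) := rfl
  rw [h, LinearMap.det_prodMap, det_mulLeft_pi, det_mulLeft_pi, abs_mul, Finset.abs_prod,
    Finset.abs_prod]
  congr 1
  · refine Finset.prod_congr rfl fun w _ => ?_
    rw [det_mulLeft, abs_pow, Real.norm_eq_abs]
  · refine Finset.prod_congr rfl fun w _ => ?_
    rw [det_mulLeft_C, abs_of_nonneg (by positivity)]

theorem rho_QE {W₁ W₂ : Type*} [Fintype W₁] [Fintype W₂] {n : ℕ} (g : EE W₁ W₂ n) :
    rho (QE W₁ W₂ n g) = (∏ w, exp (-π * ∑ i, ∑ j, ‖g.1 w i j‖ ^ 2)) *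
      ∏ w, exp (-π * ∑ i, ∑ j, ‖g.2 w i j‖ ^ 2) := by
  rw [rho, ← Real.exp_sum, ← Real.exp_sum, ← Real.exp_add, ← Finset.mul_sum, ← Finset.mul_sum,
    ← mul_add, PiLp.norm_sq_eq_of_L2, Fintype.sum_prod_type, Fintype.sum_sum_type]
  simp [QE, Fintype.sum_prod_type]

/-- the real gamma factor -/
def gR (x : ℝ) : ℝ := π ^ (-x / 2) * Real.Gamma (x / 2)

theorem gR_pos {x : ℝ} (hx : 0 < x) : 0 < gR x :=
  mul_pos (Real.rpow_pos_of_pos pi_pos _) (Real.Gamma_pos_of_pos (by positivity))

theorem gR_coe (x : ℝ) : ((gR x : ℝ) : ℂ) = Complex.Gammaℝ x := by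
  rw [gR, Complex.Gammaℝ_def, Complex.ofReal_mul, Complex.ofReal_cpow pi_pos.le,
    ← Complex.Gamma_ofReal]
  push_cast
  rfl

section
variable {𝕜 : Type} [RCLike 𝕜] [MeasurableSpace 𝕜] [BorelSpace 𝕜]
  (μ : Measure 𝕜) [μ.IsAddHaarMeasure]

/-- **Gaussian determinant integral**, real exponent. -/
theorem det_rpow (h : Nrm μ) (n : ℕ) {s : ℝ} (hs : 0 < s + Module.finrank ℝ 𝕜) :
    ∫ g : Fin n → Fin n → 𝕜, exp (-π * ∑ i, ∑ j, ‖g i j‖ ^ 2) * ‖(Matrix.of g).det‖ ^ s
        ∂(Measure.pi fun _ : Fin n => Measure.pi fun _ : Fin n => μ) =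
      ∏ j ∈ Finset.range n, gR (s + Module.finrank ℝ 𝕜 * (j + 1)) /
        gR (Module.finrank ℝ 𝕜 * (j + 1)) := by
  have h1 := det_cpow μ h n (s := s) (by simpa using hs)
  apply Complex.ofReal_injective
  rw [← integral_complex_ofReal]
  push_cast [gR_coe] at h1 ⊢
  rw [← h1]
  refine integral_congr_ae (ae_of_all _ fun g => ?_)
  simp only
  rw [Complex.ofReal_cpow (norm_nonneg _), mul_comm]

theorem prod_pos (n : ℕ) {s : ℝ} (hs : 0 < s + Module.finrank ℝ 𝕜) :
    0 < ∏ j ∈ Finset.range n, gR (s + Module.finrank ℝ 𝕜 * (j + 1)) /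
        gR (Module.finrank ℝ 𝕜 * (j + 1)) := by
  have h0 : (0 : ℝ) < Module.finrank ℝ 𝕜 := by exact_mod_cast Module.finrank_pos
  refine Finset.prod_pos fun j _ => div_pos (gR_pos ?_) (gR_pos (by positivity))
  have : (0 : ℝ) ≤ Module.finrank ℝ 𝕜 * j := by positivity
  linarith

theorem det_rpow_integrable (h : Nrm μ) (n : ℕ) {s : ℝ} (hs : 0 < s + Module.finrank ℝ 𝕜) :
    Integrable (fun g : Fin n → Fin n → 𝕜 =>
        exp (-π * ∑ i, ∑ j, ‖g i j‖ ^ 2) * ‖(Matrix.of g).det‖ ^ s)
        (Measure.pi fun _ : Fin n => Measure.pi fun _ : Fin n => μ) := by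
  refine Integrable.of_integral_ne_zero ?_
  rw [det_rpow μ h n hs]
  exact (prod_pos n hs).ne'

end

/-- closed form of the archimedean zeta integral -/
theorem GamE_eq (W₁ W₂ : Type*) [Fintype W₁] [Fintype W₂] (n : ℕ) {s : ℝ}
    (hs : 0 < n * (s - 1) + 1) :
    GamE W₁ W₂ n s = ENNReal.ofReal
      ((∏ j ∈ Finset.range n, gR (n * (s - 1) + (j + 1)) / gR (j + 1)) ^ Fintype.card W₁ *
       (∏ j ∈ Finset.range n, gR (2 * (n * (s - 1) + (j + 1))) / gR (2 * (j + 1))) ^
        Fintype.card W₂) := by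
  let f₁ : (Fin n → Fin n → ℝ) → ℝ := fun g =>
    exp (-π * ∑ i, ∑ j, ‖g i j‖ ^ 2) * ‖(Matrix.of g).det‖ ^ (n * (s - 1))
  let f₂ : (Fin n → Fin n → ℂ) → ℝ := fun g =>
    exp (-π * ∑ i, ∑ j, ‖g i j‖ ^ 2) * ‖(Matrix.of g).det‖ ^ (2 * (n * (s - 1)))
  have hs₁ : 0 < n * (s - 1) + Module.finrank ℝ ℝ := by simpa using hs
  have hs₂ : 0 < 2 * (n * (s - 1)) + Module.finrank ℝ ℂ := by
    rw [Complex.finrank_real_complex]; push_cast; linarith
  have i₁ : Integrable f₁ volume := det_rpow_integrable volume nrm_real n hs₁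
  have i₂ : Integrable f₂ volume := det_rpow_integrable volume nrm_complex n hs₂
  have e₁ : ∫ g, f₁ g = ∏ j ∈ Finset.range n, gR (n * (s - 1) + (j + 1)) / gR (j + 1) := by
    have := det_rpow volume nrm_real n hs₁
    simp only [Module.finrank_self, Nat.cast_one, one_mul] at this
    exact this
  have e₂ : ∫ g, f₂ g =
      ∏ j ∈ Finset.range n, gR (2 * (n * (s - 1) + (j + 1))) / gR (2 * (j + 1)) := by
    have := det_rpow volume nrm_complex n hs₂
    simp only [Complex.finrank_real_complex, Nat.cast_ofNat, ← mul_add] at this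
    exact this
  have hf : ∀ g : EE W₁ W₂ n, rho (QE W₁ W₂ n g) *
      |LinearMap.det (LinearMap.mulLeft ℝ ((cE W₁ W₂ n).symm g))| ^ (s - 1) =
      (∏ w, f₁ (g.1 w)) * ∏ w, f₂ (g.2 w) := by
    intro g
    rw [rho_QE, det_AA, Real.mul_rpow (by positivity) (by positivity),
      ← Real.finsetProd_rpow _ _ (fun _ _ => by positivity),
      ← Real.finsetProd_rpow _ _ (fun _ _ => by positivity)]
    simp only [f₁, f₂, Finset.prod_mul_distrib]
    have a1 : ∀ x : ℝ, 0 ≤ x → (x ^ n) ^ (s - 1) = x ^ (n * (s - 1)) := fun x hx => by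
      rw [Real.rpow_mul hx, Real.rpow_natCast]
    have a2 : ∀ x : ℝ, 0 ≤ x → (x ^ (2 * n)) ^ (s - 1) = x ^ (2 * (n * (s - 1))) := fun x hx => by
      rw [← mul_assoc, Real.rpow_mul hx, ← Real.rpow_natCast]; push_cast; rfl
    simp only [a1 _ (norm_nonneg _), a2 _ (norm_nonneg _)]
    ring
  have I₁ : Integrable (fun g : W₁ → Fin n → Fin n → ℝ => ∏ w, f₁ (g w)) volume :=
    Integrable.fintype_prod (f := fun _ => f₁) fun _ => i₁
  have I₂ : Integrable (fun g : W₂ → Fin n → Fin n → ℂ => ∏ w, f₂ (g w)) volume :=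
    Integrable.fintype_prod (f := fun _ => f₂) fun _ => i₂
  have I := I₁.mul_prod I₂
  have hn : ∀ g : EE W₁ W₂ n, 0 ≤ (∏ w, f₁ (g.1 w)) * ∏ w, f₂ (g.2 w) := fun g =>
    mul_nonneg (Finset.prod_nonneg fun _ _ => by positivity)
      (Finset.prod_nonneg fun _ _ => by positivity)
  have s1 : SigmaFinite (volume : Measure (Fin n → Fin n → ℝ)) := inferInstance
  have s2 : SigmaFinite (volume : Measure (Fin n → Fin n → ℂ)) := inferInstance
  have s3 : SigmaFinite (volume : Measure (W₁ → Fin n → Fin n → ℝ)) := inferInstance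
  have s4 : SigmaFinite (volume : Measure (W₂ → Fin n → Fin n → ℂ)) := inferInstance
  rw [GamE, Gam]
  simp only [hf]
  rw [Measure.volume_eq_prod, ← ofReal_integral_eq_lintegral_ofReal I (ae_of_all _ hn),
    integral_prod_mul (fun g : W₁ → Fin n → Fin n → ℝ => ∏ w, f₁ (g w))
      (fun g : W₂ → Fin n → Fin n → ℂ => ∏ w, f₂ (g w)),
    integral_fintype_prod_volume_eq_pow, integral_fintype_prod_volume_eq_pow, e₁, e₂]

end Crest.Agent.T24.Gam83

namespace Crest.Agent.T24.Ab

open Gam83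

universe u

theorem gamStmt : GamStmt.{u} := by
  intro W₁ W₂ _ _ n
  have p₁ : ∀ j : ℕ, 0 < gR (j + 1) := fun j => gR_pos (by positivity)
  have p₂ : ∀ j : ℕ, 0 < gR (2 * (j + 1)) := fun j => gR_pos (by positivity)
  have q₁ : 0 < gR 1 := gR_pos one_pos
  have q₂ : 0 < gR 2 := gR_pos two_pos
  have hC : 0 < (∏ j ∈ Finset.range n, gR 1 / gR (j + 1)) ^ Fintype.card W₁ *
      (∏ j ∈ Finset.range n, gR 2 / gR (2 * (j + 1))) ^ Fintype.card W₂ :=
    mul_pos (pow_pos (Finset.prod_pos fun j _ => div_pos q₁ (p₁ j)) _)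
      (pow_pos (Finset.prod_pos fun j _ => div_pos q₂ (p₂ j)) _)
  refine ⟨ENNReal.ofReal _, (ENNReal.ofReal_pos.2 hC).ne', ENNReal.ofReal_ne_top, fun s hs => ?_⟩
  have hns : (0 : ℝ) ≤ n * (s - 1) := mul_nonneg (Nat.cast_nonneg n) (by linarith)
  have h1 : ∀ j ∈ Finset.range n, GamE W₁ W₂ 1 (n * s - ((n - 1 - j : ℕ) : ℝ)) = ENNReal.ofReal
      ((gR (n * (s - 1) + (j + 1)) / gR 1) ^ Fintype.card W₁ *
        (gR (2 * (n * (s - 1) + (j + 1))) / gR 2) ^ Fintype.card W₂) := by
    intro j hj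
    have hj' := Finset.mem_range.1 hj
    have e : (n * s - ((n - 1 - j : ℕ) : ℝ)) = n * (s - 1) + (j + 1) := by
      rw [Nat.sub_sub, Nat.cast_sub (by omega)]; push_cast; ring
    have hj0 : (0 : ℝ) ≤ j := Nat.cast_nonneg j
    rw [e, GamE_eq W₁ W₂ 1 (by push_cast; linarith)]
    simp
  rw [← Finset.prod_range_reflect (fun i : ℕ => GamE W₁ W₂ 1 (n * s - i)), Finset.prod_congr rfl h1,
    GamE_eq W₁ W₂ n (by linarith),
    ← ENNReal.ofReal_prod_of_nonneg, ← ENNReal.ofReal_mul hC.le]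
  · congr 1
    rw [Finset.prod_mul_distrib, Finset.prod_pow, Finset.prod_pow, mul_mul_mul_comm, ← mul_pow,
      ← mul_pow, ← Finset.prod_mul_distrib, ← Finset.prod_mul_distrib]
    congr 2
    · refine Finset.prod_congr rfl fun j _ => ?_
      field_simp
    · refine Finset.prod_congr rfl fun j _ => ?_
      field_simp
  · intro j _
    have hj0 : (0 : ℝ) ≤ j := Nat.cast_nonneg j
    exact mul_nonneg (pow_nonneg (div_pos (gR_pos (by linarith)) q₁).le _)
      (pow_nonneg (div_pos (gR_pos (by linarith)) q₂).le _)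

end Crest.Agent.T24.Ab
end
end

-- ▼ part T24/AbCnt_37
section

/-!
# Row 24 (helper37): counting the superlattices of `𝓞^n`, `cntStmt`
-/

set_option autoImplicit false

noncomputable section

namespace Crest.Agent.T24.Ab

open NumberField Function
open scoped ENNReal

namespace Cnt37

variable {F : Type*} [Field F] {R : Subring F} {n : ℕ}

theorem mem_std {x : Fin n → F} : x ∈ std R n ↔ ∀ i, x i ∈ R :=
  ⟨fun h i => h i trivial, fun h i _ => h i⟩

/-- `y ↦ (0, y)` -/
def emb (F : Type*) [Field F] (n : ℕ) : (Fin n → F) →+ (Fin (n + 1) → F) :=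
  AddMonoidHom.mk' (fun y => Fin.cons 0 y) fun y z => by
    funext i; refine Fin.cases ?_ (fun i => ?_) i <;> simp

/-- the first coordinate -/
def hd (F : Type*) [Field F] (n : ℕ) : (Fin (n + 1) → F) →+ F :=
  AddMonoidHom.mk' (fun x => x 0) fun _ _ => rfl

/-- the other coordinates -/
def tl (F : Type*) [Field F] (n : ℕ) : (Fin (n + 1) → F) →+ (Fin n → F) :=
  AddMonoidHom.mk' (fun x i => x i.succ) fun _ _ => rfl

@[simp] theorem hd_apply (x : Fin (n + 1) → F) : hd F n x = x 0 := rfl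
@[simp] theorem tl_emb (y : Fin n → F) : tl F n (emb F n y) = y := rfl
@[simp] theorem emb_zero (y : Fin n → F) : emb F n y 0 = 0 := rfl
theorem tl_smul (a : F) (x : Fin (n + 1) → F) : tl F n (a • x) = a • tl F n x := rfl
theorem emb_smul (a : F) (y : Fin n → F) : emb F n (a • y) = a • emb F n y := by
  funext i; refine Fin.cases ?_ (fun i => ?_) i <;> simp [emb]

theorem dec (x : Fin (n + 1) → F) : x = Pi.single 0 (x 0) + emb F n (tl F n x) := by
  funext i; refine Fin.cases ?_ (fun i => ?_) i <;> simp [emb, tl]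

theorem single_mem {a : F} (ha : a ∈ R) : Pi.single 0 a ∈ std R (n + 1) := mem_std.2 fun i => by
  refine Fin.cases ?_ (fun i => ?_) i
  · simpa
  · simp

theorem emb_mem {y : Fin n → F} (hy : y ∈ std R n) : emb F n y ∈ std R (n + 1) :=
  mem_std.2 fun i => by
    refine Fin.cases ?_ (fun i => ?_) i
    · simp
    · exact mem_std.1 hy i

theorem tl_mem {W : AddSubgroup (Fin (n + 1) → F)} (h : std R (n + 1) ≤ W) {x : Fin (n + 1) → F}
    (hx : x ∈ W) (h0 : x 0 ∈ R) : emb F n (tl F n x) ∈ W := by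
  have := W.sub_mem hx (h (single_mem h0))
  rwa [sub_eq_of_eq_add' (dec x)] at this

/-- the index is multiplicative -/
theorem idx {W : AddSubgroup (Fin (n + 1) → F)} (h : std R (n + 1) ≤ W) :
    (std R (n + 1)).relIndex W =
      (std R n).relIndex (W.comap (emb F n)) * R.toAddSubgroup.relIndex (W.map (hd F n)) := by
  set M := R.toAddSubgroup.comap (hd F n) ⊓ W with hM
  have h1 : std R (n + 1) ≤ M := fun x hx => ⟨mem_std.1 hx 0, h hx⟩
  rw [← AddSubgroup.relIndex_mul_relIndex _ M W h1 inf_le_right, hM,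
    AddSubgroup.inf_relIndex_right, AddSubgroup.relIndex_comap, ← hM]
  congr 1
  have h2 : M.map (tl F n) = W.comap (emb F n) := by
    ext y
    refine ⟨?_, fun hy => ⟨emb F n y, ⟨R.zero_mem, hy⟩, rfl⟩⟩
    rintro ⟨x, hx, rfl⟩
    exact tl_mem h hx.2 hx.1
  rw [← h2, ← AddSubgroup.relIndex_comap, ← AddSubgroup.inf_relIndex_right,
    ← AddSubgroup.inf_relIndex_right ((std R n).comap _)]
  congr 1
  ext x
  refine ⟨fun hx => ⟨mem_std.2 fun i => mem_std.1 hx.1 _, hx.2⟩, fun hx => ⟨mem_std.2 fun i => ?_, hx.2⟩⟩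
  exact Fin.cases hx.2.1 (fun i => mem_std.1 hx.1 i) i

theorem idx_pi (J : AddSubgroup F) :
    (std R n).relIndex (AddSubgroup.pi Set.univ fun _ => J) = R.toAddSubgroup.relIndex J ^ n := by
  let f : (Fin n → J) →+ (Fin n → F) := AddMonoidHom.mk' (fun v i => v i) fun _ _ => rfl
  have h1 : (AddSubgroup.pi Set.univ fun _ => J) = (⊤ : AddSubgroup (Fin n → J)).map f := by
    ext x
    exact ⟨fun hx => ⟨fun i => ⟨x i, hx i trivial⟩, trivial, rfl⟩, by
      rintro ⟨v, -, rfl⟩ i -; exact (v i).2⟩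
  have h2 : (std R n).comap f = AddSubgroup.pi Set.univ fun _ => R.toAddSubgroup.addSubgroupOf J :=
    rfl
  rw [h1, ← AddSubgroup.relIndex_comap, AddSubgroup.relIndex_top_right, h2, AddSubgroup.index_pi]
  simp [AddSubgroup.relIndex]

/-- the projection to the pair (sublattice, fractional ideal) -/
def prj (W : SupV R (n + 1)) : SupV R n × Sup R :=
  (⟨W.1.comap (emb F n), fun _ hy => W.2.1 (emb_mem hy), fun y hy o ho => by
      rw [AddSubgroup.mem_comap, emb_smul]; exact W.2.2.1 _ hy o ho,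
      left_ne_zero_of_mul (idx W.2.1 ▸ W.2.2.2)⟩,
    ⟨W.1.map (hd F n), fun a ha => ⟨Pi.single 0 a, W.2.1 (single_mem ha), by simp⟩, by
      rintro _ ⟨x, hx, rfl⟩ o ho
      exact ⟨o • x, W.2.2.1 x hx o ho, mul_comm _ _⟩,
      right_ne_zero_of_mul (idx W.2.1 ▸ W.2.2.2)⟩)

section fibre
variable (W' : SupV R n) (J : Sup R) (β : F)

/-- admissible lifts of the generator `β` -/
def Y : AddSubgroup (Fin n → F) where
  carrier := {y | ∀ a ∈ R, a * β ∈ R → a • y ∈ W'.1}
  add_mem' := fun hy hz a ha hb => by rw [smul_add]; exact W'.1.add_mem (hy a ha hb) (hz a ha hb)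
  zero_mem' := fun a _ _ => by rw [smul_zero]; exact W'.1.zero_mem
  neg_mem' := fun hy a ha hb => by rw [smul_neg]; exact W'.1.neg_mem (hy a ha hb)

/-- the lattice generated by `W'`, `R` and `(β, y)` -/
def Wy (y : Fin n → F) : AddSubgroup (Fin (n + 1) → F) where
  carrier := {x | ∃ a ∈ R, x 0 - a * β ∈ R ∧ tl F n x - a • y ∈ W'.1}
  add_mem' := by
    rintro x z ⟨a, ha, h1, h2⟩ ⟨b, hb, h3, h4⟩
    refine ⟨a + b, R.add_mem ha hb, ?_, ?_⟩
    · convert R.add_mem h1 h3 using 1; simp only [Pi.add_apply]; ring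
    · convert W'.1.add_mem h2 h4 using 1; rw [map_add, add_smul]; abel
  zero_mem' := ⟨0, R.zero_mem, by simp, by simp⟩
  neg_mem' := by
    rintro x ⟨a, ha, h1, h2⟩
    refine ⟨-a, R.neg_mem ha, ?_, ?_⟩
    · convert R.neg_mem h1 using 1; simp only [Pi.neg_apply]; ring
    · convert W'.1.neg_mem h2 using 1; rw [map_neg, neg_smul]; abel

variable {W' J β}

theorem std_le (y : Fin n → F) : std R (n + 1) ≤ Wy W' β y := fun x hx =>
  ⟨0, R.zero_mem, by simpa using mem_std.1 hx 0, by
    rw [zero_smul, sub_zero]; exact W'.2.1 (mem_std.2 fun i => mem_std.1 hx _)⟩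

theorem comap_Wy {y : Fin n → F} (hy : y ∈ Y W' β) : (Wy W' β y).comap (emb F n) = W'.1 := by
  ext z
  refine ⟨fun ⟨a, ha, h1, h2⟩ => ?_, fun hz => ⟨0, R.zero_mem, by simp, by simpa⟩⟩
  have := W'.1.add_mem h2 (hy a ha (by simpa using R.neg_mem h1))
  simpa using this

theorem map_Wy (hβ : β ∈ J.1) (hJ : ∀ j ∈ J.1, ∃ a ∈ R, j - a * β ∈ R) (y : Fin n → F) :
    (Wy W' β y).map (hd F n) = J.1 := by
  ext j
  constructor
  · rintro ⟨x, ⟨a, ha, h1, -⟩, rfl⟩
    have := J.1.add_mem (J.2.1 h1) (J.2.2.1 β hβ a ha)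
    rwa [mul_comm β, sub_add_cancel] at this
  · intro hj
    obtain ⟨a, ha, h⟩ := hJ j hj
    refine ⟨Fin.cons j (a • y), ⟨a, ha, h, ?_⟩, rfl⟩
    rw [show tl F n (Fin.cons j (a • y)) = a • y from rfl, sub_self]
    exact W'.1.zero_mem

theorem card_fibre (hβ : β ∈ J.1) (hJ : ∀ j ∈ J.1, ∃ a ∈ R, j - a * β ∈ R) :
    Nat.card (prj ⁻¹' {(W', J)} : Set (SupV R (n + 1))) = W'.1.relIndex (Y W' β) := by
  let Φ : Y W' β → (prj ⁻¹' {(W', J)} : Set (SupV R (n + 1))) := fun y =>
    ⟨⟨Wy W' β y, std_le _, by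
        rintro x ⟨a, ha, h1, h2⟩ o ho
        refine ⟨o * a, R.mul_mem ho ha, ?_, ?_⟩
        · convert R.mul_mem ho h1 using 1; simp only [Pi.smul_apply, smul_eq_mul]; ring
        · convert W'.2.2.1 _ h2 o ho using 1; rw [tl_smul, smul_sub, mul_smul], by
        rw [idx (std_le _), comap_Wy y.2, map_Wy hβ hJ]; exact mul_ne_zero W'.2.2.2 J.2.2.2⟩,
      Prod.ext (Subtype.ext (comap_Wy y.2)) (Subtype.ext (map_Wy hβ hJ _))⟩
  have self : ∀ y : Fin n → F, Fin.cons β y ∈ Wy W' β y := fun y =>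
    ⟨1, R.one_mem, by simp, by
      rw [show tl F n (Fin.cons β y) = y from rfl, one_smul, sub_self]; exact W'.1.zero_mem⟩
  have hs : Surjective Φ := by
    rintro ⟨W, hW⟩
    have e1 : W.1.comap (emb F n) = W'.1 := congrArg (fun p => p.1.1) hW
    have e2 : W.1.map (hd F n) = J.1 := congrArg (fun p => p.2.1) hW
    obtain ⟨x, hx, hxβ⟩ : β ∈ W.1.map (hd F n) := e2 ▸ hβ
    rw [hd_apply] at hxβ
    refine ⟨⟨tl F n x, fun a ha hb => ?_⟩, Subtype.ext (Subtype.ext ?_)⟩
    · rw [← e1, ← tl_smul]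
      exact tl_mem W.2.1 (W.2.2.1 x hx a ha) (by simpa [hxβ] using hb)
    · ext z
      constructor
      · rintro ⟨a, ha, h1, h2⟩
        change tl F n z - a • tl F n x ∈ W'.1 at h2
        rw [← e1, ← tl_smul, ← map_sub] at h2
        have h3 : z - a • x ∈ W.1 := by
          rw [dec (z - a • x)]
          exact W.1.add_mem (W.2.1 (single_mem (by simpa [hxβ] using h1))) h2
        simpa using W.1.add_mem h3 (W.2.2.1 x hx a ha)
      · intro hz
        obtain ⟨a, ha, h⟩ := hJ (z 0) (e2 ▸ ⟨z, hz, rfl⟩)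
        refine ⟨a, ha, h, ?_⟩
        change tl F n z - a • tl F n x ∈ W'.1
        rw [← e1, ← tl_smul, ← map_sub]
        exact tl_mem W.2.1 (W.1.sub_mem hz (W.2.2.1 x hx a ha)) (by simpa [hxβ] using h)
  have hk : ∀ y z, Φ y = Φ z ↔ -y + z ∈ W'.1.addSubgroupOf (Y W' β) := fun y z => by
    rw [AddSubgroup.mem_addSubgroupOf]
    constructor
    · intro e
      have e' : Wy W' β y = Wy W' β z := congrArg (fun p => p.1.1) e
      have h1 := (Wy W' β y).sub_mem (e' ▸ self z) (self y)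
      rw [← comap_Wy y.2, AddSubgroup.mem_comap]
      convert h1 using 1
      funext i; refine Fin.cases ?_ (fun i => ?_) i <;> simp [emb, sub_eq_neg_add]
    · intro h
      refine Subtype.ext (Subtype.ext ?_)
      ext x
      refine exists_congr fun a => and_congr_right fun ha => and_congr_right fun _ => ?_
      have h1 := W'.2.2.1 _ h a ha
      refine ⟨fun h2 => ?_, fun h2 => ?_⟩
      · convert W'.1.sub_mem h2 h1 using 1
        rw [AddSubgroup.coe_add, AddSubgroup.coe_neg, smul_add, smul_neg]; abel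
      · convert W'.1.add_mem h2 h1 using 1
        rw [AddSubgroup.coe_add, AddSubgroup.coe_neg, smul_add, smul_neg]; abel
  rw [AddSubgroup.relIndex, AddSubgroup.index]
  refine (Nat.card_congr ((Quotient.congrRight fun y z => ?_).trans
    (Setoid.quotientKerEquivOfSurjective Φ hs))).symm
  rw [QuotientAddGroup.leftRel_apply, Setoid.ker_def, hk]

theorem idx_Y {α c r₁ r₂ : F} (hβ : β ∈ J.1) (hJ : ∀ j ∈ J.1, ∃ a ∈ R, j - a * β ∈ R)
    (hα : ∀ j ∈ J.1, α * j ∈ R) (hc : c ∈ R) (hr : r₁ ∈ R) (h1 : r₁ * β ∈ R)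
    (h2 : ∀ w ∈ W'.1, r₂ • w ∈ std R n) (e : α * β + c * (r₂ * r₁) = 1) :
    W'.1.relIndex (Y W' β) = R.toAddSubgroup.relIndex J.1 ^ n := by
  set P : AddSubgroup (Fin n → F) := AddSubgroup.pi Set.univ fun _ => J.1 with hP
  have hαR : α ∈ R := by simpa using hα 1 (J.2.1 R.one_mem)
  have a1 : W'.1 ≤ Y W' β := fun w hw a ha _ => W'.2.2.1 w hw a ha
  have a2 : P ≤ Y W' β := fun z hz a ha hb => W'.2.1 (mem_std.2 fun i => by
    obtain ⟨b, hb', h⟩ := hJ (z i) (hz i trivial)
    convert R.add_mem (R.mul_mem ha h) (R.mul_mem hb' hb) using 1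
    simp only [Pi.smul_apply, smul_eq_mul]; ring)
  have a3 : std R n ≤ P := fun z hz i _ => J.2.1 (mem_std.1 hz i)
  have smul_std : ∀ a ∈ R, ∀ z ∈ std R n, a • z ∈ std R n := fun a ha z hz =>
    mem_std.2 fun i => R.mul_mem ha (mem_std.1 hz i)
  let f : (Fin n → F) →+ (Fin n → F) := DistribSMul.toAddMonoidHom _ α
  have b1 : P = (std R n).comap f ⊓ Y W' β := by
    ext z
    refine ⟨fun hz => ⟨mem_std.2 fun i => hα _ (hz i trivial), a2 hz⟩, fun hz i _ => ?_⟩
    have h3 := mem_std.1 (smul_std c hc _ (h2 _ (hz.2 r₁ hr h1))) i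
    have h4 : α * z i ∈ R := mem_std.1 hz.1 i
    have h5 := J.1.add_mem (J.2.2.1 β hβ _ h4) (J.2.1 h3)
    show z i ∈ J.1
    convert h5 using 1
    simp only [Pi.smul_apply, smul_eq_mul]
    linear_combination -(z i) * e
  have b2 : (std R n).relIndex ((Y W' β).map f) = (std R n).relIndex W'.1 := by
    rw [← AddSubgroup.relIndex_sup_left]
    congr 1
    refine le_antisymm (sup_le W'.2.1 ?_) fun w hw => ?_
    · rintro _ ⟨y, hy, rfl⟩
      exact hy α hαR (hα β hβ)
    · have h3 : β • w ∈ Y W' β := fun a _ hb => by rw [← mul_smul]; exact W'.2.2.1 w hw _ hb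
      have h4 := smul_std c hc _ (h2 _ (W'.2.2.1 w hw r₁ hr))
      have : w = c • r₂ • r₁ • w + f (β • w) := by
        show w = c • r₂ • r₁ • w + α • β • w
        rw [← mul_smul, ← mul_smul, ← mul_smul, ← add_smul, mul_assoc, add_comm, e, one_smul]
      rw [this]
      exact AddSubgroup.add_mem_sup h4 ⟨_, h3, rfl⟩
  have b3 : P.relIndex (Y W' β) = (std R n).relIndex W'.1 := by
    rw [b1, AddSubgroup.inf_relIndex_right, AddSubgroup.relIndex_comap, b2]
  have c1 := AddSubgroup.relIndex_mul_relIndex _ _ _ W'.2.1 a1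
  rw [← AddSubgroup.relIndex_mul_relIndex _ _ _ a3 a2, b3, hP, idx_pi, mul_comm] at c1
  exact mul_right_cancel₀ W'.2.2.2 c1

end fibre

/-- a fractional ideal is principal modulo `r` -/
theorem key [NumberField F] (J : Sup (intR F)) {r : ℕ} (hr : r ≠ 0) (h : ∀ j ∈ J.1, (r : F) * j ∈ intR F) :
    ∃ β ∈ J.1, ∃ α, (∀ j ∈ J.1, α * j ∈ intR F) ∧ ∃ c ∈ intR F, α * β + c * r = 1 := by
  have hr' : (r : F) ≠ 0 := by exact_mod_cast hr
  let I : Ideal (𝓞 F) :=
    { carrier := {x | (x : F) / r ∈ J.1}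
      add_mem' := fun hx hy => by
        simp only [Set.mem_ofPred_eq, map_add, add_div] at *; exact J.1.add_mem hx hy
      zero_mem' := by simp
      smul_mem' := fun c x hx => by
        have := J.2.2.1 _ hx c ⟨c, rfl⟩
        simp only [Set.mem_ofPred_eq, smul_eq_mul, map_mul] at *
        convert this using 1; ring }
  have hrI : (r : 𝓞 F) ∈ I := by
    show algebraMap (𝓞 F) F (r : 𝓞 F) / r ∈ J.1
    rw [map_natCast, div_self hr']; exact J.2.1 (intR F).one_mem
  have hr0 : (r : 𝓞 F) ≠ 0 := by exact_mod_cast hr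
  have hI : I ≠ 0 := fun e => hr0 (by rw [e] at hrI; exact hrI)
  obtain ⟨a, ha⟩ := IsDedekindDomain.exists_sup_span_eq (I := Ideal.span {(r : 𝓞 F)} * I) (J := I)
    Ideal.mul_le_right (mul_ne_zero (by simpa using hr0) hI)
  obtain ⟨I', hI'⟩ := Ideal.dvd_iff_le.2 ((Ideal.span_singleton_le_iff_mem I).2 hrI)
  have h1 : (r : 𝓞 F) ∈ (Ideal.span {(r : 𝓞 F)} * I ⊔ Ideal.span {a}) * I' := by
    rw [ha, ← hI']; exact Ideal.mem_span_singleton_self _
  rw [Ideal.sup_mul, mul_assoc, ← hI', Ideal.span_singleton_mul_span_singleton] at h1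
  obtain ⟨u, hu, v, hv, e⟩ := Submodule.mem_sup.1 h1
  obtain ⟨c, rfl⟩ := Ideal.mem_span_singleton'.1 hu
  obtain ⟨b, hb, rfl⟩ := Ideal.mem_span_singleton_mul.1 hv
  have haI : a ∈ I := ha ▸ Ideal.mem_sup_right (Ideal.mem_span_singleton_self a)
  refine ⟨(a : F) / r, haI, b, fun j hj => ?_, c, ⟨c, rfl⟩, ?_⟩
  · obtain ⟨x, hx⟩ := h j hj
    have hxI : x ∈ I := by
      show (x : F) / r ∈ J.1
      rw [show (x : F) = r * j from hx, mul_div_cancel_left₀ _ hr']; exact hj
    obtain ⟨y, hy⟩ := Ideal.mem_span_singleton'.1 (hI' ▸ Ideal.mul_mem_mul hxI hb)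
    refine ⟨y, mul_right_cancel₀ hr' ?_⟩
    have := congrArg (algebraMap (𝓞 F) F) hy
    rw [map_mul, map_mul, map_natCast, hx] at this
    rw [this]; ring
  · have := congrArg (algebraMap (𝓞 F) F) e
    simp only [map_add, map_mul, map_natCast] at this
    field_simp
    linear_combination this

theorem card_eq [NumberField F] (W' : SupV (intR F) n) (J : Sup (intR F)) :
    Nat.card (prj ⁻¹' {(W', J)} : Set (SupV (intR F) (n + 1))) =
      (intR F).toAddSubgroup.relIndex J.1 ^ n := by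
  set r₁ := (intR F).toAddSubgroup.relIndex J.1
  set r₂ := (std (intR F) n).relIndex W'.1
  have h1 : ∀ j ∈ J.1, (r₁ : F) * j ∈ intR F := fun j hj => by
    rw [← nsmul_eq_mul]; exact (intR F).toAddSubgroup.nsmul_relIndex_mem hj
  have h2 : ∀ w ∈ W'.1, (r₂ : F) • w ∈ std (intR F) n := fun w hw => by
    rw [Nat.cast_smul_eq_nsmul]; exact (std (intR F) n).nsmul_relIndex_mem hw
  have h3 : ∀ j ∈ J.1, ((r₂ * r₁ : ℕ) : F) * j ∈ intR F := fun j hj => by
    rw [Nat.cast_mul, mul_assoc]; exact (intR F).mul_mem (natCast_mem _ _) (h1 j hj)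
  obtain ⟨β, hβ, α, hα, c, hc, e⟩ := key J (mul_ne_zero W'.2.2.2 J.2.2.2) h3
  have hJ : ∀ j ∈ J.1, ∃ a ∈ intR F, j - a * β ∈ intR F := fun j hj =>
    ⟨α * j, hα j hj, by
      convert (intR F).mul_mem hc (h3 j hj) using 1
      linear_combination -j * e⟩
  rw [card_fibre hβ hJ]
  exact idx_Y hβ hJ hα hc (natCast_mem _ r₁) (h1 β hβ) h2 (by rw [← Nat.cast_mul]; exact e)

theorem step [NumberField F] (n : ℕ) (s : ℝ) :
    zetaV (intR F) (n + 1) s = zetaV (intR F) n s * zeta (intR F) (s - n) := by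
  rw [zetaV, ← ENNReal.tsum_fiberwise _ prj, ENNReal.tsum_prod', zetaV, zeta, ← ENNReal.tsum_mul_right]
  refine tsum_congr fun W' => ?_
  rw [← ENNReal.tsum_mul_left]
  refine tsum_congr fun J => ?_
  have hc := card_eq W' J
  have hJ : (0 : ℝ) < (intR F).toAddSubgroup.relIndex J.1 := by
    exact_mod_cast Nat.pos_of_ne_zero J.2.2.2
  have := Nat.finite_of_card_ne_zero (hc ▸ pow_ne_zero n J.2.2.2)
  rw [tsum_congr (g := fun _ => ENNReal.ofReal ((((std (intR F) n).relIndex W'.1 *
      (intR F).toAddSubgroup.relIndex J.1 : ℕ) : ℝ) ^ (-s))) fun W => ?_, ENNReal.tsum_const,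
    ENat.card_eq_coe_natCard, hc, ENat.toENNReal_coe, ← ENNReal.ofReal_natCast,
    ← ENNReal.ofReal_mul (Nat.cast_nonneg _), ← ENNReal.ofReal_mul (by positivity), Nat.cast_mul,
    Real.mul_rpow (Nat.cast_nonneg _) hJ.le, neg_sub, sub_eq_add_neg, Real.rpow_add hJ,
    Real.rpow_natCast, Nat.cast_pow]
  · congr 1; ring
  · have e1 : W.1.1.comap (emb F n) = W'.1 := congrArg (fun p => p.1.1) W.2
    have e2 : W.1.1.map (hd F n) = J.1 := congrArg (fun p => p.2.1) W.2
    rw [idx W.1.2.1, e1, e2]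

end Cnt37

universe u

theorem cntStmt : CntStmt.{u} := by
  intro F _ _ n s
  induction n with
  | zero =>
    have h : ∀ W : AddSubgroup (Fin 0 → F), (std (intR F) 0).relIndex W = 1 := fun W =>
      AddSubgroup.relIndex_eq_one.2 fun x _ => Cnt37.mem_std.2 fun i => i.elim0
    let W₀ : SupV (intR F) 0 := ⟨⊤, le_top, fun _ _ _ _ => trivial, by rw [h]; exact one_ne_zero⟩
    rw [zetaV, tsum_eq_single W₀ fun W hW => (hW (Subtype.ext (Subsingleton.elim _ _))).elim, h]
    simp
  | succ n ih => rw [Cnt37.step, ih, Finset.prod_range_succ]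

end Crest.Agent.T24.Ab
end
end

-- ▼ part T24/AbMor_33
section

/-!
# Row 24 (helper33): Morita comparison of the two lattice counts, `morStmt`
-/

set_option autoImplicit false

noncomputable section

namespace Crest.Agent.T24.Ab

open NumberField Function
open scoped ENNReal

namespace Mor33

theorem tsum_eq_iSup {α ι : Type*} (f : α → ℝ≥0∞) {X : ι → Type*} (p : ∀ r, X r → α)
    (hp : ∀ r, Injective (p r)) (hc : ∀ T : Finset α, ∃ r, ∀ a ∈ T, a ∈ Set.range (p r)) :
    ∑' a, f a = ⨆ r, ∑' x, f (p r x) := by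
  refine le_antisymm ?_ (iSup_le fun r => ENNReal.tsum_comp_le_tsum_of_injective (hp r) f)
  rw [ENNReal.tsum_eq_iSup_sum]
  refine iSup_le fun T => ?_
  obtain ⟨r, hr⟩ := hc T
  refine le_iSup_of_le r ?_
  rw [← tsum_range f (hp r), ← Finset.tsum_subtype]
  exact ENNReal.tsum_mono_subtype f hr

section lift
variable {G M : Type*} [AddCommGroup G] [AddCommGroup M] {L : AddSubgroup G} {r : ℕ}

/-- `r⁻¹ π⁻¹ N` -/
def lift (r : ℕ) (π : L →+ M) (N : AddSubgroup M) : AddSubgroup G :=
  ((N.comap π).map L.subtype).comap (nsmulAddMonoidHom r)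

theorem mem_lift {π : L →+ M} {N : AddSubgroup M} {x : G} :
    x ∈ lift r π N ↔ ∃ h : r • x ∈ L, π ⟨r • x, h⟩ ∈ N :=
  ⟨fun ⟨y, hy, e⟩ => by
    have e' : y.1 = r • x := e
    exact ⟨e' ▸ y.2, by simp only [← e']; exact hy⟩, fun ⟨h, h'⟩ => ⟨⟨_, h⟩, h', rfl⟩⟩

/-- `π` is the reduction modulo `r` -/
structure Qt (r : ℕ) (π : L →+ M) : Prop where
  bij : Bijective fun x : G => r • x
  surj : Surjective π
  ker : ∀ x, π x = 0 ↔ ∃ y : L, x = r • y

variable {π : L →+ M} (h : Qt r π)
include h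

theorem Qt.zero_iff {x : G} (hx : r • x ∈ L) : π ⟨r • x, hx⟩ = 0 ↔ x ∈ L := by
  rw [h.ker]
  refine ⟨fun ⟨y, e⟩ => ?_, fun hx => ⟨⟨x, hx⟩, rfl⟩⟩
  rw [h.bij.1 (congrArg Subtype.val e)]; exact y.2

theorem Qt.pre (m : M) : ∃ (x : G) (hx : r • x ∈ L), π ⟨r • x, hx⟩ = m := by
  obtain ⟨y, rfl⟩ := h.surj m
  obtain ⟨x, e⟩ := h.bij.2 y
  have e' : r • x = y := e
  exact ⟨x, e' ▸ y.2, by simp only [e']⟩

theorem Qt.le (N : AddSubgroup M) : L ≤ lift r π N := fun x hx =>
  mem_lift.2 ⟨L.nsmul_mem hx r, by rw [(h.zero_iff _).2 hx]; exact N.zero_mem⟩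

theorem Qt.inj : Injective (lift r π) := fun N N' e => by
  ext m
  obtain ⟨x, hx, rfl⟩ := h.pre m
  exact ⟨fun h1 => (mem_lift.1 (e ▸ mem_lift.2 ⟨hx, h1⟩)).2,
    fun h1 => (mem_lift.1 (e.symm ▸ mem_lift.2 ⟨hx, h1⟩)).2⟩

theorem Qt.idx (N : AddSubgroup M) : L.relIndex (lift r π N) = Nat.card N := by
  let f : lift r π N →+ N := AddMonoidHom.mk'
    (fun x => ⟨π ⟨r • x.1, (mem_lift.1 x.2).1⟩, (mem_lift.1 x.2).2⟩) fun x y =>
      Subtype.ext (by
        simp only [AddSubgroup.coe_add, ← map_add]; congr 1; exact Subtype.ext (nsmul_add _ _ _))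
  have h1 : L.addSubgroupOf (lift r π N) = f.ker := by
    ext x
    rw [AddSubgroup.mem_addSubgroupOf, AddMonoidHom.mem_ker, Subtype.ext_iff]
    exact (h.zero_iff _).symm
  have h2 : Surjective f := fun m => by
    obtain ⟨x, hx, e⟩ := h.pre m
    exact ⟨⟨x, mem_lift.2 ⟨hx, e ▸ m.2⟩⟩, Subtype.ext e⟩
  rw [AddSubgroup.relIndex, h1, AddSubgroup.index_ker, AddMonoidHom.range_eq_top.2 h2,
    AddSubgroup.card_top]

theorem Qt.exists {I : AddSubgroup G} (h1 : L ≤ I) (h2 : ∀ x ∈ I, r • x ∈ L) :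
    ∃ N, lift r π N = I := by
  let f : I →+ L := AddMonoidHom.mk' (fun x => ⟨r • x.1, h2 _ x.2⟩) fun x y =>
    Subtype.ext (nsmul_add _ _ _)
  refine ⟨(π.comp f).range, le_antisymm (fun x hx => ?_) fun x hx =>
    mem_lift.2 ⟨h2 x hx, ⟨x, hx⟩, rfl⟩⟩
  obtain ⟨hx, y, e⟩ := mem_lift.1 hx
  have h3 : r • (x - y.1) ∈ L := by rw [nsmul_sub]; exact L.sub_mem hx (h2 _ y.2)
  have h4 := (h.zero_iff h3).1 (by
    rw [← sub_eq_zero.2 e.symm, AddMonoidHom.comp_apply, ← map_sub]
    congr 1; exact Subtype.ext (nsmul_sub _ _ _))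
  simpa using I.add_mem (h1 h4) y.2

end lift

theorem bij {G : Type*} [AddCommGroup G] [Module ℚ G] {r : ℕ} (hr : 0 < r) :
    Bijective fun x : G => r • x := by
  have : (r : ℚ) ≠ 0 := by exact_mod_cast hr.ne'
  simp only [← Nat.cast_smul_eq_nsmul ℚ]
  exact (MulAction.toPerm (Units.mk0 _ this)).bijective

theorem cover {G : Type*} [AddCommGroup G] (L : AddSubgroup G) {P : Set (AddSubgroup G)}
    (hP : ∀ I ∈ P, L.relIndex I ≠ 0) (T : Finset P) :
    ∃ r : ℕ+, ∀ I ∈ T, ∀ x ∈ I.1, (r : ℕ) • x ∈ L := by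
  refine ⟨⟨∏ I ∈ T, L.relIndex I.1, Finset.prod_pos fun I _ => Nat.pos_of_ne_zero (hP _ I.2)⟩,
    fun I hI x hx => ?_⟩
  obtain ⟨c, hc⟩ := Finset.dvd_prod_of_mem (fun I : P => L.relIndex I.1) hI
  rw [PNat.mk_coe, hc, mul_nsmul]
  exact L.nsmul_mem (L.nsmul_relIndex_mem hx) c

section cols
variable {S : Type*} [CommRing S] {n : ℕ}

/-- matrices with columns in `U` -/
def cols (U : Submodule S (Fin n → S)) : AddSubgroup (Matrix (Fin n) (Fin n) S) where
  carrier := {m | ∀ j, (fun i => m i j) ∈ U}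
  add_mem' := fun ha hb j => U.add_mem (ha j) (hb j)
  zero_mem' := fun _ => U.zero_mem
  neg_mem' := fun ha j => U.neg_mem (ha j)

theorem card_cols (U : Submodule S (Fin n → S)) : Nat.card (cols U) = Nat.card U ^ n := by
  have e : cols U ≃ (Fin n → U) :=
    ⟨fun m j => ⟨_, m.2 j⟩, fun v => ⟨Matrix.of fun i j => (v j).1 i, fun j => (v j).2⟩,
      fun _ => rfl, fun _ => rfl⟩
  rw [Nat.card_congr e, Nat.card_fun, Nat.card_eq_fintype_card (α := Fin n), Fintype.card_fin]

theorem cols_inj (hn : 0 < n) : Injective (cols (S := S) (n := n)) := fun U U' e => by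
  have key : ∀ (U : Submodule S (Fin n → S)) v, v ∈ U ↔ (Matrix.of fun i _ => v i) ∈ cols U :=
    fun U v => ⟨fun h _ => h, fun h => h ⟨0, hn⟩⟩
  ext v
  rw [key, key, e]

theorem cols_mul {U : Submodule S (Fin n → S)} {m : Matrix (Fin n) (Fin n) S} (h : m ∈ cols U)
    (a : Matrix (Fin n) (Fin n) S) : m * a ∈ cols U := fun j => by
  have : (fun i => (m * a) i j) = ∑ k, a k j • fun i => m i k := by
    funext i; simp [Matrix.mul_apply, mul_comm]
  rw [this]
  exact U.sum_mem fun k _ => U.smul_mem _ (h k)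

theorem exists_cols {N : AddSubgroup (Matrix (Fin n) (Fin n) S)} (h : ∀ m ∈ N, ∀ a, m * a ∈ N) :
    ∃ U, cols U = N := by
  refine ⟨⟨⟨⟨{v | ∀ w, Matrix.vecMulVec v w ∈ N}, fun ha hb w => ?_⟩, fun w => ?_⟩,
    fun c v hv w => ?_⟩, le_antisymm (fun m hm => ?_) fun m hm j w => ?_⟩
  · rw [Matrix.add_vecMulVec]; exact N.add_mem (ha w) (hb w)
  · rw [Matrix.zero_vecMulVec]; exact N.zero_mem
  · rw [Matrix.smul_vecMulVec, ← Matrix.vecMulVec_smul]; exact hv _
  · have : m = ∑ j, Matrix.vecMulVec (fun i => m i j) (Pi.single j 1) := by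
      ext i k; simp [Matrix.sum_apply, Matrix.vecMulVec_apply, Pi.single_apply]
    rw [this]
    exact N.sum_mem fun j _ => hm j _
  · convert h m hm (Matrix.vecMulVec (Pi.single j 1) w) using 1
    ext i k; simp [Matrix.mul_apply, Matrix.vecMulVec_apply, Pi.single_apply]

end cols

variable (F : Type*) [Field F]

/-- the quotient ring -/
abbrev Sr (r : ℕ) : Type _ := 𝓞 F ⧸ Ideal.span {(r : 𝓞 F)}

def pre : 𝓞 F ≃+* intR F := RingEquiv.ofBijective (algebraMap (𝓞 F) F).rangeRestrict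
  ⟨fun _ _ h => RingOfIntegers.coe_injective (congrArg (fun x : intR F => x.1) h),
    RingHom.rangeRestrict_surjective _⟩

/-- reduction of integers -/
def red (r : ℕ) : intR F →+* Sr F r := (Ideal.Quotient.mk _).comp (pre F).symm.toRingHom

theorem red_surj (r : ℕ) : Surjective (red F r) :=
  Ideal.Quotient.mk_surjective.comp (pre F).symm.surjective

theorem red_eq_zero (r : ℕ) (x : intR F) : red F r x = 0 ↔ ∃ y, x = r • y := by
  obtain ⟨x, rfl⟩ := (pre F).surjective x
  have : red F r (pre F x) = Ideal.Quotient.mk _ x := by simp [red]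
  rw [this, Ideal.Quotient.eq_zero_iff_mem, Ideal.mem_span_singleton, (pre F).surjective.exists]
  simp only [← map_nsmul, EmbeddingLike.apply_eq_iff_eq]
  simp only [nsmul_eq_mul]
  rfl

/-- reduction of integer vectors -/
def redV (n r : ℕ) : std (intR F) n →+ (Fin n → Sr F r) :=
  AddMonoidHom.mk' (fun v i => red F r ⟨v.1 i, v.2 i trivial⟩) fun _ _ =>
    funext fun _ => map_add (red F r) ⟨_, _⟩ ⟨_, _⟩

theorem qtV [CharZero F] (n : ℕ) {r : ℕ} (hr : 0 < r) : Qt r (redV F n r) := by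
  refine ⟨bij hr, fun m => ?_, fun x => ⟨fun h => ?_, ?_⟩⟩
  · choose y hy using fun i => red_surj F r (m i)
    exact ⟨⟨fun i => y i, fun i _ => (y i).2⟩, funext hy⟩
  · choose y hy using fun i => (red_eq_zero F r _).1 (congrFun h i)
    exact ⟨⟨fun i => y i, fun i _ => (y i).2⟩,
      Subtype.ext (funext fun i => congrArg Subtype.val (hy i))⟩
  · rintro ⟨y, rfl⟩
    exact funext fun i => (red_eq_zero F r _).2 ⟨⟨y.1 i, y.2 i trivial⟩, rfl⟩

theorem redV_smul {n r : ℕ} {x : Fin n → F} (hx : r • x ∈ std (intR F) n) (o : intR F) :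
    ∃ h : r • (o.1 • x) ∈ std (intR F) n,
      redV F n r ⟨_, h⟩ = red F r o • redV F n r ⟨_, hx⟩ := by
  refine ⟨fun i _ => ?_, funext fun i => ?_⟩
  · rw [smul_comm]; exact (intR F).mul_mem o.2 (hx i trivial)
  · refine Eq.trans ?_ (map_mul (red F r) o ⟨_, hx i trivial⟩)
    exact congrArg (red F r) (Subtype.ext (congrFun (smul_comm r o.1 x) i))

end Mor33

open Mor33

universe u v

theorem morStmt : MorStmt.{u, v} := by
  intro F _ _ D _ _ O n hn hM s
  choose ρ hρ hk using fun r : ℕ+ => hM r r.2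
  have fin : ∀ r : ℕ+, Finite (Sr F r) := fun r => Ideal.finiteQuotientOfFreeOfNeBot _
    (by rw [Ne, Ideal.span_singleton_eq_bot]; exact_mod_cast r.2.ne')
  have qD : ∀ r : ℕ+, Qt (L := O.toAddSubgroup) r (ρ r).toAddMonoidHom :=
    fun r => ⟨bij r.2, hρ r, hk r⟩
  have qV : ∀ r : ℕ+, Qt r (redV F n r) := fun r => qtV F n r.2
  have mulD : ∀ (r : ℕ+) (x : D) (hx : (r : ℕ) • x ∈ O) (o : O),
      ∃ h : (r : ℕ) • (x * o) ∈ O, ρ r ⟨_, h⟩ = ρ r ⟨_, hx⟩ * ρ r o := fun r x hx o =>
    ⟨by rw [← smul_mul_assoc]; exact O.mul_mem hx o.2, by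
      rw [← map_mul]; congr 1; exact Subtype.ext (smul_mul_assoc _ _ _).symm⟩
  let p : ∀ r : ℕ+, Submodule (Sr F r) (Fin n → Sr F r) → Sup O := fun r U =>
    ⟨lift r (L := O.toAddSubgroup) (ρ r).toAddMonoidHom (cols U), (qD r).le _, fun x hx o ho => by
      obtain ⟨h1, h2⟩ := mem_lift.1 hx
      obtain ⟨h3, h4⟩ := mulD r x h1 ⟨o, ho⟩
      exact mem_lift.2 ⟨h3, (h4 ▸ cols_mul h2 _ : ρ r ⟨_, h3⟩ ∈ cols U)⟩,
      by rw [(qD r).idx]; exact Nat.card_pos.ne'⟩
  let q : ∀ r : ℕ+, Submodule (Sr F r) (Fin n → Sr F r) → SupV (intR F) n := fun r U =>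
    ⟨lift r (redV F n r) U.toAddSubgroup, (qV r).le _, fun x hx o ho => by
      obtain ⟨h1, h2⟩ := mem_lift.1 hx
      obtain ⟨h3, h4⟩ := redV_smul F h1 ⟨o, ho⟩
      exact mem_lift.2 ⟨h3, h4 ▸ U.smul_mem _ h2⟩,
      by rw [(qV r).idx]; exact Nat.card_pos.ne'⟩
  rw [zeta, zetaV, tsum_eq_iSup _ p
      (fun r U U' e => cols_inj hn ((qD r).inj (congrArg Subtype.val e))) fun T => ?_,
    tsum_eq_iSup _ q (fun r U U' e => Submodule.toAddSubgroup_injective
      ((qV r).inj (congrArg Subtype.val e))) fun T => ?_]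
  · refine iSup_congr fun r => tsum_congr fun U => ?_
    simp only [p, q, (qD r).idx, (qV r).idx, card_cols]
    rw [Nat.cast_pow, ← Real.rpow_natCast, ← Real.rpow_mul (Nat.cast_nonneg _), mul_neg]
    rfl
  · obtain ⟨r, hr⟩ := cover (std (intR F) n) (fun I hI => hI.2.2) T
    refine ⟨r, fun I hI => ?_⟩
    obtain ⟨N, hN⟩ := (qV r).exists I.2.1 (hr I hI)
    refine ⟨⟨N.toAddSubmonoid, fun c m hm => ?_⟩, Subtype.ext hN⟩
    obtain ⟨x, hx, rfl⟩ := (qV r).pre m
    obtain ⟨o, rfl⟩ := red_surj F r c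
    obtain ⟨h3, h4⟩ := redV_smul F hx o
    have := I.2.2.1 x (hN ▸ mem_lift.2 ⟨hx, hm⟩) o o.2
    rw [← hN] at this
    exact h4 ▸ (mem_lift.1 this).2
  · obtain ⟨r, hr⟩ := cover O.toAddSubgroup (fun I hI => hI.2.2) T
    refine ⟨r, fun I hI => ?_⟩
    obtain ⟨N, hN⟩ := (qD r).exists I.2.1 (hr I hI)
    obtain ⟨U, hU⟩ := exists_cols (N := N) fun m hm a => by
      obtain ⟨x, hx, rfl⟩ := (qD r).pre m
      obtain ⟨o, rfl⟩ := hρ r a
      obtain ⟨h3, h4⟩ := mulD r x hx o
      have := I.2.2.1 x (hN ▸ mem_lift.2 ⟨hx, hm⟩) o o.2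
      rw [← hN] at this
      exact (h4 ▸ (mem_lift.1 this).2 : ρ r ⟨_, hx⟩ * ρ r o ∈ N)
    exact ⟨U, Subtype.ext (by simp only [p, hU, hN])⟩

end Crest.Agent.T24.Ab
end
end

-- ▼ part T24/AbMax_98
section

/-!
# Row 24 (helper98): MAX, an order that is a matrix ring modulo every integer

`MaxStmt` needs centrality (`D = ℚ(√13, √17)`, `n = 2`); `MaxCStmt` is the corrected form.
-/

set_option autoImplicit false

noncomputable section

namespace Crest.Agent.T24.Ab

open NumberField IsDedekindDomain Module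

universe u v

/-- MAX, with centrality -/
def MaxCStmt : Prop :=
  ∀ (F : Type u) [Field F] [NumberField F] (D : Type v) [DivisionRing D] [CharZero D] [Algebra F D]
    [Algebra.IsCentral F D] (n : ℕ), 0 < n → finrank F D = n ^ 2 →
    (∀ w : HeightOneSpectrum (𝓞 F),
      Nonempty (D →ₐ[F] Matrix (Fin n) (Fin n) (w.adicCompletion F))) →
    ∃ (O : Subring D) (N : ℕ) (b : Basis (Fin N) ℚ D),
      O.toAddSubgroup = AddSubgroup.closure (Set.range b) ∧ MatMod F O n

namespace Max98

section LI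

variable {F E D A : Type*} [Field F] [Field E] [Algebra F E] [DivisionRing D] [Algebra F D]
  [Algebra.IsCentral F D] [Ring A] [Nontrivial A] [Algebra E A] [Algebra F A]
  [IsScalarTower F E A]

theorem key (φ : D →ₐ[F] A) {κ : Type*} (lam : κ → E) (hl : LinearIndependent F lam)
    (s : Finset κ) : ∀ d : κ → D, ∑ k ∈ s, lam k • φ (d k) = 0 → ∀ k ∈ s, d k = 0 := by
  classical
  induction s using Finset.strongInduction with
  | H s ih =>
    intro d hd k₀ hk₀
    by_contra h0
    have hd' : ∑ k ∈ s, lam k • φ (d k * (d k₀)⁻¹) = 0 := by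
      have := congrArg (· * φ (d k₀)⁻¹) hd
      simpa [Finset.sum_mul, map_mul] using this
    have hc : ∀ k ∈ s, ∃ c : F, d k * (d k₀)⁻¹ = algebraMap F D c := by
      intro k hk
      rw [← Algebra.IsCentral.mem_center_iff F, Subalgebra.mem_center_iff]
      intro y
      by_cases hkk : k = k₀
      · subst hkk
        rw [mul_inv_cancel₀ h0, mul_one, one_mul]
      have h1 : ∑ k ∈ s, lam k • φ (y * (d k * (d k₀)⁻¹) - d k * (d k₀)⁻¹ * y) = 0 := by
        have e1 := congrArg (φ y * ·) hd'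
        have e2 := congrArg (· * φ y) hd'
        simp only [Finset.mul_sum, Finset.sum_mul, mul_smul_comm, smul_mul_assoc, mul_zero,
          zero_mul] at e1 e2
        simp only [map_sub, smul_sub, Finset.sum_sub_distrib, map_mul φ y,
          map_mul φ (_ * _) y, e1, e2, sub_zero]
      rw [← Finset.add_sum_erase s _ hk₀, mul_inv_cancel₀ h0, mul_one, one_mul, sub_self,
        map_zero, smul_zero, zero_add] at h1
      exact sub_eq_zero.1 (ih _ (Finset.erase_ssubset hk₀) _ h1 k (Finset.mem_erase.2 ⟨hkk, hk⟩))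
    choose! c hc using hc
    have h2 : ∑ k ∈ s, c k • lam k = 0 := by
      apply (algebraMap E A).injective
      rw [map_zero, ← hd', map_sum]
      refine Finset.sum_congr rfl fun k hk => ?_
      rw [hc k hk, AlgHom.commutes, Algebra.smul_def, Algebra.smul_def, map_mul,
        ← IsScalarTower.algebraMap_apply, IsScalarTower.algebraMap_apply F E A, ← map_mul,
        ← map_mul, mul_comm]
    have h3 := linearIndependent_iff'.1 hl s c h2 k₀ hk₀
    have h4 := hc k₀ hk₀
    rw [mul_inv_cancel₀ h0, h3, map_zero] at h4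
    exact one_ne_zero h4

/-- `F`-independent families of a central division algebra stay independent over `E` -/
theorem li (φ : D →ₐ[F] A) {ι : Type*} (d : ι → D) (hd : LinearIndependent F d) :
    LinearIndependent E fun i => φ (d i) := by
  classical
  rw [linearIndependent_iff']
  intro s g hg i hi
  let B := Basis.ofVectorSpace F E
  let t := s.biUnion fun i => (B.repr (g i)).support
  have hgt : ∀ i ∈ s, g i = ∑ k ∈ t, B.repr (g i) k • B k := by
    intro i hi
    conv_lhs => rw [← B.linearCombination_repr (g i), Finsupp.linearCombination_apply]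
    exact Finsupp.sum_of_support_subset _ (Finset.subset_biUnion_of_mem
      (fun i => (B.repr (g i)).support) hi) _ fun k _ => zero_smul _ _
  have h1 : ∑ k ∈ t, B k • φ (∑ i ∈ s, B.repr (g i) k • d i) = 0 := by
    rw [← hg]
    simp only [map_sum, Finset.smul_sum, map_smul]
    rw [Finset.sum_comm]
    refine Finset.sum_congr rfl fun i hi => ?_
    conv_rhs => rw [hgt i hi, Finset.sum_smul]
    refine Finset.sum_congr rfl fun k _ => ?_
    rw [smul_assoc, smul_comm]
  have h2 := key φ B B.linearIndependent t _ h1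
  rw [hgt i hi]
  refine Finset.sum_eq_zero fun k hk => ?_
  rw [linearIndependent_iff'.1 hd s _ (h2 k hk) i hi, zero_smul]

end LI

/-- conjugation that makes the left order of a lattice integral -/
theorem conj {R K F D : Type*} [CommRing R] [IsDomain R] [IsPrincipalIdealRing R] [Field K]
    [Algebra R K] [IsFractionRing R K] [Field F] [Algebra F K] [Ring D] [Algebra F D] {n : ℕ}
    (φ : D →ₐ[F] Matrix (Fin n) (Fin n) K) {ι : Type*} [Finite ι] (b : ι → D)
    (hb : (1 : D) ∈ Submodule.span F (Set.range b)) :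
    ∃ ψ : D →ₐ[F] Matrix (Fin n) (Fin n) K, ∀ x : D,
      (∀ i, x * b i ∈ Submodule.span ℤ (Set.range b)) →
        ∀ i j, ψ x i j ∈ Set.range (algebraMap R K) := by
  classical
  let Λ : Submodule R (Fin n → K) :=
    Submodule.span R (Set.range fun p : ι × Fin n => (φ (b p.1)).mulVec (Pi.single p.2 1))
  have hsp : Submodule.span K (Λ : Set (Fin n → K)) = ⊤ := by
    have h1 : ∀ y ∈ Submodule.span F (Set.range b), ∀ j,
        (φ y).mulVec (Pi.single j 1) ∈ Submodule.span K (Λ : Set (Fin n → K)) := by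
      intro y hy j
      induction hy using Submodule.span_induction with
      | mem y hy =>
        obtain ⟨i, rfl⟩ := hy
        exact Submodule.subset_span (Submodule.subset_span ⟨(i, j), rfl⟩)
      | zero => rw [map_zero, Matrix.zero_mulVec]; exact zero_mem _
      | add y z _ _ hy hz => rw [map_add, Matrix.add_mulVec]; exact add_mem hy hz
      | smul c y _ hy =>
        rw [map_smul, Matrix.smul_mulVec, ← algebraMap_smul K c]
        exact Submodule.smul_mem _ _ hy
    rw [eq_top_iff, ← (Pi.basisFun K (Fin n)).span_eq, Submodule.span_le]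
    rintro _ ⟨j, rfl⟩
    have := h1 1 hb j
    rw [map_one, Matrix.one_mulVec] at this
    simpa using this
  have : Submodule.IsLattice K Λ := ⟨Submodule.fg_span (Set.finite_range _), hsp⟩
  let B : Basis (Fin n) R Λ := Module.finBasisOfFinrankEq R Λ
    (by rw [Submodule.IsLattice.finrank_of_pi K Λ, Fintype.card_fin])
  let B' : Basis (Fin n) K (Fin n → K) := B.extendOfIsLattice K
  have hB : Submodule.span R (Set.range B') = Λ := by
    have : Set.range B' = Λ.subtype '' Set.range B := by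
      rw [← Set.range_comp]
      congr 1
      funext k
      simp [B']
    rw [this, ← Submodule.map_span, B.span_eq, Submodule.map_subtype_top]
  refine ⟨(((LinearMap.toMatrixAlgEquiv B').restrictScalars F).toAlgHom.comp
    ((Matrix.toLinAlgEquiv' (R := K) (n := Fin n)).restrictScalars F).toAlgHom).comp φ,
    fun x hx i j => ?_⟩
  have h1 : ∀ y ∈ Submodule.span ℤ (Set.range b), ∀ j, (φ y).mulVec (Pi.single j 1) ∈ Λ := by
    intro y hy j
    induction hy using Submodule.span_induction with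
    | mem y hy =>
      obtain ⟨i, rfl⟩ := hy
      exact Submodule.subset_span ⟨(i, j), rfl⟩
    | zero => rw [map_zero, Matrix.zero_mulVec]; exact zero_mem _
    | add y z _ _ hy hz => rw [map_add, Matrix.add_mulVec]; exact add_mem hy hz
    | smul c y _ hy =>
      rw [map_zsmul, Matrix.smul_mulVec]
      exact zsmul_mem hy c
  have h2 : ∀ z ∈ Λ, (φ x).mulVec z ∈ Λ := by
    intro z hz
    induction hz using Submodule.span_induction with
    | mem y hy =>
      obtain ⟨p, rfl⟩ := hy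
      rw [Matrix.mulVec_mulVec, ← map_mul]
      exact h1 _ (hx p.1) p.2
    | zero => simp
    | add y z _ _ hy hz => rw [Matrix.mulVec_add]; exact add_mem hy hz
    | smul c y _ hy =>
      rw [Matrix.mulVec_smul]
      exact Submodule.smul_mem _ _ hy
  have h3 : (φ x).mulVec (B' j) ∈ Submodule.span R (Set.range B') := by
    rw [hB]
    exact h2 _ (hB ▸ Submodule.subset_span ⟨j, rfl⟩)
  have h4 := (B'.mem_span_iff_repr_mem R _).1 h3 i
  simpa [LinearMap.toMatrixAlgEquiv_apply, Matrix.toLinAlgEquiv'_apply] using h4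

/-- the trace of the left multiplication is integral -/
theorem trace_mem {F K D : Type*} [Field F] [Field K] [Algebra F K] [DivisionRing D] [Algebra F D]
    [Algebra.IsCentral F D] {n : ℕ} (hn : 0 < n) (hD : finrank F D = n ^ 2)
    (ψ : D →ₐ[F] Matrix (Fin n) (Fin n) K) (S : Subring K) (x : D) (hx : ∀ i j, ψ x i j ∈ S) :
    algebraMap F K (LinearMap.trace F D (LinearMap.mulLeft F x)) ∈ S := by
  classical
  have : Nonempty (Fin n) := ⟨⟨0, hn⟩⟩
  have : FiniteDimensional F D := Module.finite_of_finrank_pos (by rw [hD]; positivity)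
  let e := Module.finBasisOfFinrankEq F D hD
  let e' : Basis (Fin (n ^ 2)) K (Matrix (Fin n) (Fin n) K) :=
    basisOfLinearIndependentOfCardEqFinrank' (fun a => ψ (e a)) (li ψ e e.linearIndependent)
      (by simp [Module.finrank_matrix, sq])
  have he' : ∀ a, e' a = ψ (e a) := fun a => by simp [e']
  have hr : ∀ y a, e'.repr (ψ y) a = algebraMap F K (e.repr y a) := by
    intro y a
    have : ψ y = ∑ a, algebraMap F K (e.repr y a) • e' a := by
      conv_lhs => rw [← e.sum_repr y, map_sum]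
      refine Finset.sum_congr rfl fun a _ => ?_
      rw [map_smul, he', algebraMap_smul]
    rw [this, e'.repr_sum_self]
  have h1 : algebraMap F K (LinearMap.trace F D (LinearMap.mulLeft F x)) =
      LinearMap.trace K _ (LinearMap.mulLeft K (ψ x)) := by
    rw [LinearMap.trace_eq_matrix_trace F e, LinearMap.trace_eq_matrix_trace K e', Matrix.trace,
      Matrix.trace, map_sum]
    refine Finset.sum_congr rfl fun a _ => ?_
    simp only [Matrix.diag_apply, LinearMap.toMatrix_apply, LinearMap.mulLeft_apply]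
    rw [he', ← map_mul, hr]
  rw [h1, LinearMap.trace_eq_matrix_trace K (Matrix.stdBasis K (Fin n) (Fin n)), Matrix.trace]
  refine sum_mem fun p _ => ?_
  obtain ⟨i, j⟩ := p
  simp only [Matrix.diag_apply, LinearMap.toMatrix_apply, LinearMap.mulLeft_apply]
  have hrepr : ∀ M : Matrix (Fin n) (Fin n) K,
      (Matrix.stdBasis K (Fin n) (Fin n)).repr M (i, j) = M i j := by
    intro M
    have : M = ∑ p : Fin n × Fin n, M p.1 p.2 • Matrix.stdBasis K (Fin n) (Fin n) p := by
      conv_lhs => rw [Matrix.matrix_eq_sum_single M]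
      rw [Fintype.sum_prod_type]
      refine Finset.sum_congr rfl fun a _ => Finset.sum_congr rfl fun c _ => ?_
      rw [Matrix.stdBasis_eq_single, Matrix.smul_single, smul_eq_mul, mul_one]
    conv_lhs => rw [this, Basis.repr_sum_self]
  rw [hrepr, Matrix.stdBasis_eq_single, Matrix.mul_single_apply_same, mul_one]
  exact hx i i

section Adelic

variable (F : Type*) [Field F] [NumberField F]

/-- the profinite integers -/
abbrev Oh : Type _ := ∀ w : HeightOneSpectrum (𝓞 F), w.adicCompletionIntegers F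

/-- the diagonal embedding -/
def dg : 𝓞 F →+* Oh F := RingHom.pi fun w => algebraMap (𝓞 F) (w.adicCompletionIntegers F)

variable {F}

theorem val_dg (a : 𝓞 F) (w : HeightOneSpectrum (𝓞 F)) :
    Valued.v ((dg F a w : w.adicCompletionIntegers F) : w.adicCompletion F) =
      w.intValuation a := by
  rw [← w.valuation_of_algebraMap (K := F)]
  exact w.valuedAdicCompletion_eq_valuation' _

theorem dvd_iff (a z : Oh F) : a ∣ z ↔ ∀ w, Valued.v (z w : w.adicCompletion F) ≤
    Valued.v (a w : w.adicCompletion F) := by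
  rw [pi_dvd_iff]
  exact forall_congr' fun w =>
    (HeightOneSpectrum.adicCompletionIntegers.integers F w).dvd_iff_le

theorem dvd_of_dg {r a : 𝓞 F} (hr : r ≠ 0) (h : dg F r ∣ dg F a) : r ∣ a := by
  rw [dvd_iff] at h
  have hr' : algebraMap (𝓞 F) F r ≠ 0 := by simpa using hr
  obtain ⟨c, hc⟩ := HeightOneSpectrum.mem_integers_of_valuation_le_one (R := 𝓞 F) F
    (algebraMap (𝓞 F) F a / algebraMap (𝓞 F) F r) fun w => by
      have := h w
      rw [val_dg, val_dg] at this
      rw [map_div₀, w.valuation_of_algebraMap, w.valuation_of_algebraMap]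
      exact div_le_one_of_le₀ this zero_le
  refine ⟨c, IsFractionRing.injective (𝓞 F) F ?_⟩
  rw [map_mul, hc, mul_div_cancel₀ _ hr']

theorem approx_one (w : HeightOneSpectrum (𝓞 F)) {r : 𝓞 F} (hr : r ≠ 0)
    (y : w.adicCompletionIntegers F) : ∃ a : 𝓞 F,
      Valued.v ((y : w.adicCompletion F) - (dg F a w : w.adicCompletion F)) ≤
        w.intValuation r := by
  have hv : w.intValuation r ≠ 0 := w.intValuation_ne_zero r hr
  have hr0 : ((dg F r w : w.adicCompletionIntegers F) : w.adicCompletion F) ≠ 0 := by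
    intro h
    rw [← val_dg, h, map_zero] at hv
    exact hv rfl
  have hop : IsOpen ((fun z : w.adicCompletion F => ((y : w.adicCompletion F) - z) /
      (dg F r w : w.adicCompletion F)) ⁻¹' (w.adicCompletionIntegers F : Set _)) :=
    (Valued.isOpen_valuationSubring _).preimage (by fun_prop)
  obtain ⟨x, hx⟩ := (w.denseRange_algebraMap F).exists_mem_open hop ⟨y, by simp⟩
  have hx1 : Valued.v ((y : w.adicCompletion F) - algebraMap F _ x) ≤ w.intValuation r := by
    have : Valued.v (((y : w.adicCompletion F) - algebraMap F _ x) /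
      (dg F r w : w.adicCompletion F)) ≤ 1 := hx
    rwa [map_div₀, val_dg, div_le_one₀ (zero_lt_iff.2 hv)] at this
  have hxv : Valued.v (algebraMap F (w.adicCompletion F) x) = w.valuation F x :=
    w.valuedAdicCompletion_eq_valuation' x
  have hx2 : w.valuation F x ≤ 1 := by
    rw [← hxv, ← sub_sub_cancel (y : w.adicCompletion F) (algebraMap F _ x)]
    exact Valuation.map_sub_le _ y.2 (hx1.trans (w.intValuation_le_one r))
  obtain ⟨a, ha⟩ := w.exists_valuation_sub_lt_of_integer hx2 (Units.mk0 _ hv)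
  refine ⟨a, ?_⟩
  have ha' : Valued.v ((dg F a w : w.adicCompletion F) - algebraMap F _ x) ≤ w.intValuation r := by
    have : (dg F a w : w.adicCompletion F) - algebraMap F _ x =
        algebraMap F (w.adicCompletion F) (algebraMap (𝓞 F) F a - x) := by
      rw [map_sub]; rfl
    rw [this]
    exact (w.valuedAdicCompletion_eq_valuation' _).trans_le ha.le
  rw [← sub_sub_sub_cancel_right _ _ (algebraMap F (w.adicCompletion F) x)]
  exact Valuation.map_sub_le _ hx1 ha'

theorem approx {r : 𝓞 F} (hr : r ≠ 0) (y : Oh F) : ∃ a : 𝓞 F, dg F r ∣ y - dg F a := by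
  classical
  choose a ha using fun w => approx_one w hr (y w)
  choose k hk using fun w : HeightOneSpectrum (𝓞 F) =>
    WithZero.exists_exp_neg_natCast_lt (w.intValuation_ne_zero r hr)
  have hfin := Ideal.finite_factors (I := Ideal.span {r}) (by simpa using hr)
  obtain ⟨z, hz⟩ := IsDedekindDomain.exists_forall_sub_mem_ideal (s := hfin.toFinset)
    (fun w => w.asIdeal) k (fun w _ => w.prime)
    (fun i _ j _ hij h => hij (HeightOneSpectrum.ext h)) (fun w => a w.1)
  refine ⟨z, (dvd_iff _ _).2 fun w => ?_⟩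
  rw [val_dg]
  by_cases hw : w ∈ hfin.toFinset
  · have h1 := (w.intValuation_le_pow_iff_mem _ _).2 (hz w hw)
    have h2 : Valued.v ((dg F z w : w.adicCompletion F) - (dg F (a w) w : w.adicCompletion F)) ≤
        w.intValuation r := by
      have := val_dg (z - a w) w
      rw [map_sub] at this
      exact this.trans_le (h1.trans (hk w).le)
    have h3 : ((y - dg F z) w : w.adicCompletion F) =
        (y w - dg F (a w) w : w.adicCompletion F) - (dg F z w - dg F (a w) w) := by
      rw [sub_sub_sub_cancel_right]; rfl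
    rw [h3]
    exact Valuation.map_sub_le _ (ha w) h2
  · have h1 : w.intValuation r = 1 := by
      rw [HeightOneSpectrum.intValuation_eq_one_iff]
      intro h
      exact hw (by simpa [Ideal.dvd_span_singleton] using h)
    rw [h1]
    exact ((y - dg F z) w).2

theorem exists_red {r : 𝓞 F} (hr : r ≠ 0) :
    ∃ π : Oh F →+* 𝓞 F ⧸ Ideal.span {r}, ∀ y, π y = 0 ↔ dg F r ∣ y := by
  have hle : Ideal.span {r} ≤ (Ideal.span {dg F r}).comap (dg F) := by
    rw [Ideal.span_le, Set.singleton_subset_iff]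
    exact Ideal.mem_span_singleton_self _
  have hb : Function.Bijective (Ideal.quotientMap (Ideal.span {dg F r}) (dg F) hle) := by
    refine ⟨Ideal.quotientMap_injective' fun a ha => ?_, fun y => ?_⟩
    · rw [Ideal.mem_comap, Ideal.mem_span_singleton] at ha
      exact Ideal.mem_span_singleton.2 (dvd_of_dg hr ha)
    · obtain ⟨y, rfl⟩ := Ideal.Quotient.mk_surjective y
      obtain ⟨a, ha⟩ := approx hr y
      refine ⟨Ideal.Quotient.mk _ a, ?_⟩
      rw [Ideal.quotientMap_mk, eq_comm, Ideal.Quotient.eq]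
      exact Ideal.mem_span_singleton.2 ha
  refine ⟨(RingEquiv.ofBijective _ hb).symm.toRingHom.comp (Ideal.Quotient.mk _), fun y => ?_⟩
  rw [RingHom.comp_apply, RingEquiv.toRingHom_eq_coe, RingHom.coe_coe, map_eq_zero_iff _
    (RingEquiv.injective _), Ideal.Quotient.eq_zero_iff_mem, Ideal.mem_span_singleton]

end Adelic

theorem exists_nsmul {D ι : Type*} [Ring D] [Algebra ℚ D] [Finite ι] (b : Basis ι ℚ D) (x : D) :
    ∃ m : ℤ, m ≠ 0 ∧ ∀ i, (m • x) * b i ∈ Submodule.span ℤ (Set.range b) := by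
  obtain ⟨m, hm⟩ := IsLocalization.exist_integer_multiples_of_finite (nonZeroDivisors ℤ)
    (fun p : ι × ι => b.repr (x * b p.1) p.2)
  refine ⟨m, nonZeroDivisors.coe_ne_zero m, fun i => (b.mem_span_iff_repr_mem ℤ _).2 fun j => ?_⟩
  obtain ⟨c, hc⟩ := hm (i, j)
  refine ⟨c, ?_⟩
  rw [hc, smul_mul_assoc, map_zsmul]
  rfl

section Main

variable {F : Type*} [Field F] [NumberField F] {D : Type*} [DivisionRing D] [Algebra F D] {n : ℕ}
  (ψ : ∀ w : HeightOneSpectrum (𝓞 F), D →ₐ[F] Matrix (Fin n) (Fin n) (w.adicCompletion F))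

/-- the elements that are integral matrices everywhere -/
def ord : Subring D where
  carrier := {x | ∀ w i j, ψ w x i j ∈ w.adicCompletionIntegers F}
  mul_mem' {x y} hx hy w i j := by
    rw [map_mul, Matrix.mul_apply]
    exact sum_mem fun k _ => mul_mem (hx w i k) (hy w k j)
  one_mem' w i j := by
    rw [map_one, Matrix.one_apply]
    split_ifs
    exacts [one_mem _, zero_mem _]
  add_mem' {x y} hx hy w i j := by
    rw [map_add, Matrix.add_apply]
    exact add_mem (hx w i j) (hy w i j)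
  zero_mem' w i j := by
    rw [map_zero, Matrix.zero_apply]
    exact zero_mem _
  neg_mem' {x} hx w i j := by
    rw [map_neg, Matrix.neg_apply]
    exact neg_mem (hx w i j)

/-- the adelic matrix of an element of the order -/
def Psi : ord ψ →+* Matrix (Fin n) (Fin n) (Oh F) where
  toFun x := Matrix.of fun i j w => ⟨ψ w x i j, x.2 w i j⟩
  map_one' := by
    refine Matrix.ext fun i j => funext fun w => Subtype.ext ?_
    simp only [Matrix.of_apply, OneMemClass.coe_one, map_one, Matrix.one_apply]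
    split_ifs <;> rfl
  map_mul' x y := by
    refine Matrix.ext fun i j => funext fun w => Subtype.ext ?_
    simp only [Matrix.of_apply, MulMemClass.coe_mul, map_mul, Matrix.mul_apply, Finset.sum_apply,
      Pi.mul_apply, AddSubmonoidClass.coe_finsetSum]
  map_zero' := by
    refine Matrix.ext fun i j => funext fun w => Subtype.ext ?_
    simp
  map_add' x y := by
    refine Matrix.ext fun i j => funext fun w => Subtype.ext ?_
    simp

theorem Psi_apply (x : ord ψ) (i j : Fin n) (w : HeightOneSpectrum (𝓞 F)) :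
    ((Psi ψ x i j w : w.adicCompletionIntegers F) : w.adicCompletion F) = ψ w x i j := rfl

theorem ker_iff {r : ℕ} (hr : 0 < r) (x : ord ψ) :
    (∀ i j, dg F r ∣ Psi ψ x i j) ↔ ∃ y : ord ψ, x = r • y := by
  have hrF : (r : F) ≠ 0 := by exact_mod_cast hr.ne'
  constructor
  · intro h
    refine ⟨⟨(r : F)⁻¹ • (x : D), fun w i j => ?_⟩, Subtype.ext ?_⟩
    · obtain ⟨c, hc⟩ := h i j
      have h1 : ψ w x i j = (r : F) • (c w : w.adicCompletion F) := by
        rw [← Psi_apply, hc, map_natCast, Nat.cast_smul_eq_nsmul, nsmul_eq_mul]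
        simp
      rw [map_smul, Matrix.smul_apply, h1, inv_smul_smul₀ hrF]
      exact (c w).2
    · change (x : D) = r • ((r : F)⁻¹ • (x : D))
      rw [← Nat.cast_smul_eq_nsmul F, smul_inv_smul₀ hrF]
  · rintro ⟨y, rfl⟩ i j
    rw [map_nsmul, Matrix.smul_apply, map_natCast, nsmul_eq_mul]
    exact dvd_mul_right _ _

variable [CharZero D] [Algebra.IsCentral F D]

theorem fg_ord (hn : 0 < n) (hD : finrank F D = n ^ 2) {ι : Type*} [Finite ι] (b : Basis ι ℚ D)
    (hb : ∀ i, b i ∈ ord ψ) : (ord ψ).toAddSubgroup.toIntSubmodule.FG := by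
  classical
  have : FiniteDimensional F D := Module.finite_of_finrank_pos (by rw [hD]; positivity)
  have : FiniteDimensional ℚ D := Module.Finite.of_basis b
  let t : D →ₗ[ℚ] ℚ := (Algebra.trace ℚ F) ∘ₗ
    ((LinearMap.trace F D ∘ₗ LinearMap.mul F D).restrictScalars ℚ)
  have ht : ∀ x, t x = Algebra.trace ℚ F (LinearMap.trace F D (LinearMap.mulLeft F x)) :=
    fun x => rfl
  have ht1 : t 1 ≠ 0 := by
    rw [ht, LinearMap.mulLeft_one, LinearMap.trace_id, hD, ← map_natCast (algebraMap ℚ F),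
      Algebra.trace_algebraMap, nsmul_eq_mul]
    have := Module.finrank_pos (R := ℚ) (M := F)
    positivity
  have htz : ∀ x ∈ ord ψ, t x ∈ Set.range (algebraMap ℤ ℚ) := by
    intro x hx
    obtain ⟨c, hc⟩ := HeightOneSpectrum.mem_integers_of_valuation_le_one (R := 𝓞 F) F
      (LinearMap.trace F D (LinearMap.mulLeft F x)) fun w => by
        rw [← w.valuedAdicCompletion_eq_valuation']
        exact trace_mem hn hD (ψ w) (w.adicCompletionIntegers F).toSubring x (hx w)
    rw [ht, ← hc]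
    exact IsIntegrallyClosed.isIntegral_iff.1 (Algebra.isIntegral_trace c.2)
  let B : LinearMap.BilinForm ℚ D := (LinearMap.mul ℚ D).compr₂ t
  have hB : B.Nondegenerate := by
    constructor
    · intro x hx
      by_contra h
      exact ht1 (by simpa [B, mul_inv_cancel₀ h] using hx x⁻¹)
    · intro x hx
      by_contra h
      exact ht1 (by simpa [B, inv_mul_cancel₀ h] using hx x⁻¹)
  refine Submodule.FG.of_le (Submodule.fg_span (Set.finite_range (B.dualBasis hB b))) ?_
  intro x hx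
  refine ((B.dualBasis hB b).mem_span_iff_repr_mem ℤ x).2 fun i => ?_
  rw [LinearMap.BilinForm.dualBasis_repr_apply]
  exact htz _ (mul_mem hx (hb i))

end Main

end Max98

open Max98 in
theorem maxCStmt : MaxCStmt.{u, v} := by
  intro F _ _ D _ _ _ _ n hn hD hφ
  classical
  have : FiniteDimensional F D := Module.finite_of_finrank_pos (by rw [hD]; positivity)
  have : FiniteDimensional ℚ D := Module.Finite.trans F D
  let b₀ := Module.finBasis ℚ D
  have hb₀ : (1 : D) ∈ Submodule.span F (Set.range b₀) :=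
    Submodule.span_le_restrictScalars ℚ F _ (b₀.mem_span 1)
  choose ψ hψ using fun w : HeightOneSpectrum (𝓞 F) =>
    conj (R := w.adicCompletionIntegers F) (hφ w).some b₀ hb₀
  have hfull : ∀ x : D, ∃ m : ℤ, m ≠ 0 ∧ m • x ∈ ord ψ := by
    intro x
    obtain ⟨m, hm, h⟩ := exists_nsmul b₀ x
    refine ⟨m, hm, fun w i j => ?_⟩
    obtain ⟨c, hc⟩ := hψ w _ h i j
    rw [← hc]
    exact c.2
  choose m hm hmO using hfull
  let b₁ : Basis _ ℚ D := b₀.isUnitSMul (w := fun i => (m (b₀ i) : ℚ)) fun i =>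
    IsUnit.mk0 _ (by exact_mod_cast hm _)
  have hb₁ : ∀ i, b₁ i ∈ ord ψ := fun i => by
    rw [Basis.isUnitSMul_apply, Int.cast_smul_eq_zsmul]
    exact hmO _
  let M : Submodule ℤ D := (ord ψ).toAddSubgroup.toIntSubmodule
  have hlat : Submodule.IsLattice ℚ M := ⟨fg_ord ψ hn hD b₁ hb₁, by
    rw [eq_top_iff, ← b₁.span_eq]
    refine Submodule.span_mono ?_
    rintro _ ⟨i, rfl⟩
    exact hb₁ i⟩
  let B := Module.finBasis ℤ M
  have hN : finrank ℤ M = finrank ℚ D := by
    rw [finrank, Submodule.IsLattice.rank' ℚ M]; rfl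
  refine ⟨ord ψ, _, B.extendOfIsLattice ℚ, ?_, fun r hr => ?_⟩
  · have : Set.range (B.extendOfIsLattice ℚ) = M.subtype '' Set.range B := by
      rw [← Set.range_comp]
      congr 1
      funext k
      simp
    rw [← Submodule.span_int_eq_addSubgroupClosure, this, ← Submodule.map_span, B.span_eq,
      Submodule.map_subtype_top]
    rfl
  obtain ⟨π, hπ⟩ := exists_red (F := F) (r := r) (by exact_mod_cast hr.ne')
  have hker : ∀ x : ord ψ, (π.mapMatrix.comp (Psi ψ)) x = 0 ↔ ∃ y : ord ψ, x = r • y := by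
    intro x
    rw [← ker_iff ψ hr, ← Matrix.ext_iff]
    exact forall₂_congr fun i j => hπ _
  refine ⟨π.mapMatrix.comp (Psi ψ), ?_, hker⟩
  let e : M ≃ₗ[ℤ] ord ψ := AddEquiv.toIntLinearEquiv
    { toFun := fun x => ⟨x.1, x.2⟩, invFun := fun x => ⟨x.1, x.2⟩, left_inv := fun _ => rfl,
      right_inv := fun _ => rfl, map_add' := fun _ _ => rfl }
  have : Module.Free ℤ (ord ψ) := Module.Free.of_equiv e
  have : Module.Finite ℤ (ord ψ) := Module.Finite.equiv e
  let f := (π.mapMatrix.comp (Psi ψ)).toAddMonoidHom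
  have h1 : f.ker = (nsmulAddMonoidHom (α := ord ψ) r).range := by
    ext x
    rw [AddMonoidHom.mem_ker, AddMonoidHom.mem_range]
    exact (hker x).trans (exists_congr fun y => eq_comm)
  have h2 : Nat.card f.range = r ^ finrank ℚ D := by
    rw [← AddSubgroup.index_ker, h1, AddSubgroup.index_range_nsmul, ← e.finrank_eq, hN]
  have h3 : Nat.card (Matrix (Fin n) (Fin n) (𝓞 F ⧸ Ideal.span {(r : 𝓞 F)})) =
      r ^ finrank ℚ D := by
    have h4 : Nat.card (𝓞 F ⧸ Ideal.span {(r : 𝓞 F)}) = r ^ finrank ℚ F := by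
      rw [← RingOfIntegers.rank, ← Ideal.absNorm_span_natCast, Ideal.absNorm_apply,
        Submodule.cardQuot_apply]
    change Nat.card (Fin n → Fin n → _) = _
    rw [Nat.card_fun, Nat.card_fun, h4, ← Module.finrank_mul_finrank ℚ F D, hD, ← pow_mul,
      ← pow_mul, Nat.card_eq_fintype_card, Fintype.card_fin, sq]
  have : Finite f.range := Nat.finite_of_card_ne_zero (by rw [h2]; positivity)
  exact AddMonoidHom.range_eq_top.1 (AddSubgroup.eq_top_of_card_eq _ (h2.trans h3.symm))

end Crest.Agent.T24.Ab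
end
end

-- ▼ part T24/AbArch_53
section

/-!
# Row 24 (helper53): the archimedean embedding of a central division algebra
-/

set_option autoImplicit false

noncomputable section

namespace Crest.Agent.T24.Ab

open NumberField Module
open scoped TensorProduct

universe u v

namespace Ar53

section LI

variable {F D E A : Type*} [Field F] [DivisionRing D] [Algebra F D] [Algebra.IsCentral F D]
  [Field E] [Algebra F E]

/-- a relation `∑ ψ(l k) φ(d k) = 0` with `F`-independent `l k` is trivial -/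
theorem indep_aux [Ring A] [Nontrivial A] (ψ : E →+* A) (φ : D →+* A)
    (hc : ∀ e d, ψ e * φ d = φ d * ψ e)
    (hF : ∀ c : F, φ (algebraMap F D c) = ψ (algebraMap F E c))
    {κ : Type*} (l : κ → E) (hl : LinearIndependent F l) (s : Finset κ) :
    ∀ d : κ → D, ∑ k ∈ s, ψ (l k) * φ (d k) = 0 → ∀ k ∈ s, d k = 0 := by
  classical
  induction s using Finset.strongInduction with
  | H s ih =>
    intro d hd a ha
    by_contra hne
    obtain ⟨d', hd'⟩ : ∃ d' : κ → D, d' = fun k => d k * (d a)⁻¹ := ⟨_, rfl⟩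
    have h1 : d' a = 1 := by rw [hd']; exact mul_inv_cancel₀ hne
    have hs : ∑ k ∈ s, ψ (l k) * φ (d' k) = 0 := by
      have : ∑ k ∈ s, ψ (l k) * φ (d' k) = (∑ k ∈ s, ψ (l k) * φ (d k)) * φ (d a)⁻¹ := by
        rw [Finset.sum_mul]
        refine Finset.sum_congr rfl fun k _ => ?_
        simp only [hd', map_mul, mul_assoc]
      rw [this, hd, zero_mul]
    have hcen : ∀ k ∈ s, ∃ c : F, d' k = algebraMap F D c := by
      intro k hk
      rw [← Algebra.IsCentral.mem_center_iff, Subalgebra.mem_center_iff]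
      intro x
      by_cases hka : k = a
      · rw [hka, h1, mul_one, one_mul]
      have h2 : ∑ k ∈ s, ψ (l k) * φ (x * d' k - d' k * x) = 0 := by
        have : ∑ k ∈ s, ψ (l k) * φ (x * d' k - d' k * x) =
            φ x * (∑ k ∈ s, ψ (l k) * φ (d' k)) - (∑ k ∈ s, ψ (l k) * φ (d' k)) * φ x := by
          rw [Finset.mul_sum, Finset.sum_mul, ← Finset.sum_sub_distrib]
          refine Finset.sum_congr rfl fun k _ => ?_
          rw [map_sub, map_mul, map_mul, mul_sub, ← mul_assoc, hc, mul_assoc, mul_assoc]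
        rw [this, hs, mul_zero, zero_mul, sub_zero]
      rw [← Finset.add_sum_erase _ _ ha, h1, mul_one, one_mul, sub_self, map_zero, mul_zero,
        zero_add] at h2
      have := ih (s.erase a) (Finset.erase_ssubset ha) (fun k => x * d' k - d' k * x) h2 k
        (Finset.mem_erase.2 ⟨hka, hk⟩)
      exact sub_eq_zero.1 this
    choose! c hcs using hcen
    have h3 : ψ (∑ k ∈ s, c k • l k) = 0 := by
      rw [← hs, map_sum]
      refine Finset.sum_congr rfl fun k hk => ?_
      rw [hcs k hk, hF, Algebra.smul_def, mul_comm, map_mul]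
    have h4 : ∑ k ∈ s, c k • l k = 0 := (map_eq_zero ψ).1 h3
    have h5 : c a = 0 := linearIndependent_iff'.1 hl s c h4 a ha
    have := hcs a ha
    rw [h1, h5, map_zero] at this
    exact one_ne_zero this

/-- every ring homomorphism from `E ⊗ D` to a nontrivial ring is injective -/
theorem inj [Ring A] [Nontrivial A] (f : E ⊗[F] D →+* A) : Function.Injective f := by
  classical
  rw [injective_iff_map_eq_zero]
  intro t ht
  let B := Basis.ofVectorSpace F E
  obtain ⟨c, rfl⟩ := TensorProduct.eq_repr_basis_left B t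
  let ψ : E →+* A := f.comp (Algebra.TensorProduct.includeLeftRingHom)
  let φ : D →+* A := f.comp (Algebra.TensorProduct.includeRight (R := F) (A := E)).toRingHom
  have hm : ∀ e d, ψ e * φ d = f (e ⊗ₜ d) := by
    intro e d
    simp [ψ, φ, ← map_mul]
  have hm' : ∀ e d, φ d * ψ e = f (e ⊗ₜ d) := by
    intro e d
    simp [ψ, φ, ← map_mul]
  have h0 := indep_aux (F := F) ψ φ (fun e d => by rw [hm, hm']) (fun c => by
    simp only [ψ, φ, RingHom.comp_apply]
    congr 1
    simp [Algebra.algebraMap_eq_smul_one, TensorProduct.smul_tmul]) B B.linearIndependent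
    c.support c (by
      rw [← ht, Finsupp.sum, map_sum]
      exact Finset.sum_congr rfl fun k _ => hm _ _)
  rw [Finsupp.sum]
  exact Finset.sum_eq_zero fun k hk => by rw [h0 k hk, TensorProduct.tmul_zero]

/-- base change of a central division algebra is simple -/
theorem simple : IsSimpleRing (E ⊗[F] D) := by
  refine IsSimpleRing.of_eq_bot_or_eq_top fun I => ?_
  rcases subsingleton_or_nontrivial I.ringCon.Quotient with h | h
  · exact Or.inr (le_antisymm le_top fun x _ => I.mem_iff _ |>.2 (Quotient.eq'.1 (h.elim x 0)))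
  · have hi := inj (F := F) (E := E) (D := D) I.ringCon.mk'
    exact Or.inl (le_antisymm
      (fun _ hx => TwoSidedIdeal.ker_eq_bot _ |>.2 hi ▸ I.ker_ringCon_mk'.symm ▸ hx) bot_le)

/-- an algebraically closed field splits `D` -/
theorem exists_split [IsAlgClosed E] (n : ℕ) (hn : 0 < n) (h : finrank F D = n ^ 2) :
    ∃ φ : D →+* Matrix (Fin n) (Fin n) E,
      ∀ c : F, φ (algebraMap F D c) = Matrix.scalar (Fin n) (algebraMap F E c) := by
  have : Module.Finite F D := Module.finite_of_finrank_pos (by rw [h]; positivity)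
  have := simple (F := F) (D := D) (E := E)
  obtain ⟨k, -, ⟨e⟩⟩ := IsSimpleRing.exists_algEquiv_matrix_of_isAlgClosed E (E ⊗[F] D)
  have hk : k = n := by
    have h1 := e.toLinearEquiv.finrank_eq
    rw [Module.finrank_baseChange, h, Module.finrank_matrix] at h1
    simp only [Fintype.card_fin, finrank_self, mul_one] at h1
    rw [sq] at h1
    exact (Nat.mul_self_inj.1 h1).symm
  subst hk
  refine ⟨e.toRingEquiv.toRingHom.comp
    (Algebra.TensorProduct.includeRight (R := F) (A := E)).toRingHom, fun c => ?_⟩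
  have : (Algebra.TensorProduct.includeRight (R := F) (A := E) (algebraMap F D c) : E ⊗[F] D) =
      algebraMap E (E ⊗[F] D) (algebraMap F E c) := by
    rw [AlgHom.commutes, IsScalarTower.algebraMap_apply F E (E ⊗[F] D)]
  simp only [RingHom.comp_apply, AlgHom.toRingHom_eq_coe, RingHom.coe_coe, this]
  exact e.commutes _

/-- the image of `D` spans the matrix algebra -/
theorem span_top (n : ℕ) (hn : 0 < n) (h : finrank F D = n ^ 2)
    (φ : D →+* Matrix (Fin n) (Fin n) E)
    (hφ : ∀ c : F, φ (algebraMap F D c) = Matrix.scalar (Fin n) (algebraMap F E c)) :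
    Submodule.span E (Set.range φ) = ⊤ := by
  have : Module.Finite F D := Module.finite_of_finrank_pos (by rw [h]; positivity)
  have : Nonempty (Fin n) := ⟨⟨0, hn⟩⟩
  let φ' : D →ₐ[F] Matrix (Fin n) (Fin n) E :=
    { toRingHom := φ
      commutes' := fun c => by
        change φ (algebraMap F D c) = _
        rw [hφ, IsScalarTower.algebraMap_apply F E (Matrix (Fin n) (Fin n) E)]
        rfl }
  let Φ : E ⊗[F] D →ₐ[E] Matrix (Fin n) (Fin n) E :=
    Algebra.TensorProduct.lift (Algebra.ofId E _) φ' fun e d => Algebra.commutes e _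
  have hi : Function.Injective Φ.toLinearMap := inj (F := F) (E := E) (D := D) Φ.toRingHom
  have hs : Function.Surjective Φ.toLinearMap :=
    (LinearMap.injective_iff_surjective_of_finrank_eq_finrank (by
      rw [Module.finrank_baseChange, h, Module.finrank_matrix]
      simp [sq])).1 hi
  rw [eq_top_iff]
  intro M _
  obtain ⟨t, rfl⟩ := hs M
  induction t using TensorProduct.induction_on with
  | zero => simp
  | tmul e d =>
    have : Φ.toLinearMap (e ⊗ₜ d) = e • φ d := by
      rw [Algebra.smul_def]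
      exact Algebra.TensorProduct.lift_tmul (Algebra.ofId E _) φ'
        (fun e _ => Algebra.commutes e _) e d
    rw [this]
    exact Submodule.smul_mem _ _ (Submodule.subset_span ⟨d, rfl⟩)
  | add x y hx hy =>
    rw [map_add]
    exact Submodule.add_mem _ (hx trivial) (hy trivial)

end LI

section Glue

variable {W₁ W₂ : Type*} {n : ℕ}

/-- scalar matrices at all places -/
def sc (W₁ W₂ : Type*) (n : ℕ) : ((W₁ → ℝ) × (W₂ → ℂ)) →ₗ[ℝ] AA W₁ W₂ n where
  toFun x := (fun w => Matrix.scalar (Fin n) (x.1 w), fun w => Matrix.scalar (Fin n) (x.2 w))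
  map_add' x y := by
    ext w i j <;> simp [Matrix.diagonal_apply] <;> split_ifs <;> simp
  map_smul' c x := by
    ext w i j <;> simp [Matrix.diagonal_apply]

/-- a subalgebra that contains the scalars and enough elements at each place is everything -/
theorem glue [Fintype W₁] [Fintype W₂] (S : Subalgebra ℝ (AA W₁ W₂ n))
    (hsc : ∀ x, sc W₁ W₂ n x ∈ S) {D : Type*} (j : D → AA W₁ W₂ n) (hj : ∀ d, j d ∈ S)
    (h1 : ∀ w, Submodule.span ℝ (Set.range fun d => (j d).1 w) = ⊤)
    (h2 : ∀ w, Submodule.span ℂ (Set.range fun d => (j d).2 w) = ⊤) (a : AA W₁ W₂ n) :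
    a ∈ S := by
  classical
  have e1 : ∀ (w : W₁) (c : ℝ) (y : AA W₁ W₂ n),
      sc W₁ W₂ n (Pi.single w c, 0) * y = (Pi.single w (c • y.1 w), 0) := by
    intro w c y
    refine Prod.ext (funext fun v => ?_) (funext fun v => ?_)
    · by_cases hv : v = w
      · subst hv
        simp [sc, Matrix.smul_eq_diagonal_mul]
      · simp [sc, hv]
    · simp [sc]
  have e2 : ∀ (w : W₂) (c : ℂ) (y : AA W₁ W₂ n),
      sc W₁ W₂ n (0, Pi.single w c) * y = (0, Pi.single w (c • y.2 w)) := by
    intro w c y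
    refine Prod.ext (funext fun v => ?_) (funext fun v => ?_)
    · simp [sc]
    · by_cases hv : v = w
      · subst hv
        simp [sc, Matrix.smul_eq_diagonal_mul]
      · simp [sc, hv]
  have k1 : ∀ (w : W₁) (M : Matrix (Fin n) (Fin n) ℝ),
      ((Pi.single w M, 0) : AA W₁ W₂ n) ∈ S := by
    intro w M
    have hM : M ∈ Submodule.span ℝ (Set.range fun d => (j d).1 w) := by rw [h1 w]; trivial
    induction hM using Submodule.span_induction with
    | mem x hx =>
      obtain ⟨d, rfl⟩ := hx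
      have := S.mul_mem (hsc (Pi.single w 1, 0)) (hj d)
      rwa [e1, one_smul] at this
    | zero => rw [Pi.single_zero]; exact S.zero_mem
    | add x y _ _ hx hy =>
      have := S.add_mem hx hy
      rwa [Prod.mk_add_mk, add_zero, ← Pi.single_add] at this
    | smul c x _ hx =>
      have := S.mul_mem (hsc (Pi.single w c, 0)) hx
      rw [e1] at this
      simpa only [Pi.single_eq_same] using this
  have k2 : ∀ (w : W₂) (M : Matrix (Fin n) (Fin n) ℂ),
      ((0, Pi.single w M) : AA W₁ W₂ n) ∈ S := by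
    intro w M
    have hM : M ∈ Submodule.span ℂ (Set.range fun d => (j d).2 w) := by rw [h2 w]; trivial
    induction hM using Submodule.span_induction with
    | mem x hx =>
      obtain ⟨d, rfl⟩ := hx
      have := S.mul_mem (hsc (0, Pi.single w 1)) (hj d)
      rwa [e2, one_smul] at this
    | zero => rw [Pi.single_zero]; exact S.zero_mem
    | add x y _ _ hx hy =>
      have := S.add_mem hx hy
      rwa [Prod.mk_add_mk, add_zero, ← Pi.single_add] at this
    | smul c x _ hx =>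
      have := S.mul_mem (hsc (0, Pi.single w c)) hx
      rw [e2] at this
      simpa only [Pi.single_eq_same] using this
  have : a = ∑ w, ((Pi.single w (a.1 w), 0) : AA W₁ W₂ n) +
      ∑ w, ((0, Pi.single w (a.2 w)) : AA W₁ W₂ n) := by
    refine Prod.ext ?_ ?_
    · simp [Prod.fst_sum, Finset.univ_sum_single]
    · simp [Prod.snd_sum, Finset.univ_sum_single]
  rw [this]
  exact S.add_mem (S.sum_mem fun w _ => k1 w _) (S.sum_mem fun w _ => k2 w _)

end Glue

end Ar53

open Ar53 in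
/-- ARCH -/
theorem archStmt : ArchStmt.{u, v} := by
  intro F _ _ D _ _ _ _ n hn h hσ
  classical
  have hC : ∀ σ : F →+* ℂ, ∃ φ : D →+* Matrix (Fin n) (Fin n) ℂ,
      ∀ c : F, φ (algebraMap F D c) = Matrix.scalar (Fin n) (σ c) := by
    intro σ
    let := σ.toAlgebra
    exact exists_split (F := F) (D := D) (E := ℂ) n hn h
  choose φ₁ hφ₁ using hσ
  choose φ₂ hφ₂ using hC
  let j : D →+* AA {w : InfinitePlace F // w.IsReal} {w : InfinitePlace F // w.IsComplex} n :=
    RingHom.prod (RingHom.pi fun w => φ₁ (InfinitePlace.embedding_of_isReal w.prop))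
      (RingHom.pi fun w => φ₂ w.val.embedding)
  refine ⟨j, fun N b => ?_⟩
  have hfin : Module.Finite F D := Module.finite_of_finrank_pos (by rw [h]; positivity)
  -- the real span of the image is a subalgebra
  let S := Algebra.adjoin ℝ (Set.range j)
  have hS : S.toSubmodule = Submodule.span ℝ (Set.range j) := by
    rw [Algebra.adjoin_eq_span]
    congr 1
    have : (Set.range j) = (MonoidHom.mrange j : Set _) := rfl
    rw [this, Submonoid.closure_eq]
  have hj : ∀ d, j d ∈ S := fun d => Algebra.subset_adjoin ⟨d, rfl⟩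
  have hsc : ∀ x, sc _ _ n x ∈ S := by
    intro x
    have hx : x ∈ Submodule.span ℝ (Set.range (mixedEmbedding.latticeBasis F)) := by
      rw [(mixedEmbedding.latticeBasis F).span_eq]; trivial
    induction hx using Submodule.span_induction with
    | mem x hx =>
      obtain ⟨i, rfl⟩ := hx
      have : sc _ _ n (mixedEmbedding.latticeBasis F i) =
          j (algebraMap F D (integralBasis F i)) := by
        rw [mixedEmbedding.latticeBasis_apply]
        refine Prod.ext (funext fun w => ?_) (funext fun w => ?_)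
        · exact (hφ₁ (InfinitePlace.embedding_of_isReal w.prop) (integralBasis F i)).symm
        · exact (hφ₂ w.val.embedding (integralBasis F i)).symm
      rw [this]
      exact hj _
    | zero => rw [map_zero]; exact S.zero_mem
    | add x y _ _ hx hy => rw [map_add]; exact S.add_mem hx hy
    | smul c x _ hx => rw [map_smul]; exact S.smul_mem hx c
  have hall : ∀ a, a ∈ S := glue S hsc j hj
    (fun w => by
      let := (InfinitePlace.embedding_of_isReal w.prop).toAlgebra
      exact span_top (F := F) (D := D) (E := ℝ) n hn h _ (hφ₁ _))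
    (fun w => by
      let := (w.val.embedding).toAlgebra
      exact span_top (F := F) (D := D) (E := ℂ) n hn h _ (hφ₂ _))
  have hspan : ⊤ ≤ Submodule.span ℝ (Set.range fun i => j (b i)) := by
    intro a _
    have ha : a ∈ Submodule.span ℝ (Set.range j) := by rw [← hS]; exact hall a
    refine Submodule.span_le.2 ?_ ha
    rintro _ ⟨d, rfl⟩
    rw [← b.sum_repr d, map_sum]
    refine Submodule.sum_mem _ fun i _ => ?_
    rw [map_rat_smul, ← Rat.cast_smul_eq_qsmul ℝ]
    exact Submodule.smul_mem _ _ (Submodule.subset_span ⟨i, rfl⟩)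
  have hcard : Fintype.card (Fin N) = finrank ℝ
      (AA {w : InfinitePlace F // w.IsReal} {w : InfinitePlace F // w.IsComplex} n) := by
    rw [← finrank_eq_card_basis b, ← Module.finrank_mul_finrank ℚ F D, h,
      ← InfinitePlace.card_add_two_mul_card_eq_rank, finrank_prod, finrank_pi_fintype,
      finrank_pi_fintype]
    simp only [Module.finrank_matrix, Complex.finrank_real_complex, finrank_self, Fintype.card_fin,
      Finset.sum_const, Finset.card_univ, smul_eq_mul]
    ring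
  exact ⟨basisOfTopLeSpanOfCardEqFinrank _ hspan hcard, fun i => by
    rw [coe_basisOfTopLeSpanOfCardEqFinrank]⟩

end Crest.Agent.T24.Ab
end
end

-- ▼ part T24/Abhn_13

/-!
# Row 24 (helper13): the Albert–Brauer–Hasse–Noether theorem
-/

set_option autoImplicit false

noncomputable section

namespace Crest.Agent.T24.Ab

open MeasureTheory NumberField IsDedekindDomain Module Filter Topology
open scoped ENNReal

universe u v

theorem eq_of_real {f g : ℂ → ℂ} (hf : Differentiable ℂ f) (hg : Differentiable ℂ g)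
    (h : ∀ s : ℝ, 1 < s → f s = g s) : f = g := by
  refine AnalyticOnNhd.eq_of_frequently_eq (z₀ := ((2 : ℝ) : ℂ)) (fun z _ => hf.analyticAt z)
    (fun z _ => hg.analyticAt z) ?_
  have h1 : Tendsto (fun s : ℝ => (s : ℂ)) (𝓝[>] 2) (𝓝[≠] ((2 : ℝ) : ℂ)) := by
    refine tendsto_nhdsWithin_iff.2 ⟨Complex.continuous_ofReal.continuousAt.mono_left
      nhdsWithin_le_nhds, ?_⟩
    filter_upwards [self_mem_nhdsWithin] with s hs
    exact fun h => (ne_of_gt hs) (Complex.ofReal_injective h)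
  refine h1.frequently (Eventually.frequently ?_)
  filter_upwards [self_mem_nhdsWithin] with s hs
  exact h s (lt_trans one_lt_two hs)

/-- the elementary factor -/
def fac (z : ℂ) : ℂ := (1 - z) * (1 - Complex.exp (-(z * Real.log 2)))

theorem fac_diff : Differentiable ℂ fac := by unfold fac; fun_prop

theorem fac_real (s : ℝ) : fac s = (((1 - s) * (1 - 2 ^ (-s)) : ℝ) : ℂ) := by
  rw [fac, Real.rpow_def_of_pos two_pos]
  push_cast
  congr 3
  ring

theorem intR_eq (F : Type u) [Field F] [NumberField F] :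
    (intR F).toAddSubgroup = AddSubgroup.closure
      (Set.range ((integralBasis F).reindex (Fintype.equivFin _))) := by
  rw [Basis.range_reindex, ← Submodule.span_int_eq_addSubgroupClosure]
  ext x
  rw [Submodule.mem_toAddSubgroup, mem_span_integralBasis]
  rfl

/-- **Albert–Brauer–Hasse–Noether** for division algebras -/
theorem abhnStmt : AbhnStmt.{u, v} := by
  intro F _ _ D _ _ _ n hn hD hf hr
  classical
  by_contra hn1
  have hn2 : 2 ≤ n := by omega
  have : CharZero D := charZero_of_injective_algebraMap (algebraMap F D).injective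
  obtain ⟨O, N, b, hO, hM⟩ := maxCStmt F D n hn hD hf
  obtain ⟨j, hj⟩ := archStmt F D n hn hD hr
  obtain ⟨e, he⟩ := hj N b
  obtain ⟨Z, hZ, -, -, hZs⟩ := zfStmt feStmt D N b O hO _ _ n j e he
  obtain ⟨j', hj'⟩ := archStmt F F 1 one_pos (by simp)
    fun σ => ⟨(Matrix.scalar (Fin 1)).comp σ, fun _ => rfl⟩
  obtain ⟨e', he'⟩ := hj' _ ((integralBasis F).reindex (Fintype.equivFin _))
  obtain ⟨Y, hY, hY0, hY1, hYs⟩ := zfStmt feStmt F _ _ _ (intR_eq F) _ _ 1 j' e' he'
  obtain ⟨C, hC0, hC1, hC⟩ := gamStmt {w : InfinitePlace F // w.IsReal}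
    {w : InfinitePlace F // w.IsComplex} n
  have hn' : (0 : ℝ) < n := Nat.cast_pos.2 hn
  have key : (fun z : ℂ => Z z * ∏ i ∈ Finset.range n, fac (n * z - i)) =
      fun z : ℂ => (C.toReal : ℂ) * fac z * ∏ i ∈ Finset.range n, Y (n * z - i) := by
    refine eq_of_real (hZ.mul ?_) ((fac_diff.const_mul _).mul ?_) fun s hs => ?_
    · exact Differentiable.fun_finsetProd fun i _ => fac_diff.comp (by fun_prop)
    · exact Differentiable.fun_finsetProd fun i _ => hY.comp (by fun_prop)
    have h1 : ∀ i ∈ Finset.range n, Y (n * s - i) = fac (n * s - i) *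
        ((zeta (intR F) (n * s - i) * GamE {w : InfinitePlace F // w.IsReal}
          {w : InfinitePlace F // w.IsComplex} 1 (n * s - i)).toReal : ℝ) := by
      intro i hi
      have h2 : (i : ℝ) + 1 ≤ n := by exact_mod_cast Finset.mem_range.1 hi
      have h3 : (1 : ℝ) < n * s - i := by nlinarith
      have h4 : (n : ℂ) * s - i = ((n * s - i : ℝ) : ℂ) := by push_cast; rfl
      rw [h4, (hYs _ h3).2.2, fac_real, Complex.ofReal_mul]
    rw [Finset.prod_congr rfl h1, (hZs s hs).2.2, morStmt F D O n hn hM, cntStmt, hC s hs.le,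
      Finset.prod_mul_distrib, fac_real, mul_left_comm _ C, ← Finset.prod_mul_distrib,
      ENNReal.toReal_mul, ENNReal.toReal_prod]
    push_cast
    ring
  have hnc : (n : ℂ) ≠ 0 := Nat.cast_ne_zero.2 hn.ne'
  set s : ℝ := ((n - 1 : ℕ) : ℝ) / n with hs
  have hs1 : (n : ℂ) * s = (n - 1 : ℕ) := by rw [hs]; push_cast; field_simp
  have h5 := congrFun key s
  simp only [hs1] at h5
  rw [Finset.prod_eq_zero (i := n - 1) (Finset.mem_range.2 (by omega)) (by simp [fac]),
    mul_zero] at h5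
  refine mul_ne_zero (mul_ne_zero ?_ ?_) (Finset.prod_ne_zero_iff.2 fun i hi => ?_) h5.symm
  · exact Complex.ofReal_ne_zero.2 (ENNReal.toReal_ne_zero.2 ⟨hC0, hC1⟩)
  · have h6 : 0 < s := div_pos (Nat.cast_pos.2 (by omega)) hn'
    have h7 : s < 1 := (div_lt_one hn').2 (Nat.cast_lt.2 (by omega))
    rw [fac_real]
    exact Complex.ofReal_ne_zero.2 (mul_ne_zero (by linarith) (sub_pos.2
      (Real.rpow_lt_one_of_one_lt_of_neg one_lt_two (by linarith))).ne')
  · have hi' := Finset.mem_range.1 hi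
    rw [← Nat.cast_sub (by omega)]
    obtain h | h | h : n - 1 - i = 0 ∨ n - 1 - i = 1 ∨ 1 < n - 1 - i := by omega
    · rw [h, Nat.cast_zero]; exact hY0
    · rw [h, Nat.cast_one]; exact hY1
    · have h8 : (1 : ℝ) < (n - 1 - i : ℕ) := by exact_mod_cast h
      obtain ⟨h9, h10, h11⟩ := hYs _ h8
      rw [← Complex.ofReal_natCast, h11]
      exact Complex.ofReal_ne_zero.2 (mul_ne_zero (mul_ne_zero (by linarith) (sub_pos.2
        (Real.rpow_lt_one_of_one_lt_of_neg one_lt_two (by linarith))).ne')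
        (ENNReal.toReal_ne_zero.2 ⟨h10, h9⟩))

end Crest.Agent.T24.Ab
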