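import Crest.Agent.T24.LocG_59
import Crest.Agent.T24.Csa4_50
import Crest.Agent.T24.SaK_83
import Crest.Agent.T24.LocJ_53
import Crest.Agent.T24.HsmL_23
import Crest.Agent.T24.Opn_6
import Crest.Agent.T24.Csa6_50

-- ▼ part T24/HeisA_83
section

/-! Row 24, HEIS part A: convergence at a set of places, weak approximation as a filter. -/

set_option autoImplicit false
set_option linter.unusedSectionVars false

noncomputable section

namespace Crest.Agent.T24.Heis

open Module NumberField IsDedekindDomain WithZero Csa Asa Filter Topology Polynomial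
open scoped NumberField Valued

variable {K : Type*} [Field K] [NumberField K]

/-- all places (embeddings at infinity) -/
abbrev Ix (K : Type*) [Field K] : Type _ := Pl K ⊕ (K →+* ℂ)

/-- the absolute value of a place -/
def ab : Ix K → AbsoluteValue K ℝ
  | .inl w => place (algebraMap K (w.adicCompletion K))
  | .inr φ => place φ

theorem ab_inl (w : Pl K) (x : K) : ab (.inl w) x = ‖algebraMap K (w.adicCompletion K) x‖ := rfl
theorem ab_inr (φ : K →+* ℂ) (x : K) : ab (.inr φ : Ix K) x = ‖φ x‖ := rfl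

theorem ab_le_iff (w : Pl K) (x y : K) :
    ab (.inl w) x ≤ ab (.inl w) y ↔ w.valuation K x ≤ w.valuation K y := by
  rw [ab_inl, ab_inl, Valued.toNormedField.norm_le_iff, Loc.val_alg, Loc.val_alg]

theorem ab_lt_iff (w : Pl K) (x y : K) :
    ab (.inl w) x < ab (.inl w) y ↔ w.valuation K x < w.valuation K y := by
  rw [← not_le, ← not_le, ab_le_iff]

theorem exists_depth (w : Pl K) {ε : ℝ} (hε : 0 < ε) :
    ∀ᶠ m : ℕ in atTop, ∀ x : K, w.valuation K x ≤ exp (-(m : ℤ)) → ab (.inl w) x < ε := by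
  obtain ⟨t, h0, h1, h⟩ := Loc.exists_exp w
  filter_upwards [(tendsto_pow_atTop_nhds_zero_of_lt_one h0.le h1).eventually (gt_mem_nhds hε)]
    with m hm x hx
  rw [← Loc.val_alg, h] at hx
  exact hx.trans_lt hm

section Cv
variable {Z : Type*} {l : Filter Z} {J : Set (Ix K)}

/-- convergence at the places of `J` -/
def Cv (J : Set (Ix K)) (l : Filter Z) (F : Z → K) (a : K) : Prop :=
  ∀ i ∈ J, Tendsto (fun z => ab i (F z - a)) l (𝓝 0)

theorem tend_iff (v : AbsoluteValue K ℝ) (F : Z → K) (a : K) :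
    Tendsto (fun z => v (F z - a)) l (𝓝 0) ↔
      Tendsto (fun z => WithAbs.toAbs v (F z)) l (𝓝 (WithAbs.toAbs v a)) := by
  rw [tendsto_iff_norm_sub_tendsto_zero (b := WithAbs.toAbs v a)]
  rfl

namespace Cv
variable {F G : Z → K} {a b : K}

theorem const (a : K) : Cv J l (fun _ => a) a := fun i _ => by simpa using tendsto_const_nhds

theorem mono (h : Cv J l F a) {J' : Set (Ix K)} (hJ : J' ⊆ J) : Cv J' l F a :=
  fun i hi => h i (hJ hi)

theorem comp (h : Cv J l F a) {Z' : Type*} {l' : Filter Z'} {g : Z' → Z} (hg : Tendsto g l' l) :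
    Cv J l' (fun z => F (g z)) a := fun i hi => (h i hi).comp hg

theorem congr' (h : Cv J l F a) (e : ∀ᶠ z in l, F z = G z) : Cv J l G a :=
  fun i hi => (h i hi).congr' (e.mono fun z hz => by simp only [hz])

theorem congr (h : Cv J l F a) (e : ∀ z, F z = G z) (e' : a = b) : Cv J l G b :=
  e' ▸ h.congr' (.of_forall e)

theorem add (h : Cv J l F a) (h' : Cv J l G b) : Cv J l (fun z => F z + G z) (a + b) :=
  fun i hi => (tend_iff _ _ _).2 (((tend_iff _ _ _).1 (h i hi)).add ((tend_iff _ _ _).1 (h' i hi)))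

theorem mul (h : Cv J l F a) (h' : Cv J l G b) : Cv J l (fun z => F z * G z) (a * b) :=
  fun i hi => (tend_iff _ _ _).2 (((tend_iff _ _ _).1 (h i hi)).mul ((tend_iff _ _ _).1 (h' i hi)))

theorem neg (h : Cv J l F a) : Cv J l (fun z => -F z) (-a) :=
  fun i hi => (tend_iff _ _ _).2 ((tend_iff _ _ _).1 (h i hi)).neg

theorem sub (h : Cv J l F a) (h' : Cv J l G b) : Cv J l (fun z => F z - G z) (a - b) :=
  (h.add h'.neg).congr (fun _ => (sub_eq_add_neg _ _).symm) (sub_eq_add_neg _ _).symm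

theorem inv (h : Cv J l F a) (ha : a ≠ 0) : Cv J l (fun z => (F z)⁻¹) a⁻¹ :=
  fun i hi => (tend_iff _ _ _).2 (((tend_iff _ _ _).1 (h i hi)).inv₀ (by
    intro h0
    exact ha (congrArg WithAbs.ofAbs h0)))

theorem div (h : Cv J l F a) (h' : Cv J l G b) (hb : b ≠ 0) :
    Cv J l (fun z => F z / G z) (a / b) :=
  (h.mul (h'.inv hb)).congr (fun _ => (div_eq_mul_inv _ _).symm) (div_eq_mul_inv _ _).symm

theorem pow (h : Cv J l F a) (n : ℕ) : Cv J l (fun z => F z ^ n) (a ^ n) := by
  induction n with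
  | zero => simpa using const 1
  | succ n ih => simpa [pow_succ] using ih.mul h

theorem sum {ι : Type*} (s : Finset ι) {F : ι → Z → K} {a : ι → K}
    (h : ∀ j ∈ s, Cv J l (F j) (a j)) : Cv J l (fun z => ∑ j ∈ s, F j z) (∑ j ∈ s, a j) := by
  classical
  induction s using Finset.induction_on with
  | empty => simpa using const 0
  | insert j s hj ih =>
    simpa [Finset.sum_insert hj] using (h j (Finset.mem_insert_self _ _)).add
      (ih fun i hi => h i (Finset.mem_insert_of_mem hi))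

theorem mv {ι : Type*} {F : ι → Z → K} {a : ι → K} (h : ∀ j, Cv J l (F j) (a j))
    (p : MvPolynomial ι K) :
    Cv J l (fun z => MvPolynomial.eval (fun j => F j z) p) (MvPolynomial.eval a p) := by
  induction p using MvPolynomial.induction_on with
  | C c => simpa using const c
  | add p q hp hq => simpa using hp.add hq
  | mul_X p j hp => simpa using hp.mul (h j)

theorem ev_ab (h : Cv J l F a) {i : Ix K} (hi : i ∈ J) {c ε : _} (hc : ab i (a - c) < ε) :
    ∀ᶠ z in l, ab i (F z - c) < ε := by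
  filter_upwards [(h i hi).eventually (gt_mem_nhds (sub_pos.2 hc))] with z hz
  have := (ab i).add_le (F z - a) (a - c)
  rw [sub_add_sub_cancel] at this
  linarith

theorem ev_ne (h : Cv J l F a) (hJ : J.Nonempty) (ha : a ≠ 0) : ∀ᶠ z in l, F z ≠ 0 := by
  obtain ⟨i, hi⟩ := hJ
  filter_upwards [(h i hi).eventually (gt_mem_nhds ((ab i).pos ha))] with z hz h0
  simp [h0] at hz

theorem ev_val (h : Cv J l F a) {w : Pl K} (hw : Sum.inl w ∈ J) {γ : ℤᵐ⁰} (hγ : γ ≠ 0) :
    ∀ᶠ z in l, w.valuation K (F z - a) < γ := by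
  obtain ⟨p, rfl⟩ := w.valuation_surjective K γ
  have hp : p ≠ 0 := by simpa using hγ
  filter_upwards [(h _ hw).eventually (gt_mem_nhds ((ab (.inl w)).pos hp))] with z hz
  exact (ab_lt_iff w _ _).1 hz

theorem ev_lt (h : Cv J l F a) {w : Pl K} (hw : Sum.inl w ∈ J) {γ : ℤᵐ⁰}
    (ha : w.valuation K a < γ) : ∀ᶠ z in l, w.valuation K (F z) < γ := by
  filter_upwards [h.ev_val hw (ne_of_gt (lt_of_le_of_lt zero_le ha))] with z hz
  simpa using (w.valuation K).map_add_lt hz ha

theorem ev_eq (h : Cv J l F a) {w : Pl K} (hw : Sum.inl w ∈ J) (ha : a ≠ 0) :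
    ∀ᶠ z in l, w.valuation K (F z) = w.valuation K a := by
  filter_upwards [h.ev_val hw (γ := w.valuation K a) (by simpa using ha)] with z hz
  simpa using (w.valuation K).map_add_eq_of_lt_right hz

theorem of_val {w : Pl K} (h : ∀ m : ℕ, ∀ᶠ z in l, w.valuation K (F z - a) ≤ exp (-(m : ℤ))) :
    Tendsto (fun z => ab (.inl w) (F z - a)) l (𝓝 0) := by
  refine tendsto_order.2 ⟨fun ε hε => .of_forall fun z => hε.trans_le ((ab _).nonneg _),
    fun ε hε => ?_⟩
  obtain ⟨m, hm⟩ := (exists_depth w hε).exists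
  exact (h m).mono fun z hz => hm _ hz

end Cv

theorem cv_inl {w : Pl K} {F : Z → K} {a : K} :
    Tendsto (fun z => ab (.inl w) (F z - a)) l (𝓝 0) ↔
      Tendsto (fun z => algebraMap K (w.adicCompletion K) (F z)) l
        (𝓝 (algebraMap K (w.adicCompletion K) a)) := by
  rw [tendsto_iff_norm_sub_tendsto_zero (b := algebraMap K (w.adicCompletion K) a)]
  simp only [ab_inl, map_sub]

end Cv

section Places
variable (k : Type*) [Field k] [NumberField k] [Algebra k K]

/-- the place of `k` below (all archimedean places together) -/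
def pr : Ix K → Option (Pl k)
  | .inl w => some (below k w)
  | .inr _ => none

/-- the filter of elements that approximate `G p` at the places over `p` -/
def lG (G : Option (Pl k) → K) : Filter K :=
  ⨅ q : Finset (Ix K) × ℕ, 𝓟 {y | ∀ i ∈ q.1, ab i (y - G (pr k i)) < 1 / ((q.2 : ℝ) + 1)}

variable {k}

theorem lG_basis (G : Option (Pl k) → K) : (lG k G).HasBasis (fun _ => True)
    fun q : Finset (Ix K) × ℕ => {y | ∀ i ∈ q.1, ab i (y - G (pr k i)) < 1 / ((q.2 : ℝ) + 1)} := by
  classical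
  refine hasBasis_iInf_principal fun q q' => ⟨(q.1 ∪ q'.1, max q.2 q'.2), fun y hy i hi => ?_,
    fun y hy i hi => ?_⟩
  · exact (hy i (Finset.mem_union_left _ hi)).trans_le
      (Nat.one_div_le_one_div (le_max_left _ _))
  · exact (hy i (Finset.mem_union_right _ hi)).trans_le
      (Nat.one_div_le_one_div (le_max_right _ _))

instance lG_neBot (G : Option (Pl k) → K) : (lG k G).NeBot := by
  classical
  refine (lG_basis G).neBot_iff.2 fun {q} _ => ?_
  have hε : (0 : ℝ) < 1 / ((q.2 : ℝ) + 1) := Nat.one_div_pos_of_nat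
  let S : Finset (Pl K) := q.1.toLeft
  obtain ⟨v₀, hv₀⟩ := exists_notMem S
  obtain ⟨m, hm⟩ := ((eventually_all_finset S).2 fun w _ => exists_depth w hε).exists
  obtain ⟨y, h1, -, h3⟩ := Line.sa S v₀ hv₀ (fun w => G (some (below k w))) m (G none) hε
  refine ⟨y, ?_⟩
  rintro (w | φ) hi
  · have hw : w ∈ S := Finset.mem_toLeft.2 hi
    exact hm w hw _ (h1 w hw)
  · exact h3 φ

theorem cv_lG (G : Option (Pl k) → K) (p : Option (Pl k)) :
    Cv (pr k ⁻¹' {p}) (lG k G) (fun y => y) (G p) := by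
  intro i hi
  refine tendsto_order.2 ⟨fun ε hε => .of_forall fun z => hε.trans_le ((ab _).nonneg _),
    fun ε hε => ?_⟩
  obtain ⟨n, hn⟩ := exists_nat_one_div_lt hε
  filter_upwards [(lG_basis G).mem_of_mem (i := ({i}, n)) trivial] with y hy
  have := hy i (Finset.mem_singleton_self i)
  rw [show pr k i = p from hi] at this
  exact this.trans hn

end Places

/-- neighbourhoods for the topology of all places -/
def nb (c : K) : Filter K := lG K fun _ => c

theorem nb_basis (c : K) : (nb c).HasBasis (fun _ => True)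
    fun q : Finset (Ix K) × ℕ => {y | ∀ i ∈ q.1, ab i (y - c) < 1 / ((q.2 : ℝ) + 1)} :=
  lG_basis _

theorem cv_nb (c : K) : Cv Set.univ (nb c) (fun y => y) c := fun i _ =>
  cv_lG (k := K) (fun _ => c) (pr K i) i rfl

theorem Cv.tendsto {Z : Type*} {l : Filter Z} {F : Z → K} {a : K} (h : Cv Set.univ l F a) :
    Tendsto F l (nb a) := by
  refine (nb_basis a).tendsto_right_iff.2 fun q _ => ?_
  exact (eventually_all_finset q.1).2 fun i _ =>
    (h i trivial).eventually (gt_mem_nhds Nat.one_div_pos_of_nat)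

theorem mem_of_nb {c : K} {V : Set K} (hV : V ∈ nb c) : c ∈ V := by
  obtain ⟨q, -, hq⟩ := (nb_basis c).mem_iff.1 hV
  exact hq fun i _ => by simpa using Nat.one_div_pos_of_nat (α := ℝ)

section Star
variable [StarRing K]

/-- the conjugates of the places of `J` are in `J'` -/
def SC (J J' : Set (Ix K)) : Prop :=
  ∀ i ∈ J, ∃ i' ∈ J', ∀ ε > 0, ∃ δ > 0, ∀ x, ab i' x < δ → ab i (star x) < ε

theorem Cv.star {Z : Type*} {l : Filter Z} {J J' : Set (Ix K)} (hJ : SC J J') {F : Z → K} {a : K}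
    (h : Cv J' l F a) : Cv J l (fun z => star (F z)) (star a) := fun i hi => by
  obtain ⟨i', hi', e⟩ := hJ i hi
  refine tendsto_order.2 ⟨fun ε hε => .of_forall fun z => hε.trans_le ((ab _).nonneg _),
    fun ε hε => ?_⟩
  obtain ⟨δ, hδ, h1⟩ := e ε hε
  filter_upwards [(h i' hi').eventually (gt_mem_nhds hδ)] with z hz
  rw [← star_sub]
  exact h1 _ hz

theorem ab_conj {w w' : Pl K} (h : ∀ x, w'.valuation K x = w.valuation K (star x)) :
    ∀ ε > 0, ∃ δ > 0, ∀ x, ab (.inl w') x < δ → ab (.inl w) (star x) < ε := by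
  intro ε hε
  obtain ⟨m, hm⟩ := (exists_depth w hε).exists
  obtain ⟨p, hp⟩ := w'.valuation_surjective K (exp (-(m : ℤ)))
  have hp0 : p ≠ 0 := by
    rintro rfl
    rw [map_zero] at hp
    exact exp_ne_zero hp.symm
  refine ⟨ab (.inl w') p, (ab _).pos hp0, fun x hx => hm _ ?_⟩
  rw [← h, ← hp]
  exact ((ab_lt_iff _ _ _).1 hx).le

theorem sc_one {w w' : Pl K} (h : ∀ x, w'.valuation K x = w.valuation K (star x)) :
    SC {Sum.inl w} {(Sum.inl w' : Ix K)} := by
  rintro _ rfl
  exact ⟨_, rfl, ab_conj h⟩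

variable (k : Type*) [Field k] [NumberField k] [Algebra k K] [Quad k K]

theorem exists_cj (w : Pl K) : ∃ w' : Pl K, below k w' = below k w ∧
    ∀ x, w'.valuation K x = w.valuation K (star x) := by
  obtain ⟨w', h⟩ := Loc.exists_conj_place starRingAut w
  refine ⟨w', HeightOneSpectrum.ext (Ideal.ext fun x => ?_), h⟩
  rw [← HeightOneSpectrum.valuation_lt_one_iff_mem (K := k),
    ← HeightOneSpectrum.valuation_lt_one_iff_mem (K := k), ← below_lt_one, ← below_lt_one, h]
  change w.valuation K (star _) < 1 ↔ _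
  rw [Quad.star_k]

theorem sc_pr (P : Set (Option (Pl k))) : SC (pr (K := K) k ⁻¹' P) (pr k ⁻¹' P) := by
  rintro (w | φ) hi
  · obtain ⟨w', h1, h2⟩ := exists_cj k w
    exact ⟨.inl w', by simpa [pr, h1] using hi, ab_conj h2⟩
  · exact ⟨.inr (φ.comp (starRingEnd K)), hi, fun ε hε => ⟨ε, hε, fun x hx => hx⟩⟩

include k in
theorem sc_univ : SC (Set.univ : Set (Ix K)) Set.univ := sc_pr k Set.univ

/-- the places over one place of `k` -/
theorem over_iff {w w' w₀ : Pl K} (h : ∀ x, w'.valuation K x = w.valuation K (star x))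
    (h0 : below k w₀ = below k w) : w₀ = w ∨ w₀ = w' := by
  classical
  by_contra hne
  rw [not_or] at hne
  obtain ⟨x, hx1, hx2⟩ : ∃ x : K, (∀ v ∈ ({w₀, w, w'} : Finset (Pl K)),
      v.valuation K (x - if v = w₀ then 0 else 1) ≤ exp (-((1 : ℕ) : ℤ))) ∧
      ∀ v, v ∉ ({w₀, w, w'} : Finset (Pl K)) → v.valuation K x ≤ 1 :=
    Line.crt _ _ 1
  have he : (exp (-((1 : ℕ) : ℤ)) : ℤᵐ⁰) < 1 := by rw [← exp_zero, exp_lt_exp]; omega
  have h1 : w₀.valuation K x < 1 := by simpa using (hx1 w₀ (by simp)).trans_lt he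
  have h2 : ∀ v, v ≠ w₀ → v ∈ ({w₀, w, w'} : Finset (Pl K)) → v.valuation K x = 1 := by
    intro v hv hv'
    have := (hx1 v hv').trans_lt he
    rw [if_neg hv] at this
    simpa using (v.valuation K).map_one_add_of_lt this
  have h3 : ∀ v : Pl K, v.valuation K x ≤ 1 := by
    intro v
    by_cases hv : v ∈ ({w₀, w, w'} : Finset (Pl K))
    · by_cases hv' : v = w₀
      · rw [hv']; exact h1.le
      · exact (h2 v hv' hv).le
    · exact hx2 v hv
  obtain ⟨c, hc⟩ := exists_of_star_eq (Quad.fr (k := k) (K := K)) Quad.star_k (Quad.ne (k := k))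
    (c := x * star x) (by rw [star_mul, star_star])
  have h4 : w₀.valuation K (algebraMap k K c) < 1 := by
    obtain ⟨v, -, hv⟩ := exists_cj k w₀
    rw [hc, map_mul, ← hv]
    exact (mul_le_of_le_one_right' (h3 v)).trans_lt h1
  rw [below_lt_one, h0, ← below_lt_one, hc, map_mul, ← h, h2 w (Ne.symm hne.1) (by simp),
    h2 w' (Ne.symm hne.2) (by simp), one_mul] at h4
  exact h4.false

end Star

section Alg
variable {B : Type*} [Ring B] [Algebra K B] [FiniteDimensional K B]
variable {Z : Type*} {l : Filter Z} {J : Set (Ix K)}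

/-- convergence in `B` -/
def CvB (J : Set (Ix K)) (l : Filter Z) (F : Z → B) (a : B) : Prop :=
  ∀ f : B →ₗ[K] K, Cv J l (fun z => f (F z)) (f a)

theorem lin_eq {ι : Type*} [Fintype ι] (e : Basis ι K B) (f : B →ₗ[K] K) (x : B) :
    f x = ∑ j, e.repr x j * f (e j) := by
  conv_lhs => rw [← e.sum_repr x, map_sum]
  simp

namespace CvB
variable {F G : Z → B} {a b : B}

theorem of_basis {ι : Type*} [Fintype ι] (e : Basis ι K B)
    (h : ∀ j, Cv J l (fun z => e.repr (F z) j) (e.repr a j)) : CvB J l F a := fun f =>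
  (Cv.sum Finset.univ fun j _ => (h j).mul (Cv.const (f (e j)))).congr
    (fun _ => (lin_eq e f _).symm) (lin_eq e f _).symm

theorem repr {ι : Type*} (e : Basis ι K B) (h : CvB J l F a) (j : ι) :
    Cv J l (fun z => e.repr (F z) j) (e.repr a j) := h (e.coord j)

theorem const (a : B) : CvB J l (fun _ => a) a := fun _ => Cv.const _

theorem comp (h : CvB J l F a) {Z' : Type*} {l' : Filter Z'} {g : Z' → Z} (hg : Tendsto g l' l) :
    CvB J l' (fun z => F (g z)) a := fun f => (h f).comp hg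

theorem congr (h : CvB J l F a) (e : ∀ z, F z = G z) (e' : a = b) : CvB J l G b := by
  obtain rfl : F = G := funext e
  exact e' ▸ h

theorem add (h : CvB J l F a) (h' : CvB J l G b) : CvB J l (fun z => F z + G z) (a + b) :=
  fun f => by simpa using (h f).add (h' f)

theorem sub (h : CvB J l F a) (h' : CvB J l G b) : CvB J l (fun z => F z - G z) (a - b) :=
  fun f => by simpa using (h f).sub (h' f)

theorem smul {c : Z → K} {c₀ : K} (hc : Cv J l c c₀) (h : CvB J l F a) :
    CvB J l (fun z => c z • F z) (c₀ • a) := fun f => by simpa using hc.mul (h f)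

theorem mul (h : CvB J l F a) (h' : CvB J l G b) : CvB J l (fun z => F z * G z) (a * b) := by
  intro f
  let e := finBasis K B
  have key : ∀ x y : B, f (x * y) = ∑ i, e.repr x i * ∑ j, e.repr y j * f (e i * e j) := by
    intro x y
    have h1 := lin_eq e (f ∘ₗ LinearMap.mulRight K y) x
    simp only [LinearMap.comp_apply, LinearMap.mulRight_apply] at h1
    rw [h1]
    refine Finset.sum_congr rfl fun i _ => ?_
    have h2 := lin_eq e (f ∘ₗ LinearMap.mulLeft K (e i)) y
    simp only [LinearMap.comp_apply, LinearMap.mulLeft_apply] at h2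
    rw [h2]
  exact (Cv.sum Finset.univ fun i _ => (h.repr e i).mul (Cv.sum Finset.univ fun j _ =>
    (h'.repr e j).mul (Cv.const (f (e i * e j))))).congr (fun _ => (key _ _).symm) (key _ _).symm

theorem pow (h : CvB J l F a) (n : ℕ) : CvB J l (fun z => F z ^ n) (a ^ n) := by
  induction n with
  | zero => simpa using const 1
  | succ n ih => simpa [pow_succ] using ih.mul h

theorem sum {ι : Type*} (s : Finset ι) {F : ι → Z → B} {a : ι → B}
    (h : ∀ j ∈ s, CvB J l (F j) (a j)) : CvB J l (fun z => ∑ j ∈ s, F j z) (∑ j ∈ s, a j) :=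
  fun f => by simpa using Cv.sum s fun j hj => h j hj f

theorem star [StarRing K] [StarRing B] [StarModule K B] {J' : Set (Ix K)} (hJ : SC J J')
    (h : CvB J' l F a) : CvB J l (fun z => star (F z)) (star a) := by
  let e := finBasis K B
  have key : ∀ x : B, Star.star x = ∑ i, Star.star (e.repr x i) • Star.star (e i) := by
    intro x
    conv_lhs => rw [← e.sum_repr x, star_sum]
    simp
  exact (sum Finset.univ fun i _ => smul ((h.repr e i).star hJ) (const (Star.star (e i)))).congr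
    (fun _ => (key _).symm) (key _).symm

variable [Algebra.IsCentral K B] [IsSimpleRing B]

theorem rch (h : CvB J l F a) (j : ℕ) :
    Cv J l (fun z => (rch K (F z)).coeff j) ((rch K a).coeff j) := by
  let e := finBasis K B
  refine (Cv.mv (h.repr e) (rchP K e j)).congr (fun z => ?_) ?_ <;>
    rw [eval_rchP, e.sum_repr]

theorem nrd (h : CvB J l F a) : Cv J l (fun z => Nrd K (F z)) (Nrd K a) :=
  (Cv.const _).mul (h.rch 0)

end CvB

variable (k : Type*) [Field k] [NumberField k] [Algebra k K]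

/-- the approximation filter in `B` -/
def lB (G : Option (Pl k) → B) : Filter B :=
  (Filter.pi fun j => lG k fun p => (finBasis K B).repr (G p) j).map
    (finBasis K B).equivFun.symm

instance lB_neBot (G : Option (Pl k) → B) : (lB (K := K) k G).NeBot := by
  unfold lB; infer_instance

theorem cv_lB (G : Option (Pl k) → B) (p : Option (Pl k)) :
    CvB (pr (K := K) k ⁻¹' {p}) (lB (K := K) k G) (fun y => y) (G p) := by
  refine CvB.of_basis (finBasis K B) fun j i hi => ?_
  rw [lB, tendsto_map'_iff]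
  have := ((cv_lG (k := k) (fun p => (finBasis K B).repr (G p) j) p).comp
    (tendsto_eval_pi (fun j => lG k fun p => (finBasis K B).repr (G p) j) j)) i hi
  refine this.congr fun y => ?_
  simp [← Basis.equivFun_apply]

end Alg

end Crest.Agent.T24.Heis
end
private theorem rz_099e782814 : type_of% @_root_.Crest.Agent.T24.Heis.pr.eq_1 := @_root_.Crest.Agent.T24.Heis.pr.eq_1 -- L170
end

-- ▼ part T24/HeisB_83
section

/-! Row 24, HEIS part B: the commutator pairing, Cayley lifts, Eisenstein polynomials. -/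

set_option autoImplicit false
set_option linter.unusedSectionVars false

noncomputable section

namespace Crest.Agent.T24.Heis

open Module NumberField IsDedekindDomain WithZero Csa Asa Filter Topology Polynomial
open scoped NumberField Valued

variable {K : Type*} [Field K] [NumberField K] [StarRing K] {B : Type*} [Ring B] [StarRing B]
  [Algebra K B] [StarModule K B] [Algebra.IsCentral K B] [IsSimpleRing B] [FiniteDimensional K B]

section Pair
variable {N : Subgroup (unitary B)} {m : ℕ}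

/-- the commutator lies in `N` -/
def Zc (N : Subgroup (unitary B)) (x y : unitary B) : Prop := x * y * x⁻¹ * y⁻¹ ∈ N

variable (K) in
/-- the hypothesis of the central step -/
def Hy (m : ℕ) (N : Subgroup (unitary B)) : Prop := ∀ u : unitary B, ∀ g ∈ SUm K B m, Zc N u g

theorem Zc.symm {x y : unitary B} (h : Zc N x y) : Zc N y x := by
  have := N.inv_mem h
  rwa [show (x * y * x⁻¹ * y⁻¹)⁻¹ = y * x * y⁻¹ * x⁻¹ by group] at this

theorem zc_of_commute {x y : unitary B} (h : Commute x y) : Zc N x y := by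
  rw [Zc, h.eq, show y * x * x⁻¹ * y⁻¹ = 1 by group]; exact N.one_mem

theorem comm_mem (x : unitary B) {y : unitary B} (hy : y ∈ Um K B m) :
    x * y * x⁻¹ * y⁻¹ ∈ SUm K B m :=
  ⟨comm_mem_SU K x y, (Um K B m).mul_mem (Subgroup.Normal.conj_mem inferInstance _ hy x)
    ((Um K B m).inv_mem hy)⟩

theorem Hy.mul (H : Hy K m N) {x x' y : unitary B} (hy : y ∈ Um K B m) (h : Zc N x y)
    (h' : Zc N x' y) : Zc N (x * x') y := by
  have := N.mul_mem (N.mul_mem (H x _ (comm_mem x' hy)) h') h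
  unfold Zc
  convert this using 1
  group

theorem Hy.inv (H : Hy K m N) {x y : unitary B} (hy : y ∈ Um K B m) (h : Zc N x y) :
    Zc N x⁻¹ y := by
  have := N.mul_mem (H x⁻¹ _ ((SUm K B m).inv_mem (comm_mem x hy))) (N.inv_mem h)
  unfold Zc
  convert this using 1
  group

theorem Hy.left (H : Hy K m N) {x x' y : unitary B} (hy : y ∈ Um K B m) (h : Zc N x y)
    (h' : Zc N (x * x') y) : Zc N x' y := by
  simpa using H.mul hy (H.inv hy h) h'

theorem Hy.right (H : Hy K m N) {x x' y : unitary B} (hy : y ∈ Um K B m) (h : Zc N x' y)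
    (h' : Zc N (x * x') y) : Zc N x y := by
  simpa using H.mul hy h' (H.inv hy h)

theorem Nrd_ne (x : unitary B) : Nrd K (x : B) ≠ 0 := right_ne_zero_of_mul_eq_one (Nrd_inv_mul K x)

theorem Nrd_div (x y : unitary B) :
    Nrd K ((x⁻¹ * y : unitary B) : B) = Nrd K (y : B) / Nrd K (x : B) := by
  rw [eq_div_iff (Nrd_ne x), Submonoid.coe_mul, map_mul, mul_right_comm, Nrd_inv_mul, one_mul]

theorem Hy.norm (H : Hy K m N) {x x' y : unitary B} (hy : y ∈ Um K B m) (hx : x ∈ Um K B m)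
    (hx' : x' ∈ Um K B m) (e : Nrd K (x' : B) = Nrd K (x : B)) (h : Zc N x y) : Zc N x' y := by
  have h1 : x⁻¹ * x' ∈ SUm K B m := ⟨by
    change Nrd K _ = 1
    rw [Nrd_div, e, div_self (Nrd_ne x)], (Um K B m).mul_mem ((Um K B m).inv_mem hx) hx'⟩
  simpa using H.mul hy h (H y _ h1).symm

variable (K) in
/-- continuity of the pairing in the second variable -/
def Ct (m : ℕ) (N : Subgroup (unitary B)) (x : unitary B) : Prop :=
  ∃ V ∈ nb (1 : K), ∀ y ∈ Um K B m, Nrd K (y : B) ∈ V → Zc N x y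

variable (K) in
/-- joint continuity of the pairing -/
def VV (m : ℕ) (N : Subgroup (unitary B)) : Prop :=
  ∃ V ∈ nb (1 : K), ∀ x ∈ Um K B m, ∀ y ∈ Um K B m, Nrd K (x : B) ∈ V → Nrd K (y : B) ∈ V →
    Zc N x y

variable (K B) in
/-- commuting lifts near a base pair -/
def BL (m : ℕ) (c₁ c₂ : K) : Prop := ∃ V ∈ nb (1 : K), ∀ v₁ ∈ V, ∀ v₂ ∈ V, star v₁ * v₁ = 1 →
  star v₂ * v₂ = 1 → ∃ x₁ ∈ Um K B m, ∃ x₂ ∈ Um K B m, Commute x₁ x₂ ∧
    Nrd K (x₁ : B) = c₁ * v₁ ∧ Nrd K (x₂ : B) = c₂ * v₂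

theorem Hy.bl (H : Hy K m N) {c₁ c₂ : K} (h : BL K B m c₁ c₂) :
    (∀ x ∈ Um K B m, Nrd K (x : B) = c₁ → Ct K m N x) ∧ VV K m N := by
  obtain ⟨V, hV, h⟩ := h
  have h1 := mem_of_nb hV
  obtain ⟨a₁, ha₁, a₂, ha₂, -, e₁, e₂⟩ := h 1 h1 1 h1 (by simp) (by simp)
  have P : ∀ v₁ ∈ V, ∀ v₂ ∈ V, star v₁ * v₁ = 1 → star v₂ * v₂ = 1 → ∀ x ∈ Um K B m,
      ∀ y ∈ Um K B m, Nrd K (x : B) = c₁ * v₁ → Nrd K (y : B) = c₂ * v₂ → Zc N x y := by
    intro v₁ hv₁ v₂ hv₂ n₁ n₂ x hx y hy ex ey
    obtain ⟨x₁, hx₁, x₂, hx₂, hc, f₁, f₂⟩ := h v₁ hv₁ v₂ hv₂ n₁ n₂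
    exact (H.norm hx hx₂ hy (ey.trans f₂.symm)
      (H.norm hx₂ hx₁ hx (ex.trans f₁.symm) (zc_of_commute hc)).symm).symm
  have Q : ∀ v₁ ∈ V, star v₁ * v₁ = 1 → ∀ x ∈ Um K B m, Nrd K (x : B) = c₁ * v₁ →
      ∀ y ∈ Um K B m, Nrd K (y : B) ∈ V → Zc N x y := by
    intro v₁ hv₁ n₁ x hx ex y hy ey
    refine (H.left hx (P v₁ hv₁ 1 h1 n₁ (by simp) x hx a₂ ha₂ ex e₂).symm
      (P v₁ hv₁ _ ey n₁ (Nrd_unitary y.2) x hx _ ((Um K B m).mul_mem ha₂ hy) ex ?_).symm).symm
    rw [Submonoid.coe_mul, map_mul, e₂, mul_one]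
  refine ⟨fun x hx ex => ⟨V, hV, Q 1 h1 (by simp) x hx (by rw [ex, mul_one])⟩,
    V, hV, fun x hx y hy ex ey => H.left hy (Q 1 h1 (by simp) a₁ ha₁ e₁ y hy ey)
      (Q _ ex (Nrd_unitary x.2) _ ((Um K B m).mul_mem ha₁ hx) ?_ y hy ey)⟩
  rw [Submonoid.coe_mul, map_mul, e₁, mul_one]

end Pair

section Lift

theorem nrd_lift {Y x : B} (h : star Y * x = Y) (h0 : Nrd K Y ≠ 0) :
    Nrd K x = Nrd K Y / star (Nrd K Y) := by
  rw [eq_div_iff (star_ne_zero.2 h0), ← Csa.Nrd_star, mul_comm, ← map_mul, h]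

theorem nrd_lift_sub {Y x : B} (h : star Y * x = Y) (h0 : Nrd K Y ≠ 0) :
    Nrd K (x - 1) = Nrd K (Y - star Y) / star (Nrd K Y) := by
  rw [eq_div_iff (star_ne_zero.2 h0), ← Csa.Nrd_star, mul_comm, ← map_mul, mul_sub, h, mul_one]

theorem comm_aeval (θ : B) (P Q : K[X]) : Commute (aeval θ P) (aeval θ Q) :=
  (Commute.all P Q).map (aeval θ : K[X] →ₐ[K] B)

/-- the lifts attached to polynomials in one hermitian element -/
theorem exists_lifts {ι : Type*} {θ : B} (hθ : star θ = θ) (R : ι → K[X])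
    (h0 : ∀ j, Nrd K (aeval θ (R j)) ≠ 0) : ∃ x : ι → unitary B,
      (∀ j, star (aeval θ (R j)) * x j = aeval θ (R j)) ∧ ∀ i j, Commute (x i) (x j) := by
  have hs : ∀ j, star (aeval θ (R j)) = aeval θ ((R j).map (starRingEnd K)) := fun j => by
    rw [star_aeval, hθ]
  choose v hv using fun j => (isUnit_iff_Nrd (K := K) _).2 (h0 j)
  have h1 : ∀ j, star (v j : B) * star (((v j)⁻¹ : Bˣ) : B) = 1 := fun j => by
    rw [← star_mul, Units.inv_mul, star_one]
  have h2 : ∀ j, star (((v j)⁻¹ : Bˣ) : B) * star (v j : B) = 1 := fun j => by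
    rw [← star_mul, Units.mul_inv, star_one]
  let u : ι → Bˣ := fun j => ⟨_, _, h1 j, h2 j⟩
  have hu : ∀ j, (u j : B) = aeval θ ((R j).map (starRingEnd K)) := fun j => by
    rw [← hs, ← hv]
  refine ⟨fun j => ⟨_, unitary_of_normal (v j) ?_⟩, fun j => ?_, fun i j => Subtype.ext ?_⟩
  · rw [hv, hs]; exact comm_aeval _ _ _
  · change _ * (_ * _) = _
    rw [← hv, ← mul_assoc, h1, one_mul]
  · have a : ∀ i j, Commute (((u i)⁻¹ : Bˣ) : B) (v j) := fun i j =>
      Commute.units_inv_left (by rw [hu, hv]; exact comm_aeval _ _ _)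
    have b : Commute (((u i)⁻¹ : Bˣ) : B) ((u j)⁻¹ : Bˣ) :=
      Commute.units_inv_left (Commute.units_inv_right (by rw [hu, hu]; exact comm_aeval _ _ _))
    have c : Commute (v i : B) (v j) := by rw [hv, hv]; exact comm_aeval _ _ _
    exact ((b.mul_right (a i j)).mul_left ((a j i).symm.mul_right c)).eq

variable (B) in
/-- the local condition on a lift -/
def Gi (i : Ix K) (m : ℕ) (ε : ℝ) (c : K) (Y : B) : Prop :=
  ab i (c * star (Nrd K Y) / Nrd K Y - 1) < ε ∧ ∀ w ∈ TT K B, i = .inl w →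
    w.valuation K (Nrd K (Y - star Y) / star (Nrd K Y)) < exp (-(m : ℤ))

theorem Gi.ev {Z : Type*} {l : Filter Z} {J : Set (Ix K)} (hJ : SC J J) {i : Ix K} (hi : i ∈ J)
    {m : ℕ} {ε : ℝ} {c : K} {Y : Z → B} {Y₀ : B} (hY : CvB J l Y Y₀) (h0 : Nrd K Y₀ ≠ 0)
    (h : Gi B i m ε c Y₀) : ∀ᶠ z in l, Gi B i m ε c (Y z) := by
  refine ((((Cv.const c).mul (hY.nrd.star hJ)).div hY.nrd h0).ev_ab hi h.1).and ?_
  rcases i with w | φ
  · by_cases hw : w ∈ TT K B
    · filter_upwards [((hY.sub (hY.star hJ)).nrd.div (hY.nrd.star hJ) (star_ne_zero.2 h0)).ev_lt hi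
        (h.2 w hw rfl)] with z hz w' _ e
      obtain rfl := Sum.inl_injective e
      exact hz
    · exact .of_forall fun z w' hw' e => absurd (Sum.inl_injective e ▸ hw') hw
  · exact .of_forall fun z w' _ e => absurd e Sum.inr_ne_inl

theorem mem_Um_of {m : ℕ} {Y : B} {x : unitary B} (h : star Y * x = Y) (h0 : Nrd K Y ≠ 0)
    (hd : ∀ w ∈ TT K B,
      w.valuation K (Nrd K (Y - star Y) / star (Nrd K Y)) < exp (-(m : ℤ))) : x ∈ Um K B m :=
  fun w hw => by rw [val, nrd_lift_sub h h0]; exact hd w hw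

end Lift

section Eis

/-- Eisenstein at `w` -/
def Eis (w : Pl K) (d : ℕ) (P : K[X]) : Prop :=
  (∀ j < d, w.valuation K (P.coeff j) < 1) ∧ w.valuation K (P.coeff 0) = exp (-1)

theorem le_exp_of_lt_one {γ : ℤᵐ⁰} (h : γ < 1) : γ ≤ exp (-1) := by
  by_cases h0 : γ = 0
  · simp [h0]
  rw [← exp_log h0, ← exp_zero, exp_lt_exp] at h
  rw [← exp_log h0, exp_le_exp]; omega

theorem Eis.irreducible {w : Pl K} {P : K[X]} (h : Eis w P.natDegree P) (hP : P.Monic)
    (hd : 0 < P.natDegree) : Irreducible P := by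
  let v := w.valuation K
  let O := v.valuationSubring
  have hl : P ∈ lifts (algebraMap O K) := (lifts_iff_coeff_lifts _).2 fun j => by
    refine ⟨⟨P.coeff j, ?_⟩, rfl⟩
    change v _ ≤ 1
    rcases lt_trichotomy j P.natDegree with h1 | rfl | h1
    · exact (h.1 j h1).le
    · rw [hP.coeff_natDegree, map_one]
    · simp [coeff_eq_zero_of_natDegree_lt h1]
  obtain ⟨Q, rfl, hQd, hQ⟩ := lifts_and_natDegree_eq_and_monic hl hP
  have hm : ∀ x : O, x ∈ IsLocalRing.maximalIdeal O ↔ v x < 1 := fun x =>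
    Valuation.mem_maximalIdeal_iff (v := v)
  refine (hQ.irreducible_iff_irreducible_map_fraction_map (K := K)).1 ?_
  refine (show Q.IsEisensteinAt (IsLocalRing.maximalIdeal O) from
    ⟨?_, fun {n} hn => ?_, ?_⟩).irreducible inferInstance hQ.isPrimitive (hQd ▸ hd)
  · rw [hQ.leadingCoeff, hm]; simp
  · have := h.1 n (hQd ▸ hn)
    rw [coeff_map] at this
    exact (hm _).2 this
  · intro h2
    have h3 : v (Q.coeff 0) ≤ exp (-2) := by
      rw [pow_two] at h2
      refine Submodule.mul_induction_on (C := fun x : O => v x ≤ exp (-2)) h2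
        (fun a ha b hb => ?_) fun a b ha hb => ?_
      · rw [Subring.coe_mul, map_mul, show (-2 : ℤ) = -1 + -1 by norm_num, exp_add]
        exact mul_le_mul' (le_exp_of_lt_one ((hm _).1 ha)) (le_exp_of_lt_one ((hm _).1 hb))
      · exact v.map_add_le ha hb
    have h4 := h.2
    rw [coeff_map] at h4
    change v (Q.coeff 0) = _ at h4
    rw [h4, exp_le_exp] at h3
    omega

theorem Eis.ev {Z : Type*} {l : Filter Z} {J : Set (Ix K)} {w : Pl K} (hw : Sum.inl w ∈ J) {d : ℕ}
    {P : Z → K[X]} {P₀ : K[X]} (hP : ∀ j, Cv J l (fun z => (P z).coeff j) (P₀.coeff j))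
    (h : Eis w d P₀) : ∀ᶠ z in l, Eis w d (P z) := by
  refine ((eventually_all_finite (Set.finite_lt_nat d)).2 fun j hj =>
    (hP j).ev_lt hw (h.1 j hj)).and ?_
  have h0 : P₀.coeff 0 ≠ 0 := fun e => exp_ne_zero (by rw [← h.2, e, map_zero])
  exact ((hP 0).ev_eq hw h0).mono fun z hz => hz.trans h.2

end Eis

end Crest.Agent.T24.Heis
end
end

-- ▼ part T24/HeisC_83
section

/-! Row 24, HEIS part C: the global argument. -/

set_option autoImplicit false
set_option linter.unusedSectionVars false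

noncomputable section

namespace Crest.Agent.T24.Heis

open Module NumberField IsDedekindDomain WithZero Csa Asa Filter Topology Polynomial
open scoped NumberField Valued

variable {K : Type*} [Field K] [NumberField K] [StarRing K] {B : Type*} [Ring B] [StarRing B]
  [Algebra K B] [StarModule K B] [Algebra.IsCentral K B] [IsSimpleRing B] [FiniteDimensional K B]

variable (K B) in
/-- hermitian elements with prescribed nearby irreducible characteristic polynomial -/
def EmbN : Prop := ∀ a : B, star a = a → (rch K a).Separable → ∃ V ∈ nb (0 : K), ∀ P : K[X],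
  P.Monic → P.natDegree = deg K B → P.map (starRingEnd K) = P → Irreducible P →
  (∀ j < deg K B, P.coeff j - (rch K a).coeff j ∈ V) → ∃ th : B, star th = th ∧ rch K th = P

/-- the interpolation coefficient -/
def al (n μ v : K) : K := (star n * (n * (1 + v) / 2) - n * star (n * (1 + v) / 2)) /
  (μ * (star (n * (1 + v) / 2) - n * (1 + v) / 2))

theorem star_al (n : K) {μ : K} (hμ : star μ = μ) (v : K) : star (al n μ v) = al n μ v := by
  rw [al, star_div₀, star_sub, star_mul', star_mul' n, star_mul' μ, star_sub, star_star, star_star, hμ,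
    ← neg_div_neg_eq]
  congr 1 <;> ring

theorem al_spec {n μ v : K} (hμ : star μ = μ) (h0 : μ ≠ 0) (hv : star v * v = 1) (hn : n ≠ 0)
    (hb : star (n * (1 + v) / 2) - n * (1 + v) / 2 ≠ 0) (h1 : n + al n μ v * μ ≠ 0) :
    (n + al n μ v * μ) / star (n + al n μ v * μ) = n / star n * v := by
  have e1 : star n * (n * (1 + v) / 2) = n * v * star (n * (1 + v) / 2) := by
    rw [star_div₀, star_mul', star_add, star_one, star_ofNat]
    linear_combination (-(n * star n) / 2) * hv
  have e2 := star_al n hμ v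
  have e3 : al n μ v * μ * (star (n * (1 + v) / 2) - n * (1 + v) / 2) =
      star n * (n * (1 + v) / 2) - n * star (n * (1 + v) / 2) := by
    rw [mul_assoc, al, div_mul_cancel₀ _ (mul_ne_zero h0 hb)]
  generalize n * (1 + v) / 2 = b at *
  have hb0 : star b ≠ 0 := fun e => hb (by rw [e, star_eq_zero.1 e, sub_zero])
  rw [div_mul_eq_mul_div, div_eq_div_iff (star_ne_zero.2 h1) (star_ne_zero.2 hn), star_add,
    star_mul', e2, hμ]
  refine mul_right_cancel₀ hb0 ?_
  linear_combination (star n) * e3 + (star n + al n μ v * μ) * e1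

section Base
variable {Z : Type*} {l : Filter Z}

theorem cv_al (hJ : SC (K := K) Set.univ Set.univ) {n μ : K} (h0 : μ ≠ 0) (hn : star n - n ≠ 0)
    {v : Z → K} (hv : Cv Set.univ l v 1) : Cv Set.univ l (fun z => al n μ (v z)) 0 ∧
      ∀ᶠ z in l, star (n * (1 + v z) / 2) - n * (1 + v z) / 2 ≠ 0 := by
  have hb : Cv Set.univ l (fun z => n * (1 + v z) / 2) n :=
    (((Cv.const n).mul ((Cv.const 1).add hv)).div (Cv.const 2) two_ne_zero).congr (fun _ => rfl)
      (by ring)
  have : Nonempty (Ix K) := ⟨.inr (Classical.arbitrary _)⟩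
  exact ⟨((((Cv.const _).mul hb).sub ((Cv.const n).mul (hb.star hJ))).div
    ((Cv.const μ).mul ((hb.star hJ).sub hb)) (mul_ne_zero h0 hn)).congr (fun _ => rfl)
      (by rw [mul_comm (star n), sub_self, zero_div]),
    ((hb.star hJ).sub hb).ev_ne Set.univ_nonempty hn⟩

variable (B) in
/-- depth of a Cayley lift -/
def Dp (m : ℕ) (t n : K) : Prop :=
  ∀ w ∈ TT K B, w.valuation K ((2 * t) ^ deg K B / star n) < exp (-(m : ℤ))

theorem cay_sub {θ : B} (hθ : star θ = θ) {t : K} (ht : star t = -t) :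
    aeval θ (C t - X) - star (aeval θ (C t - X)) = algebraMap K B (2 * t) := by
  rw [map_sub, aeval_C, aeval_X, star_sub, Csa.star_algebraMap, hθ, ht, map_neg, two_mul, map_add]
  abel

theorem cay_nrd (θ : B) (t : K) : Nrd K (aeval θ (C t - X)) = (rch K θ).eval t := by
  rw [map_sub, aeval_C, aeval_X, eval_rch]

theorem base (hJ : SC (K := K) Set.univ Set.univ) (hT : (TT K B).Finite) (hE : EmbN K B)
    (hd : 3 ≤ deg K B) {m : ℕ} {θ₀ : B} (h₀ : star θ₀ = θ₀) {w : Pl K}
    (hw : Eis w (deg K B) (rch K θ₀)) (t : Fin 2 → K) (ht : ∀ i, star (t i) = -t i)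
    (hμ : t 0 ^ 2 - t 1 ^ 2 ≠ 0) (n : Fin 2 → K) (hn : ∀ i, (rch K θ₀).eval (t i) = n i)
    (hn' : ∀ i, star (n i) - n i ≠ 0) (hD : ∀ i, Dp B m (t i) (n i)) :
    BL K B m (n 0 / star (n 0)) (n 1 / star (n 1)) := by
  have hI : Nonempty (Ix K) := ⟨.inr (Classical.arbitrary _)⟩
  have hirr := Eis.irreducible (by rwa [rch_natDegree]) (rch_monic K θ₀)
    (by rw [rch_natDegree]; omega)
  obtain ⟨V, hV, hemb⟩ := hE θ₀ h₀ hirr.separable
  let l := nb (1 : K) ×ˢ nb (1 : K)
  let μ : Fin 2 → K := ![t 0 ^ 2 - t 1 ^ 2, t 1 ^ 2 - t 0 ^ 2]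
  have hμ0 : ∀ i, μ i ≠ 0 := Fin.forall_fin_two.2 ⟨hμ, sub_ne_zero.2 (sub_ne_zero.1 hμ).symm⟩
  have ht2 : ∀ i, star (t i ^ 2) = t i ^ 2 := fun i => by rw [star_pow, ht, neg_sq]
  have hμs : ∀ i, star (μ i) = μ i := Fin.forall_fin_two.2 ⟨by simp [μ, ht], by simp [μ, ht]⟩
  have hn0 : ∀ i, n i ≠ 0 := fun i e => hn' i (by simp [e])
  let v : Fin 2 → K × K → K := ![Prod.fst, Prod.snd]
  have hv : ∀ i, Cv Set.univ l (v i) 1 :=
    Fin.forall_fin_two.2 ⟨(cv_nb 1).comp tendsto_fst, (cv_nb 1).comp tendsto_snd⟩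
  let a : Fin 2 → K × K → K := fun i z => al (n i) (μ i) (v i z)
  have ha := fun i => cv_al hJ (hμ0 i) (hn' i) (hv i)
  let P : K × K → K[X] := fun z =>
    rch K θ₀ + (C (a 0 z) * (X ^ 2 - C (t 1 ^ 2)) + C (a 1 z) * (X ^ 2 - C (t 0 ^ 2)))
  have hc : ∀ j, Cv Set.univ l (fun z => (P z).coeff j) ((rch K θ₀).coeff j) := fun j =>
    ((Cv.const _).add (((ha 0).1.mul (Cv.const ((X ^ 2 - C (t 1 ^ 2)).coeff j))).add
      ((ha 1).1.mul (Cv.const ((X ^ 2 - C (t 0 ^ 2)).coeff j))))).congr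
      (fun z => by simp only [P, coeff_add, coeff_C_mul]; rfl) (by simp)
  have hdeg : ∀ z, (C (a 0 z) * (X ^ 2 - C (t 1 ^ 2)) + C (a 1 z) * (X ^ 2 - C (t 0 ^ 2))).degree <
      (rch K θ₀).degree := fun z => by
    rw [degree_eq_natDegree (rch_monic K θ₀).ne_zero, rch_natDegree]
    refine lt_of_le_of_lt (b := 2) (by compute_degree!) (by exact_mod_cast hd)
  have hm : ∀ z, (P z).Monic := fun z => (rch_monic K θ₀).add_of_left (hdeg z)
  have hnd : ∀ z, (P z).natDegree = deg K B := fun z =>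
    (natDegree_add_eq_left_of_degree_lt (hdeg z)).trans (rch_natDegree _)
  have hs : ∀ z, (P z).map (starRingEnd K) = P z := fun z => by
    simp only [P, Polynomial.map_add, Polynomial.map_mul, Polynomial.map_sub, Polynomial.map_pow,
      map_C, map_X, rch_herm h₀, starRingEnd_apply, ht2, a, star_al _ (hμs _)]
  have he : ∀ z i, (P z).eval (t i) = n i + a i z * μ i := fun z =>
    Fin.forall_fin_two.2 ⟨by simp [P, μ, hn], by simp [P, μ, hn]⟩
  have hcn : ∀ i, Cv Set.univ l (fun z => n i + a i z * μ i) (n i) := fun i =>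
    ((Cv.const _).add ((ha i).1.mul (Cv.const _))).congr (fun _ => rfl) (by simp)
  have E : ∀ᶠ z in l, Eis w (deg K B) (P z) ∧
      (∀ j < deg K B, (P z).coeff j - (rch K θ₀).coeff j ∈ V) ∧ ∀ i,
      star (n i * (1 + v i z) / 2) - n i * (1 + v i z) / 2 ≠ 0 ∧ n i + a i z * μ i ≠ 0 ∧
        Dp B m (t i) (n i + a i z * μ i) := by
    refine (Eis.ev (Set.mem_univ _) hc hw).and (.and ?_ (eventually_all.2 fun i => (ha i).2.and
      (((hcn i).ev_ne Set.univ_nonempty (hn0 i)).and ?_)))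
    · refine (eventually_all_finite (Set.finite_lt_nat _)).2 fun j _ => ?_
      exact (((hc j).sub (Cv.const _)).congr (fun _ => rfl) (sub_self _)).tendsto hV
    · exact (eventually_all_finite hT).2 fun w' hw' => ((Cv.const _).div ((hcn i).star hJ)
        (star_ne_zero.2 (hn0 i))).ev_lt trivial (hD i w' hw')
  obtain ⟨V₁, hV₁, V₂, hV₂, E⟩ := mem_prod_iff.1 E
  refine ⟨V₁ ∩ V₂, inter_mem hV₁ hV₂, fun v₁ h₁ v₂ h₂ n₁ n₂ => ?_⟩
  obtain ⟨E1, E2, E3⟩ := E (Set.mk_mem_prod h₁.1 h₂.2)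
  set z := (v₁, v₂)
  obtain ⟨θ, hθ, hr⟩ := hemb (P z) (hm z) (hnd z) (hs z)
    (Eis.irreducible (by rwa [hnd]) (hm z) (by rw [hnd]; omega)) E2
  have hN : ∀ i, Nrd K (aeval θ (C (t i) - X)) = n i + a i z * μ i := fun i => by
    rw [cay_nrd, hr, he]
  have hN0 : ∀ i, Nrd K (aeval θ (C (t i) - X)) ≠ 0 := fun i => hN i ▸ (E3 i).2.1
  obtain ⟨x, hx, hxc⟩ := exists_lifts hθ (fun i => C (t i) - X) hN0
  have hU : ∀ i, x i ∈ Um K B m := fun i => mem_Um_of (hx i) (hN0 i) (by
    rw [cay_sub hθ (ht i), Nrd_algebraMap, hN]; exact (E3 i).2.2)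
  have hv1 : ∀ i, star (v i z) * v i z = 1 := Fin.forall_fin_two.2 ⟨n₁, n₂⟩
  have hX : ∀ i, Nrd K (x i : B) = n i / star (n i) * v i z := fun i => by
    rw [nrd_lift (hx i) (hN0 i), hN]
    exact al_spec (hμs i) (hμ0 i) (hv1 i) (hn0 i) (E3 i).1 (E3 i).2.1
  exact ⟨x 0, hU 0, x 1, hU 1, hxc 0 1, hX 0, hX 1⟩

end Base

/-- a null sequence at `T` of skew scalars -/
theorem exists_null {T : Set (Pl K)} (hT : T.Finite) {η : K} (h0 : η ≠ 0) (hη : star η = -η) :
    ∃ s : ℕ → K, Function.Injective s ∧ (∀ n, star (s n) = -s n) ∧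
      Cv (Sum.inl '' T) atTop s 0 := by
  obtain ⟨c, hc0, hc⟩ := exists_deep hT.toFinset 1
  let M : ℕ := 2 * Ideal.absNorm (Ideal.span {c})
  have hM : 2 ≤ M := Nat.le_mul_of_pos_right _ (Nat.pos_of_ne_zero (by
    rwa [Ne, Ideal.absNorm_eq_zero_iff, Ideal.span_singleton_eq_bot]))
  obtain ⟨r, hr⟩ := Ideal.mem_span_singleton'.1 (Ideal.absNorm_mem (Ideal.span {c}))
  have hr' : (M : K) = ((2 * r : 𝓞 K) : K) * c := by
    have := congrArg (algebraMap (𝓞 K) K) hr
    simp only [map_mul, map_natCast] at this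
    simp only [M, Nat.cast_mul, ← this]
    change _ = algebraMap (𝓞 K) K _ * algebraMap (𝓞 K) K _
    rw [map_mul, map_ofNat, Nat.cast_ofNat, mul_assoc]
  refine ⟨fun n => η * (M : K) ^ n, fun a b h => ?_, fun n => by simp [hη], ?_⟩
  · have := mul_left_cancel₀ h0 h
    rw [← Nat.cast_pow, ← Nat.cast_pow, Nat.cast_inj] at this
    exact Nat.pow_right_injective hM this
  · rintro _ ⟨w, hw, rfl⟩
    have h1 : ab (.inl w) (M : K) < 1 := by
      rw [← (ab (.inl w : Ix K)).map_one, ab_lt_iff, map_one, hr', map_mul]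
      exact (mul_le_of_le_one_left' (val_int w _)).trans_lt
        ((hc w (hT.mem_toFinset.2 hw)).trans_lt (exp_neg_lt_one one_pos))
    simpa using (tendsto_pow_atTop_nhds_zero_of_lt_one ((ab _).nonneg _) h1).const_mul (ab (.inl w) η)

theorem ev_not_root {s : ℕ → K} (hs : Function.Injective s) {P : K[X]} (hP : P ≠ 0) :
    ∀ᶠ n in atTop, P.eval (s n) ≠ 0 := by
  rw [← Nat.cofinite_eq_atTop]
  exact hs.tendsto_cofinite.eventually (p := fun x => P.eval x ≠ 0)
    ((finite_setOfPred_isRoot hP).subset fun x hx => not_not.1 hx)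

theorem exists_scalar (hT : (TT K B).Finite) {η : K} (h0 : η ≠ 0) (hη : star η = -η) (m : ℕ)
    (x : unitary B) : ∃ ζ ∈ Um K B m, (∀ y, Commute ζ y) ∧ IsUnit (1 - ((ζ * x : unitary B) : B)) ∧
      Nrd K ((ζ * x : unitary B) : B) ≠ 1 := by
  obtain ⟨s, hs, hs', hc⟩ := exists_null hT h0 hη
  have h1 : ∀ n, 1 - s n ≠ 0 := fun n e => by
    have := hs' n
    rw [← sub_eq_zero.1 e, star_one] at this
    norm_num at this
  have h2 : ∀ n, 1 + s n ≠ 0 := fun n e => h1 n (by simpa [hs', sub_eq_add_neg] using congrArg star e)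
  have hr : Function.Injective fun n => (1 - s n) / (1 + s n) := fun a b h => hs (by
    rw [div_eq_div_iff (h2 a) (h2 b)] at h
    linear_combination (-1 / 2 : K) * h)
  have hd := (deg_pos K B).ne'
  have hz : Cv (Sum.inl '' TT K B) atTop (fun n => ((1 + s n) / (1 - s n) - 1) ^ deg K B) 0 :=
    ((((((Cv.const 1).add hc).div ((Cv.const 1).sub hc) (by simp)).sub (Cv.const 1))).pow _).congr
      (fun _ => rfl) (by simp [hd])
  obtain ⟨n, h3, h4⟩ := ((ev_not_root hr (mul_ne_zero (rch_monic K (x : B)).ne_zero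
    (X_pow_sub_C_ne_zero (deg_pos K B) (Nrd K (x : B))))).and ((eventually_all_finite hT).2
    fun w hw => hz.ev_lt ⟨w, hw, rfl⟩ (γ := exp (-(m : ℤ))) (by simp))).exists
  set z := (1 + s n) / (1 - s n) with hzd
  have hzs : star z = (1 - s n) / (1 + s n) := by simp [hzd, hs', sub_eq_add_neg]
  have hz1 : star z * z = 1 := by rw [hzs, hzd]; field_simp [h1 n, h2 n]
  have hz0 : z ≠ 0 := right_ne_zero_of_mul_eq_one hz1
  rw [← hzs, eval_mul, mul_ne_zero_iff, eval_rch, eval_sub, eval_pow, eval_X, eval_C] at h3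
  refine ⟨⟨algebraMap K B z, ?_⟩, fun w hw => ?_, fun y => Subtype.ext (Algebra.commutes _ _), ?_, ?_⟩
  · rw [Unitary.mem_iff, Csa.star_algebraMap, ← map_mul, ← map_mul, mul_comm z, hz1, map_one]; simp
  · change w.valuation K (Nrd K (algebraMap K B z - 1)) < _
    rw [← map_one (algebraMap K B), ← map_sub, Nrd_algebraMap]; exact h4 w hw
  · have : 1 - algebraMap K B z * x = algebraMap K B z * (algebraMap K B (star z) - x) := by
      rw [mul_sub, ← map_mul, mul_comm z, hz1, map_one]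
    change IsUnit (1 - algebraMap K B z * x)
    rw [this, isUnit_iff_Nrd (K := K), map_mul, Nrd_algebraMap]
    exact mul_ne_zero (pow_ne_zero _ hz0) h3.1
  · change Nrd K (algebraMap K B z * x) ≠ 1
    rw [map_mul, Nrd_algebraMap]
    refine fun e => h3.2 ?_
    rw [← mul_one (star z ^ _), ← e, ← mul_assoc, ← mul_pow, hz1, one_pow, one_mul, sub_self]

theorem cayley {η : K} (hη : star η = -η) (u : unitary B) (hu : IsUnit (1 - (u : B))) :
    ∃ a : B, star a = a ∧ star (aeval a (C η - X)) * u = aeval a (C η - X) := by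
  obtain ⟨v, hv⟩ := hu
  let a : B := η • ((1 + u) * ((v⁻¹ : Bˣ) : B))
  have h1 : a * (1 - u) = η • (1 + u) := by
    rw [← hv, smul_mul_assoc, mul_assoc, Units.inv_mul, mul_one]
  have h2 : (1 - u) * a = η • (1 + u) := by
    have : Commute (1 - (u : B)) (1 + u) :=
      (Commute.one_left _).sub_left ((Commute.one_right _).add_right (Commute.refl _))
    rw [mul_smul_comm, ← mul_assoc, this.eq, ← hv, mul_assoc, Units.mul_inv, mul_one]
  have h3 : star a = a := by
    have h4 := congrArg (fun y => star y * (u : B)) h2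
    simp only [star_mul, star_sub, star_one, star_smul, star_add, hη, mul_assoc, sub_mul, one_mul,
      smul_mul_assoc, add_mul, u.2.1] at h4
    refine v.isUnit.mul_right_cancel ?_
    rw [hv, h1, ← neg_sub, mul_neg, mul_sub, h4, neg_smul, neg_neg, add_comm]
  refine ⟨a, h3, ?_⟩
  rw [map_sub, aeval_C, aeval_X, star_sub, Csa.star_algebraMap, h3, hη,
    Algebra.algebraMap_eq_smul_one, Algebra.algebraMap_eq_smul_one, sub_mul, smul_mul_assoc, one_mul,
    neg_smul, ← sub_eq_zero]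
  rw [mul_sub, mul_one, smul_add] at h1
  rw [← sub_eq_zero.2 h1]; abel

/-- a polynomial with given coefficients -/
def pol (D : ℕ) (r : ℕ → K) : K[X] := ∑ j ∈ Finset.range D, C (r j) * X ^ j

theorem aeval_pol {A : Type*} [Ring A] [Algebra K A] (D : ℕ) (r : ℕ → K) (x : A) :
    aeval x (pol D r) = ∑ j ∈ Finset.range D, r j • x ^ j := by
  simp [pol, map_sum, Algebra.smul_def]

theorem CvB.aeval {Z : Type*} {l : Filter Z} {J : Set (Ix K)} {F : Z → B} {a : B}
    (h : CvB J l F a) (P : K[X]) : CvB J l (fun z => aeval (F z) P) (aeval a P) := by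
  simp only [aeval_eq_sum_range]
  exact CvB.sum _ fun j _ => CvB.smul (Cv.const _) (h.pow j)

section Glob
variable (k : Type*) [Field k] [NumberField k] [Algebra k K] [Quad k K]

theorem cv_sym {G : Option (Pl k) → B} (hG : ∀ p, star (G p) = G p) (p : Option (Pl k)) :
    CvB (pr (K := K) k ⁻¹' {p}) (lB (K := K) k fun p => (2⁻¹ : K) • G p) (fun y => y + star y)
      (G p) :=
  ((cv_lB k _ p).add ((cv_lB k _ p).star (sc_pr k _))).congr (fun _ => rfl) (by
    rw [star_smul, hG, ← add_smul, star_inv₀, star_ofNat, show (2⁻¹ + 2⁻¹ : K) = 1 by norm_num,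
      one_smul])

theorem pr_none : (pr (K := K) k ⁻¹' {none}).Nonempty := ⟨.inr (Classical.arbitrary _), rfl⟩

variable (K B) in
/-- hermitian elements that are Eisenstein at a new place -/
def EisEx : Prop := ∀ q : Finset (Ix K), ∃ w : Pl K, (∀ i ∈ q, pr k i ≠ some (below k w)) ∧
  ∃ a : B, star a = a ∧ Eis w (deg K B) (rch K a)

theorem good (hT : (TT K B).Finite) (hE : EmbN K B) (hX : EisEx K B k) (hd : 3 ≤ deg K B) {m : ℕ}
    {u : unitary B} (hu : u ∈ Um K B m) (h1 : IsUnit (1 - (u : B))) (h2 : Nrd K (u : B) ≠ 1)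
    (q : Finset (Ix K)) {ε : ℝ} (hε : 0 < ε) : ∃ x ∈ Um K B m, (∃ c, BL K B m (Nrd K (x : B)) c) ∧
      ∀ i ∈ q, ab i (Nrd K (u : B) / Nrd K (x : B) - 1) < ε := by
  classical
  obtain ⟨η, h0, hη⟩ := exists_skew (Quad.ne (k := k) (K := K))
  obtain ⟨a, ha, hY⟩ := cayley hη u h1
  have hn : Nrd K (aeval a (C η - X)) ≠ 0 := fun e => by
    have := congrArg (Nrd K) (((mul_sub_one _ _).trans (congrArg (· - _) hY)).trans (cay_sub ha hη))
    rw [Nrd_algebraMap, map_mul, Csa.Nrd_star, e, star_zero, zero_mul] at this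
    exact pow_ne_zero _ (mul_ne_zero two_ne_zero h0) this.symm
  have hu' := nrd_lift hY hn
  let q' := q ∪ hT.toFinset.image Sum.inl
  obtain ⟨w, hw, a₁, ha₁, hw₁⟩ := hX q'
  let G : Option (Pl k) → B := fun p => if p = some (below k w) then a₁ else a
  have hG : ∀ p, star (G p) = G p := fun p => by simp only [G]; split_ifs <;> assumption
  have c1 := cv_sym (K := K) k hG (some (below k w))
  have c2 := ((cv_sym (K := K) k hG none).aeval (C η - X)).nrd
  rw [show G (some (below k w)) = a₁ from if_pos rfl] at c1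
  rw [show G none = a from if_neg (by simp)] at c2
  have hs : star (Nrd K (aeval a (C η - X))) - Nrd K (aeval a (C η - X)) ≠ 0 := fun e =>
    h2 (by rw [hu', sub_eq_zero.1 e, div_self hn])
  have c3 : ∀ i ∈ q', ∀ᶠ y in lB (K := K) k fun p => (2⁻¹ : K) • G p,
      Gi B i m ε (Nrd K (u : B)) (aeval (y + star y) (C η - X)) := fun i hi => by
    have c := (cv_sym (K := K) k hG (pr k i)).aeval (C η - X)
    rw [show G (pr k i) = a from if_neg (hw i hi)] at c
    refine Gi.ev (sc_pr k {pr k i}) rfl c hn ⟨?_, fun w' hw' _ => ?_⟩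
    · rw [hu', div_mul_cancel₀ _ (star_ne_zero.2 hn), div_self hn, sub_self, map_zero]; exact hε
    · rw [← nrd_lift_sub hY hn]; exact hu w' hw'
  obtain ⟨y, ⟨E1, E2⟩, E3, E4⟩ := (((Eis.ev (w := w) (J := pr k ⁻¹' {some (below k w)}) rfl c1.rch hw₁).and
    ((eventually_all_finset q').2 c3)).and ((c2.ev_ne (pr_none k) hn).and
      (((c2.star (sc_pr k _)).sub c2).ev_ne (pr_none k) hs))).exists
  have hθ : star (y + star y) = y + star y := by rw [star_add, star_star, add_comm]
  generalize y + star y = θ at *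
  obtain ⟨x, hx, -⟩ := exists_lifts hθ (fun _ : Unit => C η - X) fun _ => E3
  have hD := fun w' hw' => (E2 (.inl w') (Finset.mem_union_right _
    (Finset.mem_image_of_mem _ (hT.mem_toFinset.2 hw')))).2 w' hw' rfl
  have hx' := nrd_lift (hx ()) E3
  refine ⟨x (), mem_Um_of (hx ()) E3 hD, ?_, fun i hi => ?_⟩
  swap
  · rw [hx', div_div_eq_mul_div]; exact (E2 i (Finset.mem_union_left _ hi)).1
  rw [cay_sub hθ hη, Nrd_algebraMap, cay_nrd] at hD
  rw [cay_nrd] at hx' E4
  have hst : ∀ t : K, star t = -t → star ((rch K θ).eval t) = (rch K θ).eval (-t) := fun t ht => by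
    conv_rhs => rw [← rch_herm hθ, ← ht]
    exact (eval_map_apply (starRingEnd K) t).symm
  have hP : (rch K θ).comp (-X) - rch K θ ≠ 0 := fun e => E4 (by
    simpa [eval_comp, hst η hη] using congrArg (eval η) e)
  obtain ⟨s, hs1, hs2, hc⟩ := exists_null hT h0 hη
  have h00 : (rch K θ).eval 0 ≠ 0 := fun e =>
    exp_ne_zero (by rw [← E1.2, coeff_zero_eq_eval_zero, e, map_zero])
  have hc' : Cv (Sum.inl '' TT K B) atTop
      (fun n => (2 * s n) ^ deg K B / star ((rch K θ).eval (s n))) 0 := by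
    simp only [hst _ (hs2 _)]
    simp only [eval_eq_sum_range] at h00 ⊢
    exact ((((Cv.const 2).mul hc).pow (deg K B)).div (Cv.sum _ fun j _ => (Cv.const _).mul (hc.neg.pow j))
      (by rwa [neg_zero])).congr (fun _ => rfl) (by simp [(deg_pos K B).ne'])
  obtain ⟨n, h3, h4⟩ := ((ev_not_root hs1 (mul_ne_zero hP (X_pow_sub_C_ne_zero two_pos (η ^ 2)))).and
    ((eventually_all_finite hT).2 fun w hw =>
      hc'.ev_lt ⟨w, hw, rfl⟩ (γ := exp (-(m : ℤ))) (by simp))).exists
  simp only [eval_mul, mul_ne_zero_iff, eval_sub, eval_comp, eval_neg, eval_X, eval_pow, eval_C] at h3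
  rw [hx']
  exact ⟨_, base (sc_univ k) hT hE hd hθ E1 ![η, s n] (Fin.forall_fin_two.2 ⟨hη, hs2 n⟩)
    (sub_ne_zero.2 (sub_ne_zero.1 h3.2).symm) (fun i => (rch K θ).eval (![η, s n] i)) (fun _ => rfl)
    (Fin.forall_fin_two.2 ⟨E4, (hst _ (hs2 n)).symm ▸ h3.1⟩) (Fin.forall_fin_two.2 ⟨hD, h4⟩)⟩

theorem Hy.ct {m : ℕ} {N : Subgroup (unitary B)} (H : Hy K m N) (hT : (TT K B).Finite)
    (hE : EmbN K B) (hX : EisEx K B k) (hd : 3 ≤ deg K B) :
    VV K m N ∧ ∀ x ∈ Um K B m, Ct K m N x := by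
  obtain ⟨η, h0, hη⟩ := exists_skew (Quad.ne (k := k) (K := K))
  have key : ∀ x ∈ Um K B m, ∀ V ∈ nb (1 : K), ∃ ζ ∈ Um K B m, (∀ y, Commute ζ y) ∧
      ∃ x' ∈ Um K B m, (∃ c, BL K B m (Nrd K (x' : B)) c) ∧
        Nrd K ((x'⁻¹ * (ζ * x) : unitary B) : B) ∈ V := fun x hx V hV => by
    obtain ⟨ζ, h1, h2, h3, h4⟩ := exists_scalar hT h0 hη m x
    obtain ⟨q, -, hq⟩ := (nb_basis 1).mem_iff.1 hV
    obtain ⟨x', h5, h6, h7⟩ := good k hT hE hX hd ((Um K B m).mul_mem h1 hx) h3 h4 q.1
      (Nat.one_div_pos_of_nat (n := q.2))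
    exact ⟨ζ, h1, h2, x', h5, h6, hq (by rw [Nrd_div]; exact h7)⟩
  obtain ⟨-, -, -, x₀, -, ⟨c₀, hb⟩, -⟩ := key 1 (one_mem _) _ univ_mem
  obtain ⟨V, hV, hVV⟩ := (H.bl hb).2
  refine ⟨⟨V, hV, hVV⟩, fun x hx => ?_⟩
  obtain ⟨ζ, h1, h2, x', h3, ⟨c, h4⟩, h5⟩ := key x hx V hV
  obtain ⟨W, hW, h6⟩ := (H.bl h4).1 x' h3 rfl
  refine ⟨V ∩ W, inter_mem hV hW, fun y hy e => H.left hy (zc_of_commute (h2 y)) ?_⟩
  simpa using H.mul hy (h6 y hy e.2) (hVV _ ((Um K B m).mul_mem ((Um K B m).inv_mem h3)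
    ((Um K B m).mul_mem h1 hx)) y hy h5 e.1)

variable (B) in
/-- approximate commuting lifts at one place of `k` -/
def LP (m : ℕ) (c : Fin 2 → K) (p : Option (Pl k)) : Prop := ∀ (q : Finset (Ix K)) (ε : ℝ), 0 < ε →
  ∃ θ : B, star θ = θ ∧ ∃ R : Fin 2 → K[X], ∀ j, Nrd K (aeval θ (R j)) ≠ 0 ∧
    ∀ i ∈ q, pr k i = p → Gi B i m ε (c j) (aeval θ (R j))

theorem glue {m : ℕ} {c : Fin 2 → K} (h : ∀ p, LP B k m c p) (q : Finset (Ix K)) {ε : ℝ}
    (hε : 0 < ε) : ∃ θ : B, star θ = θ ∧ ∃ R : Fin 2 → K[X], ∀ j, Nrd K (aeval θ (R j)) ≠ 0 ∧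
      ∀ i ∈ q, Gi B i m ε (c j) (aeval θ (R j)) := by
  classical
  choose θ hθ R hR using fun p => h p q ε hε
  obtain ⟨D, hD⟩ := ((eventually_all_finset (insert none (q.image (pr k)))).2 fun p _ =>
    eventually_all.2 fun j => eventually_gt_atTop (R p j).natDegree).exists
  let l := (lB (K := K) k fun p => (2⁻¹ : K) • θ p) ×ˢ
    Filter.pi fun jn : Fin 2 × ℕ => lG k fun p => (R p jn.1).coeff jn.2
  let Y : Fin 2 → B × (Fin 2 × ℕ → K) → B := fun j z =>
    aeval (z.1 + star z.1) (pol D fun n => z.2 (j, n))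
  have hY : ∀ p ∈ insert none (q.image (pr k)), ∀ j,
      CvB (pr (K := K) k ⁻¹' {p}) l (Y j) (aeval (θ p) (R p j)) := fun p hp j => by
    simp only [Y, aeval_pol, aeval_eq_sum_range' (hD p hp j)]
    exact CvB.sum _ fun n _ => CvB.smul
      ((cv_lG (fun p => (R p j).coeff n) p).comp (g := fun z : B × (Fin 2 × ℕ → K) => z.2 (j, n))
        ((tendsto_eval_pi _ (j, n)).comp tendsto_snd))
      (((cv_sym k hθ p).comp tendsto_fst).pow n)
  obtain ⟨z, hz⟩ := (eventually_all.2 fun j =>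
    ((hY none (Finset.mem_insert_self _ _) j).nrd.ev_ne (pr_none k) (hR none j).1).and
    ((eventually_all_finset q).2 fun i hi => Gi.ev (sc_pr k {pr k i}) rfl
      (hY _ (Finset.mem_insert_of_mem (Finset.mem_image_of_mem _ hi)) j) (hR _ j).1
      ((hR _ j).2 i hi rfl))).exists
  exact ⟨_, by rw [star_add, star_star, add_comm], _, hz⟩

theorem Hy.heis {m : ℕ} {N : Subgroup (unitary B)} (H : Hy K m N) (hT : (TT K B).Finite)
    (hE : EmbN K B) (hX : EisEx K B k) (hd : 3 ≤ deg K B) {x y : unitary B} (hx : x ∈ Um K B m)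
    (hy : y ∈ Um K B m) (hL : ∀ p, LP B k m ![Nrd K (x : B), Nrd K (y : B)] p) : Zc N x y := by
  classical
  obtain ⟨⟨V, hV, hVV⟩, hct⟩ := H.ct k hT hE hX hd
  obtain ⟨V₁, hV₁, h₁⟩ := hct x hx
  obtain ⟨V₂, hV₂, h₂⟩ := hct y hy
  obtain ⟨q, -, hq⟩ := (nb_basis 1).mem_iff.1 (inter_mem hV (inter_mem hV₁ hV₂))
  obtain ⟨θ, hθ, R, hR⟩ := glue k hL (q.1 ∪ hT.toFinset.image Sum.inl)
    (Nat.one_div_pos_of_nat (n := q.2))
  obtain ⟨z, hz, hc⟩ := exists_lifts hθ R fun j => (hR j).1
  have hU : ∀ j, z j ∈ Um K B m := fun j => mem_Um_of (hz j) (hR j).1 fun w hw =>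
    ((hR j).2 (.inl w) (Finset.mem_union_right _
      (Finset.mem_image_of_mem _ (hT.mem_toFinset.2 hw)))).2 w hw rfl
  have hN : ∀ j, ![Nrd K (x : B), Nrd K (y : B)] j / Nrd K (z j : B) ∈ V ∩ (V₁ ∩ V₂) := fun j =>
    hq fun i hi => by
      rw [nrd_lift (hz j) (hR j).1, div_div_eq_mul_div]
      exact ((hR j).2 i (Finset.mem_union_left _ hi)).1
  have hu := (Um K B m).mul_mem ((Um K B m).inv_mem (hU 0)) hx
  have hv := (Um K B m).mul_mem ((Um K B m).inv_mem (hU 1)) hy
  have eu : Nrd K (((z 0)⁻¹ * x : unitary B) : B) ∈ V ∩ (V₁ ∩ V₂) := by rw [Nrd_div]; exact hN 0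
  have ev : Nrd K (((z 1)⁻¹ * y : unitary B) : B) ∈ V ∩ (V₁ ∩ V₂) := by rw [Nrd_div]; exact hN 1
  have a1 : Zc N (z 1) ((z 0)⁻¹ * x) :=
    H.right hu (hVV _ hv _ hu ev.1 eu.1) (by simpa using h₂ _ hu eu.2.2)
  have a2 : Zc N x (z 1) := by simpa using H.mul (hU 1) (zc_of_commute (hc 0 1)) a1.symm
  exact Zc.symm (by simpa using H.mul hx a2.symm (h₁ _ hv ev.2.1).symm)

end Glob

end Crest.Agent.T24.Heis
end
end

-- ▼ part T24/HeisD_83

/-! Row 24, HEIS part D: local targets and the local problems. -/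

set_option autoImplicit false
set_option linter.unusedSectionVars false

noncomputable section

namespace Crest.Agent.T24.Heis

open Module NumberField IsDedekindDomain WithZero Csa Asa Filter Topology Polynomial
open scoped NumberField Valued TensorProduct Matrix

section Alg
variable {F D : Type*} [Field F] [DivisionRing D] [Algebra F D] [FiniteDimensional F D]

theorem fin_shift (μ : D) {f : F[X]} (hf : f ≠ 0) :
    {t : F | aeval (algebraMap F D t + μ) f = 0}.Finite := by
  have hi : IsIntegral F μ := Algebra.IsIntegral.isIntegral μ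
  obtain ⟨r, hr⟩ := IsAlgClosed.exists_aeval_eq_zero (AlgebraicClosure F) (minpoly F μ)
    (minpoly.degree_pos hi).ne'
  refine Set.Finite.subset ((f.rootSet_finite (AlgebraicClosure F)).preimage
    (f := fun t => algebraMap F _ t + r) fun a _ b _ h =>
      (algebraMap F _).injective (add_right_cancel h)) fun t ht => ?_
  have h1 : minpoly F μ ∣ f.comp (C t + X) := minpoly.dvd F μ (by simpa [aeval_comp] using ht)
  have h2 := aeval_eq_zero_of_dvd_aeval_eq_zero h1 hr
  exact (mem_rootSet_of_ne hf).2 (by simpa [aeval_comp] using h2)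

theorem aeval_ne_symm {x y : D} (h : aeval y (minpoly F x) ≠ 0) : aeval x (minpoly F y) ≠ 0 :=
  fun e => h (by
    have hi : IsIntegral F y := Algebra.IsIntegral.isIntegral y
    rw [← minpoly.eq_of_irreducible_of_monic (minpoly.irreducible hi) e (minpoly.monic hi),
      minpoly.aeval])

theorem interp {x y z : D} (hy : aeval x (minpoly F y) ≠ 0) (hz : aeval x (minpoly F z) ≠ 0)
    (P : F[X]) : ∃ R : F[X], aeval x R = aeval x P ∧ aeval y R = 1 ∧ aeval z R = 1 := by
  obtain ⟨u, v, h⟩ : IsCoprime (minpoly F x) (minpoly F y * minpoly F z) :=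
    (minpoly.irreducible (Algebra.IsIntegral.isIntegral x)).coprime_iff_not_dvd.2 fun h =>
      mul_ne_zero hy hz (by simpa using aeval_eq_zero_of_dvd_aeval_eq_zero h (minpoly.aeval F x))
  have h1 := congrArg (aeval x) h
  have h2 := congrArg (aeval y) h
  have h3 := congrArg (aeval z) h
  refine ⟨u * minpoly F x + P * (v * (minpoly F y * minpoly F z)), ?_, ?_, ?_⟩ <;>
    simp only [map_add, map_mul, minpoly.aeval, mul_zero, zero_mul, zero_add, add_zero, map_one]
      at h1 h2 h3 ⊢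
  · rw [h1, mul_one]
  · exact h2
  · exact h3

/-- two diagonal matrices in one monogenic algebra -/
theorem exists_pair [CharZero F] [Algebra.IsCentral F D] {r : ℕ} (hr : 2 ≤ r) (μ : Fin 2 → D) :
    haveI : NeZero r := ⟨by omega⟩
    ∃ A : Matrix (Fin r) (Fin r) D, ∃ R : Fin 2 → F[X], ∀ j, Nrd F (aeval A (R j)) = Nrd F (μ j) := by
  have : NeZero r := ⟨by omega⟩
  have hm : ∀ x : D, minpoly F x ≠ 0 := fun x => minpoly.ne_zero (Algebra.IsIntegral.isIntegral x)
  obtain ⟨t, ht⟩ := (fin_shift (μ 1) (hm (μ 0))).exists_notMem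
  obtain ⟨s, hs⟩ := (fin_shift (0 : D) (mul_ne_zero (hm (μ 0))
    (hm (algebraMap F D t + μ 1)))).exists_notMem
  simp only [Set.mem_ofPred_eq, map_mul, mul_eq_zero, not_or] at ht hs
  obtain ⟨R₀, a1, a2, a3⟩ := interp (aeval_ne_symm ht) (aeval_ne_symm hs.1) X
  obtain ⟨R₁, b1, b2, b3⟩ := interp ht (aeval_ne_symm hs.2) (X - C t)
  let i₀ : Fin r := ⟨0, by omega⟩
  let i₁ : Fin r := ⟨1, by omega⟩
  have hi : i₀ ≠ i₁ := by simp [i₀, i₁]
  let g : Fin r → D := fun i =>
    if i = i₀ then μ 0 else if i = i₁ then algebraMap F D t + μ 1 else algebraMap F D s + 0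
  have key : ∀ R : F[X], Nrd F (aeval (Matrix.diagonal g) R) = ∏ i, Nrd F (aeval (g i) R) := by
    intro R
    rw [← Nrd_diagonal]
    congr 1
    refine (aeval_algHom_apply (Matrix.diagonalAlgHom F) g R).trans ?_
    refine congrArg Matrix.diagonal (funext fun i => ?_)
    exact (aeval_algHom_apply (Pi.evalAlgHom F _ i) g R).symm
  refine ⟨Matrix.diagonal g, ![R₀, R₁], Fin.forall_fin_two.2 ⟨?_, ?_⟩⟩
  · refine (key R₀).trans ((Finset.prod_eq_single i₀ (fun i _ h => ?_) (by simp)).trans ?_)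
    · simp only [g, if_neg h]
      split_ifs
      · rw [a2, map_one]
      · rw [a3, map_one]
    · simp [g, a1]
  · refine (key R₁).trans ((Finset.prod_eq_single i₁ (fun i _ h => ?_) (by simp)).trans ?_)
    · simp only [g, if_neg h]
      split_ifs
      · rw [b2, map_one]
      · rw [b3, map_one]
    · simp [g, hi.symm, b1]

/-- a hermitian idempotent of rank one -/
theorem exists_idem {F : Type*} [Field F] [CharZero F] [StarRing F] {η : F} (h0 : η ≠ 0)
    (hη : star η = -η) {n : ℕ} (hn : 0 < n) {H : Matrix (Fin n) (Fin n) F} (hH : Hᴴ = H) :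
    ∃ E : Matrix (Fin n) (Fin n) F, H * E = Eᴴ * H ∧ ∀ b : F, (1 + (b - 1) • E).det = b := by
  obtain ⟨P, a, h⟩ := exists_diag η h0 hη (fun a => mul_comm _ _) hH
  let i₀ : Fin n := ⟨0, hn⟩
  let S : Matrix (Fin n) (Fin n) F := Matrix.diagonal (Pi.single i₀ 1)
  have hS : Sᴴ = S := by
    rw [Matrix.diagonal_conjTranspose, Pi.star_single, star_one]
  refine ⟨P * S * (P⁻¹ : (Matrix (Fin n) (Fin n) F)ˣ), ?_, fun b => ?_⟩
  · have hP : IsUnit (P : Matrix (Fin n) (Fin n) F)ᴴ := (Matrix.isUnit_conjTranspose _).2 P.isUnit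
    refine hP.mul_left_cancel (P.isUnit.mul_right_cancel ?_)
    have e1 : (P : Matrix (Fin n) (Fin n) F)ᴴ * ((P⁻¹ : (Matrix (Fin n) (Fin n) F)ˣ) :
        Matrix (Fin n) (Fin n) F)ᴴ = 1 := by
      rw [← Matrix.conjTranspose_mul, Units.inv_mul, Matrix.conjTranspose_one]
    rw [Matrix.conjTranspose_mul, Matrix.conjTranspose_mul, hS]
    simp only [← mul_assoc]
    rw [e1, one_mul, h, mul_assoc _ _ (P : Matrix (Fin n) (Fin n) F), Units.inv_mul, mul_one,
      mul_assoc S, mul_assoc S, h]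
    exact Matrix.commute_diagonal _ _
  · have : 1 + (b - 1) • (P * S * (P⁻¹ : (Matrix (Fin n) (Fin n) F)ˣ)) =
        P * (1 + (b - 1) • S) * (P⁻¹ : (Matrix (Fin n) (Fin n) F)ˣ) := by
      rw [mul_add, add_mul, mul_one, Units.mul_inv, mul_smul_comm, smul_mul_assoc]
    rw [this, Matrix.det_units_conj, ← Matrix.diagonal_smul, ← Matrix.diagonal_one,
      Matrix.diagonal_add, Matrix.det_diagonal, Finset.prod_eq_single i₀]
    · simp
    · intro j _ hj; simp [hj]
    · simp

theorem exists_charpoly {F : Type*} [Field F] {f : F[X]} (hf : f.Monic) {d : ℕ}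
    (hd : f.natDegree = d) : ∃ A : Matrix (Fin d) (Fin d) F, A.charpoly = f := by
  subst hd
  exact ⟨Algebra.leftMulMatrix (AdjoinRoot.powerBasis hf.ne_zero).basis
    (AdjoinRoot.powerBasis hf.ne_zero).gen, (charpoly_leftMulMatrix _).trans
      (AdjoinRoot.minpoly_powerBasis_gen_of_monic hf)⟩

end Alg

variable {K : Type*} [Field K] [NumberField K]

theorem ev_ball (w : Pl K) {a : w.adicCompletion K} {t : Set (w.adicCompletion K)} (ht : t ∈ 𝓝 a) :
    ∀ᶠ m : ℕ in atTop, ∀ y, Valued.v (y - a) ≤ exp (-(m : ℤ)) → y ∈ t := by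
  obtain ⟨r, h0, h1, h⟩ := Loc.exists_exp w
  obtain ⟨ε, hε, h2⟩ := Metric.mem_nhds_iff.1 ht
  filter_upwards [(tendsto_pow_atTop_nhds_zero_of_lt_one h0.le h1).eventually (gt_mem_nhds hε)]
    with m hm y hy
  exact h2 (mem_ball_iff_norm.2 (((h _ _).1 hy).trans_lt hm))

theorem ev_v_lt {w : Pl K} {a : w.adicCompletion K} {γ : ℤᵐ⁰} (h : Valued.v a < γ) :
    ∀ᶠ y in 𝓝 a, Valued.v y < γ := by
  obtain ⟨p, rfl⟩ := w.valuedAdicCompletion_surjective K γ
  simp only [← Valued.toNormedField.norm_lt_iff] at h ⊢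
  exact continuous_norm.continuousAt.eventually (gt_mem_nhds h)

/-- the filter of elements that approximate local targets -/
def lL (G : ∀ w : Pl K, w.adicCompletion K) : Filter K :=
  ⨅ w, comap (algebraMap K (w.adicCompletion K)) (𝓝 (G w))

theorem tendsto_lL (G : ∀ w : Pl K, w.adicCompletion K) (w : Pl K) :
    Tendsto (algebraMap K (w.adicCompletion K)) (lL G) (𝓝 (G w)) := tendsto_iInf' w tendsto_comap

instance lL_neBot (G : ∀ w : Pl K, w.adicCompletion K) : (lL G).NeBot := by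
  refine forall_mem_nonempty_iff_neBot.1 fun U hU => ?_
  obtain ⟨I, hI, V, hV, -, rfl, -⟩ := mem_iInf'.1 hU
  choose t ht htV using fun w => mem_comap.1 (hV w)
  obtain ⟨m, hm⟩ := ((eventually_all_finite hI).2 fun w _ => ev_ball w (ht w)).exists
  obtain ⟨v₀, hv₀⟩ := exists_notMem hI.toFinset
  obtain ⟨x, hx, -⟩ := approxC _ v₀ hv₀ G m 0 one_pos
  exact ⟨x, Set.mem_iInter₂.2 fun w hw => htV w (hm w hw _ (hx w (hI.mem_toFinset.2 hw)))⟩

open Classical in
/-- target `a` at `w` and `c` elsewhere -/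
def l1 (w : Pl K) (a : w.adicCompletion K) (c : K) : Filter K :=
  lL (Function.update (fun _ => algebraMap K _ c) w a)

instance (w : Pl K) (a : w.adicCompletion K) (c : K) : (l1 w a c).NeBot := lL_neBot _

theorem tendsto_l1 (w : Pl K) (a : w.adicCompletion K) (c : K) :
    Tendsto (algebraMap K (w.adicCompletion K)) (l1 w a c) (𝓝 a) := by
  classical
  simpa [l1] using tendsto_lL (Function.update (fun _ => algebraMap K _ c) w a) w

theorem cv_l1 {w w' : Pl K} (h : w' ≠ w) (a : w.adicCompletion K) (c : K) :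
    Cv {Sum.inl w'} (l1 w a c) (fun y => y) c := by
  rintro _ rfl
  have : Tendsto _ (l1 w a c) _ := tendsto_lL _ w'
  exact cv_inl.2 (by simpa only [ne_eq, h, not_false_eq_true, Function.update_of_ne] using this)

section Md
variable {B : Type*} [Ring B] [Algebra K B] [Algebra.IsCentral K B] [IsSimpleRing B]
  [FiniteDimensional K B] {w : Pl K} {A : Type*} [Ring A] [Algebra (w.adicCompletion K) A]
  [Algebra.IsCentral (w.adicCompletion K) A] [IsSimpleRing A]
  [FiniteDimensional (w.adicCompletion K) A]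

variable (w) in
/-- a model of the completion of `B` at `w` -/
structure Md (φ : B →+* A) : Prop where
  hf : ∀ c, φ (algebraMap K B c) = algebraMap _ A (algebraMap K (w.adicCompletion K) c)
  hr : finrank (w.adicCompletion K) A = finrank K B

variable {φ : B →+* A}

theorem Md.smul (M : Md w φ) (c : K) (x : B) :
    φ (c • x) = algebraMap K (w.adicCompletion K) c • φ x := by
  rw [Algebra.smul_def, map_mul, M.hf, Algebra.smul_def]

theorem Md.eq_sum (M : Md w φ) (x : B) : φ x = ∑ j, algebraMap K (w.adicCompletion K)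
    ((finBasis K B).repr x j) • φ (finBasis K B j) := by
  conv_lhs => rw [← (finBasis K B).sum_repr x, map_sum]
  simp only [M.smul]

variable [TopologicalSpace A] [IsModuleTopology (w.adicCompletion K) A] {Z : Type*} {l : Filter Z}

theorem Md.tendsto (M : Md w φ) {F : Z → B} {a : B} (h : CvB {(Sum.inl w : Ix K)} l F a) :
    Tendsto (fun z => φ (F z)) l (𝓝 (φ a)) := by
  have := IsModuleTopology.toContinuousAdd (w.adicCompletion K) A
  simp only [M.eq_sum (F _), M.eq_sum a]
  exact tendsto_finsetSum _ fun j _ => (cv_inl.1 (h.repr _ j _ rfl)).smul_const _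

theorem Md.exists_filter (M : Md w φ) (a : A) : ∃ l : Filter B, l.NeBot ∧ Tendsto φ l (𝓝 a) ∧
    ∀ w' ≠ w, CvB {(Sum.inl w' : Ix K)} l (fun y => y) 0 := by
  have := IsModuleTopology.toContinuousAdd (w.adicCompletion K) A
  let e := finBasis K B
  let e' := mapBasis (L := w.adicCompletion K) e φ M.hr
  let L := fun j => l1 w (e'.repr a j) 0
  refine ⟨(Filter.pi L).map e.equivFun.symm, inferInstance, ?_, fun w' hw' => ?_⟩
  · rw [tendsto_map'_iff, ← e'.sum_repr a]
    refine (tendsto_finsetSum _ fun j _ =>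
      ((tendsto_l1 _ _ _).comp (tendsto_eval_pi L j)).smul_const (e' j)).congr fun y => ?_
    simp [e', M.smul, map_sum]
  · refine CvB.of_basis e fun j i hi => ?_
    rw [tendsto_map'_iff]
    refine (((cv_l1 hw' _ _).comp (tendsto_eval_pi L j)) i hi).congr fun y => ?_
    simp [← Basis.equivFun_apply]

theorem Md.rch (M : Md w φ) {F : Z → B} {a : A} (h : Tendsto (fun z => φ (F z)) l (𝓝 a)) (j : ℕ) :
    Tendsto (fun z => algebraMap K (w.adicCompletion K) ((rch K (F z)).coeff j)) l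
      (𝓝 ((rch (w.adicCompletion K) a).coeff j)) := by
  have := Loc.charZero_adic K w
  refine (((continuous_rch_coeff (fun f => IsModuleTopology.continuous_of_linearMap f) j).tendsto
    a).comp h).congr fun z => ?_
  rw [Function.comp_apply, rch_map _ φ M.hf M.hr, coeff_map]

theorem Md.nrd [CharZero (w.adicCompletion K)] (M : Md w φ) {F : Z → B} {a : A}
    (h : Tendsto (fun z => φ (F z)) l (𝓝 a)) :
    Tendsto (fun z => algebraMap K (w.adicCompletion K) (Nrd K (F z))) l
      (𝓝 (Nrd (w.adicCompletion K) a)) := by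
  refine (((continuous_Nrd (fun f => IsModuleTopology.continuous_of_linearMap f)).tendsto
    a).comp h).congr fun z => ?_
  rw [Function.comp_apply, Nrd_map _ φ M.hf M.hr]

theorem Md.exists_sym [StarRing K] [StarRing B] [StarModule K B] (M : Md w φ) {w' : Pl K}
    (hw' : ∀ x, w'.valuation K x = w.valuation K (star x)) (hne : w' ≠ w) (a : A) :
    ∃ l : Filter B, l.NeBot ∧ Tendsto (fun y => φ (y + star y)) l (𝓝 a) := by
  have := IsModuleTopology.toContinuousAdd (w.adicCompletion K) A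
  obtain ⟨l, h1, h2, h3⟩ := M.exists_filter a
  exact ⟨l, h1, by simpa using h2.add (M.tendsto ((h3 w' hne).star (sc_one hw')))⟩

end Md

variable [StarRing K] {B : Type*} [Ring B] [StarRing B]
  [Algebra K B] [StarModule K B] [Algebra.IsCentral K B] [IsSimpleRing B] [FiniteDimensional K B]
  (k : Type*) [Field k] [NumberField k] [Algebra k K] [Quad k K]

theorem md_mat {w : Pl K}
    (φ : B →ₐ[K] Matrix (Fin (deg K B)) (Fin (deg K B)) (w.adicCompletion K)) :
    haveI : NeZero (deg K B) := ⟨(deg_pos K B).ne'⟩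
    Md w φ.toRingHom :=
  haveI : NeZero (deg K B) := ⟨(deg_pos K B).ne'⟩
  ⟨fun c => (φ.commutes c).trans (IsScalarTower.algebraMap_apply _ _ _ _),
    by rw [finrank_mat, Fintype.card_fin, finrank_eq_deg_sq K B]⟩

instance (n : Type*) [Finite n] (F : Type*) [Field F] [TopologicalSpace F] [IsTopologicalRing F] :
    IsModuleTopology F (Matrix n n F) := inferInstanceAs (IsModuleTopology F (n → n → F))

theorem exists_over (v : Pl k) : ∃ w : Pl K, below k w = v := by
  have := v.isMaximal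
  obtain ⟨P, hP, hl⟩ := Ideal.exists_maximal_ideal_liesOver_of_isIntegral (S := 𝓞 K) v.asIdeal
  exact ⟨⟨P, hP.isPrime, Ideal.ne_bot_of_liesOver_of_ne_bot v.ne_bot P⟩,
    HeightOneSpectrum.ext hl.over.symm⟩

theorem ne_of_split {w w' : Pl K} (hw : Split w)
    (hw' : ∀ x, w'.valuation K x = w.valuation K (star x)) : w' ≠ w := by
  rintro rfl
  obtain ⟨x, hx⟩ := hw
  exact hx (hw' x).symm

theorem eisEx : EisEx K B k := fun q => by
  classical
  have : NeZero (deg K B) := ⟨(deg_pos K B).ne'⟩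
  have hb := Loc.spl_ae (finrank_eq_deg_sq K B)
  obtain ⟨v, hv, hs⟩ := Asa.exists_split Quad.fr (sig_ne k K)
    ((q.image (pr k)).eraseNone ∪ (Set.Finite.toFinset hb).image (below k))
  obtain ⟨w, rfl⟩ := exists_over (K := K) k v
  rw [Finset.mem_union, not_or] at hv
  obtain ⟨φ⟩ : Nonempty (B →ₐ[K] Matrix (Fin (deg K B)) (Fin (deg K B)) (w.adicCompletion K)) := by
    by_contra h
    exact hv.2 (Finset.mem_image_of_mem _ ((Set.Finite.mem_toFinset hb).2 h))
  refine ⟨w, fun i hi e => hv.1 (Finset.mem_eraseNone.2 (e ▸ Finset.mem_image_of_mem _ hi)), ?_⟩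
  obtain ⟨w', -, hw'⟩ := exists_cj k w
  obtain ⟨p, hp⟩ := w.valuation_surjective K (exp (-1))
  have hf : (X ^ deg K B - C p : K[X]).Monic := monic_X_pow_sub_C p (deg_pos K B).ne'
  obtain ⟨a, ha⟩ := exists_charpoly (hf.map (algebraMap K (w.adicCompletion K)))
    (d := deg K B) (by rw [hf.natDegree_map, natDegree_X_pow_sub_C])
  obtain ⟨l, h1, h2⟩ := (md_mat φ).exists_sym hw' (ne_of_split (hs w rfl) hw') a
  have h0 : w.valuation K ((X ^ deg K B - C p : K[X]).coeff 0) = exp (-1) := by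
    simp [coeff_X_pow, (deg_pos K B).ne, hp]
  obtain ⟨y, hy⟩ := (Eis.ev (J := {Sum.inl w}) (w := w) rfl (d := deg K B) (l := l)
    (P := fun y => rch K (y + star y)) (P₀ := X ^ deg K B - C p) (fun j => by
      rintro _ rfl
      have := (md_mat φ).rch h2 j
      rw [rch_mat, ha, coeff_map] at this
      exact cv_inl.2 this) ⟨fun j hj => by
      rcases j with _ | j
      · rw [h0]; exact exp_neg_lt_one one_pos
      · simp [coeff_X_pow, hj.ne], h0⟩).exists
  exact ⟨_, by rw [star_add, star_star, add_comm], hy⟩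

theorem lp_split {w w' : Pl K} (hw' : ∀ x, w'.valuation K x = w.valuation K (star x)) (hne : w' ≠ w)
    [CharZero (w.adicCompletion K)] {A : Type*} [Ring A] [Algebra (w.adicCompletion K) A]
    [Algebra.IsCentral (w.adicCompletion K) A] [IsSimpleRing A]
    [FiniteDimensional (w.adicCompletion K) A] {φ : B →+* A} (M : Md w φ) (a : A)
    (R : Fin 2 → (w.adicCompletion K)[X]) {c : Fin 2 → K} (hc : ∀ j, star (c j) * c j = 1)
    (hN : ∀ j, Nrd (w.adicCompletion K) (aeval a (R j)) = algebraMap K _ (c j)) {m : ℕ}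
    (hD : w ∈ TT K B ∨ w' ∈ TT K B → ∀ j, w.valuation K (c j) = 1 ∧
      Valued.v (Nrd (w.adicCompletion K) (aeval a (R j) - 1)) < exp (-(m : ℤ))) :
    LP B k m c (some (below k w)) := fun q ε hε => by
  let F := w.adicCompletion K
  let ι := algebraMap K F
  let _ := moduleTopology F A
  have : IsModuleTopology F A := ⟨rfl⟩
  have := IsModuleTopology.isTopologicalRing F A
  obtain ⟨l₀, h1, h2⟩ := M.exists_sym hw' hne a
  obtain ⟨D, hD1, hD2⟩ := ((eventually_all.2 fun j => eventually_gt_atTop (R j).natDegree).and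
    (eventually_gt_atTop (1 : F[X]).natDegree)).exists
  let L := fun jn : Fin 2 × ℕ => l1 w ((R jn.1).coeff jn.2) ((1 : K[X]).coeff jn.2)
  let l := l₀ ×ˢ Filter.pi L
  let Y : Fin 2 → B × (Fin 2 × ℕ → K) → B := fun j z =>
    aeval (z.1 + star z.1) (pol D fun n => z.2 (j, n))
  have hθ : ∀ y : B, star (y + star y) = y + star y := fun y => by rw [star_add, star_star, add_comm]
  have hc0 : ∀ j, ι (c j) ≠ 0 := fun j => (map_ne_zero ι).2 (right_ne_zero_of_mul_eq_one (hc j))
  have hp : ∀ jn, Tendsto (fun z : B × (Fin 2 × ℕ → K) => z.2 jn) l (L jn) := fun jn =>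
    (tendsto_eval_pi L jn).comp tendsto_snd
  have hY : ∀ j, Tendsto (fun z => φ (Y j z)) l (𝓝 (aeval a (R j))) := fun j => by
    simp only [Y, aeval_pol, aeval_eq_sum_range' (hD1 j), map_sum, M.smul, map_pow]
    exact tendsto_finsetSum _ fun n _ =>
      ((tendsto_l1 _ _ _).comp (hp (j, n))).smul ((h2.comp tendsto_fst).pow n)
  have hY' : ∀ j, Tendsto (fun z => φ (star (Y j z))) l (𝓝 1) := fun j => by
    rw [← map_one (aeval a : F[X] →ₐ[F] A)]
    simp only [Y, aeval_pol, aeval_eq_sum_range' hD2, star_sum, star_smul, star_pow, hθ, map_sum,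
      M.smul, map_pow]
    refine tendsto_finsetSum _ fun n _ => Tendsto.smul ?_ ((h2.comp tendsto_fst).pow n)
    have := cv_inl.1 ((((cv_l1 hne _ _).comp (hp (j, n))).star (sc_one hw')) _ rfl)
    convert this using 2
    simp [coeff_one, apply_ite]
  have n1 := fun j => hN j ▸ M.nrd (hY j)
  have n2 : ∀ j, Tendsto (fun z => ι (star (Nrd K (Y j z)))) l (𝓝 1) := fun j => by
    simpa only [Csa.Nrd_star, map_one] using M.nrd (hY' j)
  have n3 : ∀ j, Tendsto (fun z => ι (Nrd K (Y j z - star (Y j z)))) l (𝓝 (Nrd F (aeval a (R j) - 1))) :=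
    fun j => M.nrd (by simpa only [map_sub] using (hY j).sub (hY' j))
  have n4 : ∀ j, Tendsto (fun z => ι (Nrd K (star (Y j z) - Y j z))) l (𝓝 (Nrd F (1 - aeval a (R j)))) :=
    fun j => M.nrd (by simpa only [map_sub] using (hY' j).sub (hY j))
  have c1 : ∀ j, Cv {Sum.inl w} l (fun z => c j * star (Nrd K (Y j z)) / Nrd K (Y j z)) 1 := by
    rintro j _ rfl
    refine cv_inl.2 ?_
    have := ((n2 j).const_mul (ι (c j))).div (n1 j) (hc0 j)
    rw [mul_one, div_self (hc0 j)] at this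
    rw [map_one]
    exact this.congr fun z => by rw [map_div₀, map_mul]; rfl
  have c2 : ∀ j, Cv {Sum.inl w'} l (fun z => c j * star (Nrd K (Y j z)) / Nrd K (Y j z)) 1 := by
    intro j
    have : Cv {Sum.inl w} l (fun z => star (c j) * Nrd K (Y j z) / star (Nrd K (Y j z))) 1 := by
      rintro _ rfl
      refine cv_inl.2 ?_
      have := ((n1 j).const_mul (ι (star (c j)))).div (n2 j) one_ne_zero
      rw [← map_mul, hc, map_one, div_one] at this
      rw [map_one]
      exact this.congr fun z => by rw [map_div₀, map_mul]; rfl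
    exact (this.star (sc_one fun x => by rw [hw', star_star])).congr (fun z => by simp)
      (star_one _)
  have g1 : ∀ j, ∀ᶠ z in l, Gi B (.inl w) m ε (c j) (Y j z) := fun j => by
    refine ((c1 j _ rfl).eventually (gt_mem_nhds hε)).and ?_
    by_cases hw : w ∈ TT K B
    · filter_upwards [((n3 j).div (n2 j) one_ne_zero).eventually
        (ev_v_lt (by rw [div_one]; exact (hD (.inl hw) j).2))] with z hz v _ e
      obtain rfl := Sum.inl_injective e
      rwa [← Loc.val_alg, map_div₀]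
    · exact .of_forall fun z v hv e => absurd (Sum.inl_injective e ▸ hv) hw
  have g2 : ∀ j, ∀ᶠ z in l, Gi B (.inl w') m ε (c j) (Y j z) := fun j => by
    refine ((c2 j _ rfl).eventually (gt_mem_nhds hε)).and ?_
    by_cases hw : w' ∈ TT K B
    · filter_upwards [((n4 j).div (n1 j) (hc0 j)).eventually (ev_v_lt (γ := exp (-(m : ℤ))) (by
        rw [map_div₀, Loc.val_alg, (hD (.inr hw) j).1, div_one, ← neg_sub, Nrd_neg, map_mul, map_pow,
          Valuation.map_neg, map_one, one_pow, one_mul]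
        exact (hD (.inr hw) j).2))] with z hz v _ e
      obtain rfl := Sum.inl_injective e
      rwa [hw', star_div₀, star_star, ← Csa.Nrd_star, star_sub, star_star, ← Loc.val_alg, map_div₀]
    · exact .of_forall fun z v hv e => absurd (Sum.inl_injective e ▸ hv) hw
  obtain ⟨z, hz⟩ := (eventually_all.2 fun j =>
    ((n1 j).eventually_ne (hc0 j)).and ((g1 j).and (g2 j))).exists
  refine ⟨_, hθ z.1, fun j => pol D fun n => z.2 (j, n), fun j =>
    ⟨(map_ne_zero ι).1 (hz j).1, ?_⟩⟩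
  rintro (v | ψ) _ e
  · rcases over_iff k hw' (Option.some.inj e) with rfl | rfl
    exacts [(hz j).2.1, (hz j).2.2]
  · exact absurd e (by simp [pr])

theorem md_bc (w : Pl K) :
    haveI := isSimpleRing_tensor (K := K) (A := w.adicCompletion K) (B := B)
    haveI := isCentral_tensor (K := K) (F := w.adicCompletion K) (A := w.adicCompletion K) (B := B)
    Md w (Algebra.TensorProduct.includeRight :
      B →ₐ[K] w.adicCompletion K ⊗[K] B).toRingHom :=
  haveI := isSimpleRing_tensor (K := K) (A := w.adicCompletion K) (B := B)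
  haveI := isCentral_tensor (K := K) (F := w.adicCompletion K) (A := w.adicCompletion K) (B := B)
  ⟨fun c => (AlgHom.commutes _ c).trans (IsScalarTower.algebraMap_apply _ _ _ _),
    Module.finrank_baseChange⟩

/-- split places outside `T` -/
theorem lp_iso {w : Pl K} (hs : Split w) (hw : w ∉ TT K B) {c : Fin 2 → K}
    (hc : ∀ j, star (c j) * c j = 1) (m : ℕ) : LP B k m c (some (below k w)) := by
  let F := w.adicCompletion K
  have := Loc.charZero_adic K w
  have := Loc.proper_adic K w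
  have := isSimpleRing_tensor (K := K) (A := F) (B := B)
  have := isCentral_tensor (K := K) (F := F) (A := F) (B := B)
  obtain ⟨w', -, hw'⟩ := exists_cj k w
  obtain ⟨r, e, D, _, _, _, _, hr, -, -, -, ⟨q⟩⟩ :=
    Hsm.exists_wedderburn F (F ⊗[K] B) (finrank_eq_deg_sq F _)
  have hr2 : 2 ≤ r := by
    by_contra h
    obtain rfl : r = 1 := by omega
    refine hw ⟨hs, Loc.ultra_iff.2 fun z hz => ?_⟩
    let q' := ((Algebra.TensorProduct.comm K B F).toRingEquiv.trans q.toRingEquiv).trans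
      (Matrix.uniqueRingEquiv (A := D) (m := Fin 1))
    have h0 : q' z ≠ 0 := (map_ne_zero_iff _ q'.injective).2 hz
    exact ⟨q'.symm (q' z)⁻¹, q'.injective (by simp [h0]), q'.injective (by simp [h0])⟩
  have : NeZero r := ⟨hr.ne'⟩
  choose μ hμ using fun j => Hsm.Nrd_onto_div F D (algebraMap K F (c j))
  obtain ⟨a, R, h⟩ := exists_pair (F := F) hr2 μ
  refine lp_split k hw' (ne_of_split hs hw') (φ := q.toRingEquiv.toRingHom.comp
    (Algebra.TensorProduct.includeRight : B →ₐ[K] F ⊗[K] B).toRingHom)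
    ⟨fun c => (congrArg q ((md_bc w).hf c)).trans (q.commutes _),
      q.toLinearEquiv.finrank_eq.symm.trans (md_bc w).hr⟩ a R hc (fun j => (h j).trans (hμ j))
    fun h => absurd (h.elim id fun h => ⟨hs, fun x y => ?_⟩) hw
  have e : ∀ x : B, val w x = val w' (star x) := fun x => by rw [val, val, hw', Nrd_star, star_star]
  simpa only [e, star_add] using h.2 (star x) (star y)

theorem nrd_deep {w : Pl K} (hw : w ∈ TT K B) (n : ℕ) : ∀ᶠ m : ℕ in atTop, ∀ x : B,
    val w (x - 1) < exp (-(m : ℤ)) → w.valuation K (Nrd K x - 1) ≤ exp (-(n : ℤ)) := by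
  suffices ∃ m : ℕ, ∀ x : B, val w (x - 1) < exp (-(m : ℤ)) →
      w.valuation K (Nrd K x - 1) ≤ exp (-(n : ℤ)) from
    this.elim fun m h => eventually_atTop.2 ⟨m, fun _ hm x hx => h x (hx.trans_le (exp_neg_anti hm))⟩
  by_contra h
  push Not at h
  choose x h1 h2 using h
  have : CvB {(Sum.inl w : Ix K)} atTop x 1 := CvB.of_basis (finBasis K B) fun j => by
    rintro _ rfl
    refine Cv.of_val fun M => ?_
    filter_upwards [Loc.cofinal (Loc.ultra_iff.1 hw.2) (finBasis K B) M] with m hm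
    simpa using (hm (x m - 1)).2 (h1 m).le j
  obtain ⟨m, hm⟩ := (this.nrd.ev_val rfl (γ := exp (-(n : ℤ))) exp_ne_zero).exists
  rw [map_one] at hm
  exact (h2 m).not_gt hm

/-- the places of `T` -/
theorem lp_T {w : Pl K} (hw : w ∈ TT K B) (m : ℕ) : ∀ᶠ m₁ : ℕ in atTop, ∀ x : Fin 2 → unitary B,
    (∀ j, x j ∈ Um K B m₁) → LP B k m (fun j => Nrd K (x j : B)) (some (below k w)) := by
  let F := w.adicCompletion K
  have := Loc.charZero_adic K w
  have := isSimpleRing_tensor (K := K) (A := F) (B := B)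
  have := isCentral_tensor (K := K) (F := F) (A := F) (B := B)
  obtain ⟨w', -, hw'⟩ := exists_cj k w
  have hV : {y : F | Valued.v (y - 1) < exp (-(m : ℤ))} ∈ 𝓝 (1 : F) :=
    (continuous_sub_right (1 : F)).continuousAt.eventually (ev_v_lt (by simp))
  obtain ⟨n, hn⟩ := (ev_ball w (Opn.root_one F (A := F) (n := deg K B)
    (Nat.cast_ne_zero.2 (deg_pos K B).ne') hV)).exists
  filter_upwards [nrd_deep hw n] with m₁ hm x hx
  have hd : deg F (F ⊗[K] B) = deg K B := by rw [deg, deg, (md_bc w).hr]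
  choose ρ _ h1 h2 using fun j => hn (algebraMap K F (Nrd K (x j : B))) (by
    rw [← map_one (algebraMap K F), ← map_sub, Loc.val_alg]; exact hm _ (hx j w hw))
  refine lp_split k hw' (ne_of_split hw.1 hw') (md_bc w) 0 (fun j => C (ρ j))
    (fun j => Nrd_unitary (x j).2) (fun j => by rw [aeval_C, Nrd_algebraMap, hd, h2])
    fun _ j => ⟨Deep.val_eq_one (hx j) hw, ?_⟩
  rw [aeval_C, ← map_one (algebraMap F _), ← map_sub, Nrd_algebraMap, hd, map_pow]
  exact (pow_le_of_le_one zero_le ((h1 j).le.trans (exp_neg_le_one m)) (deg_pos K B).ne').trans_lt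
    (h1 j)

/-- from convergence of the norms at a conjugation-stable set without places of `T` -/
theorem lp_of {Z : Type*} {l : Filter Z} [l.NeBot] {p : Option (Pl k)}
    (hp : (pr (K := K) k ⁻¹' {p}).Nonempty) (hT : ∀ w ∈ TT K B, some (below k w) ≠ p) {θ : Z → B}
    (hθ : ∀ z, star (θ z) = θ z) {R : Z → Fin 2 → K[X]} {c b : Fin 2 → K} (hb : ∀ j, b j ≠ 0)
    (hc : ∀ j, b j = c j * star (b j))
    (h : ∀ j, Cv (pr k ⁻¹' {p}) l (fun z => Nrd K (aeval (θ z) (R z j))) (b j)) (m : ℕ) :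
    LP B k m c p := fun q ε hε => by
  obtain ⟨z, hz⟩ := (eventually_all.2 fun j => ((h j).ev_ne hp (hb j)).and
    ((eventually_all_finite (q.finite_toSet.inter_of_left (pr k ⁻¹' {p}))).2 fun i hi =>
      (((Cv.const (c j)).mul ((h j).star (sc_pr k _))).div (h j) (hb j)).ev_ab hi.2 (c := 1)
        (ε := ε) (by rw [← hc, div_self (hb j), sub_self, map_zero]; exact hε))).exists
  exact ⟨θ z, hθ z, R z, fun j => ⟨(hz j).1, fun i hi e => ⟨(hz j).2 i ⟨hi, e⟩,
    fun w hw e' => absurd (by rw [← e, e']; rfl) (hT w hw)⟩⟩⟩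

/-- non-split places -/
theorem lp_ns {w : Pl K} (hw : ¬ Split w) {c : Fin 2 → K} (hc : ∀ j, star (c j) * c j = 1)
    (m : ℕ) : LP B k m c (some (below k w)) := by
  have hne := Quad.ne (k := k) (K := K)
  let F := w.adicCompletion K
  have := Loc.charZero_adic K w
  have : NeZero (deg K B) := ⟨(deg_pos K B).ne'⟩
  obtain ⟨φ, H, h1, h2⟩ := Loc.exists_model' B hne hw
  obtain ⟨η, h0, hη⟩ := exists_skew hne
  let _ := Loc.starW hw
  have : ContinuousStar F := ⟨Loc.continuous_sw hw⟩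
  obtain ⟨E, h3, h4⟩ := exists_idem (η := algebraMap K F η) ((_root_.map_ne_zero _).2 h0)
    ((Loc.sw_algebraMap hw η).trans (by rw [hη, map_neg])) (deg_pos K B) (H := H.1) h1
  obtain ⟨l, _, h5, -⟩ := (md_mat φ).exists_filter ((2⁻¹ : F) • E)
  have h6 : Tendsto (fun y => φ (y + star y)) l (𝓝 E) := by
    have e : ∀ y, φ (star y) = (H⁻¹).1 * ((φ y)ᴴ * H.1) := fun y =>
      (Units.eq_inv_mul_iff_mul_eq H).2 (h2 y)
    have := h5.add ((((continuous_id.matrix_conjTranspose.tendsto _).comp h5).mul_const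
      H.1).const_mul (H⁻¹).1)
    rw [id, Matrix.conjTranspose_smul, star_inv₀, star_ofNat, smul_mul_assoc, ← h3, mul_smul_comm,
      Units.inv_mul_cancel_left, ← add_smul, show (2⁻¹ + 2⁻¹ : F) = 1 by norm_num, one_smul] at this
    exact this.congr fun y => by rw [map_add, e]; rfl
  choose b hb0 hb using fun j => hilbert90 hne ((mul_comm _ _).trans (hc j))
  have hw' := fun x => (Loc.val_star hw x).symm
  refine lp_of k (l := l) ⟨.inl w, rfl⟩ (fun v hv e => hw ?_) (θ := fun y => y + star y)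
    (fun y => by rw [star_add, star_star, add_comm]) (R := fun _ j => 1 + C (b j - 1) * X) hb0 hb
    (fun j => ?_) m
  · obtain rfl := (over_iff k hw' (Option.some.inj e)).elim id id
    exact hv.1
  · rintro (v | ψ) e
    · obtain rfl := (over_iff k hw' (Option.some.inj e)).elim id id
      refine cv_inl.2 ?_
      have := (md_mat φ).nrd (F := fun y => aeval (y + star y) (1 + C (b j - 1) * X))
        (a := 1 + (algebraMap K F (b j) - 1) • E) (l := l) (by
          refine ((h6.const_smul (algebraMap K F (b j) - 1)).const_add 1).congr fun y => ?_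
          rw [map_add (aeval _), map_one, map_mul, aeval_C, aeval_X, ← Algebra.smul_def,
            map_add φ.toRingHom 1, map_one, (md_mat φ).smul, map_sub, map_one]
          rfl)
      rwa [Nrd_mat, h4] at this
    · exact absurd e (by simp [pr])

theorem real_root {n : ℕ} (hn : Odd n) (y : ℝ) : ∃ z : ℝ, z ^ n = y := by
  rcases le_total 0 y with h | h
  · exact ⟨_, Real.rpow_inv_natCast_pow h hn.pos.ne'⟩
  · exact ⟨-_, by rw [hn.neg_pow, Real.rpow_inv_natCast_pow (neg_nonneg.2 h) hn.pos.ne', neg_neg]⟩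

/-- the infinite places -/
theorem lp_inf (hd : Odd (deg K B)) {c : Fin 2 → K} (hc : ∀ j, star (c j) * c j = 1) (m : ℕ) :
    LP B k m c none := by
  classical
  choose b hb0 hb using fun j => hilbert90 (Quad.ne (k := k)) ((mul_comm _ _).trans (hc j))
  have hroot : ∀ y : mixedEmbedding.mixedSpace K, ∃ z, z ^ deg K B = y := fun y => by
    choose z₁ h₁ using fun i => real_root hd (y.1 i)
    choose z₂ h₂ using fun i => IsAlgClosed.exists_pow_nat_eq (y.2 i) (deg_pos K B)
    exact ⟨(z₁, z₂), Prod.ext (funext h₁) (funext h₂)⟩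
  choose z hz using fun j => hroot (mixedEmbedding K (b j))
  choose x _ hx using fun j (n : ℕ) => Asa.weak ∅ (fun _ => (0 : K)) 0 (z j)
    (Nat.one_div_pos_of_nat (α := ℝ) (n := n))
  refine lp_of k (l := atTop) (pr_none k) (fun _ _ => by simp) (θ := fun _ => 0) (fun _ => star_zero _)
    (R := fun n j => C (x j n)) hb0 hb (fun j => ?_) m
  rintro (v | ψ) e
  · exact absurd e (by simp [pr])
  have h1 : Tendsto (fun n => mixedEmbedding K (x j n)) atTop (𝓝 (z j)) :=
    tendsto_iff_norm_sub_tendsto_zero.2 (squeeze_zero (fun _ => norm_nonneg _) (fun n => by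
      rw [mixedEmbedding.norm_eq_sup'_normAtPlace]
      exact Finset.sup'_le _ _ fun w _ => (hx j n w).le) tendsto_one_div_add_atTop_nhds_zero_nat)
  have h2 := ((mixedEmbedding.continuous_normAtPlace (InfinitePlace.mk ψ)).tendsto _).comp
    ((h1.pow (deg K B)).sub_const (mixedEmbedding K (b j)))
  rw [hz, sub_self, map_zero] at h2
  refine h2.congr fun n => ?_
  rw [Function.comp_apply, ← map_pow, ← map_sub, mixedEmbedding.normAtPlace_apply]
  simp only [aeval_C, Nrd_algebraMap]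
  rfl

/-- all local problems -/
theorem lp_all (hd : 2 ≤ deg K B) (ho : Odd (deg K B)) (m : ℕ) : ∀ᶠ m₁ : ℕ in atTop,
    ∀ x : Fin 2 → unitary B, (∀ j, x j ∈ Um K B m₁) → ∀ p, LP B k m (fun j => Nrd K (x j : B)) p := by
  filter_upwards [(eventually_all_finite (Loc.finite_TT hd)).2 fun w hw => lp_T k hw m]
    with m₁ hm x hx p
  have hc := fun j => Nrd_unitary (K := K) (x j).2
  rcases p with _ | v
  · exact lp_inf k ho hc m
  obtain ⟨w, rfl⟩ := exists_over (K := K) k v
  by_cases hs : Split w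
  · by_cases hw : w ∈ TT K B
    · exact hm w hw x hx
    · exact lp_iso k hs hw hc m
  · exact lp_ns k hs hc m

end Crest.Agent.T24.Heis
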