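import Crest.Agent.T24.HgtDefB_88

/-!
# Row 24, heights: lattice bases, the reduction modulo `p`, the basic facts (`basStmt`)
-/

set_option autoImplicit false
set_option linter.unusedSectionVars false
set_option linter.style.haveILetI false

noncomputable section

namespace Crest.Agent.T24.Hgt

open Filter Topology Module Polynomial

universe u

variable {B : Type*} [Ring B] [Algebra ℚ B] [StarRing B]

/-- `β` is a `ℚ`-basis of `B` and a `ℤ`-basis of `O` -/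
def IsB {ι : Type} (O : Subring B) (β : Basis ι ℚ B) : Prop :=
  ∀ x, x ∈ O ↔ ∀ i, ∃ m : ℤ, β.repr x i = m

theorem natCast_mul_eq (m : ℕ) (x : B) : (m : B) * x = (m : ℚ) • x := by
  rw [← nsmul_eq_mul, Nat.cast_smul_eq_nsmul]

theorem intCast_mul_eq (m : ℤ) (x : B) : (m : B) * x = (m : ℚ) • x := by
  rw [← zsmul_eq_mul, Int.cast_smul_eq_zsmul]

theorem exists_basis {O : Subring B} {θ : B} (h : Ord O θ) :
    ∃ (n : ℕ) (β : Basis (Fin n) ℚ B), IsB O β := by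
  let Λ : Submodule ℤ B := O.toAddSubgroup.toIntSubmodule
  have hfg : Λ.FG := (Submodule.fg_iff_addSubgroup_fg Λ).2 h.fg
  haveI : Module.Finite ℤ Λ := Module.Finite.iff_fg.2 hfg
  haveI : IsAddTorsionFree B := IsAddTorsionFree.of_module_rat B
  let b := Module.finBasis ℤ Λ
  have hli : LinearIndependent ℚ (fun i => (b i : B)) := by
    rw [← LinearIndependent.iff_fractionRing ℤ ℚ]
    exact b.linearIndependent.map' Λ.subtype (Submodule.ker_subtype Λ)
  have hsum : ∀ y : Λ, (y : B) = ∑ i, ((b.repr y i : ℤ) : ℚ) • (b i : B) := by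
    intro y
    have := congrArg Λ.subtype (b.sum_repr y)
    rw [map_sum] at this
    simp only [Int.cast_smul_eq_zsmul]
    exact this.symm
  have hsp : ⊤ ≤ Submodule.span ℚ (Set.range fun i => (b i : B)) := by
    intro x _
    obtain ⟨m, hm, hx⟩ := h.full x
    have : x = (m : ℚ)⁻¹ • ((m : B) * x) := by
      rw [natCast_mul_eq, smul_smul, inv_mul_cancel₀ (by exact_mod_cast hm), one_smul]
    rw [this]
    refine Submodule.smul_mem _ _ ?_
    rw [show (m : B) * x = _ from hsum ⟨_, hx⟩]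
    exact Submodule.sum_mem _ fun i _ => Submodule.smul_mem _ _ (Submodule.subset_span ⟨i, rfl⟩)
  refine ⟨_, Basis.mk hli hsp, fun x => ⟨fun hx i => ⟨b.repr ⟨x, hx⟩ i, ?_⟩, fun hx => ?_⟩⟩
  · have : x = ∑ i, ((b.repr ⟨x, hx⟩ i : ℤ) : ℚ) • (Basis.mk hli hsp) i := by
      simpa using hsum ⟨x, hx⟩
    conv_lhs => rw [this]
    rw [Basis.repr_sum_self]
  · rw [← (Basis.mk hli hsp).sum_repr x]
    refine O.sum_mem fun i _ => ?_
    obtain ⟨m, hm⟩ := hx i
    rw [hm, Basis.mk_apply, Int.cast_smul_eq_zsmul]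
    exact O.zsmul_mem (b i).2 m

theorem le_Loc (O : Subring B) (M : ℕ) : O ≤ Loc O M := fun x hx =>
  ⟨1, by simp, one_ne_zero, by simpa using hx⟩

theorem le_OS (O : Subring B) (M : ℕ) : O ≤ OS O M := fun x hx => ⟨0, by simpa using hx⟩

theorem OS_le_Loc (O : Subring B) {M p : ℕ} (hp : p ∈ Out M) : OS O M ≤ Loc O p := by
  rintro x ⟨j, hj⟩
  have hM : M ≠ 0 := by rintro rfl; exact hp.2 (dvd_zero p)
  refine ⟨M ^ j, Nat.Coprime.pow_left j ((Nat.Prime.coprime_iff_not_dvd hp.1).2 hp.2).symm,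
    pow_ne_zero _ hM, by simpa using hj⟩


theorem star_mem_OS {O : Subring B} {θ : B} (h : Ord O θ) {M : ℕ} {x : B} (hx : x ∈ OS O M) :
    star x ∈ OS O M := by
  obtain ⟨j, hx⟩ := hx
  refine ⟨j, ?_⟩
  have := h.star_mem _ hx
  rwa [star_mul, star_pow, star_natCast, ← ((Nat.cast_commute M (star x)).pow_left j).eq] at this

theorem mem_Jn {R : Subring B} {x : B} : x ∈ Jn R ↔ star x = x ∧ x ∈ R := Iff.rfl

section basis

variable {ι : Type} [Fintype ι] [DecidableEq ι] {O : Subring B} {β : Basis ι ℚ B}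
  {p : ℕ} [hp : Fact p.Prime]

theorem IsB.mem (h : IsB O β) (j : ι) : β j ∈ O := by
  refine (h _).2 fun i => ?_
  rw [Basis.repr_self, Finsupp.single_apply]
  split_ifs
  · exact ⟨1, by simp⟩
  · exact ⟨0, by simp⟩

theorem IsB.mem_Loc (h : IsB O β) {x : B} :
    x ∈ Loc O p ↔ ∀ i, ‖((β.repr x i : ℚ) : ℚ_[p])‖ ≤ 1 := by
  constructor
  · rintro ⟨m, hm, -, hx⟩ i
    obtain ⟨k, hk⟩ := (h _).1 hx i
    rw [natCast_mul_eq, map_smul, Finsupp.smul_apply, smul_eq_mul] at hk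
    have h1 : ‖(m : ℚ_[p])‖ = 1 := Padic.norm_natCast_eq_one_iff.2 hm.symm
    have h2 : ‖(m : ℚ_[p]) * ((β.repr x i : ℚ) : ℚ_[p])‖ ≤ 1 := by
      have : (m : ℚ_[p]) * ((β.repr x i : ℚ) : ℚ_[p]) = (k : ℚ_[p]) := by
        have := congrArg (Rat.cast : ℚ → ℚ_[p]) hk
        push_cast at this; exact this
      rw [this]; exact Padic.norm_int_le_one k
    rwa [norm_mul, h1, one_mul] at h2
  · intro hx
    have hd : ∀ i, (β.repr x i).den.Coprime p := fun i => by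
      have := PadicInt.isUnit_iff.1 (PadicInt.isUnit_den _ (hx i))
      exact (PadicInt.norm_natCast_eq_one_iff.1 this).symm
    refine ⟨∏ i, (β.repr x i).den, Nat.Coprime.prod_left fun i _ => hd i,
      Finset.prod_ne_zero_iff.2 fun i _ => Rat.den_nz _, (h _).2 fun i => ?_⟩
    rw [natCast_mul_eq, map_smul, Finsupp.smul_apply, smul_eq_mul,
      ← Finset.prod_erase_mul _ _ (Finset.mem_univ i)]
    refine ⟨(∏ j ∈ Finset.univ.erase i, (β.repr x j).den : ℕ) * (β.repr x i).num, ?_⟩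
    rw [Nat.cast_mul, mul_assoc, Rat.den_mul_eq_num]; push_cast; rfl

/-- left multiplication as a `p`-adic matrix -/
def Lp (p : ℕ) [Fact p.Prime] (β : Basis ι ℚ B) : B →+* Matrix ι ι ℚ_[p] :=
  (Rat.castHom ℚ_[p]).mapMatrix.comp (Algebra.leftMulMatrix β).toRingHom

theorem Lp_apply (x : B) (i j : ι) : Lp p β x i j = ((β.repr (x * β j) i : ℚ) : ℚ_[p]) := by
  simp [Lp, Algebra.leftMulMatrix_eq_repr_mul]

theorem det_Lp (x : B) : (Lp p β x).det = ((Algebra.norm ℚ x : ℚ) : ℚ_[p]) := by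
  rw [Algebra.norm_eq_matrix_det β]
  exact ((Rat.castHom ℚ_[p]).map_det _).symm

theorem trace_Lp (x : B) : (Lp p β x).trace = ((tr B x : ℚ) : ℚ_[p]) := by
  have : tr B x = (Algebra.leftMulMatrix β x).trace := by
    simp only [tr, LinearMap.comp_apply, AlgHom.toLinearMap_apply]
    rw [LinearMap.trace_eq_matrix_trace ℚ β]; rfl
  rw [this]
  simp [Lp, Matrix.trace]

theorem nr_eq (β : Basis ι ℚ B) (x : B) : nr p x = ‖(Lp p β x).det‖ := by
  rw [det_Lp, Padic.eq_padicNorm, nr]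

theorem IsB.mem_Loc_iff (h : IsB O β) {x : B} : x ∈ Loc O p ↔ ∀ i j, ‖Lp p β x i j‖ ≤ 1 := by
  constructor
  · intro hx i j
    rw [Lp_apply]
    exact h.mem_Loc.1 ((Loc O p).mul_mem hx (le_Loc O p (h.mem j))) i
  · intro hx
    have : x = ∑ j, β.repr 1 j • (x * β j) := by
      conv_lhs => rw [← mul_one x, ← β.sum_repr 1, Finset.mul_sum]
      simp
    rw [this]
    refine (Loc O p).sum_mem fun j _ => ?_
    obtain ⟨m, hm⟩ := (h 1).1 O.one_mem j
    rw [hm, Int.cast_smul_eq_zsmul]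
    refine (Loc O p).zsmul_mem (h.mem_Loc.2 fun i => ?_) m
    rw [← Lp_apply]; exact hx i j

theorem mapMatrix_inj : Function.Injective
    ((PadicInt.Coe.ringHom (p := p)).mapMatrix : Matrix ι ι ℤ_[p] → Matrix ι ι ℚ_[p]) :=
  Matrix.map_injective Subtype.val_injective

/-- the integral matrix, as a function -/
def IsB.Lz0 (h : IsB O β) (p : ℕ) [Fact p.Prime] (x : Loc O p) : Matrix ι ι ℤ_[p] :=
  fun i j => (⟨Lp p β x i j, h.mem_Loc_iff.1 x.2 i j⟩ : ℤ_[p])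

theorem IsB.map_Lz0 (h : IsB O β) (x : Loc O p) :
    (PadicInt.Coe.ringHom (p := p)).mapMatrix (h.Lz0 p x) = Lp p β x := rfl

/-- the integral matrix -/
def IsB.Lz (h : IsB O β) (p : ℕ) [Fact p.Prime] : Loc O p →+* Matrix ι ι ℤ_[p] where
  toFun := h.Lz0 p
  map_one' := mapMatrix_inj (by rw [h.map_Lz0, map_one]; exact map_one _)
  map_zero' := mapMatrix_inj (by rw [h.map_Lz0, map_zero]; exact map_zero _)
  map_mul' x y := mapMatrix_inj (by rw [map_mul, h.map_Lz0, h.map_Lz0, h.map_Lz0]; exact map_mul _ _ _)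
  map_add' x y := mapMatrix_inj (by rw [map_add, h.map_Lz0, h.map_Lz0, h.map_Lz0]; exact map_add _ _ _)

theorem IsB.map_Lz (h : IsB O β) (x : Loc O p) :
    (PadicInt.Coe.ringHom (p := p)).mapMatrix (h.Lz p x) = Lp p β x := rfl

theorem IsB.nr_eq (h : IsB O β) (x : Loc O p) : nr p (x : B) = ‖(h.Lz p x).det‖ := by
  rw [Hgt.nr_eq β, ← h.map_Lz, ← RingHom.map_det]; rfl

/-- reduction modulo `p` -/
def IsB.rho (h : IsB O β) (p : ℕ) [Fact p.Prime] : Loc O p →+* Matrix ι ι (ZMod p) :=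
  (PadicInt.toZMod (p := p)).mapMatrix.comp (h.Lz p)

theorem IsB.nr_lt_iff (h : IsB O β) (x : Loc O p) : nr p (x : B) < 1 ↔ (h.rho p x).det = 0 := by
  rw [h.nr_eq, ← PadicInt.mem_nonunits, ← IsLocalRing.mem_maximalIdeal, ← PadicInt.ker_toZMod,
    RingHom.mem_ker, RingHom.map_det]
  rfl

theorem IsB.nr_le (h : IsB O β) {x : B} (hx : x ∈ Loc O p) : nr p x ≤ 1 := by
  rw [h.nr_eq ⟨x, hx⟩]; exact PadicInt.norm_le_one _

theorem exists_inv_of_norm (β : Basis ι ℚ B) {x : B} (hx : Algebra.norm ℚ x ≠ 0) :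
    ∃ y, y * x = 1 ∧ x * y = 1 := by
  haveI := Module.Finite.of_basis β
  have hu : IsUnit (Algebra.lmul ℚ B x) := by
    rw [Algebra.norm_apply] at hx
    exact (LinearMap.isUnit_iff_isUnit_det _).2 (Ne.isUnit hx)
  obtain ⟨y, hy⟩ := ((Module.End.isUnit_iff _).1 hu).2 1
  have hy' : x * y = 1 := hy
  refine ⟨y, Algebra.leftMulMatrix_injective β ?_, hy'⟩
  rw [map_mul, map_one, mul_eq_one_comm, ← map_mul, hy', map_one]

theorem IsB.unit (h : IsB O β) {x : B} (hx : x ∈ Loc O p) (h1 : nr p x = 1) :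
    ∃ y ∈ Loc O p, y * x = 1 ∧ x * y = 1 := by
  have hn : Algebra.norm ℚ x ≠ 0 := by
    intro h0; rw [nr, h0] at h1; simp at h1
  obtain ⟨y, hy, hy'⟩ := exists_inv_of_norm β hn
  refine ⟨y, h.mem_Loc_iff.2 fun i j => ?_, hy, hy'⟩
  rw [h.nr_eq ⟨x, hx⟩, ← PadicInt.isUnit_iff] at h1
  have h2 := Matrix.nonsing_inv_mul _ h1
  have h3 := congrArg (PadicInt.Coe.ringHom (p := p)).mapMatrix h2
  rw [map_mul, map_one, h.map_Lz] at h3
  have h4 : Lp p β y = (PadicInt.Coe.ringHom (p := p)).mapMatrix (h.Lz p ⟨x, hx⟩)⁻¹ := by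
    rw [← one_mul (Lp p β y), ← h3, mul_assoc, ← map_mul]
    simp [hy']
  rw [h4]
  exact PadicInt.norm_le_one _

theorem IsB.roots (h : IsB O β) {x y : B} (hx : x ∈ Loc O p) (hy : y ∈ Loc O p)
    (h1 : nr p x = 1 ∨ nr p y = 1) :
    ((Finset.range p).filter fun t : ℕ => nr p (x + t * y) < 1).card ≤ finrank ℚ B := by
  classical
  set f : (ZMod p)[X] := Matrix.det ((X : (ZMod p)[X]) • (h.rho p ⟨y, hy⟩).map C + (h.rho p ⟨x, hx⟩).map C)
    with hf
  have hf0 : f ≠ 0 := by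
    intro h0
    rcases h1 with h1 | h1
    · have := coeff_det_X_add_C_zero (h.rho p ⟨y, hy⟩) (h.rho p ⟨x, hx⟩)
      rw [← hf, h0, coeff_zero] at this
      exact absurd ((h.nr_lt_iff ⟨x, hx⟩).2 this.symm) (by simp [h1])
    · have := coeff_det_X_add_C_card (h.rho p ⟨y, hy⟩) (h.rho p ⟨x, hx⟩)
      rw [← hf, h0, coeff_zero] at this
      exact absurd ((h.nr_lt_iff ⟨y, hy⟩).2 this.symm) (by simp [h1])
  have hdeg : f.natDegree ≤ finrank ℚ B := by
    rw [finrank_eq_card_basis β]; exact natDegree_det_X_add_C_le _ _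
  refine le_trans ?_ ((Multiset.toFinset_card_le _).trans ((card_roots' f).trans hdeg))
  refine Finset.card_le_card_of_injOn (fun t : ℕ => (t : ZMod p)) ?_ ?_
  · intro t ht
    have ht' := (Finset.mem_filter.1 ht).2
    have hm : x + t * y ∈ Loc O p := (Loc O p).add_mem hx ((Loc O p).mul_mem (natCast_mem _ t) hy)
    have := (h.nr_lt_iff ⟨_, hm⟩).1 ht'
    rw [show (⟨_, hm⟩ : Loc O p) = ⟨x, hx⟩ + t * ⟨y, hy⟩ from Subtype.ext (by simp), map_add, map_mul,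
      map_natCast] at this
    simp only [Finset.mem_coe, Multiset.mem_toFinset, mem_roots hf0, IsRoot.def]
    rw [hf, ← coe_evalRingHom, RingHom.map_det, ← this]
    congr 1
    ext i j
    rw [← nsmul_eq_mul, Matrix.add_apply, Matrix.smul_apply, nsmul_eq_mul]
    simp only [RingHom.mapMatrix_apply, Matrix.map_apply, Matrix.add_apply, Matrix.smul_apply, smul_eq_mul,
      coe_evalRingHom, eval_add, eval_mul, eval_X, eval_C]
    exact add_comm _ _
  · intro s hs t ht hst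
    have hs' := Finset.mem_range.1 (Finset.mem_filter.1 hs).1
    have ht' := Finset.mem_range.1 (Finset.mem_filter.1 ht).1
    have := (ZMod.natCast_eq_natCast_iff' s t p).1 hst
    rwa [Nat.mod_eq_of_lt hs', Nat.mod_eq_of_lt ht'] at this

end basis

theorem nr_nonneg (p : ℕ) (x : B) : 0 ≤ nr p x := by
  rw [nr]; exact_mod_cast padicNorm.nonneg _

theorem nr_mul {p : ℕ} (hp : p.Prime) (x y : B) : nr p (x * y) = nr p x * nr p y := by
  haveI := Fact.mk hp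
  rw [nr, map_mul, padicNorm.mul]; push_cast; rfl

theorem nr_one (p : ℕ) : nr p (1 : B) = 1 := by simp [nr]

theorem nr_pos {p : ℕ} (hp : p.Prime) {x : B} (hx : IsUnit x) : 0 < nr p x := by
  haveI := Fact.mk hp
  refine lt_of_le_of_ne (nr_nonneg p x) fun h0 => ?_
  have : padicNorm p (Algebra.norm ℚ x) = 0 := by rw [nr] at h0; exact_mod_cast h0.symm
  exact (hx.map (Algebra.norm ℚ)).ne_zero (padicNorm.zero_of_padicNorm_eq_zero this)

theorem isUnit_natCast {m : ℕ} (hm : m ≠ 0) : IsUnit (m : B) := by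
  have : IsUnit (m : ℚ) := Ne.isUnit (by exact_mod_cast hm)
  simpa using this.map (algebraMap ℚ B)

theorem nr_gap {p : ℕ} (hp : p.Prime) (x : B) (h : nr p x < 1) : nr p x ≤ (p : ℝ)⁻¹ := by
  haveI := Fact.mk hp
  rw [nr, ← Padic.eq_padicNorm] at h ⊢
  have := (Padic.norm_le_pow_iff_norm_lt_pow_add_one (Algebra.norm ℚ x : ℚ_[p]) (-1)).2 (by simpa using h)
  simpa using this

section ord

variable {O : Subring B} {θ : B} {p : ℕ}

theorem Ord.nr_le (h : Ord O θ) (hp : p.Prime) {x : B} (hx : x ∈ Loc O p) : nr p x ≤ 1 := by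
  haveI := Fact.mk hp
  obtain ⟨n, β, hβ⟩ := exists_basis h
  exact hβ.nr_le hx

theorem Ord.nr_unit (h : Ord O θ) (hp : p.Prime) {x y : B} (hx : x ∈ Loc O p) (hy : y ∈ Loc O p)
    (hxy : x * y = 1) : nr p x = 1 := by
  have h1 := nr_mul hp x y
  rw [hxy, nr_one] at h1
  have := h.nr_le hp hx
  have := h.nr_le hp hy
  have := nr_nonneg p x
  have := nr_nonneg p y
  nlinarith

theorem Ord.bdd (h : Ord O θ) (hp : p.Prime) (x y : B) :
    BddAbove (Set.range fun c : Loc O p × Loc O p => nr p (c.1 * x + c.2 * y)) := by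
  obtain ⟨a, ha, hx⟩ := h.full x
  obtain ⟨b, hb, hy⟩ := h.full y
  have hpos := nr_pos hp (isUnit_natCast (B := B) (mul_ne_zero ha hb))
  refine ⟨(nr p ((a * b : ℕ) : B))⁻¹, ?_⟩
  rintro _ ⟨⟨c, d⟩, rfl⟩
  rw [← one_div, le_div_iff₀ hpos, ← nr_mul hp]
  refine h.nr_le hp ?_
  have : ((c : B) * x + d * y) * ((a * b : ℕ) : B) = c * (b * (a * x)) + d * (a * (b * y)) := by
    simp only [natCast_mul_eq, ← (Nat.cast_commute (a * b) _).eq, smul_add, mul_smul_comm, smul_smul]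
    push_cast; simp only [smul_eq_mul, mul_comm (b : ℚ)]
  rw [this]
  exact (Loc O p).add_mem ((Loc O p).mul_mem c.2 ((Loc O p).mul_mem (natCast_mem _ _) (le_Loc O p hx)))
    ((Loc O p).mul_mem d.2 ((Loc O p).mul_mem (natCast_mem _ _) (le_Loc O p hy)))

theorem Ord.le_Hp (h : Ord O θ) (hp : p.Prime) (x y : B) {c d : B} (hc : c ∈ Loc O p) (hd : d ∈ Loc O p) :
    nr p (c * x + d * y) ≤ Hp O p x y :=
  le_ciSup (h.bdd hp x y) (⟨⟨c, hc⟩, ⟨d, hd⟩⟩ : Loc O p × Loc O p)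

theorem Hp_le {x y : B} {r : ℝ} (hr : ∀ c ∈ Loc O p, ∀ d ∈ Loc O p, nr p (c * x + d * y) ≤ r) :
    Hp O p x y ≤ r := ciSup_le fun c => hr _ c.1.2 _ c.2.2


theorem Ord.Hp_mono (h : Ord O θ) (hp : p.Prime) (x y : B) {a b c d : B} (ha : a ∈ Loc O p)
    (hb : b ∈ Loc O p) (hc : c ∈ Loc O p) (hd : d ∈ Loc O p) :
    Hp O p (a * x + b * y) (c * x + d * y) ≤ Hp O p x y := by
  refine Hp_le fun e he f hf => ?_
  have : e * (a * x + b * y) + f * (c * x + d * y) = (e * a + f * c) * x + (e * b + f * d) * y := by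
    noncomm_ring
  rw [this]
  exact h.le_Hp hp x y ((Loc O p).add_mem ((Loc O p).mul_mem he ha) ((Loc O p).mul_mem hf hc))
    ((Loc O p).add_mem ((Loc O p).mul_mem he hb) ((Loc O p).mul_mem hf hd))

/-- `(x', y')` and `(x, y)` generate the same left `R`-module -/
def Sim (R : Subring B) (x y x' y' : B) : Prop :=
  (∃ a ∈ R, ∃ b ∈ R, x' = a * x + b * y) ∧ (∃ a ∈ R, ∃ b ∈ R, y' = a * x + b * y) ∧
    (∃ a ∈ R, ∃ b ∈ R, x = a * x' + b * y') ∧ (∃ a ∈ R, ∃ b ∈ R, y = a * x' + b * y')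

theorem Sim.mono {R S : Subring B} (hRS : R ≤ S) {x y x' y' : B} (h : Sim R x y x' y') :
    Sim S x y x' y' := by
  obtain ⟨⟨a, ha, b, hb, h1⟩, ⟨c, hc, d, hd, h2⟩, ⟨e, he, f, hf, h3⟩, ⟨g, hg, k, hk, h4⟩⟩ := h
  exact ⟨⟨a, hRS ha, b, hRS hb, h1⟩, ⟨c, hRS hc, d, hRS hd, h2⟩, ⟨e, hRS he, f, hRS hf, h3⟩,
    ⟨g, hRS hg, k, hRS hk, h4⟩⟩

theorem Ord.Hp_sim (h : Ord O θ) (hp : p.Prime) {x y x' y' : B} (hs : Sim (Loc O p) x y x' y') :
    Hp O p x' y' = Hp O p x y := by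
  obtain ⟨⟨a, ha, b, hb, h1⟩, ⟨c, hc, d, hd, h2⟩, ⟨e, he, f, hf, h3⟩, ⟨g, hg, k, hk, h4⟩⟩ := hs
  apply le_antisymm
  · conv_lhs => rw [h1, h2]
    exact h.Hp_mono hp x y ha hb hc hd
  · conv_lhs => rw [h3, h4]
    exact h.Hp_mono hp x' y' he hf hg hk

theorem Hp_mul_right (hp : p.Prime) (x y z : B) : Hp O p (x * z) (y * z) = Hp O p x y * nr p z := by
  rw [Hp, Hp, Real.iSup_mul_of_nonneg (nr_nonneg p z)]
  congr 1; ext c
  rw [← nr_mul hp]; congr 1; noncomm_ring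

theorem sim_add (R : Subring B) (a : B) {b : B} (hb : b ∈ R) : Sim R a 1 (a + b) 1 :=
  ⟨⟨1, R.one_mem, b, hb, by simp⟩, ⟨0, R.zero_mem, 1, R.one_mem, by simp⟩,
    ⟨1, R.one_mem, -b, R.neg_mem hb, by simp⟩, ⟨0, R.zero_mem, 1, R.one_mem, by simp⟩⟩

theorem sim_unit (R : Subring B) (a : B) {g g' : B} (hg : g ∈ R) (hg' : g' ∈ R) (h : g' * g = 1) :
    Sim R a 1 (g * a) 1 :=
  ⟨⟨g, hg, 0, R.zero_mem, by simp⟩, ⟨0, R.zero_mem, 1, R.one_mem, by simp⟩,
    ⟨g', hg', 0, R.zero_mem, by simp [← mul_assoc, h]⟩, ⟨0, R.zero_mem, 1, R.one_mem, by simp⟩⟩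

theorem Ord.one_le_Hp (h : Ord O θ) (hp : p.Prime) {x y c d : B} (hc : c ∈ Loc O p) (hd : d ∈ Loc O p)
    (h1 : c * x + d * y = 1) : 1 ≤ Hp O p x y := by
  have := h.le_Hp hp x y hc hd
  rwa [h1, nr_one] at this

theorem Ord.Hp_le_one (h : Ord O θ) (hp : p.Prime) {x y : B} (hx : x ∈ Loc O p) (hy : y ∈ Loc O p) :
    Hp O p x y ≤ 1 := Hp_le fun _ hc _ hd =>
  h.nr_le hp ((Loc O p).add_mem ((Loc O p).mul_mem hc hx) ((Loc O p).mul_mem hd hy))

theorem Ord.bas (h : Ord O θ) (hp : p.Prime) : Bas O p := by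
  haveI := Fact.mk hp
  obtain ⟨n, β, hβ⟩ := exists_basis h
  have hone : ∀ a : B, 1 ≤ Hp O p a 1 := fun a =>
    h.one_le_Hp hp (Loc O p).zero_mem (Loc O p).one_mem (by simp)
  refine ⟨fun x hx => hβ.nr_le hx, fun x hx => ?_, fun x hx => hβ.unit hx, nr_gap hp, fun x hx z hz => ?_,
    fun x hx y hy => hβ.roots hx hy, fun x y c hc d hd => h.le_Hp hp x y hc hd, fun x y r hr => Hp_le hr,
    Hp_mul_right hp, fun a b hb => h.Hp_sim hp (sim_add _ a hb), fun a => ?_, hone, fun a ha =>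
    le_antisymm (h.Hp_le_one hp ha (Loc O p).one_mem) (hone a)⟩
  · have : ‖((tr B x : ℚ) : ℚ_[p])‖ ≤ 1 := by
      rw [← trace_Lp (β := β), ← hβ.map_Lz ⟨x, hx⟩]
      have : ((PadicInt.Coe.ringHom (p := p)).mapMatrix (hβ.Lz p ⟨x, hx⟩)).trace =
          PadicInt.Coe.ringHom (hβ.Lz p ⟨x, hx⟩).trace := by simp [Matrix.trace]
      rw [this]; exact PadicInt.norm_le_one _
    rw [Padic.eq_padicNorm] at this; exact_mod_cast this
  · have hm : x + p * z ∈ Loc O p := (Loc O p).add_mem hx ((Loc O p).mul_mem (natCast_mem _ p) hz)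
    rw [hβ.nr_lt_iff ⟨_, hm⟩, hβ.nr_lt_iff ⟨_, hx⟩,
      show (⟨_, hm⟩ : Loc O p) = ⟨x, hx⟩ + p * ⟨z, hz⟩ from Subtype.ext (by simp), map_add, map_mul,
      map_natCast, ← nsmul_eq_mul, ← Nat.cast_smul_eq_nsmul (ZMod p), ZMod.natCast_self, zero_smul, add_zero]
  · have := h.Hp_sim hp (sim_unit (Loc O p) a ((Loc O p).neg_mem (Loc O p).one_mem)
      ((Loc O p).neg_mem (Loc O p).one_mem) (by simp))
    simpa using this

end ord

theorem basStmt : BasStmt.{u} := fun _ _ _ _ _ _ _ h _ hp => h.bas hp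

end Crest.Agent.T24.Hgt
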