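import Crest.Agent.T24.HnSu_7

/-!
# Row 24, Hasse norm theorem: the ambiguous class number inequality
-/

set_option autoImplicit false
set_option linter.unusedSectionVars false

noncomputable section

open scoped NumberField nonZeroDivisors Pointwise
open IsDedekindDomain Module

namespace Crest.Agent.T24.Hn

open Crest.Agent.R018.MinkUx824 Crest.Agent.R018.Selmerx380 Crest.Agent.R018.SLatx824
open Crest.Agent.R018.SLatBx824 Crest.Agent.R018.HerbAx530

attribute [local instance] actH

section Grp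

variable {G : Type*} [CommGroup G]

/-- the abstract index computation -/
theorem amb_core (N : G →* G) (A B : Subgroup G) (hAB : A ≤ B) (hN : B.map N ≤ A)
    (hNA : ∀ a ∈ A, N a = a ^ 2) (h90 : N.ker ⊓ B ≤ A ⊔ sqr B) (d : G) (hd : d ∈ A ⊓ sqr B)
    (hd' : d ∉ sqr A) (hA : (sqr A).relIndex A ≠ 0) :
    (B.map N).relIndex A ≠ 0 ∧
    2 * (B.map N).relIndex A * (sqr B).relIndex B ≤ (sqr A).relIndex A * (sqr A).relIndex A := by
  have hC : A ⊔ sqr B ≤ B := sup_le hAB (sq_le B)
  have h1 : (A ⊔ sqr B).map N = sqr A := by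
    apply le_antisymm
    · rw [Subgroup.map_sup, map_sq]
      refine sup_le ?_ (Subgroup.map_mono hN)
      rintro _ ⟨a, ha, rfl⟩
      exact ⟨a, ha, (hNA a ha).symm⟩
    · rintro _ ⟨a, ha, rfl⟩
      exact ⟨a, Subgroup.mem_sup_left ha, hNA a ha⟩
  have h2 : (A ⊔ sqr B).relIndex B = (sqr A).relIndex (B.map N) := by
    rw [relIndex_eq_mul N hC, h1]
    have : (N.ker ⊓ (A ⊔ sqr B)).relIndex (N.ker ⊓ B) = 1 :=
      Subgroup.relIndex_eq_one.mpr (le_inf inf_le_left h90)
    rw [this, mul_one]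
  have h3 : sqr A ≤ B.map N := by
    rw [← h1]; exact Subgroup.map_mono hC
  have h4 : (sqr A).relIndex (B.map N) * (B.map N).relIndex A = (sqr A).relIndex A :=
    Subgroup.relIndex_mul_relIndex _ _ _ h3 hN
  have h5 : (sqr B).relIndex (A ⊔ sqr B) * (A ⊔ sqr B).relIndex B = (sqr B).relIndex B :=
    Subgroup.relIndex_mul_relIndex _ _ _ le_sup_right hC
  have h6 : (sqr B).relIndex (A ⊔ sqr B) = (A ⊓ sqr B).relIndex A := by
    rw [Subgroup.relIndex_sup_right, inf_comm, Subgroup.inf_relIndex_right]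
  have h7 : sqr A ≤ A ⊓ sqr B := le_inf (sq_le A) (Subgroup.map_mono hAB)
  have h8 : (sqr A).relIndex (A ⊓ sqr B) * (A ⊓ sqr B).relIndex A = (sqr A).relIndex A :=
    Subgroup.relIndex_mul_relIndex _ _ _ h7 inf_le_left
  have h9 : 2 ≤ (sqr A).relIndex (A ⊓ sqr B) := by
    have e0 : (sqr A).relIndex (A ⊓ sqr B) ≠ 0 := fun h => hA (by rw [← h8, h, zero_mul])
    have e1 : (sqr A).relIndex (A ⊓ sqr B) ≠ 1 := fun h =>
      hd' (Subgroup.relIndex_eq_one.mp h hd)
    omega
  refine ⟨fun h => hA (by rw [← h4, h, mul_zero]), ?_⟩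
  rw [← h5, h6, h2]
  calc 2 * (B.map N).relIndex A * ((A ⊓ sqr B).relIndex A * (sqr A).relIndex (B.map N))
      = (2 * (A ⊓ sqr B).relIndex A) * ((sqr A).relIndex (B.map N) * (B.map N).relIndex A) := by
        ring
    _ ≤ ((sqr A).relIndex (A ⊓ sqr B) * (A ⊓ sqr B).relIndex A) *
          ((sqr A).relIndex (B.map N) * (B.map N).relIndex A) := by gcongr
    _ = _ := by rw [h4, h8]

end Grp

section Real

/-- real embeddings and real places -/
theorem card_real (F : Type*) [Field F] [NumberField F] :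
    Fintype.card (F →+* ℝ) = NumberField.InfinitePlace.nrRealPlaces F := by
  classical
  rw [← NumberField.InfinitePlace.card_real_embeddings]
  refine Fintype.card_congr
    { toFun := fun φ => ⟨Complex.ofRealHom.comp φ, ?_⟩
      invFun := fun φ => φ.2.embedding
      left_inv := fun φ => ?_
      right_inv := fun φ => ?_ }
  · rw [NumberField.ComplexEmbedding.isReal_iff]
    ext x
    simp [NumberField.ComplexEmbedding.conjugate_coe_eq]
  · ext x
    simp [NumberField.ComplexEmbedding.IsReal.embedding]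
  · ext x
    simp

theorem two_card_inf (F : Type*) [Field F] [NumberField F] :
    2 * Fintype.card (NumberField.InfinitePlace F) = finrank ℚ F + Fintype.card (F →+* ℝ) := by
  rw [card_real, NumberField.InfinitePlace.card_eq_nrRealPlaces_add_nrComplexPlaces,
    ← NumberField.InfinitePlace.card_add_two_mul_card_eq_rank]
  ring

end Real

section Quad

variable {F E : Type*} [Field F] [Field E] [Algebra F E]

/-- `E = F(θ)`, `θ² = d`, with conjugation `σ` -/
structure Qd (d : F) (θ : E) (σ : E ≃ₐ[F] E) : Prop where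
  sq : θ ^ 2 = algebraMap F E d
  conj : σ θ = -θ
  span : ∀ z : E, ∃ x y : F, z = algebraMap F E x + algebraMap F E y * θ
  rank : finrank F E = 2
  real : ∀ (φ : F →+* ℝ) (r : ℝ), r ^ 2 = φ d → ∃ ψ : E →+* ℝ, ψ.comp (algebraMap F E) = φ ∧ ψ θ = r

theorem fact_of_not_sq {d : Fˣ} (hd : d ∉ Sqs F) : Fact (∀ r : F, r ^ 2 ≠ (d : F) + 0 * r) := by
  refine ⟨fun r h => hd ?_⟩
  rw [zero_mul, add_zero] at h
  have h0 : r ≠ 0 := by
    rintro rfl
    exact d.ne_zero (by rw [← h]; simp)
  exact ⟨Units.mk0 r h0, Units.ext (by simpa using h)⟩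

/-- conjugation of the quadratic algebra -/
def qconj (d : F) : QuadraticAlgebra F d 0 ≃ₐ[F] QuadraticAlgebra F d 0 where
  toFun z := star z
  invFun z := star z
  left_inv z := star_star z
  right_inv z := star_star z
  map_mul' x y := by rw [star_mul, mul_comm]
  map_add' x y := star_add x y
  commutes' r := by ext <;> simp

theorem qd_quad (d : F) [Fact (∀ r : F, r ^ 2 ≠ d + 0 * r)] :
    Qd d (QuadraticAlgebra.omega : QuadraticAlgebra F d 0) (qconj d) where
  sq := by
    rw [pow_two, QuadraticAlgebra.omega_mul_omega_eq_mk]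
    rfl
  conj := by
    change star _ = _
    ext <;> simp
  span z := ⟨z.re, z.im, by ext <;> simp⟩
  rank := QuadraticAlgebra.finrank_eq_two d 0
  real φ r h := by
    let _ : Algebra F ℝ := φ.toAlgebra
    let ψ : QuadraticAlgebra F d 0 →ₐ[F] ℝ := QuadraticAlgebra.lift ⟨r, by
      rw [← pow_two, h, zero_smul, add_zero, Algebra.smul_def, mul_one]; rfl⟩
    refine ⟨ψ.toRingHom, ?_, ?_⟩
    · ext x
      exact ψ.commutes x
    · change ψ _ = r
      simp [ψ]

variable [NumberField F] [NumberField E] {d : F} {θ : E} {σ : E ≃ₐ[F] E}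

theorem Qd.apply (h : Qd d θ σ) (x y : F) :
    σ (algebraMap F E x + algebraMap F E y * θ) = algebraMap F E x - algebraMap F E y * θ := by
  rw [map_add, map_mul, σ.commutes, σ.commutes, h.conj]; ring


theorem Qd.norm (h : Qd d θ σ) (x y : F) :
    (algebraMap F E x + algebraMap F E y * θ) * σ (algebraMap F E x + algebraMap F E y * θ) =
      algebraMap F E (x ^ 2 - d * y ^ 2) := by
  rw [h.apply, map_sub, map_mul, map_pow, map_pow, ← h.sq]; ring

/-- the place below -/
abbrev un (F : Type*) [Field F] [NumberField F] [Algebra F E] (w : Pl E) : Pl F := w.under (𝓞 F)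

theorem un_smul (τ : E ≃ₐ[F] E) (w : Pl E) : un F (τ • w) = un F w := by
  refine HeightOneSpectrum.ext (Ideal.ext fun x => ?_)
  have h : τ • algebraMap (𝓞 F) (𝓞 E) x = algebraMap (𝓞 F) (𝓞 E) x :=
    NumberField.RingOfIntegers.ext (τ.commutes (x : F))
  change algebraMap (𝓞 F) (𝓞 E) x ∈ τ • w.asIdeal ↔ algebraMap (𝓞 F) (𝓞 E) x ∈ w.asIdeal
  conv_lhs => rw [← h]
  exact Ideal.smul_mem_pointwise_smul_iff

theorem val_un (w : Pl E) : ∃ e : ℕ, e ≠ 0 ∧
    ∀ x : F, w.valuation E (algebraMap F E x) = (un F w).valuation F x ^ e := by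
  have : w.asIdeal.LiesOver (un F w).asIdeal := ⟨rfl⟩
  exact ⟨_, Ideal.IsDedekindDomain.ramificationIdx'_ne_zero_of_liesOver w.asIdeal (un F w).ne_bot,
    fun x => (HeightOneSpectrum.valuation_liesOver E (un F w) w x).symm⟩

variable (E) in
theorem exists_un (v : Pl F) : ∃ w : Pl E, un F w = v := by
  have := v.isMaximal
  obtain ⟨P, hP, h⟩ := Ideal.exists_maximal_ideal_liesOver_of_isIntegral (S := 𝓞 E) v.asIdeal
  refine ⟨⟨P, hP.isPrime, Ideal.ne_bot_of_liesOver_of_ne_bot v.ne_bot P⟩, ?_⟩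
  exact HeightOneSpectrum.ext h.over.symm

variable (E) in
theorem finite_un (S : Finset (Pl F)) : {w : Pl E | un F w ∈ S}.Finite := by
  have h1 : (⋃ v ∈ (S : Set (Pl F)), v.asIdeal.primesOver (𝓞 E)).Finite := by
    apply S.finite_toSet.biUnion
    intro v _
    have := v.isMaximal
    exact IsDedekindDomain.primesOver_finite _ _
  refine (h1.preimage (f := HeightOneSpectrum.asIdeal) ?_).subset ?_
  · intro a _ b _ hab
    exact HeightOneSpectrum.ext hab
  · intro w hw
    simp only [Set.mem_preimage, Set.mem_iUnion]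
    exact ⟨un F w, hw, w.isPrime, ⟨rfl⟩⟩

variable (E) in
/-- the places above `S` -/
def up (S : Finset (Pl F)) : Finset (Pl E) := (finite_un E S).toFinset

theorem mem_up {S : Finset (Pl F)} {w : Pl E} : w ∈ up E S ↔ un F w ∈ S := by
  simp [up]

/-- an approximate square splits -/
theorem Qd.smul_ne (h : Qd d θ σ) (w : Pl E) (y : F)
    (hy : (un F w).valuation F (d * y ^ 2 - 1) < (un F w).valuation F 4) : σ • w ≠ w := by
  intro hw
  obtain ⟨e, he, hv⟩ := val_un (F := F) w
  set z : E := algebraMap F E (1 / 2) + algebraMap F E (y / 2) * θ with hz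
  have h1 : z + σ z = 1 := by
    rw [hz, h.apply]
    have : algebraMap F E (1 / 2) + algebraMap F E (1 / 2) = 1 := by
      rw [← map_add]; norm_num
    linear_combination this
  have h2 : w.valuation E (σ z) = w.valuation E z := by
    have := val_smul σ w z
    rwa [hw] at this
  have h3 : w.valuation E (z * σ z) < 1 := by
    rw [hz, h.norm, hv]
    refine pow_lt_one₀ zero_le ?_ he
    have e1 : (1 / 2 : F) ^ 2 - d * (y / 2) ^ 2 = -((d * y ^ 2 - 1) / 4) := by ring
    have e2 : (un F w).valuation F 4 ≠ 0 := by simp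
    rw [e1, Valuation.map_neg, map_div₀, div_lt_one₀ (zero_lt_iff.mpr e2)]
    exact hy
  rw [map_mul, h2] at h3
  have h4 : w.valuation E z < 1 := by
    by_contra h5
    exact absurd h3 (not_lt.mpr (one_le_mul (not_lt.mp h5) (not_lt.mp h5)))
  have h5 := (w.valuation E).map_add_lt h4 (h2 ▸ h4)
  rw [h1, map_one] at h5
  exact lt_irrefl _ h5

open Classical in
theorem Qd.card_up {d : Fˣ} (h : Qd (d : F) θ σ) (S : Finset (Pl F)) :
    2 * S.card ≤ (up E S).card + (S.filter fun v => d ∉ Sq v).card := by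
  have h1 : (up E S).card = ∑ v ∈ S, ((up E S).filter fun w => un F w = v).card :=
    Finset.card_eq_sum_card_fiberwise fun w hw => mem_up.mp hw
  rw [h1, Finset.card_filter, ← Finset.sum_add_distrib, Finset.card_eq_sum_ones, Finset.mul_sum]
  refine Finset.sum_le_sum fun v hv => ?_
  obtain ⟨w, hw⟩ := exists_un E v
  have hw' : w ∈ (up E S).filter fun w => un F w = v :=
    Finset.mem_filter.mpr ⟨mem_up.mpr (hw ▸ hv), hw⟩
  by_cases hd : d ∈ Sq v
  · obtain ⟨y, hy⟩ := hd
    have h2 : σ • w ∈ (up E S).filter fun w => un F w = v :=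
      Finset.mem_filter.mpr ⟨mem_up.mpr (by rw [un_smul, hw]; exact hv), by rw [un_smul, hw]⟩
    have h3 := Finset.one_lt_card.mpr ⟨_, h2, _, hw', h.smul_ne w y (hw ▸ hy)⟩
    omega
  · have h3 := Finset.card_pos.mpr ⟨_, hw'⟩
    rw [if_pos hd]
    omega

open Classical in
theorem Qd.card_inf (h : Qd d θ σ) (hd : d ≠ 0) :
    2 * Fintype.card (NumberField.InfinitePlace F) ≤ Fintype.card (NumberField.InfinitePlace E) +
      (Finset.univ.filter fun φ : F →+* ℝ => φ d < 0).card := by
  have h1 := two_card_inf F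
  have h2 := two_card_inf E
  have h3 : finrank ℚ E = finrank ℚ F * 2 := by
    rw [← Module.finrank_mul_finrank ℚ F E, h.rank]
  have h4 : Fintype.card (E →+* ℝ) = ∑ φ : F →+* ℝ,
      (Finset.univ.filter fun ψ : E →+* ℝ => ψ.comp (algebraMap F E) = φ).card :=
    Finset.card_eq_sum_card_fiberwise fun _ _ => Finset.mem_univ _
  have h5 : 2 * Fintype.card (F →+* ℝ) ≤ Fintype.card (E →+* ℝ) +
      2 * (Finset.univ.filter fun φ : F →+* ℝ => φ d < 0).card := by
    rw [h4, Finset.card_filter, Finset.mul_sum, ← Finset.sum_add_distrib, Fintype.card,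
      Finset.card_eq_sum_ones, Finset.mul_sum]
    refine Finset.sum_le_sum fun φ _ => ?_
    by_cases hφ : φ d < 0
    · rw [if_pos hφ]; omega
    · have h6 : 0 < φ d := lt_of_le_of_ne (not_lt.mp hφ) ((map_ne_zero φ).mpr hd).symm
      obtain ⟨ψ, hψ, hψ'⟩ := h.real φ (√(φ d)) (Real.sq_sqrt h6.le)
      obtain ⟨χ, hχ, hχ'⟩ := h.real φ (-√(φ d)) (by rw [neg_sq]; exact Real.sq_sqrt h6.le)
      have h7 : ψ ≠ χ := by
        rintro rfl
        have := Real.sqrt_pos.mpr h6
        linarith
      have h8 : 1 < (Finset.univ.filter fun ψ : E →+* ℝ => ψ.comp (algebraMap F E) = φ).card :=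
        Finset.one_lt_card.mpr ⟨ψ, by simpa using hψ, χ, by simpa using hχ, h7⟩
      omega
  omega

theorem Kill.gcd {S : Finset (Pl F)} (hK : Kill S) (α β : F) (h : α ≠ 0 ∨ β ≠ 0) :
    ∃ c : Fˣ, ∀ v, v ∉ S → v.valuation F (c : F) = max (v.valuation F α) (v.valuation F β) := by
  by_cases ha : α = 0
  · have hb : β ≠ 0 := h.resolve_left (not_not.mpr ha)
    exact ⟨Units.mk0 β hb, fun v _ => by simp [ha]⟩
  by_cases hb : β = 0
  · exact ⟨Units.mk0 α ha, fun v _ => by simp [hb]⟩
  obtain ⟨c, hc⟩ := hK (fun v => max (-R018.Selmerx380.ord (𝓞 F) v (Units.mk0 α ha))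
    (-R018.Selmerx380.ord (𝓞 F) v (Units.mk0 β hb))) (by
      have h1 := (ord_finite (R := 𝓞 F) (Units.mk0 α ha)).and (ord_finite (R := 𝓞 F) (Units.mk0 β hb))
      refine (Filter.eventually_cofinite.mp h1).subset fun v hv h2 => hv ?_
      simp [h2.1, h2.2])
  refine ⟨c, fun v hv => ?_⟩
  have h1 := valuation_eq_exp v (Units.mk0 α ha)
  have h2 := valuation_eq_exp v (Units.mk0 β hb)
  rw [Units.val_mk0] at h1 h2
  rw [hc v hv, h1, h2]
  exact Monotone.map_max (f := fun n : ℤ => WithZero.exp n) fun a b hab => WithZero.exp_le_exp.mpr hab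

/-- inclusion of unit groups -/
abbrev io (F E : Type*) [Field F] [Field E] [Algebra F E] : Fˣ →* Eˣ :=
  Units.map (algebraMap F E : F →* E)

theorem io_inj : Function.Injective (io F E) :=
  Units.map_injective (algebraMap F E).injective

/-- the norm as an endomorphism -/
def nmq (σ : E ≃ₐ[F] E) : Eˣ →* Eˣ := MonoidHom.id _ * Units.map (σ : E →* E)

theorem coe_nmq (z : Eˣ) : (nmq σ z : E) = z * σ z := rfl

theorem mem_unit {S : Finset (Pl F)} {x : Fˣ} :
    x ∈ (S : Set (Pl F)).unit F ↔ ∀ v, v ∉ S → v.valuation F (x : F) = 1 := Iff.rfl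

theorem val_conj {S : Finset (Pl F)} {z : Eˣ} (hz : z ∈ (up E S : Set (Pl E)).unit E)
    (τ : E ≃ₐ[F] E) (w : Pl E) (hw : w ∉ up E S) : w.valuation E (τ z) = 1 := by
  have h1 := val_smul τ (τ⁻¹ • w) (z : E)
  rw [smul_inv_smul] at h1
  rw [h1]
  refine mem_unit.mp hz _ fun h => hw ?_
  rwa [mem_up, un_smul, ← mem_up] at h

theorem io_mem_unit {S : Finset (Pl F)} {x : Fˣ} :
    io F E x ∈ (up E S : Set (Pl E)).unit E ↔ x ∈ (S : Set (Pl F)).unit F := by
  rw [mem_unit, mem_unit]
  constructor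
  · intro h v hv
    obtain ⟨w, rfl⟩ := exists_un E v
    obtain ⟨e, he, hv'⟩ := val_un (F := F) w
    have h1 := h w fun h' => hv (mem_up.mp h')
    exact (pow_eq_one_iff_of_nonneg zero_le he).mp ((hv' x).symm.trans h1)
  · intro h w hw
    obtain ⟨e, he, hv'⟩ := val_un (F := F) w
    refine (hv' x).trans ?_
    rw [h _ fun h' => hw (mem_up.mpr h'), one_pow]

theorem Qd.nmq_eq (h : Qd d θ σ) (z : Eˣ) : ∃ a ∈ Nr d, io F E a = nmq σ z := by
  obtain ⟨x, y, hz⟩ := h.span z
  have h1 : (nmq σ z : E) = algebraMap F E (x ^ 2 - d * y ^ 2) := by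
    rw [coe_nmq, hz, h.norm]
  have h2 : x ^ 2 - d * y ^ 2 ≠ 0 := by
    intro h0
    rw [h0, map_zero] at h1
    exact (nmq σ z).ne_zero h1
  exact ⟨Units.mk0 _ h2, ⟨x, y, rfl⟩, Units.ext h1.symm⟩

theorem Qd.map_nmq_le (h : Qd d θ σ) (S : Finset (Pl F)) :
    ((up E S : Set (Pl E)).unit E).map (nmq σ) ≤
      (Nr d ⊓ (S : Set (Pl F)).unit F).map (io F E) := by
  rintro _ ⟨z, hz, rfl⟩
  obtain ⟨a, ha, h1⟩ := h.nmq_eq z
  refine ⟨a, ⟨ha, (io_mem_unit (E := E)).mp ?_⟩, h1⟩
  rw [h1, mem_unit]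
  intro w hw
  rw [coe_nmq, map_mul, mem_unit.mp hz w hw, val_conj hz σ w hw, mul_one]

/-- Hilbert 90 for `S`-units -/
theorem Qd.h90 {d : Fˣ} (h : Qd (d : F) θ σ) {S : Finset (Pl F)} (hK : Kill S)
    (h2 : ∀ v, v ∉ S → v.valuation F 2 = 1) (hd : d ∈ (S : Set (Pl F)).unit F) :
    (nmq σ).ker ⊓ (up E S : Set (Pl E)).unit E ≤
      ((S : Set (Pl F)).unit F).map (io F E) ⊔ sqr ((up E S : Set (Pl E)).unit E) := by
  rintro x ⟨hx, hxB⟩
  have hx1 : (x : E) * σ x = 1 := congrArg Units.val (MonoidHom.mem_ker.mp hx)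
  have hθ : θ ≠ 0 := by
    intro h0
    have := h.sq
    rw [h0, zero_pow two_ne_zero, eq_comm, map_eq_zero] at this
    exact d.ne_zero this
  obtain ⟨y, hy0, hy⟩ : ∃ y : E, y ≠ 0 ∧ (x : E) * σ y = y := by
    by_cases h1 : 1 + (x : E) = 0
    · refine ⟨θ, hθ, ?_⟩
      rw [h.conj]
      linear_combination (-θ) * h1
    · refine ⟨1 + x, h1, ?_⟩
      rw [map_add, map_one]
      linear_combination hx1
  obtain ⟨α, β, hαβ⟩ := h.span y
  have hne : α ≠ 0 ∨ β ≠ 0 := by
    by_contra h1
    push Not at h1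
    apply hy0
    rw [hαβ, h1.1, h1.2]
    simp
  obtain ⟨c, hc⟩ := hK.gcd α β hne
  have hz : Units.mk0 y hy0 / io F E c ∈ (up E S : Set (Pl E)).unit E := by
    rw [mem_unit]
    intro w hw
    have hv : un F w ∉ S := fun h' => hw (mem_up.mpr h')
    obtain ⟨e, he, hval⟩ := val_un (F := F) w
    have e1 : w.valuation E (σ y) = w.valuation E y := by
      have := congrArg (w.valuation E) hy
      rwa [map_mul, mem_unit.mp hxB w hw, one_mul] at this
    have e2 : w.valuation E 2 = 1 := by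
      have := hval 2
      rwa [h2 _ hv, one_pow, map_ofNat] at this
    have e3 : w.valuation E θ = 1 := by
      have := hval d
      rw [mem_unit.mp hd _ hv, one_pow, ← h.sq, map_pow] at this
      exact (pow_eq_one_iff_of_nonneg zero_le two_ne_zero).mp this
    have e4 : w.valuation E (algebraMap F E α) ≤ w.valuation E y := by
      have : 2 * algebraMap F E α = y + σ y := by rw [hαβ, h.apply]; ring
      have h3 := congrArg (w.valuation E) this
      rw [map_mul, e2, one_mul] at h3
      rw [h3]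
      exact (w.valuation E).map_add_le le_rfl e1.le
    have e5 : w.valuation E (algebraMap F E β) ≤ w.valuation E y := by
      have : 2 * (algebraMap F E β * θ) = y - σ y := by rw [hαβ, h.apply]; ring
      have h3 := congrArg (w.valuation E) this
      rw [map_mul, map_mul, e2, e3, one_mul, mul_one] at h3
      rw [h3]
      exact (w.valuation E).map_sub_le le_rfl e1.le
    have e6 : w.valuation E y ≤
        max (w.valuation E (algebraMap F E α)) (w.valuation E (algebraMap F E β)) := by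
      rw [hαβ]
      refine (w.valuation E).map_add_le (le_max_left _ _) ?_
      rw [map_mul, e3, mul_one]
      exact le_max_right _ _
    have e7 : w.valuation E (algebraMap F E c) = w.valuation E y := by
      rw [le_antisymm e6 (max_le e4 e5), hval, hval, hval, hc _ hv]
      exact Monotone.map_max (f := fun t : WithZero (Multiplicative ℤ) => t ^ e)
        fun a b hab => pow_le_pow_left₀ zero_le hab e
    have e8 : w.valuation E y ≠ 0 := by simpa using hy0
    rw [Units.val_div_eq_div_val, map_div₀, Units.val_mk0]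
    change _ / w.valuation E (algebraMap F E c) = 1
    rw [e7, div_self e8]
  set z := Units.mk0 y hy0 / io F E c with hzdef
  have h3 : x = (nmq σ z)⁻¹ * z ^ 2 := by
    rw [eq_inv_mul_iff_mul_eq]
    ext
    have e1 : (z : E) = y / algebraMap F E c := by
      rw [hzdef, Units.val_div_eq_div_val]; rfl
    have e2 : algebraMap F E c ≠ 0 := by simp
    rw [Units.val_mul, coe_nmq, Units.val_pow_eq_pow_val, e1, map_div₀, σ.commutes]
    field_simp
    linear_combination hy
  rw [h3]
  refine Subgroup.mul_mem_sup (inv_mem ?_) ⟨z, hz, rfl⟩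
  exact Subgroup.map_mono inf_le_right (h.map_nmq_le S ⟨z, hz, rfl⟩)

open Classical in
theorem Qd.amb {d : Fˣ} (h : Qd (d : F) θ σ) {S : Finset (Pl F)} (hd : d ∉ Sqs F) (hK : Kill S)
    (h2 : ∀ v, v ∉ S → v.valuation F 2 = 1) (hdS : d ∈ (S : Set (Pl F)).unit F) :
    (Nr (d : F)).relIndex ((S : Set (Pl F)).unit F) ≠ 0 ∧
    2 * (Nr (d : F)).relIndex ((S : Set (Pl F)).unit F) ≤
      2 ^ ((S.filter fun v => d ∉ Sq v).card +
        (Finset.univ.filter fun φ : F →+* ℝ => φ d < 0).card) := by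
  set A := (S : Set (Pl F)).unit F with hA
  set B := (up E S : Set (Pl E)).unit E with hB
  have hθ : θ ≠ 0 := by
    intro h0
    have := h.sq
    rw [h0, zero_pow two_ne_zero, eq_comm, map_eq_zero] at this
    exact d.ne_zero this
  have hθ2 : Units.mk0 θ hθ ^ 2 = io F E d := Units.ext h.sq
  have sA : (sqr (A.map (io F E))).relIndex (A.map (io F E)) =
      2 ^ (S.card + Fintype.card (NumberField.InfinitePlace F)) := by
    rw [sq_index_inj (io F E) io_inj]
    exact suStmt F S
  have sB : (sqr B).relIndex B =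
      2 ^ ((up E S).card + Fintype.card (NumberField.InfinitePlace E)) := suStmt E (up E S)
  obtain ⟨h3, h4⟩ := amb_core (nmq σ) (A.map (io F E)) B
    (by rintro _ ⟨a, ha, rfl⟩; exact io_mem_unit.mpr ha)
    ((h.map_nmq_le S).trans (Subgroup.map_mono inf_le_right))
    (by
      rintro _ ⟨a, _, rfl⟩
      refine Units.ext ?_
      rw [coe_nmq, Units.val_pow_eq_pow_val, pow_two]
      exact congrArg _ (σ.commutes _))
    (h.h90 hK h2 hdS) (io F E d)
    ⟨⟨d, hdS, rfl⟩, Units.mk0 θ hθ, by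
      have h5 : io F E d ∈ B := io_mem_unit.mpr hdS
      rw [← hθ2] at h5
      intro w hw
      have h6 := mem_unit.mp h5 w hw
      rw [Units.val_pow_eq_pow_val, map_pow] at h6
      exact (pow_eq_one_iff_of_nonneg zero_le two_ne_zero).mp h6, hθ2⟩
    (by
      rw [← map_sq]
      rintro ⟨x, ⟨y, _, rfl⟩, hx⟩
      exact hd ⟨y, io_inj hx⟩)
    (by rw [sA]; positivity)
  have h5 : (Nr (d : F)).relIndex A = ((Nr (d : F) ⊓ A).map (io F E)).relIndex (A.map (io F E)) := by
    rw [Subgroup.relIndex_map_map_of_injective _ _ io_inj, Subgroup.inf_relIndex_right]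
  have h6 := Subgroup.relIndex_le_of_le_left (h.map_nmq_le S) h3
  refine ⟨?_, ?_⟩
  · rw [h5]
    exact fun h0 => h3 (Subgroup.relIndex_eq_zero_of_le_left (h.map_nmq_le S) h0)
  · rw [sA, sB, ← pow_add] at h4
    have h7 := h.card_up S
    have h8 := h.card_inf d.ne_zero
    rw [h5]
    refine le_trans (Nat.mul_le_mul_left 2 h6) (Nat.le_of_mul_le_mul_right (c := 2 ^
      ((up E S).card + Fintype.card (NumberField.InfinitePlace E))) (h4.trans ?_) (by positivity))
    rw [← pow_add]
    exact Nat.pow_le_pow_right two_pos (by omega)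

end Quad

universe u

theorem ambStmt : AmbStmt.{u} := by
  intro F _ _ S d hd hK h2 hdS
  have := fact_of_not_sq hd
  have : NumberField (QuadraticAlgebra F (d : F) 0) := NumberField.of_module_finite F _
  exact (qd_quad (d : F)).amb hd hK h2 hdS

end Crest.Agent.T24.Hn
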