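import Mathlib

/-!
# Row 24, Hasse norm theorem for quadratic extensions: words and statements (helper7)

Completion-free words: `Sq v` = approximate local squares, `Nr d` = global norms from `F(√d)`,
`LN d v` = approximate local norms, `Pos φ`, `LR d φ` = the same at a real place.
-/

set_option autoImplicit false

noncomputable section

open scoped NumberField
open IsDedekindDomain

namespace Crest.Agent.T24.Hn

/-- finite places -/
abbrev Pl (F : Type*) [Field F] : Type _ := HeightOneSpectrum (𝓞 F)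

section Words

variable {F : Type*} [Field F]

/-- squares -/
def Sqs (F : Type*) [Field F] : Subgroup Fˣ := (powMonoidHom 2 : Fˣ →* Fˣ).range

/-- global norms from `F(√d)` -/
def Nr (d : F) : Subgroup Fˣ where
  carrier := {a | ∃ x y : F, (a : F) = x ^ 2 - d * y ^ 2}
  one_mem' := ⟨1, 0, by simp⟩
  mul_mem' := by
    rintro a b ⟨x, y, h⟩ ⟨z, w, h'⟩
    exact ⟨x * z + d * y * w, x * w + y * z, by rw [Units.val_mul, h, h']; ring⟩
  inv_mem' := by
    rintro a ⟨x, y, h⟩
    refine ⟨x / a, y / a, ?_⟩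
    have ha : (a : F) ≠ 0 := a.ne_zero
    rw [Units.val_inv_eq_inv_val]
    field_simp
    exact h


/-- positive at a real place -/
def Pos (φ : F →+* ℝ) : Subgroup Fˣ where
  carrier := {a | 0 < φ a}
  one_mem' := by simp
  mul_mem' := by
    intro a b ha hb
    simp only [Set.mem_ofPred_eq, Units.val_mul, map_mul] at *
    exact mul_pos ha hb
  inv_mem' := by
    intro a ha
    simp only [Set.mem_ofPred_eq, Units.val_inv_eq_inv_val, map_inv₀] at *
    exact inv_pos.mpr ha

theorem mem_Pos {φ : F →+* ℝ} {a : Fˣ} : a ∈ Pos φ ↔ 0 < φ a := Iff.rfl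

variable [NumberField F]

/-- approximate squares at `v` (= squares of the completion, by Hensel's lemma) -/
def Sq (v : Pl F) : Subgroup Fˣ where
  carrier := {x | ∃ y : F, v.valuation F ((x : F) * y ^ 2 - 1) < v.valuation F 4}
  one_mem' := ⟨1, by
    have : v.valuation F 4 ≠ 0 := by simp
    simpa using zero_lt_iff.mpr this⟩
  mul_mem' := by
    rintro a b ⟨x, hx⟩ ⟨y, hy⟩
    refine ⟨x * y, ?_⟩
    have h4 : v.valuation F 4 ≤ 1 := by
      have := v.valuation_le_one (K := F) (4 : 𝓞 F)
      simpa [map_ofNat] using this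
    have e : ((a * b : Fˣ) : F) * (x * y) ^ 2 - 1 =
        ((a : F) * x ^ 2 - 1) * ((b : F) * y ^ 2 - 1) + (((a : F) * x ^ 2 - 1) +
          ((b : F) * y ^ 2 - 1)) := by
      rw [Units.val_mul]; ring
    rw [e]
    refine (v.valuation F).map_add_lt ?_ ((v.valuation F).map_add_lt hx hy)
    rw [map_mul]
    calc _ ≤ v.valuation F ((a : F) * x ^ 2 - 1) * 1 := by gcongr; exact (hy.trans_le h4).le
      _ < _ := by simpa using hx
  inv_mem' := by
    rintro a ⟨x, hx⟩
    have h4 : v.valuation F 4 ≤ 1 := by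
      have := v.valuation_le_one (K := F) (4 : 𝓞 F)
      simpa [map_ofNat] using this
    have h1 : v.valuation F ((a : F) * x ^ 2) = 1 := by
      have := (v.valuation F).map_one_add_of_lt (hx.trans_le h4)
      simpa using this
    have h0 : (a : F) * x ^ 2 ≠ 0 := by
      intro h; rw [h] at h1; simp at h1
    have hx0 : x ≠ 0 := by
      intro h; apply h0; simp [h]
    refine ⟨x⁻¹, ?_⟩
    have e : ((a⁻¹ : Fˣ) : F) * x⁻¹ ^ 2 - 1 = -(((a : F) * x ^ 2 - 1) / ((a : F) * x ^ 2)) := by
      have ha : (a : F) ≠ 0 := a.ne_zero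
      rw [Units.val_inv_eq_inv_val]
      field_simp
      ring
    rw [e, Valuation.map_neg, map_div₀, h1, div_one]
    exact hx


/-- approximate local norms at `v` -/
def LN (d : F) (v : Pl F) : Subgroup Fˣ := Nr d ⊔ Sq v

end Words

/-! ## Statements -/

universe u

/-- L1: the number of local square classes. -/
def L1Stmt : Prop :=
  ∀ (F : Type u) [Field F] [NumberField F] (S : Finset (Pl F)),
    (∀ v : Pl F, (Sq v).index ≠ 0) ∧
    ∏ v ∈ S, (Sq v).index ≤ 4 ^ S.card * 2 ^ Module.finrank ℚ F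

/-- L2: at a non-split place there is a local non-norm. -/
def L2Stmt : Prop :=
  ∀ (F : Type u) [Field F] [NumberField F] (v : Pl F) (d : Fˣ), d ∉ Sq v → LN (d : F) v ≠ ⊤

/-- L3: at an odd place the product of two non-square units is a square. -/
def L3Stmt : Prop :=
  ∀ (F : Type u) [Field F] [NumberField F] (v : Pl F) (x y : Fˣ), v.valuation F 2 = 1 →
    v.valuation F (x : F) = 1 → v.valuation F (y : F) = 1 → x ∉ Sq v → y ∉ Sq v → x * y ∈ Sq v

/-- L4: primes split in `F(√d)` and not split in `F(√u)`. -/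
def L4Stmt : Prop :=
  ∀ (F : Type u) [Field F] [NumberField F] (d u : Fˣ), u ∉ Sqs F → d * u ∉ Sqs F →
    {v : Pl F | d ∈ Sq v ∧ u ∉ Sq v}.Infinite

/-- L5: bridge to the completions, and good places. -/
def L5Stmt : Prop :=
  ∀ (F : Type u) [Field F] [NumberField F] (v : Pl F) (d a : Fˣ),
    (a ∈ LN (d : F) v ↔ ∃ x y : v.adicCompletion F,
      algebraMap F (v.adicCompletion F) a = x ^ 2 - algebraMap F (v.adicCompletion F) d * y ^ 2) ∧
    (v.valuation F 2 = 1 → v.valuation F (d : F) = 1 → v.valuation F (a : F) = 1 →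
      a ∈ LN (d : F) v)

/-- SU: the `S`-unit theorem for square classes. -/
def SUStmt : Prop :=
  ∀ (F : Type u) [Field F] [NumberField F] (S : Finset (Pl F)),
    (((S : Set (Pl F)).unit F).map (powMonoidHom 2)).relIndex ((S : Set (Pl F)).unit F) =
      2 ^ (S.card + Fintype.card (NumberField.InfinitePlace F))

/-- `S` kills the class group: every divisor outside `S` is principal modulo `S`. -/
def Kill {F : Type*} [Field F] [NumberField F] (S : Finset (Pl F)) : Prop :=
  ∀ n : Pl F → ℤ, {v | n v ≠ 0}.Finite →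
    ∃ x : Fˣ, ∀ v, v ∉ S → v.valuation F (x : F) = WithZero.exp (n v)

open Classical in
/-- AMB: the ambiguous class number inequality. -/
def AmbStmt : Prop :=
  ∀ (F : Type u) [Field F] [NumberField F] (S : Finset (Pl F)) (d : Fˣ), d ∉ Sqs F → Kill S →
    (∀ v, v ∉ S → v.valuation F 2 = 1) → d ∈ (S : Set (Pl F)).unit F →
    (Nr (d : F)).relIndex ((S : Set (Pl F)).unit F) ≠ 0 ∧
    2 * (Nr (d : F)).relIndex ((S : Set (Pl F)).unit F) ≤
      2 ^ ((S.filter fun v => d ∉ Sq v).card +
        (Finset.univ.filter fun φ : F →+* ℝ => φ d < 0).card)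

/-- HN: the Hasse norm theorem. -/
def HNStmt : Prop :=
  ∀ (F : Type u) [Field F] [NumberField F] (d a : Fˣ), (∀ v : Pl F, a ∈ LN (d : F) v) →
    (∀ φ : F →+* ℝ, φ d < 0 → 0 < φ a) → a ∈ Nr (d : F)

end Crest.Agent.T24.Hn
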