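import Mathlib

/-!
# Row 24, HOL (helper32): ring identities of the three-step function, Lagrange's partial fractions
-/

set_option autoImplicit false

namespace Crest.Agent.T24.Id32

open Ring Polynomial

section ring
variable {B : Type*} [Ring B]

/-- `ξ y = (1 - y)⁻¹` -/
noncomputable def xi (y : B) : B := inverse (1 - y)

theorem inv_eq {x y : B} (hx : IsUnit x) (h : x * y = 1) : inverse x = y := by
  rw [← mul_one (inverse x), ← h, ← mul_assoc, inverse_mul_cancel x hx, one_mul]

theorem isUnit_of {x y : B} (h : x * y = 1) (h' : y * x = 1) : IsUnit x := ⟨⟨x, y, h, h'⟩, rfl⟩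

theorem inv_of {x y : B} (h : x * y = 1) (h' : y * x = 1) : inverse x = y := inv_eq (isUnit_of h h') h

theorem inv_inv' {x : B} (hx : IsUnit x) : inverse (inverse x) = x :=
  inv_of (inverse_mul_cancel x hx) (mul_inverse_cancel x hx)

theorem inv_mul {x y : B} (hx : IsUnit x) (hy : IsUnit y) : inverse (x * y) = inverse y * inverse x :=
  inv_eq (hx.mul hy) (by
    linear_combination (norm := noncomm_ring)
      x * mul_inverse_cancel y hy * inverse x + mul_inverse_cancel x hx)

theorem inv_neg {x : B} (hx : IsUnit x) : inverse (-x) = -inverse x :=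
  inv_eq hx.neg (by rw [neg_mul_neg, mul_inverse_cancel x hx])

theorem comm_inv {x y : B} (hx : IsUnit x) (h : Commute x y) : Commute (inverse x) y := by
  obtain ⟨u, rfl⟩ := hx
  rw [inverse_unit]; exact h.units_inv_left

theorem xi_mul {y : B} (h : IsUnit (1 - y)) : xi y * (1 - y) = 1 := inverse_mul_cancel _ h
theorem mul_xi {y : B} (h : IsUnit (1 - y)) : (1 - y) * xi y = 1 := mul_inverse_cancel _ h
theorem isUnit_xi {y : B} (h : IsUnit (1 - y)) : IsUnit (xi y) := h.ringInverse
theorem xi_comm {y z : B} (h : IsUnit (1 - y)) (hz : Commute y z) : Commute (xi y) z :=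
  comm_inv h ((Commute.one_left z).sub_left hz)

theorem xi_sub {y g : B} (hy : IsUnit (1 - y)) (hg : IsUnit (1 - g)) :
    xi y - xi g = xi y * (y - g) * xi g := by
  linear_combination (norm := noncomm_ring) xi_mul hy * xi g - xi y * mul_xi hg


theorem sub_eq {y g : B} (ug : IsUnit g) : y - g = -(g * (1 - inverse g * y)) := by
  linear_combination (norm := noncomm_ring) -(mul_inverse_cancel g ug * y)

theorem isUnit_sub {y g : B} (ug : IsUnit g) (h : IsUnit (1 - inverse g * y)) : IsUnit (y - g) := by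
  rw [sub_eq ug]; exact (ug.mul h).neg

theorem isUnit_one_sub_inv {g : B} (ug : IsUnit g) (hg : IsUnit (1 - g)) : IsUnit (1 - inverse g) := by
  have : 1 - inverse g = -(inverse g * (1 - g)) := by
    linear_combination (norm := noncomm_ring) -inverse_mul_cancel g ug
  rw [this]; exact (ug.ringInverse.mul hg).neg

theorem isUnit_xi_sub {y g : B} (ug : IsUnit g) (hy : IsUnit (1 - y)) (hg : IsUnit (1 - g))
    (h : IsUnit (1 - inverse g * y)) : IsUnit (xi y - xi g) := by
  rw [xi_sub hy hg]; exact ((isUnit_xi hy).mul (isUnit_sub ug h)).mul (isUnit_xi hg)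




/-- the inverse of `ξ y - ξ g` -/
theorem inv_xi_sub {y g : B} (ug : IsUnit g) (hy : IsUnit (1 - y)) (hg : IsUnit (1 - g))
    (h : IsUnit (1 - inverse g * y)) :
    inverse (xi y - xi g) = (g - 1) * xi (inverse g * y) * (inverse g - 1) - (1 - g) := by
  refine inv_eq (isUnit_xi_sub ug hy hg h) ?_
  have e : (g - 1) * xi (inverse g * y) * (inverse g - 1) - (1 - g) =
      -((1 - g) * (xi (inverse g * y) * inverse g) * (1 - y)) := by
    have h1 := xi_mul h
    have h2 := inverse_mul_cancel g ug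
    linear_combination (norm := noncomm_ring) (1 - g) * h1
  rw [e, xi_sub hy hg, sub_eq ug]
  linear_combination (norm := noncomm_ring)
    xi y * g * (1 - inverse g * y) * xi_mul hg * xi (inverse g * y) * inverse g * (1 - y) +
      xi y * g * mul_xi h * inverse g * (1 - y) + xi y * mul_inverse_cancel g ug * (1 - y) + xi_mul hy

/-- ANTI: `Y⁻¹ = q' (ξ (g⁻¹ y) - ξ g⁻¹) q`, `q = g⁻¹ - 1`, `q' = g - 1` -/
theorem anti {y g : B} (ug : IsUnit g) (hy : IsUnit (1 - y)) (hg : IsUnit (1 - g))
    (h : IsUnit (1 - inverse g * y)) :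
    inverse (xi y - xi g) = (g - 1) * (xi (inverse g * y) - xi (inverse g)) * (inverse g - 1) := by
  rw [inv_xi_sub ug hy hg h]
  linear_combination (norm := noncomm_ring) (1 - g) * xi_mul (isUnit_one_sub_inv ug hg)


/-- COC: `Y⁻¹ + s⁻¹ = q' (ξ (g₁⁻¹ y) - ξ g₂) q`, `q = g₁⁻¹ - 1`, `q' = g₁ - 1` -/
theorem coc {y g₁ g₂ : B} (u₁ : IsUnit g₁) (hy : IsUnit (1 - y)) (h₁ : IsUnit (1 - g₁))
    (h₂ : IsUnit (1 - g₂)) (h₁₂ : IsUnit (1 - g₁ * g₂)) (h : IsUnit (1 - inverse g₁ * y)) :
    inverse (xi y - xi g₁) + inverse (xi g₁ - xi (g₁ * g₂)) =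
      (g₁ - 1) * (xi (inverse g₁ * y) - xi g₂) * (inverse g₁ - 1) := by
  have e : inverse g₁ * (g₁ * g₂) = g₂ := inverse_mul_cancel_left _ _ u₁
  have k := inv_xi_sub u₁ h₁₂ h₁ (by rwa [e])
  rw [← neg_sub (xi (g₁ * g₂)), inv_neg (isUnit_xi_sub u₁ h₁₂ h₁ (by rwa [e])), k, e,
    inv_xi_sub u₁ hy h₁ h]
  noncomm_ring

/-- Hua: `y⁻¹ + s⁻¹` -/
theorem hua {y s : B} (hy : IsUnit y) (hs : IsUnit s) :
    inverse y + inverse s = inverse y * (y + s) * inverse s ∧
      inverse y + inverse s = inverse s * (y + s) * inverse y := by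
  constructor
  · linear_combination (norm := noncomm_ring)
      -(inverse_mul_cancel y hy * inverse s) - inverse y * mul_inverse_cancel s hs
  · linear_combination (norm := noncomm_ring)
      -(inverse_mul_cancel s hs * inverse y) - inverse s * mul_inverse_cancel y hy


end ring

section star
variable {B : Type*} [Ring B] [StarRing B]







/-- (H), hermitian part: `h (y⁻¹ + s⁻¹) = y*⁻¹ h (y) y⁻¹` -/
theorem h_hua {y s : B} (hy : IsUnit y) (hs : IsUnit s) (sk : star s = -s) :
    (inverse y + inverse s) + star (inverse y + inverse s) =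
      star (inverse y) * (y + star y) * inverse y := by
  have h1 := mul_inverse_cancel y hy
  have h2 := inverse_mul_cancel _ hy.star
  rw [star_add, ← Ring.inverse_star s, sk, inv_neg hs]
  rw [Ring.inverse_star] at h2
  linear_combination (norm := noncomm_ring) -(star (inverse y) * h1) - h2 * inverse y


/-- (H) in the form `b x = -x⁻¹ x*`: `b (y⁻¹ + s⁻¹) = y (y + s)⁻¹ (y + s)* y*⁻¹` -/
theorem b_hua {y s : B} (hy : IsUnit y) (hs : IsUnit s) (sk : star s = -s) (h : IsUnit (y + s)) :
    -(inverse (inverse y + inverse s) * star (inverse y + inverse s)) =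
      y * inverse (y + s) * star (y + s) * inverse (star y) := by
  have e : star (inverse y + inverse s) = -(inverse s * star (y + s) * inverse (star y)) := by
    rw [(hua hy hs).1, star_mul, star_mul, ← Ring.inverse_star s, sk, inv_neg hs, ← Ring.inverse_star y]
    noncomm_ring
  rw [e, (hua hy hs).2, inv_mul (hs.ringInverse.mul h) hy.ringInverse, inv_mul hs.ringInverse h,
    inv_inv' hs, inv_inv' hy]
  linear_combination (norm := noncomm_ring)
    y * inverse (y + s) * mul_inverse_cancel s hs * star (y + s) * inverse (star y)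

end star

section alg
variable {K B : Type*} [Field K] [Ring B] [Algebra K B]

theorem isUnit_smul {c : K} (hc : c ≠ 0) {x : B} (hx : IsUnit x) : IsUnit (c • x) := by
  rw [Algebra.smul_def]; exact ((IsUnit.mk0 c hc).map _).mul hx

theorem inv_smul {c : K} (hc : c ≠ 0) {x : B} (hx : IsUnit x) : inverse (c • x) = c⁻¹ • inverse x :=
  inv_eq (isUnit_smul hc hx) (by
    rw [smul_mul_smul_comm, mul_inv_cancel₀ hc, one_smul, mul_inverse_cancel x hx])





/-- `f = (1 - a) (1 - κ a)⁻¹` and the centre `c₀ = 1 - f` -/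
noncomputable def ff (κ : K) (a : B) : B := (1 - a) * xi (κ • a)

variable {κ c : K} {a y y' : B}



theorem isUnit_inv_sub (ua : IsUnit a) (h : IsUnit (1 - κ • a)) :
    IsUnit (inverse a - algebraMap K B κ) ∧ inverse (inverse a - algebraMap K B κ) = xi (κ • a) * a := by
  have e : inverse a - algebraMap K B κ = inverse a * (1 - κ • a) := by
    rw [mul_sub, mul_one, mul_smul_comm, inverse_mul_cancel a ua, Algebra.algebraMap_eq_smul_one]
  rw [e, inv_mul ua.ringInverse h, inv_inv' ua]
  exact ⟨ua.ringInverse.mul h, rfl⟩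

theorem one_sub_ff' (h : IsUnit (1 - κ • a)) : 1 - ff κ a = (1 - κ) • (a * xi (κ • a)) := by
  have := mul_xi h
  rw [sub_mul, one_mul, smul_mul_assoc] at this
  rw [ff, sub_mul, one_mul, ← this]
  module

/-- `c₀ = (1 - κ) (a⁻¹ - κ)⁻¹` -/
theorem one_sub_ff (ua : IsUnit a) (h : IsUnit (1 - κ • a)) :
    1 - ff κ a = (1 - κ) • inverse (inverse a - algebraMap K B κ) := by
  rw [(isUnit_inv_sub ua h).2, one_sub_ff' h, (xi_comm h ((Commute.refl a).smul_left κ)).eq]








/-- STEP: two rotations give the translation by `e` -/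
theorem step {w : K} (hw : w ≠ 0) {g g' : B} (ug : IsUnit g) (ug' : IsUnit g')
    (h : IsUnit (1 - κ • (inverse g * g'))) (y : B) :
    inverse g * (y + ((w⁻¹ - 1) * (1 - κ)) • (g * inverse (inverse g' * g - algebraMap K B κ))) =
      w⁻¹ • (1 - ff κ (inverse g * g') + w • (inverse g * y - (1 - ff κ (inverse g * g')))) := by
  have ua := ug.ringInverse.mul ug'
  rw [one_sub_ff ua h, inv_mul ug.ringInverse ug', inv_inv' ug, mul_add, mul_smul_comm,
    inverse_mul_cancel_left _ _ ug, smul_add, smul_smul w⁻¹ w, inv_mul_cancel₀ hw, one_smul]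
  module

variable [StarRing K] [StarRing B] [StarModule K B]





end alg

/-! ## LAG -/

/-- `1 = ∑ β_j (κ_j - b)⁻¹`, `β_j = f (κ_j) / ∏_{i ≠ j} (κ_j - κ_i)` -/
theorem lag {K B ι : Type*} [Field K] [Ring B] [Algebra K B] [DecidableEq ι] {s : Finset ι} {κ : ι → K}
    (hκ : Set.InjOn κ s) {f : K[X]} (hf : f.Monic) (hd : f.natDegree = s.card) {b : B}
    (hb : aeval b f = 0) (hu : ∀ j ∈ s, IsUnit (algebraMap K B (κ j) - b)) :
    ∑ j ∈ s, (f.eval (κ j) / ∏ i ∈ s.erase j, (κ j - κ i)) • inverse (algebraMap K B (κ j) - b) = 1 := by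
  set N := Lagrange.nodal s κ
  have hN : ∀ t : Finset ι, t ⊆ s → IsUnit (aeval b (Lagrange.nodal t κ)) := fun t ht => by
    induction t using Finset.induction_on with
    | empty => simp
    | insert i t hi ih =>
      rw [Lagrange.nodal_insert_eq_nodal hi, map_mul, map_sub, aeval_X, aeval_C, ← neg_sub]
      exact (hu i (ht (Finset.mem_insert_self _ _))).neg.mul (ih ((Finset.subset_insert _ _).trans ht))
  have hdeg : (f - N).degree < s.card := by
    rw [← Lagrange.degree_nodal (v := κ), ← show f.degree = N.degree by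
      rw [Lagrange.degree_nodal, degree_eq_natDegree hf.ne_zero, hd]]
    exact degree_sub_lt_left (by rw [Lagrange.degree_nodal, degree_eq_natDegree hf.ne_zero, hd]) hf.ne_zero
      (by rw [hf.leadingCoeff, Lagrange.nodal_monic.leadingCoeff])
  have e := congrArg (aeval b) (Lagrange.eq_interpolate hκ hdeg)
  rw [map_sub, hb, zero_sub, Lagrange.interpolate_apply, map_sum] at e
  refine (hN s subset_rfl).mul_right_cancel ?_
  rw [one_mul, Finset.sum_mul]
  conv_rhs => rw [← neg_neg (aeval b N), e, ← Finset.sum_neg_distrib]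
  refine Finset.sum_congr rfl fun j hj => ?_
  have k : inverse (algebraMap K B (κ j) - b) * aeval b N = -aeval b (Lagrange.nodal (s.erase j) κ) := by
    rw [show N = _ from Lagrange.nodal_eq_mul_nodal_erase hj, map_mul, map_sub, aeval_X, aeval_C,
      ← neg_sub _ b, neg_mul, mul_neg, inverse_mul_cancel_left _ _ (hu j hj)]
  rw [smul_mul_assoc, k, Lagrange.basis_eq_prod_sub_inv_mul_nodal_div hj,
    ← Lagrange.nodal_erase_eq_nodal_div hj, eval_sub, Lagrange.eval_nodal_at_node hj, sub_zero,
    ← mul_assoc, ← C_mul, map_mul, aeval_C, ← Algebra.smul_def, Lagrange.nodalWeight,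
    Finset.prod_inv_distrib, div_eq_mul_inv, smul_neg]

end Crest.Agent.T24.Id32
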