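import Mathlib
import Crest.Agent.T24.LanA_73
import Crest.Agent.T24.AsaB_53
import Crest.Agent.T24.HnAll_7

/-!
# Row 24, Landherr's theorem, part B (helper73): continuity, approximation, integrality
-/

set_option autoImplicit false
set_option linter.unusedSectionVars false

noncomputable section

open NumberField IsDedekindDomain Module WithZero Polynomial Matrix
open NumberField.mixedEmbedding (mixedSpace normAtPlace)
open Crest.Agent.T24.Asa Crest.NumberTheoryR.UnitaryMP

namespace Crest.Agent.T24.Lan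

section Cts

variable {k B T : Type*} [Field k] [AddCommGroup B] [Module k B] [NormedField T]
  {κ : Type*} [Fintype κ] (b : Basis κ k B) (ι : k →+* T)

/-- `g` is continuous in the coordinates at the place `ι` -/
def Cts (g : B → k) : Prop :=
  ∃ Φ : (κ → T) → T, Continuous Φ ∧ ∀ x, ι (g x) = Φ fun i => ι (b.repr x i)

theorem lin_eq {M : Type*} [AddCommGroup M] [Module k M] (g : B →ₗ[k] M) (x : B) :
    g x = ∑ i, b.repr x i • g (b i) := by
  conv_lhs => rw [← b.sum_repr x, map_sum]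
  simp only [map_smul]


theorem cts_quad (g : B →ₗ[k] B →ₗ[k] k) (c : k) : Cts b ι fun x => g x x - c :=
  ⟨fun Y => ∑ i, ∑ j, Y i * (Y j * ι (g (b j) (b i))) - ι c, by fun_prop, fun x => by
    have e : g x x = ∑ i, ∑ j, b.repr x i * (b.repr x j * g (b j) (b i)) := by
      rw [lin_eq b (g x) x]
      refine Finset.sum_congr rfl fun i _ => ?_
      rw [lin_eq b g x, LinearMap.sum_apply, smul_eq_mul, Finset.mul_sum]
      rfl
    simp only [e, map_sub, map_sum, map_mul]⟩

theorem near_of_cts {J : Type*} [Finite J] {g : J → B → k} (hg : ∀ j, Cts b ι (g j)) {r : ℝ}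
    {z : B} (hz : ∀ j, ‖ι (g j z)‖ < r) : ∃ η > 0, ∀ y, (∀ i, ‖ι (b.repr (y - z) i)‖ < η) →
      ∀ j, ‖ι (g j y)‖ < r := by
  choose Φ hΦ hΦ' using hg
  have ho : IsOpen (⋂ j, {Y : κ → T | ‖Φ j Y‖ < r}) :=
    isOpen_iInter_of_finite fun j => isOpen_lt (hΦ j).norm continuous_const
  obtain ⟨η, hη, h⟩ := Metric.isOpen_iff.mp ho (fun i => ι (b.repr z i))
    (Set.mem_iInter.mpr fun j => by simpa [← hΦ'] using hz j)
  refine ⟨η, hη, fun y hy j => ?_⟩
  have := h (a := fun i => ι (b.repr y i)) ((dist_pi_lt_iff hη).mpr fun i => by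
    simpa [dist_eq_norm] using hy i)
  simpa [← hΦ'] using Set.mem_iInter.mp this j

theorem small_smul (x : B) {η : ℝ} (hη : 0 < η) :
    ∃ η' > 0, ∀ s : k, ‖ι s‖ < η' → ∀ i, ‖ι (b.repr (s • x) i)‖ < η := by
  have h0 : 0 ≤ ∑ i, ‖ι (b.repr x i)‖ := Finset.sum_nonneg fun _ _ => norm_nonneg _
  refine ⟨η / (∑ i, ‖ι (b.repr x i)‖ + 1), by positivity, fun s hs i => ?_⟩
  rw [lt_div_iff₀ (by positivity)] at hs
  have h1 : ‖ι (b.repr x i)‖ ≤ ∑ i, ‖ι (b.repr x i)‖ :=
    Finset.single_le_sum (f := fun i => ‖ι (b.repr x i)‖) (fun _ _ => norm_nonneg _)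
      (Finset.mem_univ i)
  simp only [map_smul, Finsupp.smul_apply, smul_eq_mul, map_mul, norm_mul]
  nlinarith [norm_nonneg (ι s)]

end Cts

section App

variable {k : Type*} [Field k] [NumberField k]

/-- the embedding into the completion -/
abbrev iv (v : Pl k) : k →+* v.adicCompletion k := algebraMap k (v.adicCompletion k)

theorem exists_depth (v : Pl k) {η : ℝ} (hη : 0 < η) :
    ∃ m : ℕ, ∀ x : k, v.valuation k x ≤ exp (-(m : ℤ)) → ‖iv v x‖ < η := by
  obtain ⟨c, hc⟩ := Hn.Loc.exists_val_eq v (-1)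
  have h1 : ‖iv v c‖ < 1 := by
    have := (Hn.Loc.norm_lt_iff v c 1).mpr (by
      rw [hc, map_one, ← exp_zero, exp_lt_exp]; norm_num)
    simpa using this
  obtain ⟨m, hm⟩ := exists_pow_lt_of_lt_one hη h1
  refine ⟨m, fun x hx => lt_of_le_of_lt (not_lt.mp fun h => ?_) hm⟩
  rw [← norm_pow, ← map_pow, Hn.Loc.norm_lt_iff, map_pow, hc, ← WithZero.exp_nsmul] at h
  simp only [nsmul_eq_mul, mul_neg, mul_one] at h
  exact absurd hx (not_le.mpr h)

/-- translation of neighbourhoods into the words of `Asa.approx` -/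
theorem conv (S : Finset (Pl k)) (η : Pl k → ℝ) (hη : ∀ v, 0 < η v) (r : (k →+* ℝ) → k)
    (ε : (k →+* ℝ) → ℝ) (hε : ∀ ρ, 0 < ε ρ) : ∃ (m : ℕ) (c : mixedSpace k) (ε' : ℝ), 0 < ε' ∧
      (∀ v ∈ S, ∀ x : k, v.valuation k x ≤ exp (-(m : ℤ)) → ‖iv v x‖ < η v) ∧
      ∀ x : k, (∀ w, normAtPlace w (mixedEmbedding k x - c) < ε') → ∀ ρ, ‖ρ (x - r ρ)‖ < ε ρ := by
  choose m hm using fun v : Pl k => exists_depth v (hη v)
  obtain ⟨ε', h0, h1⟩ : ∃ ε' > 0, ∀ ρ, ε' ≤ ε ρ := by
    rcases isEmpty_or_nonempty (k →+* ℝ) with h | h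
    · exact ⟨1, one_pos, fun ρ => h.elim ρ⟩
    · obtain ⟨ρ, hρ⟩ := Finite.exists_min ε
      exact ⟨ε ρ, hε ρ, hρ⟩
  refine ⟨S.sup m, (fun w => InfinitePlace.embedding_of_isReal w.2
    (r (InfinitePlace.embedding_of_isReal w.2)), 0), ε', h0,
    fun v hv x hx => hm v x (hx.trans (exp_neg_anti (Finset.le_sup hv))), fun x hx ρ => ?_⟩
  have hr : ComplexEmbedding.IsReal (Complex.ofRealHom.comp ρ) :=
    ComplexEmbedding.isReal_iff.mpr (RingHom.ext fun y => by simp)
  have hw : (InfinitePlace.mk (Complex.ofRealHom.comp ρ)).IsReal := ⟨_, hr, rfl⟩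
  have he : InfinitePlace.embedding_of_isReal hw = ρ := RingHom.ext fun y => by
    apply Complex.ofReal_injective
    rw [InfinitePlace.embedding_of_isReal_apply, InfinitePlace.embedding_mk_eq_of_isReal hr]
    rfl
  have := hx (InfinitePlace.mk (Complex.ofRealHom.comp ρ))
  rw [mixedEmbedding.normAtPlace_apply_of_isReal hw] at this
  simp only [Prod.fst_sub, Pi.sub_apply, mixedEmbedding.mixedEmbedding_apply_isReal, he] at this
  rw [map_sub]
  exact this.trans_le (h1 ρ)

end App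

section In

variable {k B : Type*} [Field k] [NumberField k] [Ring B] [Algebra k B] {κ : Type*} [Fintype κ]
  (b : Basis κ k B) (v : Pl k)

/-- integral coordinates at `v` -/
def In (x : B) : Prop := ∀ i, v.valuation k (b.repr x i) ≤ 1

variable {b v}

omit [Fintype κ] in
theorem In.add {x y : B} (hx : In b v x) (hy : In b v y) : In b v (x + y) := fun i => by
  simpa using (v.valuation k).map_add_le (hx i) (hy i)

omit [Fintype κ] in
theorem In.smul {x : B} {c : k} (hc : v.valuation k c ≤ 1) (hx : In b v x) : In b v (c • x) :=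
  fun i => by simpa using mul_le_one' hc (hx i)

omit [Fintype κ] in
theorem In.sum {J : Type*} {s : Finset J} {x : J → B} (hx : ∀ j ∈ s, In b v (x j)) :
    In b v (∑ j ∈ s, x j) := fun i => by
  simpa [Finsupp.finsetSum_apply] using (v.valuation k).map_sum_le fun j hj => hx j hj i

theorem In.lin {x : B} (g : B →ₗ[k] B) (hg : ∀ j, In b v (g (b j))) (hx : In b v x) :
    In b v (g x) := by
  rw [← b.sum_repr x, map_sum]
  exact In.sum fun j _ => by rw [map_smul]; exact In.smul (hx j) (hg j)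

theorem In.mul (hb : ∀ i j, In b v (b i * b j)) {x y : B} (hx : In b v x) (hy : In b v y) :
    In b v (x * y) :=
  In.lin (LinearMap.mulLeft k x) (fun j => In.lin (LinearMap.mulRight k (b j)) (hb · j) hx) hy

omit [Fintype κ] in
theorem in_basis (j : κ) : In b v (b j) := fun i => by
  classical
  rw [b.repr_self, Finsupp.single_apply]
  split_ifs <;> simp

theorem In.mat [DecidableEq κ] (hb : ∀ i j, In b v (b i * b j)) {x : B} (hx : In b v x) (p q : κ) :
    v.valuation k (Algebra.leftMulMatrix b x p q) ≤ 1 := by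
  rw [Algebra.leftMulMatrix_eq_repr_mul]
  exact In.mul hb hx (in_basis q) p

theorem In.linK {K : Type*} [Field K] [NumberField K] [Algebra k K] {w : Pl K}
    {x : B} (g : B →ₗ[k] K) (hg : ∀ j, w.valuation K (g (b j)) ≤ 1) (hx : In b (below k w) x) :
    w.valuation K (g x) ≤ 1 := by
  rw [← b.sum_repr x, map_sum]
  refine Valuation.map_sum_le _ fun j _ => ?_
  rw [map_smul, Algebra.smul_def, map_mul]
  exact mul_le_one' ((below_le_one w _).mpr (hx j)) (hg j)

variable (b) in
theorem ev_in (x : B) : ∀ᶠ v in Filter.cofinite, In b v x :=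
  Filter.eventually_all.mpr fun i => Filter.eventually_cofinite.mpr (finite_not_le (b.repr x i))

end In

section Quad

variable {k K : Type*} [Field k] [NumberField k] [Field K] [NumberField K] [Algebra k K]

theorem below_lt (w : Pl K) (x y : k) : w.valuation K (algebraMap k K x) <
    w.valuation K (algebraMap k K y) ↔ (below k w).valuation k x < (below k w).valuation k y := by
  obtain ⟨e, he, h⟩ := val_below (k := k) w
  rw [h, h, pow_lt_pow_iff_left₀ zero_le zero_le he]

theorem ev_below {P : Pl K → Prop} (h : ∀ᶠ w in Filter.cofinite, P w) :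
    ∀ᶠ v in Filter.cofinite, ∀ w : Pl K, below k w = v → P w := by
  rw [Filter.eventually_cofinite] at *
  refine (h.image (below k)).subset fun v hv => ?_
  simp only [Set.mem_ofPred_eq, not_forall] at hv
  obtain ⟨w, h1, h2⟩ := hv
  exact ⟨w, h2, h1⟩

theorem map_mem_Sq (w : Pl K) {d : kˣ} (h : d ∈ Hn.Sq (below k w)) :
    Units.map (algebraMap k K : k →* K) d ∈ Hn.Sq w := by
  obtain ⟨y, hy⟩ := h
  refine ⟨algebraMap k K y, ?_⟩
  have := (below_lt w _ _).mpr hy
  simpa [map_ofNat] using this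

variable (hK : finrank k K = 2) {σ : K ≃ₐ[k] K} (hσ : σ ≠ AlgEquiv.refl)

include hK hσ in
theorem exists_theta : ∃ (θ : K) (δ : kˣ), σ θ = -θ ∧ θ ^ 2 = algebraMap k K δ := by
  obtain ⟨x, hx⟩ : ∃ x, x - σ x ≠ 0 := by
    by_contra h
    push Not at h
    exact hσ (AlgEquiv.ext fun x => (sub_eq_zero.mp (h x)).symm)
  have h1 : σ (x - σ x) = -(x - σ x) := by rw [map_sub, sigma_sigma hK hσ]; ring
  obtain ⟨d, hd⟩ := fixed hK hσ (x := (x - σ x) ^ 2) (by rw [map_pow, h1]; ring)
  have : d ≠ 0 := by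
    rintro rfl
    exact pow_ne_zero 2 hx (by rw [← hd, map_zero])
  exact ⟨x - σ x, Units.mk0 d this, h1, hd.symm⟩

variable {θ : K} {δ : kˣ} (hθ : σ θ = -θ) (hδ : θ ^ 2 = algebraMap k K δ)

omit [NumberField k] [NumberField K] in
include hδ in
theorem theta_ne : θ ≠ 0 := by
  rintro rfl
  exact δ.ne_zero ((algebraMap k K).injective (by rw [← hδ]; simp))

include hK hσ hθ hδ in
theorem decomp (c : K) : ∃ a a' : k, algebraMap k K a = (c + σ c) / 2 ∧
    algebraMap k K a' = (c - σ c) / (2 * θ) ∧ c = algebraMap k K a + algebraMap k K a' * θ := by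
  have h0 := theta_ne hδ
  obtain ⟨a, ha⟩ := fixed hK hσ (x := (c + σ c) / 2) (by
    rw [map_div₀, map_add, sigma_sigma hK hσ, map_ofNat, add_comm])
  obtain ⟨a', ha'⟩ := fixed hK hσ (x := (c - σ c) / (2 * θ)) (by
    rw [map_div₀, map_sub, sigma_sigma hK hσ, map_mul, map_ofNat, hθ]; field_simp; ring)
  exact ⟨a, a', ha, ha', by rw [ha, ha']; field_simp; ring⟩

include hK hσ hθ hδ in
theorem mem_Sq_of_lt {w : Pl K} {z : K} (h : w.valuation K z < w.valuation K (σ z)) :
    δ ∈ Hn.Sq (below k w) := by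
  obtain ⟨x, y, hx, hy, -⟩ := decomp hK hσ hθ hδ z
  have h0 := theta_ne hδ
  have h1 : w.valuation K (z + σ z) = w.valuation K (σ z) :=
    Valuation.map_add_eq_of_lt_right _ h
  have h2 : 0 < w.valuation K (σ z) := lt_of_le_of_lt zero_le h
  have h3 : z + σ z ≠ 0 := by
    intro h3
    rw [h3, map_zero] at h1
    exact h2.ne h1
  refine ⟨y / x, (below_lt w _ _).mp ?_⟩
  have e : algebraMap k K ((δ : k) * (y / x) ^ 2 - 1) = -(4 * (z * σ z / (z + σ z) ^ 2)) := by
    rw [map_sub, map_mul, map_pow, map_div₀, hx, hy, ← hδ, map_one]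
    field_simp
    ring
  rw [e, Valuation.map_neg, map_mul, map_ofNat (algebraMap k K)]
  refine mul_lt_of_lt_one_right (zero_lt_iff.mpr (by simp)) ?_
  rw [map_div₀, map_pow, h1, map_mul, div_lt_one₀ (pow_pos h2 2), sq]
  exact mul_lt_mul_of_pos_right h h2

include hK hσ hθ hδ in
theorem not_splits {w : Pl K} (h : δ ∉ Hn.Sq (below k w)) : ¬ SplitsBelow σ w := by
  rintro ⟨x, hx⟩
  rcases lt_or_gt_of_ne hx with h1 | h1
  · exact h (mem_Sq_of_lt hK hσ hθ hδ (z := σ x) (by rwa [sigma_sigma hK hσ]))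
  · exact h (mem_Sq_of_lt hK hσ hθ hδ h1)

include hK hσ hθ hδ in
theorem exists_split_Sq (S : Finset (Pl k)) : ∃ v₀ : Pl k, v₀ ∉ S ∧ δ ∈ Hn.Sq v₀ := by
  obtain ⟨v, hv, h⟩ := exists_split hK hσ S
  refine ⟨v, hv, by_contra fun hn => ?_⟩
  obtain ⟨w, rfl⟩ := Hn.exists_un K v
  exact not_splits hK hσ hθ hδ hn (h w rfl)

include hK hσ hθ hδ in
/-- coordinates of integers at a good non-split place -/
theorem decomp_int {w : Pl K} (hw : ¬ SplitsBelow σ w) (h2 : (below k w).valuation k 2 = 1)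
    (hd : (below k w).valuation k δ = 1) {c : K} (hc : w.valuation K c ≤ 1) :
    ∃ a a' : k, (below k w).valuation k a ≤ 1 ∧ (below k w).valuation k a' ≤ 1 ∧
      c = algebraMap k K a + algebraMap k K a' * θ := by
  obtain ⟨a, a', ha, ha', h⟩ := decomp hK hσ hθ hδ c
  simp only [SplitsBelow, not_exists, not_not] at hw
  have h2' : w.valuation K 2 = 1 := by
    simpa [map_ofNat] using (below_eq_one w (2 : k)).mpr h2
  have ht : w.valuation K θ = 1 := by
    have := (below_eq_one w (δ : k)).mpr hd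
    rw [← hδ, map_pow] at this
    exact (pow_eq_one_iff_of_nonneg zero_le two_ne_zero).mp this
  refine ⟨a, a', (below_le_one w _).mp ?_, (below_le_one w _).mp ?_, h⟩
  · rw [ha, map_div₀, h2', div_one]
    exact (w.valuation K).map_add_le hc ((hw c).trans_le hc)
  · rw [ha', map_div₀, map_mul, h2', ht, mul_one, div_one]
    exact (w.valuation K).map_sub_le hc ((hw c).trans_le hc)

end Quad

end Crest.Agent.T24.Lan
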