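import Mathlib
import Crest.Agent.T24.Csa6_50
import Crest.Agent.T24.HilC_56
import Crest.Agent.T24.LanD_73
import Crest.Agent.T24.BcB_98
import Crest.Agent.T24.EmbDef_13

-- ▼ part T24/LanE_73
section

/-!
# Row 24 (helper73): classification of hermitian forms when binary forms are universal
-/

set_option autoImplicit false
set_option linter.unusedSectionVars false

noncomputable section

open NumberField IsDedekindDomain Module WithZero Matrix
open Crest.Agent.T24.Csa

namespace Crest.Agent.T24.Lan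

section Mat

variable {E : Type*} [Field E] [StarRing E] {m : Type} [Fintype m] [DecidableEq m]

/-- every non-degenerate binary hermitian form represents `1` -/
def Univ (E : Type*) [Field E] [StarRing E] : Prop :=
  ∀ a b : E, a ≠ 0 → b ≠ 0 → star a = a → star b = b →
    ∃ x y : E, a * (star x * x) + b * (star y * y) = 1

/-- congruence of matrices -/
def Cg (H H' : Matrix m m E) : Prop := ∃ P : (Matrix m m E)ˣ, (P : Matrix m m E)ᴴ * H * P = H'

theorem Cg.refl (H : Matrix m m E) : Cg H H := ⟨1, by simp⟩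

theorem Cg.trans {H H' H'' : Matrix m m E} (h : Cg H H') (h' : Cg H' H'') : Cg H H'' := by
  obtain ⟨P, rfl⟩ := h
  obtain ⟨Q, rfl⟩ := h'
  exact ⟨P * Q, by simp only [Units.val_mul, conjTranspose_mul, mul_assoc]⟩

theorem Cg.symm {H H' : Matrix m m E} (h : Cg H H') : Cg H' H := by
  obtain ⟨P, rfl⟩ := h
  refine ⟨P⁻¹, ?_⟩
  rw [← mul_assoc, ← mul_assoc, ← conjTranspose_mul, mul_assoc, P.mul_inv, conjTranspose_one,
    one_mul, mul_one]

theorem det_cg (P H : Matrix m m E) : (Pᴴ * H * P).det = H.det * (star P.det * P.det) := by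
  rw [det_mul, det_mul, det_conjTranspose]; ring

theorem cg_of_eq {P H H' : Matrix m m E} (h : Pᴴ * H * P = H') (h0 : H'.det ≠ 0) : Cg H H' := by
  have : IsUnit P := (isUnit_iff_isUnit_det P).mpr (isUnit_iff_ne_zero.mpr fun hP => h0 (by
    rw [← h, det_cg, hP, mul_zero, mul_zero]))
  obtain ⟨P, rfl⟩ := this
  exact ⟨P, h⟩

theorem cg_move {a : m → E} (h0 : ∀ l, a l ≠ 0) (hs : ∀ l, star (a l) = a l) {i j : m} (hij : i ≠ j)
    {x y : E} (h : a i * (star x * x) + a j * (star y * y) = 1) :
    Cg (diagonal a) (diagonal fun l => if l = i then 1 else if l = j then a i * a j else a l) := by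
  let col : m → m → E := fun q => if q = i then Pi.single i x + Pi.single j y
    else if q = j then Pi.single i (-(a j * star y)) + Pi.single j (a i * star x) else Pi.single q 1
  let f : (m → E) → (m → E) → E := fun u w => ∑ l, star (u l) * a l * w l
  have f1 : ∀ u u' w, f (u + u') w = f u w + f u' w := fun u u' w => by
    simp [f, add_mul, Finset.sum_add_distrib]
  have f2 : ∀ u w w', f u (w + w') = f u w + f u w' := fun u w w' => by
    simp [f, mul_add, Finset.sum_add_distrib]
  have f3 : ∀ p q s t, f (Pi.single p s) (Pi.single q t) = if p = q then star s * a p * t else 0 :=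
    fun p q s t => by
      simp only [f]
      rw [Finset.sum_eq_single p (fun l _ hl => by simp [hl]) (by simp)]
      split_ifs with h
      · simp [h]
      · simp [h]
  refine cg_of_eq (P := of fun l q => col q l) ?_ ?_
  · ext p q
    have e : ((of fun l q => col q l)ᴴ * diagonal a * of fun l q => col q l) p q =
        f (col p) (col q) := by
      simp [mul_apply, f, diagonal_apply]
    rw [e, diagonal_apply]
    have hji := hij.symm
    have ci : col i = Pi.single i x + Pi.single j y := if_pos rfl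
    have cj : col j = Pi.single i (-(a j * star y)) + Pi.single j (a i * star x) :=
      (if_neg hji).trans (if_pos rfl)
    have co : ∀ l, l ≠ i → l ≠ j → col l = Pi.single l 1 := fun l h1 h2 =>
      (if_neg h1).trans (if_neg h2)
    have tri : ∀ l, l = i ∨ l = j ∨ (l ≠ i ∧ l ≠ j) := fun l => by tauto
    clear e
    clear_value f col
    rcases tri p with hp | hp | ⟨hp, hp'⟩ <;> rcases tri q with hq | hq | ⟨hq, hq'⟩
    · rw [hp, hq, ci]; simp only [f1, f2, f3, hij, hji, if_true, if_false]
      linear_combination h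
    · rw [hp, hq, ci, cj]; simp only [f1, f2, f3, hij, hji, if_true, if_false]
      ring
    · rw [hp, ci, co q hq hq']; simp only [f1, f3, hq.symm, hq'.symm, if_false, add_zero]
    · rw [hp, hq, ci, cj]; simp only [f1, f2, f3, hij, hji, if_true, if_false,
        star_neg, star_mul', star_star, hs]
      ring
    · rw [hp, hq, cj]; simp only [f1, f2, f3, hij, hji, if_true, if_false,
        star_neg, star_mul', star_star, hs]
      linear_combination a i * a j * h
    · rw [hp, cj, co q hq hq']; simp only [f1, f3, hq.symm, hq'.symm, if_false, add_zero]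
    · rw [hq, ci, co p hp hp']; simp only [f2, f3, hp, hp', if_false, add_zero]
    · rw [hq, cj, co p hp hp']; simp only [f2, f3, hp, hp', if_false, add_zero]
    · rw [co p hp hp', co q hq hq']; simp only [f3, hp, hp', if_false, star_one, one_mul, mul_one]
  · rw [det_diagonal]
    refine Finset.prod_ne_zero_iff.mpr fun l _ => ?_
    split_ifs
    exacts [one_ne_zero, mul_ne_zero (h0 i) (h0 j), h0 l]

theorem cg_normal (hU : Univ E) {a : m → E} (h0 : ∀ l, a l ≠ 0) (hs : ∀ l, star (a l) = a l)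
    (j : m) (s : Finset m) (hj : j ∉ s) : Cg (diagonal a) (diagonal fun l =>
      if l ∈ s then 1 else if l = j then a j * ∏ i ∈ s, a i else a l) := by
  induction s using Finset.induction_on with
  | empty =>
    convert Cg.refl (diagonal a) using 3 with l
    simp only [Finset.notMem_empty, if_false, Finset.prod_empty, mul_one]
    split_ifs with h
    · rw [h]
    · rfl
  | insert i s hi ih =>
    rw [Finset.mem_insert, not_or] at hj
    have hp : a j * ∏ i ∈ s, a i ≠ 0 :=
      mul_ne_zero (h0 j) (Finset.prod_ne_zero_iff.mpr fun l _ => h0 l)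
    have hp' : star (a j * ∏ i ∈ s, a i) = a j * ∏ i ∈ s, a i := by simp [star_prod, hs]
    obtain ⟨x, y, h⟩ := hU (a i) _ (h0 i) hp (hs i) hp'
    have hij : i ≠ j := fun h => hj.1 h.symm
    refine (ih hj.2).trans ?_
    convert cg_move (x := x) (y := y) (fun l => ?_) (fun l => ?_) hij ?_ using 3 with l
    · rw [Finset.prod_insert hi]
      by_cases h1 : l = i
      · simp [h1]
      · by_cases h2 : l = j
        · simp [h2, hj.1, hj.2, hi, hij, mul_left_comm]
        · simp [h1, h2]
    · split_ifs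
      exacts [one_ne_zero, hp, h0 l]
    · split_ifs
      exacts [star_one _, hp', hs l]
    · simpa [hi, hij, hj.2] using h

theorem cg_det [CharZero E] (hU : Univ E) (hne : ∃ c : E, star c ≠ c) {H : Matrix m m E} (hH : Hᴴ = H)
    (h0 : H.det ≠ 0) (j : m) : ∃ z : E, z ≠ 0 ∧
      Cg H (diagonal fun l => if l = j then H.det * (star z * z) else 1) := by
  obtain ⟨θ, hθ0, hθ⟩ := exists_skew hne
  obtain ⟨P, a, h⟩ := exists_diag θ hθ0 hθ (mul_comm θ) hH
  have hP : (P : Matrix m m E).det ≠ 0 := ((isUnit_iff_isUnit_det _).mp P.isUnit).ne_zero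
  have hd : ∏ i, a i = H.det * (star (P : Matrix m m E).det * (P : Matrix m m E).det) := by
    rw [← det_diagonal, ← h, det_cg]
  have ha : ∀ l, a l ≠ 0 := fun l => Finset.prod_ne_zero_iff.mp
    (hd ▸ mul_ne_zero h0 (mul_ne_zero (star_ne_zero.mpr hP) hP)) l (Finset.mem_univ l)
  have hs : ∀ l, star (a l) = a l := fun l => by
    have : (diagonal a)ᴴ = diagonal a := by
      rw [← h]; simp only [conjTranspose_mul, conjTranspose_conjTranspose, hH, mul_assoc]
    simpa using congrFun (congrFun this l) l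
  refine ⟨_, hP, Cg.trans ⟨P, h⟩ ?_⟩
  convert cg_normal hU ha hs j (Finset.univ.erase j) (Finset.notMem_erase _ _) using 3 with l
  rw [Finset.mul_prod_erase _ _ (Finset.mem_univ j), hd]
  by_cases h1 : l = j <;> simp [h1]

/-- hermitian matrices are classified by the determinant modulo norms -/
theorem cg_of_det [CharZero E] (hU : Univ E) (hne : ∃ c : E, star c ≠ c) [Nonempty m] {H H' : Matrix m m E}
    (hH : Hᴴ = H) (hH' : H'ᴴ = H') (h0 : H.det ≠ 0) {z : E} (hz : z ≠ 0)
    (h : H'.det = H.det * (star z * z)) : Cg H H' := by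
  obtain ⟨j⟩ := ‹Nonempty m›
  have h0' : H'.det ≠ 0 := h ▸ mul_ne_zero h0 (mul_ne_zero (star_ne_zero.mpr hz) hz)
  obtain ⟨s, hs, h1⟩ := cg_det hU hne hH h0 j
  obtain ⟨t, ht, h2⟩ := cg_det hU hne hH' h0' j
  refine h1.trans (Cg.trans (cg_of_eq (P := diagonal fun l => if l = j then z * t / s else 1) ?_ ?_)
    h2.symm)
  · rw [diagonal_conjTranspose, diagonal_mul_diagonal, diagonal_mul_diagonal]
    congr 1
    funext l
    have := star_ne_zero.mpr hs
    by_cases h1 : l = j
    · simp only [h1, if_true, Pi.star_apply, star_div₀, star_mul', h]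
      field_simp
    · simp [h1]
  · rw [det_diagonal]
    refine Finset.prod_ne_zero_iff.mpr fun l _ => ?_
    split_ifs
    exacts [mul_ne_zero h0' (mul_ne_zero (star_ne_zero.mpr ht) ht), one_ne_zero]

end Mat

section Alg

variable {E A : Type*} [Field E] [CharZero E] [StarRing E] [Ring A] [StarRing A] [Algebra E A]
  [StarModule E A] [Algebra.IsCentral E A] [IsSimpleRing A] [FiniteDimensional E A]

/-- hermitian units of a split algebra are classified by the reduced norm modulo norms -/
theorem cong_of_Nrd (hU : Univ E) (hne : ∃ c : E, star c ≠ c) {n : ℕ}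
    (e : A ≃ₐ[E] Matrix (Fin n) (Fin n) E) {h h' : A} (hh : star h = h) (hh' : star h' = h')
    (hu : IsUnit h) {z : E} (hz : z ≠ 0) (hN : Nrd E h' = Nrd E h * (star z * z)) :
    ∃ Z : Aˣ, h' = star (Z : A) * h * Z := by
  rcases n with _ | n
  · exact ⟨1, e.injective (Subsingleton.elim _ _)⟩
  have hf : finrank E A = Fintype.card (Fin (n + 1)) ^ 2 := by
    rw [e.toLinearEquiv.finrank_eq, finrank_mat]
  obtain ⟨H, h1, h2⟩ := exists_twist (K := E) (B := Matrix (Fin (n + 1)) (Fin (n + 1)) E) hne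
    (AddMonoidHom.mk' (fun x => e (star (e.symm x))) fun x y => by simp)
    (fun x y => by simp) (fun x => by simp) fun c => by
      simp only [AddMonoidHom.mk'_apply]
      rw [AlgEquiv.commutes, Csa.star_algebraMap, AlgEquiv.commutes]
  have h3 : ∀ x : A, (H : Matrix _ _ E) * e (star x) = (e x)ᴴ * (H : Matrix _ _ E) := fun x => by
    simpa [star_eq_conjTranspose] using h2 (e x)
  have h4 : ∀ x : A, star x = x → ((H : Matrix _ _ E) * e x)ᴴ = (H : Matrix _ _ E) * e x := fun x hx => by
    rw [conjTranspose_mul, show (H : Matrix (Fin (n + 1)) (Fin (n + 1)) E)ᴴ = H from h1, ← h3, hx]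
  have h5 : ∀ x : A, (e x).det = Nrd E x := fun x => det_eq e.toAlgHom hf x
  have hH : (H : Matrix (Fin (n + 1)) (Fin (n + 1)) E).det ≠ 0 :=
    ((isUnit_iff_isUnit_det _).mp H.isUnit).ne_zero
  obtain ⟨P, hP⟩ := cg_of_det hU hne (h4 h hh) (h4 h' hh')
    (by rw [det_mul, h5]; exact mul_ne_zero hH ((isUnit_iff_Nrd (K := E) h).mp hu)) hz
    (by rw [det_mul, det_mul, h5, h5, hN, mul_assoc])
  refine ⟨Units.map (e.symm : _ →* A) P, e.injective (H.isUnit.mul_left_cancel ?_)⟩
  rw [map_mul, map_mul, ← mul_assoc, ← mul_assoc, h3, ← hP]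
  simp [mul_assoc]

end Alg

section Univ

variable {F : Type*} [Field F] [CharZero F]

/-- norms from `F(√d)`, including `0` -/
def Nm (d x : F) : Prop := ∃ s t : F, x = s ^ 2 - d * t ^ 2

theorem Nm.mul {d x y : F} (hx : Nm d x) (hy : Nm d y) : Nm d (x * y) := by
  obtain ⟨s, t, rfl⟩ := hx
  obtain ⟨s', t', rfl⟩ := hy
  exact ⟨s * s' + d * t * t', s * t' + t * s', by ring⟩

theorem nm_sq (d x : F) : Nm d (x ^ 2) := ⟨x, 0, by ring⟩

theorem Nm.inv {d x : F} (hx : Nm d x) : Nm d x⁻¹ := by
  by_cases h0 : x = 0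
  · simpa [h0] using hx
  · convert hx.mul (nm_sq d x⁻¹) using 1
    field_simp

theorem univ_of_index {d : F} (h2 : ∀ a b, a ≠ 0 → b ≠ 0 → ¬ Nm d a → ¬ Nm d b → Nm d (a * b))
    (hne : ∃ c, ¬ Nm d c) {n : ℕ} (hn : n ≠ 0) (hsq : IsSquare (-(n : F))) {a b : F} (ha : a ≠ 0)
    (hb : b ≠ 0) : ∃ x y, Nm d x ∧ Nm d y ∧ a * x + b * y = 1 := by
  have z0 : Nm d 0 := ⟨0, 0, by ring⟩
  by_cases h1 : Nm d a
  · exact ⟨a⁻¹, 0, h1.inv, z0, by simp [ha]⟩
  by_cases h1' : Nm d b
  · exact ⟨0, b⁻¹, z0, h1'.inv, by simp [hb]⟩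
  obtain ⟨x, y, hx, hy, hxy⟩ : ∃ x y, Nm d x ∧ Nm d y ∧ ¬ Nm d (x + y) := by
    by_contra hc
    push Not at hc
    have h3 : ∀ m : ℕ, Nm d (m : F) := fun m => by
      induction m with
      | zero => simpa using z0
      | succ m ih => simpa using hc _ _ ih (nm_sq d 1)
    have h4 : Nm d (-1) := by
      obtain ⟨r, hr⟩ := hsq
      have : (n : F) ≠ 0 := Nat.cast_ne_zero.mpr hn
      convert (nm_sq d r).mul (h3 n).inv using 1
      rw [sq, ← hr]; field_simp
    obtain ⟨c, hc'⟩ := hne
    refine hc' ?_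
    convert hc _ _ (nm_sq d ((c + 1) / 2)) (h4.mul (nm_sq d ((c - 1) / 2))) using 1
    ring
  have h0 : x + y ≠ 0 := fun h => hxy (h ▸ z0)
  exact ⟨x * (a * (x + y))⁻¹, y * (b * (x + y))⁻¹, hx.mul (h2 _ _ ha h0 h1 hxy).inv,
    hy.mul (h2 _ _ hb h0 h1' hxy).inv, by field_simp⟩

end Univ

section Loc

variable {k : Type*} [Field k] [NumberField k] (v : Hn.Pl k) {δ : kˣ} (hd : δ ∉ Hn.Sq v)

theorem nm_iff {c : v.adicCompletion k} (hc : c ≠ 0) {c' : kˣ}
    (h : IsSquare (algebraMap k (v.adicCompletion k) c' / c)) :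
    Nm (algebraMap k (v.adicCompletion k) δ) c ↔ c' ∈ Hn.LN (δ : k) v := by
  have : CharZero (v.adicCompletion k) := algebraRat.charZero _
  obtain ⟨r, hr⟩ := h
  have h0 : algebraMap k (v.adicCompletion k) c' ≠ 0 := by simp
  have hr0 : r ≠ 0 := by
    rintro rfl
    exact div_ne_zero h0 hc (by simpa using hr)
  rw [div_eq_iff hc] at hr
  rw [Hn.Loc.mem_LN_iff]
  constructor
  · intro h
    have := h.mul (nm_sq _ r)
    rwa [sq, mul_comm, ← hr] at this
  · intro h
    convert Nm.mul h (nm_sq _ r⁻¹) using 1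
    rw [hr]; field_simp

include hd in
/-- the local norm index is two, in the completion -/
theorem nm_mul_adic {a b : v.adicCompletion k} (ha : a ≠ 0) (hb : b ≠ 0)
    (h1 : ¬ Nm (algebraMap k (v.adicCompletion k) δ) a)
    (h2 : ¬ Nm (algebraMap k (v.adicCompletion k) δ) b) :
    Nm (algebraMap k (v.adicCompletion k) δ) (a * b) := by
  obtain ⟨a', ha'⟩ := (Hil.lc_inl v).exists_sq (v.denseRange_algebraMap k) ha
  obtain ⟨b', hb'⟩ := (Hil.lc_inl v).exists_sq (v.denseRange_algebraMap k) hb
  rw [nm_iff v ha ha'] at h1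
  rw [nm_iff v hb hb'] at h2
  refine (nm_iff v (mul_ne_zero ha hb) (c' := a' * b') ?_).mpr
    ((Subgroup.mul_mem_iff_of_index_two (Hn.index_LN v δ hd)).mpr (iff_of_false h1 h2))
  rw [Units.val_mul, map_mul, mul_div_mul_comm]
  exact ha'.mul hb'

include hd in
theorem univ_adic {a b : v.adicCompletion k} (ha : a ≠ 0) (hb : b ≠ 0) :
    ∃ x y, Nm (algebraMap k (v.adicCompletion k) δ) x ∧ Nm (algebraMap k (v.adicCompletion k) δ) y ∧
      a * x + b * y = 1 := by
  have : CharZero (v.adicCompletion k) := algebraRat.charZero _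
  have hp : Ideal.absNorm v.asIdeal ≠ 0 := mt Ideal.absNorm_eq_zero_iff.mp v.ne_bot
  obtain ⟨p, hp'⟩ := Nat.exists_eq_succ_of_ne_zero hp
  have h1 : v.valuation k ((p : k) + 1) < 1 := by
    have := (Hn.Loc.val_int_lt_iff v _).mpr (Ideal.absNorm_mem v.asIdeal)
    rw [hp'] at this
    simpa using this
  have h0 : (-((4 * p + 3 : ℕ) : k)) ≠ 0 := neg_ne_zero.mpr (Nat.cast_ne_zero.mpr (by omega))
  have h2 : Units.mk0 _ h0 ∈ Hn.Sq v := ⟨1, by
    have e : ((Units.mk0 _ h0 : kˣ) : k) * 1 ^ 2 - 1 = -(4 * ((p : k) + 1)) := by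
      simp only [Units.val_mk0]; push_cast; ring
    rw [e, Valuation.map_neg, map_mul]
    exact mul_lt_of_lt_one_right (Hn.Loc.val_four_pos v) h1⟩
  refine univ_of_index (fun a b => nm_mul_adic v hd) ?_ (n := 4 * p + 3) (by omega) ?_ ha hb
  · by_contra hc
    push Not at hc
    exact Hn.l2Stmt k v δ hd ((Subgroup.eq_top_iff' _).mpr fun x =>
      (Hn.Loc.mem_LN_iff v _ x).mpr (hc _))
  · have := (Hn.Loc.mem_Sq_iff v _).mp h2
    rwa [Units.val_mk0, map_neg, map_natCast] at this

end Loc

end Crest.Agent.T24.Lan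
end
end

-- ▼ part T24/LanF_73

/-!
# Row 24 (helper73): local classification of hermitian units, Landherr's theorem for two forms
-/

set_option autoImplicit false
set_option linter.unusedSectionVars false

noncomputable section

open NumberField IsDedekindDomain Module WithZero Polynomial Matrix
open Crest.Agent.T24.Asa Crest.Agent.T24.Csa Crest.NumberTheoryR.UnitaryMP

namespace Crest.Agent.T24.Lan

universe u v w

theorem nm_norm {F E : Type*} [Field F] [Field E] [StarRing E] [Algebra F E] [Quad F E] {θ : E}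
    {d : F} (hθ : star θ = -θ) (hd : algebraMap F E d = θ * θ) {x : F} (hx : Nm d x) :
    ∃ z : E, star z * z = algebraMap F E x := by
  obtain ⟨s, t, rfl⟩ := hx
  refine ⟨algebraMap F E s + algebraMap F E t * θ, ?_⟩
  rw [star_add, star_mul', Quad.star_k, Quad.star_k, hθ, map_sub, map_mul, map_pow, map_pow, hd]
  ring

/-- binary hermitian forms over a quadratic extension of `k_v` are universal -/
theorem univ_quad {k : Type*} [Field k] [NumberField k] (v : Pl k) (E : Type*) [Field E]
    [StarRing E] [Algebra (Kv v) E] [Quad (Kv v) E] : Univ E := by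
  have : CharZero (Kv v) := algebraRat.charZero _
  have : CharZero E := charZero_of_injective_algebraMap (algebraMap (Kv v) E).injective
  have hfix : ∀ c : E, star c = c → ∃ a, algebraMap (Kv v) E a = c := fun c hc =>
    exists_of_star_eq Quad.fr Quad.star_k (Quad.ne (k := Kv v)) hc
  obtain ⟨θ, h0, hθ⟩ := exists_skew (Quad.ne (k := Kv v) (K := E))
  obtain ⟨d, hd⟩ := hfix (θ * θ) (by rw [star_mul, hθ, neg_mul_neg])
  have hd0 : d ≠ 0 := by
    rintro rfl
    exact mul_ne_zero h0 h0 (by rw [← hd, map_zero])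
  obtain ⟨δ, r, hr⟩ := (Hil.lc_inl v).exists_sq (v.denseRange_algebraMap k) hd0
  rw [div_eq_iff hd0] at hr
  have hθ' : star (algebraMap (Kv v) E r * θ) = -(algebraMap (Kv v) E r * θ) := by
    rw [star_mul', Quad.star_k, hθ, mul_neg]
  have hd' : algebraMap (Kv v) E (algebraMap k (Kv v) δ) =
      (algebraMap (Kv v) E r * θ) * (algebraMap (Kv v) E r * θ) := by
    rw [hr, map_mul, map_mul, hd]; ring
  have hδ : δ ∉ Hn.Sq v := fun h => by
    obtain ⟨s, hs⟩ := (Hn.Loc.mem_Sq_iff v δ).mp h
    have h1 : algebraMap (Kv v) E r * θ ≠ 0 := fun h => by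
      rw [h, mul_zero] at hd'
      simp at hd'
    rw [hs, map_mul] at hd'
    rcases mul_self_eq_mul_self_iff.mp hd' with h2 | h2
    · have := Quad.star_k (K := E) s
      rw [h2, hθ'] at this
      exact h1 (by linear_combination (-1 / 2 : E) * this)
    · have := Quad.star_k (K := E) s
      rw [h2, star_neg, hθ'] at this
      exact h1 (by linear_combination (1 / 2 : E) * this)
  intro a b ha hb ha' hb'
  obtain ⟨a, rfl⟩ := hfix a ha'
  obtain ⟨b, rfl⟩ := hfix b hb'
  obtain ⟨x, y, hx, hy, h⟩ := univ_adic v hδ (a := a) (b := b) (by simpa using ha)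
    (by simpa using hb)
  obtain ⟨x', hx'⟩ := nm_norm hθ' hd' hx
  obtain ⟨y', hy'⟩ := nm_norm hθ' hd' hy
  exact ⟨x', y', by rw [hx', hy', ← map_mul, ← map_mul, ← map_add, h, map_one]⟩

section Two

variable {k : Type u} {K B : Type*} [Field k] [NumberField k] [Field K] [NumberField K]
  [Algebra k K] [StarRing K] [Quad k K] [Ring B] [StarRing B] [Algebra K B] [StarModule K B]
  [Algebra k B] [IsScalarTower k K B] [FiniteDimensional K B]

/-- at a split place all hermitian units are congruent -/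
theorem cong_split {R : Type*} [CommRing R] [Algebra k R] (ι : K →ₐ[k] R) {h h' : BC k K B R}
    (hh : star h = h) (hh' : star h' = h') (hu : IsUnit h) : ∃ Z, h' = star Z * h * Z := by
  obtain ⟨θ, δ, h0, hθ, hδ⟩ := BC.exists_delta k K
  obtain ⟨u, rfl⟩ := hu
  have hi : star (↑u⁻¹ : BC k K B R) = ↑u⁻¹ := by
    rw [← mul_one (star _), ← u.mul_inv, ← mul_assoc]
    conv_lhs => rw [← hh, ← star_mul, u.mul_inv, star_one, one_mul]
  let e : BC k K K R := algebraMap k R 2⁻¹ • (1 + ι θ⁻¹ • BC.inc k K K R θ)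
  have h1 : (ι θ⁻¹ • BC.inc k K K R θ) * (ι θ⁻¹ • BC.inc k K K R θ) = 1 := by
    rw [smul_mul_smul_comm, ← map_mul (BC.inc k K K R), ← hδ, AlgHom.commutes,
      IsScalarTower.algebraMap_apply k R (BC k K K R), Algebra.smul_def, ← map_mul,
      ← ι.commutes, hδ, ← map_mul, ← map_mul]
    field_simp
    simp
  have h2 : algebraMap R (BC k K K R) (algebraMap k R 2⁻¹) * 2 = 1 := by
    rw [← IsScalarTower.algebraMap_apply, ← map_ofNat (algebraMap k (BC k K K R)) 2, ← map_mul]
    simp
  have h3 : star e = 1 - e := by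
    simp only [e, BC.star_rsmul, star_add, star_one, BC.star_inc, hθ, map_neg, smul_neg]
    rw [Algebra.smul_def, Algebra.smul_def (algebraMap k R 2⁻¹)]
    linear_combination h2
  have h4 : e * (1 - e) = 0 := by
    simp only [e]
    rw [Algebra.smul_def (algebraMap k R 2⁻¹)]
    set a := algebraMap R (BC k K K R) (algebraMap k R 2⁻¹)
    set t := ι θ⁻¹ • BC.inc k K K R θ
    linear_combination (-a * a) * h1 - a * (1 + t) * h2
  clear_value e
  refine ⟨e • (↑u⁻¹ * h') + (1 - e) • 1, ?_⟩
  have h5 : star (1 - e) = e := by rw [star_sub, star_one, h3, sub_sub_cancel]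
  have h6 : e * e = e := by linear_combination -h4
  have h7 : (1 - e) * (1 - e) = 1 - e := by linear_combination -h4
  rw [star_add, star_smul, star_smul, h3, h5, star_mul, hh', hi, star_one]
  simp only [add_mul, mul_add, smul_mul_assoc, mul_smul_comm, smul_add, smul_smul, h4, h6, h7,
    mul_comm (1 - e) e, zero_smul, mul_one, one_mul, zero_add, add_zero, Units.inv_mul_cancel_right,
    Units.mul_inv_cancel_left]
  rw [← add_smul]; simp








variable [Algebra.IsCentral K B] [IsSimpleRing B]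

/-- local classification at a non-split place, given the splitting -/
theorem cong_nonsplit_of (v : Pl k) [IsEmpty (K →ₐ[k] Kv v)] {n : ℕ}
    (e : BC k K B (Kv v) ≃ₐ[BC k K K (Kv v)] Matrix (Fin n) (Fin n) (BC k K K (Kv v)))
    {h h' : BC k K B (Kv v)} (hh : star h = h) (hh' : star h' = h') (hu : IsUnit h)
    {z : BC k K K (Kv v)} (hz : z ≠ 0)
    (hN : BC.nrdK k K B _ h' = BC.nrdK k K B _ h * (star z * z)) :
    ∃ Z : (BC k K B (Kv v))ˣ, h' = star (Z : BC k K B (Kv v)) * h * Z :=
  cong_of_Nrd (univ_quad v _) (Quad.ne (k := Kv v)) e hh hh' hu hz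
    (by rwa [BC.Nrd_E, BC.Nrd_E])

end Two

end Crest.Agent.T24.Lan

namespace Crest.Agent.T24.Emb

universe u v w


end Crest.Agent.T24.Emb
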