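import Crest.Agent.T24.InA_71
import Crest.Agent.T24.HsmA_23
import Crest.Agent.T24.CsaP_50
import Crest.Agent.T24.AsaA_53

/-!
# Row 24, inner step (helper71): words and leaves

`LH N θ`: `θ` is multiplicative `N`-adically near `1`.  `W N K B X`: the relative theorem of Wang.
-/

set_option autoImplicit false

namespace Crest.Agent.T24.In

open Filter Module Polynomial NumberField
open Crest.Agent.T24.Csa Crest.Agent.T24.Hsm Crest.Agent.T24.Asa

universe u v w

/-- `θ` is multiplicative near `1` -/
def LH (N : ℕ) {B X : Type*} [Ring B] [Algebra ℚ B] [Mul X] (θ : B → X) : Prop :=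
  ∀ᶠ p : B × B in nr N (1 : B) ×ˢ nr N (1 : B), θ (p.1 * p.2) = θ p.1 * θ p.2

section Words

variable (N : ℕ) (K : Type*) [Field K] [NumberField K] (B : Type*) [Ring B] [Algebra K B]

/-- `B` is split at every finite place not dividing `N` -/
def SplN : Prop :=
  ∀ v : Pl K, (N : 𝓞 K) ∉ v.asIdeal → Spl B (deg K B) (algebraMap K (v.adicCompletion K))


theorem fdQ [Algebra ℚ B] [FiniteDimensional K B] : FiniteDimensional ℚ B :=
  Module.Finite.trans K B

variable [Algebra ℚ B] [Algebra.IsCentral K B] [IsSimpleRing B] [FiniteDimensional K B]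

/-- the relative theorem of Wang for `B` and characters with values in `X` -/
def W (X : Type*) [CommGroup X] : Prop :=
  ∀ (θ : B → X) (n : ℕ), n ≠ 0 → LH N θ →
    (∀ᶠ x in nr N (1 : B), Nrd K x = 1 → θ x ^ n = 1) →
    ∀ᶠ x in nr N (1 : B), Nrd K x = 1 → θ x = 1

end Words

section Cont

variable {N : ℕ} {α : Type*} {l : Filter α}

theorem nr_mv {R : Type*} [CommRing R] [Algebra ℚ R] [FiniteDimensional ℚ R] {ι : Type*}
    {f : α → ι → R} {a : ι → R} (h : ∀ j, Tendsto (fun i => f i j) l (nr N (a j)))
    (P : MvPolynomial ι R) :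
    Tendsto (fun i => MvPolynomial.eval (f i) P) l (nr N (MvPolynomial.eval a P)) := by
  induction P using MvPolynomial.induction_on with
  | C c => simpa using nr_const c
  | add p q hp hq => simpa using nr_add hp hq
  | mul_X p j hp => simpa using nr_mul hp (h j)

variable (K : Type*) [Field K] [NumberField K] {B : Type*} [Ring B] [Algebra K B] [Algebra ℚ B]
  [FiniteDimensional K B]


variable [Algebra.IsCentral K B] [IsSimpleRing B]

theorem nr_rch (a : B) (j : ℕ) :
    Tendsto (fun x : B => (rch K x).coeff j) (nr N a) (nr N ((rch K a).coeff j)) := by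
  let e := Module.finBasis K B
  have h (x : B) : (rch K x).coeff j = MvPolynomial.eval (fun i => e.repr x i) (rchP K e j) := by
    rw [eval_rchP, e.sum_repr]
  simp only [h]
  exact nr_mv (fun i => nr_map (e.coord i).toAddMonoidHom a) _

theorem nr_Nrd (a : B) : Tendsto (Nrd K) (nr N a) (nr N (Nrd K a)) :=
  nr_mul (nr_const _) (nr_rch K a 0)


end Cont

/-! ### Leaves of pure ring theory -/






/-! ### Leaves on number fields and central simple algebras -/


/-- the filter `nr N` in valuation words (coordinates in a basis) -/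
def ValStmt : Prop := ∀ N : ℕ, 2 ≤ N → ∀ (K : Type u) [Field K] [NumberField K] (B : Type v)
  [AddCommGroup B] [Module ℚ B] [Module K B] (ι : Type w) [Finite ι] (e : Basis ι K B) (a : B),
  (nr N a).HasBasis (fun _ : ℕ => True) fun m => {x | ∀ v : Pl K, (N : 𝓞 K) ∈ v.asIdeal →
    ∀ i, v.valuation K (e.repr (x - a) i) ≤ WithZero.exp (-(m : ℤ))}







/-- split outside `N` -/
def SplStmt : Prop := ∀ (K : Type u) [Field K] [NumberField K] (B : Type v) [Ring B] [Algebra K B]
  [Algebra.IsCentral K B] [IsSimpleRing B] [FiniteDimensional K B] (S : Finset (Pl K)),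
  ∃ N : ℕ, 2 ≤ N ∧ SplN N K B ∧ ∀ v ∈ S, (N : 𝓞 K) ∈ v.asIdeal




/-- `x` is congruent to `1` to depth `m` at the places of `S`, in the basis `e` -/
def Cg {K : Type*} [Field K] [NumberField K] {B : Type*} [Ring B] [Algebra K B] {ι : Type*}
    (e : Basis ι K B) (S : Finset (Pl K)) (m : ℕ) (x : B) : Prop :=
  ∀ v ∈ S, ∀ i, v.valuation K (e.repr (x - 1) i) ≤ WithZero.exp (-(m : ℤ))


end Crest.Agent.T24.In
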