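import Mathlib
import Crest.Agent.T24.InDef_71
import Crest.Agent.T24.InG_71

-- ▼ part T24/InGa_54
section

/-!
# Row 24, inner step: germs of bimultiplicative pairings (helper54), abstract part
-/

set_option autoImplicit false

namespace Crest.Agent.T24.In.G54

open Filter

variable {B M A : Type*} [MonoidWithZero B] [CommMonoid M] [CommGroup A]

/-- a filter of "neighbourhoods of `1`" -/
structure Nb (l : Filter B) : Prop where
  one : ∀ U ∈ l, (1 : B) ∈ U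
  mul : Tendsto (fun p : B × B => p.1 * p.2) (l ×ˢ l) l
  inv : Tendsto (Ring.inverse : B → B) l l
  unit : ∀ᶠ x in l, IsUnit x

theorem ex2 {α : Type*} {l : Filter α} {p : α × α → Prop} (h : ∀ᶠ x in l ×ˢ l, p x) :
    ∃ U ∈ l, ∀ x ∈ U, ∀ y ∈ U, p (x, y) := by
  obtain ⟨U, hU, V, hV, h⟩ := mem_prod_iff.1 h
  exact ⟨U ∩ V, inter_mem hU hV, fun x hx y hy => h (Set.mk_mem_prod hx.1 hy.2)⟩

theorem ex3 {α : Type*} {l : Filter α} {p : α × α × α → Prop} (h : ∀ᶠ x in l ×ˢ l ×ˢ l, p x) :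
    ∃ U ∈ l, ∀ x ∈ U, ∀ y ∈ U, ∀ z ∈ U, p (x, y, z) := by
  obtain ⟨U, hU, V, hV, h⟩ := mem_prod_iff.1 h
  obtain ⟨T, hT, h'⟩ := ex2 (p := (· ∈ V)) hV
  exact ⟨U ∩ T, inter_mem hU hT, fun x hx y hy z hz =>
    h (Set.mk_mem_prod hx.1 (h' y hy.2 z hz.2))⟩

/-- the pairing depends only on the norms; a shifted pairing can be unshifted -/
theorem core {l : Filter B} (hl : Nb l) (ν : B →* M) (be : B → B → A)
    (h1 : ∀ᶠ p : B × B × B in l ×ˢ l ×ˢ l,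
      be (p.1 * p.2.1) p.2.2 = be p.1 p.2.2 * be p.2.1 p.2.2 ∧
      be p.2.2 (p.1 * p.2.1) = be p.2.2 p.1 * be p.2.2 p.2.1)
    (h2 : ∀ᶠ p : B × B in l ×ˢ l, Commute p.1 p.2 ∨ ν p.1 = 1 ∨ ν p.2 = 1 → be p.1 p.2 = 1) :
    ∃ U ∈ l, ∀ x₀ ∈ U, ∀ z₀ ∈ U, ∀ S : Set B, S ⊆ U → (1 : B) ∈ S →
      (∀ x ∈ S, ∀ z ∈ S, ∃ X ∈ U, ∃ Z ∈ U, Commute X Z ∧ ν X = ν x * ν x₀ ∧ ν Z = ν z * ν z₀) →
      ∀ x ∈ S, ∀ z ∈ S, be x z = 1 := by
  obtain ⟨U₁, hU₁, r1⟩ := ex3 h1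
  obtain ⟨U₂, hU₂, r2⟩ := ex2 h2
  have hU : U₁ ∩ U₂ ∈ l := inter_mem hU₁ hU₂
  -- quotients
  have hq : Tendsto (fun p : B × B => Ring.inverse p.1 * p.2) (l ×ˢ l) l :=
    hl.mul.comp ((hl.inv.comp tendsto_fst).prodMk tendsto_snd)
  obtain ⟨V₀, hV₀, r3⟩ := ex2 (hq.eventually hU)
  set V : Set B := V₀ ∩ (U₁ ∩ U₂) ∩ {x | IsUnit x} with hVd
  have hV : V ∈ l := inter_mem (inter_mem hV₀ hU) hl.unit
  have quo : ∀ x ∈ V, ∀ x' ∈ V, ν x = ν x' → ∃ g ∈ U₁ ∩ U₂, x = x' * g ∧ ν g = 1 := by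
    intro x hx x' hx' e
    refine ⟨_, r3 x' hx'.1.1 x hx.1.1, ?_, ?_⟩
    · rw [← mul_assoc, Ring.mul_inverse_cancel _ hx'.2, one_mul]
    · rw [map_mul, e, ← map_mul, Ring.inverse_mul_cancel _ hx'.2, map_one]
  have cg : ∀ x ∈ V, ∀ x' ∈ V, ∀ y ∈ V, ∀ y' ∈ V, ν x = ν x' → ν y = ν y' → be x y = be x' y' := by
    intro x hx x' hx' y hy y' hy' e1 e2
    obtain ⟨g, hg, rfl, g1⟩ := quo x hx x' hx' e1
    obtain ⟨h, hh, e, g2⟩ := quo y hy y' hy' e2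
    rw [(r1 x' hx'.1.2.1 g hg.1 y hy.1.2.1).1, r2 g hg.2 y hy.1.2.2 (Or.inr (Or.inl g1)), mul_one, e,
      (r1 y' hy'.1.2.1 h hh.1 x' hx'.1.2.1).2, r2 x' hx'.1.2.2 h hh.2 (Or.inr (Or.inr g2)), mul_one]
  obtain ⟨T, hT, r4⟩ := ex2 (hl.mul.eventually hV)
  refine ⟨T ∩ V, inter_mem hT hV, fun x₀ hx₀ z₀ hz₀ S hS hS1 H => ?_⟩
  have H1 : ∀ x ∈ S, ∀ z ∈ S, be (x * x₀) (z * z₀) = 1 := by
    intro x hx z hz
    obtain ⟨X, hX, Z, hZ, hc, e1, e2⟩ := H x hx z hz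
    rw [cg _ (r4 x (hS hx).1 x₀ hx₀.1) X hX.2 _ (r4 z (hS hz).1 z₀ hz₀.1) Z hZ.2
      (by rw [map_mul, e1]) (by rw [map_mul, e2])]
    exact r2 X hX.2.1.2.2 Z hZ.2.1.2.2 (Or.inl hc)
  have H2 : ∀ x ∈ S, ∀ z ∈ S, be (x * x₀) z = 1 := by
    intro x hx z hz
    have a := H1 x hx z hz
    have b := H1 x hx 1 hS1
    rw [one_mul] at b
    rwa [(r1 z (hS hz).2.1.2.1 z₀ hz₀.2.1.2.1 _ (r4 x (hS hx).1 x₀ hx₀.1).1.2.1).2, b, mul_one] at a
  intro x hx z hz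
  have a := H2 x hx z hz
  have b := H2 1 hS1 z hz
  rw [one_mul] at b
  rwa [(r1 x (hS hx).2.1.2.1 x₀ hx₀.2.1.2.1 z (hS hz).2.1.2.1).1, b, mul_one] at a

end Crest.Agent.T24.In.G54
end

-- ▼ part T24/InPair_54
section

/-!
# Row 24, inner step: the commutator pairing and the inner step in `N`-adic words (helper54)
-/

set_option autoImplicit false

namespace Crest.Agent.T24.In

open Filter Module Polynomial NumberField
open Crest.Agent.T24.Csa Crest.Agent.T24.Hsm Crest.Agent.T24.Asa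

universe u v w

namespace P54

/-- a map which is multiplicative on the norm one part of `E` and invariant under `E` -/
structure Inv {G M A : Type*} [Group G] [CommMonoid M] [CommGroup A] (E : Subgroup G) (ν : G →* M)
    (Ψ : G → A) : Prop where
  mul : ∀ g ∈ E, ∀ h ∈ E, ν g = 1 → ν h = 1 → Ψ (g * h) = Ψ g * Ψ h
  cj : ∀ x ∈ E, ∀ g ∈ E, ν g = 1 → Ψ (x * g * x⁻¹) = Ψ g

section Grp

variable {G M A : Type*} [Group G] [CommMonoid M] [CommGroup A] {E : Subgroup G} {ν : G →* M}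
  {Ψ : G → A}

theorem nu_inv_mul (ν : G →* M) (x : G) : ν x⁻¹ * ν x = 1 := by
  rw [← map_mul, inv_mul_cancel, map_one]

theorem nu_inv {g : G} (h : ν g = 1) : ν g⁻¹ = 1 := by
  have := nu_inv_mul ν g
  rwa [h, mul_one] at this

theorem nu_cj (x : G) {g : G} (h : ν g = 1) : ν (x * g * x⁻¹) = 1 := by
  rw [map_mul, map_mul, h, mul_one, mul_comm, nu_inv_mul]

theorem nu_com (ν : G →* M) (x y : G) : ν (x * y * x⁻¹ * y⁻¹) = 1 := by
  simp only [map_mul]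
  calc ν x * ν y * ν x⁻¹ * ν y⁻¹ = (ν x⁻¹ * ν x) * (ν y⁻¹ * ν y) := by ac_rfl
    _ = 1 := by rw [nu_inv_mul, nu_inv_mul, mul_one]

theorem com_mem {x y : G} (hx : x ∈ E) (hy : y ∈ E) : x * y * x⁻¹ * y⁻¹ ∈ E :=
  mul_mem (mul_mem (mul_mem hx hy) (inv_mem hx)) (inv_mem hy)

namespace Inv

theorem one (h : Inv E ν Ψ) : Ψ 1 = 1 := by
  have := h.mul 1 (one_mem _) 1 (one_mem _) (map_one _) (map_one _)
  rw [mul_one] at this
  exact left_eq_mul.1 this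

theorem mul_inv (h : Inv E ν Ψ) {g : G} (hg : g ∈ E) (h1 : ν g = 1) : Ψ g * Ψ g⁻¹ = 1 := by
  rw [← h.mul g hg _ (inv_mem hg) h1 (nu_inv h1), mul_inv_cancel, h.one]

theorem pow (h : Inv E ν Ψ) {g : G} (hg : g ∈ E) (h1 : ν g = 1) (n : ℕ) :
    Ψ (g ^ n) = Ψ g ^ n := by
  induction n with
  | zero => simp [h.one]
  | succ n ih =>
    rw [pow_succ, h.mul _ (pow_mem hg n) _ hg (by rw [map_pow, h1, one_pow]) h1, ih, pow_succ]

theorem right (h : Inv E ν Ψ) {x y z : G} (hx : x ∈ E) (hy : y ∈ E) (hz : z ∈ E) :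
    Ψ (x * (y * z) * x⁻¹ * (y * z)⁻¹) = Ψ (x * y * x⁻¹ * y⁻¹) * Ψ (x * z * x⁻¹ * z⁻¹) := by
  have e : x * (y * z) * x⁻¹ * (y * z)⁻¹ =
      (x * y * x⁻¹ * y⁻¹) * (y * (x * z * x⁻¹ * z⁻¹) * y⁻¹) := by group
  rw [e, h.mul _ (com_mem hx hy) _ (mul_mem (mul_mem hy (com_mem hx hz)) (inv_mem hy))
    (nu_com ν _ _) (nu_cj _ (nu_com ν _ _)), h.cj _ hy _ (com_mem hx hz) (nu_com ν _ _)]

theorem left (h : Inv E ν Ψ) {x y z : G} (hx : x ∈ E) (hy : y ∈ E) (hz : z ∈ E) :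
    Ψ (x * y * z * (x * y)⁻¹ * z⁻¹) = Ψ (y * z * y⁻¹ * z⁻¹) * Ψ (x * z * x⁻¹ * z⁻¹) := by
  have e : x * y * z * (x * y)⁻¹ * z⁻¹ =
      (x * (y * z * y⁻¹ * z⁻¹) * x⁻¹) * (x * z * x⁻¹ * z⁻¹) := by group
  rw [e, h.mul _ (mul_mem (mul_mem hx (com_mem hy hz)) (inv_mem hx)) _ (com_mem hx hz)
    (nu_cj _ (nu_com ν _ _)) (nu_com ν _ _), h.cj _ hx _ (com_mem hy hz) (nu_com ν _ _)]

theorem right_one (h : Inv E ν Ψ) {x g : G} (hx : x ∈ E) (hg : g ∈ E) (h1 : ν g = 1) :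
    Ψ (x * g * x⁻¹ * g⁻¹) = 1 := by
  rw [h.mul _ (mul_mem (mul_mem hx hg) (inv_mem hx)) _ (inv_mem hg) (nu_cj _ h1) (nu_inv h1),
    h.cj _ hx _ hg h1, h.mul_inv hg h1]

theorem left_one (h : Inv E ν Ψ) {g y : G} (hg : g ∈ E) (hy : y ∈ E) (h1 : ν g = 1) :
    Ψ (g * y * g⁻¹ * y⁻¹) = 1 := by
  have e : g * y * g⁻¹ * y⁻¹ = g * (y * g⁻¹ * y⁻¹) := by group
  rw [e, h.mul _ hg _ (mul_mem (mul_mem hy (inv_mem hg)) (inv_mem hy)) h1 (nu_cj _ (nu_inv h1)),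
    h.cj _ hy _ (inv_mem hg) (nu_inv h1), h.mul_inv hg h1]

/-- the pairing depends only on the norms -/
theorem congr (h : Inv E ν Ψ) {x x' y y' : G} (hx : x ∈ E) (hx' : x' ∈ E) (hy : y ∈ E)
    (hy' : y' ∈ E) (e1 : ν x = ν x') (e2 : ν y = ν y') :
    Ψ (x * y * x⁻¹ * y⁻¹) = Ψ (x' * y' * x'⁻¹ * y'⁻¹) := by
  have a1 : ν (x'⁻¹ * x) = 1 := by rw [map_mul, e1, nu_inv_mul]
  have a2 : ν (y'⁻¹ * y) = 1 := by rw [map_mul, e2, nu_inv_mul]
  have m1 : x'⁻¹ * x ∈ E := mul_mem (inv_mem hx') hx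
  have m2 : y'⁻¹ * y ∈ E := mul_mem (inv_mem hy') hy
  have b1 := h.left hx' m1 hy
  have b2 := h.right hx' hy' m2
  rw [mul_inv_cancel_left, h.left_one m1 hy a1, one_mul] at b1
  rw [mul_inv_cancel_left, h.right_one hx' m2 a2, mul_one] at b2
  rw [b1, b2]



end Inv

end Grp

section Alg

variable (K : Type*) [Field K] [CharZero K] {B : Type*} [Ring B] [Algebra K B]
  [Algebra.IsCentral K B] [IsSimpleRing B] [FiniteDimensional K B]

/-- the reduced norm on units -/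
noncomputable def nu : Bˣ →* K := (Nrd K : B →*₀ K).toMonoidHom.comp (Units.coeHom B)


theorem Nrd_one_sub {τ : K} (hτ : τ ≠ 0) (y : B) :
    Nrd K (1 - τ • y) = τ ^ deg K B * (rch K y).eval τ⁻¹ := by
  rw [eval_rch, ← Nrd_smul, smul_sub, Algebra.smul_def τ (algebraMap K B τ⁻¹), ← map_mul,
    mul_inv_cancel₀ hτ, map_one]

omit [CharZero K] in
theorem comm_of_deg (h : deg K B = 1) (x y : B) : x * y = y * x := by
  have h1 : finrank K B = 1 := by rw [finrank_eq_deg_sq K B, h, one_pow]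
  obtain ⟨c, rfl⟩ := (finrank_eq_one_iff_of_nonzero' (1 : B) one_ne_zero).1 h1 x
  simp

end Alg

end P54

open P54


namespace P54


/-- the kernel of `Ψ` on the norm one part of `G` -/
def ker {G M A : Type*} [Group G] [CommMonoid M] [CommGroup A] {E : Subgroup G} {ν : G →* M}
    {Ψ : G → A} (h : Inv E ν Ψ) {D : Subgroup G} (hD : D ≤ E) : Subgroup D where
  carrier := {g | ν g = 1 ∧ Ψ g = 1}
  one_mem' := ⟨map_one _, h.one⟩
  mul_mem' {a b} ha hb := ⟨by rw [Subgroup.coe_mul, map_mul, ha.1, hb.1, one_mul], by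
    rw [Subgroup.coe_mul, h.mul _ (hD a.2) _ (hD b.2) ha.1 hb.1, ha.2, hb.2, one_mul]⟩
  inv_mem' {a} ha := ⟨nu_inv ha.1, by
    have := h.mul_inv (hD a.2) ha.1
    rwa [ha.2, one_mul] at this⟩


end P54


end Crest.Agent.T24.In
end

-- ▼ part T24/InGct_54

/-!
# Row 24, inner step: germs of bimultiplicative pairings are trivial (helper54)
-/

set_option autoImplicit false

namespace Crest.Agent.T24.In

open Filter Module Polynomial NumberField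
open Crest.Agent.T24.Csa Crest.Agent.T24.Hsm Crest.Agent.T24.Asa

universe u v w

section Mono

variable {N N' : ℕ} {V : Type*} [AddCommGroup V] [Module ℚ V]

theorem ZN_le_of_dvd (h : N ∣ N') : ZN N' ≤ ZN N := fun _ hq => Nat.Coprime.coprime_dvd_right h hq

theorem sm_le_of_dvd (h : N ∣ N') : sm N' V ≤ sm N V := by
  intro U hU Λ hΛ
  obtain ⟨s, rfl⟩ := hΛ
  obtain ⟨m, hm⟩ := hU (Submodule.span (ZN N) (s : Set V)) ⟨s, rfl⟩
  obtain ⟨c, rfl⟩ := h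
  refine ⟨m, fun x hx => ?_⟩
  have h1 : x ∈ Submodule.span (ZN N) (s : Set V) := by
    induction hx using Submodule.span_induction with
    | mem x hx => exact Submodule.subset_span hx
    | zero => exact zero_mem _
    | add x y _ _ hx hy => exact add_mem hx hy
    | smul a x _ hx => exact zsmul_mem (ZN_le_of_dvd ⟨c, rfl⟩ a.2) hx
  rw [Nat.cast_mul, mul_pow, mul_smul]
  exact hm _ (zsmul_mem (pow_mem (natCast_mem _ c) m) h1)

theorem nr_le_of_dvd (h : N ∣ N') (a : V) : nr N' a ≤ nr N a := comap_mono (sm_le_of_dvd h)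

theorem ng_le_of_dvd (h : N ∣ N') (a : V) : ng N' a ≤ ng N a :=
  inf_le_inf_right _ (nr_le_of_dvd h a)

theorem SplN.of_dvd {K : Type*} [Field K] [NumberField K] {B : Type*} [Ring B] [Algebra K B]
    (hS : SplN N K B) (h : N ∣ N') : SplN N' K B := fun v hv => hS v fun hN => hv <| by
  obtain ⟨c, rfl⟩ := h
  rw [Nat.cast_mul]
  exact v.asIdeal.mul_mem_right _ hN

/-- every level has a multiple outside which `B` is split -/
theorem exists_splN (hS : SplStmt.{u, v}) (hN : 2 ≤ N) (K : Type u) [Field K] [NumberField K]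
    (B : Type v) [Ring B] [Algebra K B] [Algebra.IsCentral K B] [IsSimpleRing B]
    [FiniteDimensional K B] : ∃ N', 2 ≤ N' ∧ N ∣ N' ∧ SplN N' K B := by
  obtain ⟨M, hM, h, -⟩ := hS K B ∅
  exact ⟨N * M, by nlinarith, Dvd.intro _ rfl, h.of_dvd (Dvd.intro_left _ rfl)⟩

end Mono

theorem nb_ng {N : ℕ} (hN : 2 ≤ N) (B : Type*) [Ring B] [Algebra ℚ B] [FiniteDimensional ℚ B] :
    G54.Nb (ng N (1 : B)) :=
  ⟨fun _ hU => self_of_ng (p := (· ∈ _)) hU, ng_mul_one tendsto_fst tendsto_snd, ng_inverse hN,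
    ng_isUnit hN⟩

/-- common torus, germ form: commuting lifts near `1` with prescribed norms -/
theorem ct_germ (hG : NearG.{u, v}) {N : ℕ} (hN : 2 ≤ N) (K : Type u) [Field K] [NumberField K]
    (B : Type v) [Ring B] [Algebra K B] [Algebra ℚ B] [Algebra.IsCentral K B] [IsSimpleRing B]
    [FiniteDimensional K B] (hS : SplN N K B) (hd : 2 ≤ deg K B) {U : Set B} (hU : U ∈ ng N (1 : B)) :
    ∃ x₀ ∈ U, ∃ z₀ ∈ U, ∃ V ∈ ng N (1 : K), ∀ a₁ ∈ V, ∀ a₂ ∈ V, ∃ X ∈ U, ∃ Z ∈ U, Commute X Z ∧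
      Nrd K X = a₁ * Nrd K x₀ ∧ Nrd K Z = a₂ * Nrd K z₀ := by
  have := fdQ K B
  obtain ⟨y₀, hy₀⟩ := exists_separable (K := K) (B := B)
  have t1 : Tendsto (fun p : K × B => 1 - p.1 • p.2) (ng N 0 ×ˢ ng N y₀) (ng N 1) := by
    simpa using ng_sub (ng_const (1 : B)) (ng_smul K (tendsto_fst (f := ng N (0 : K)) (g := ng N y₀))
      tendsto_snd)
  obtain ⟨T, hT, Y, hY, h⟩ := mem_prod_iff.1 (t1.eventually hU)
  have hT' : ∀ᶠ c in ng N (0 : K), -c ∈ T := by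
    have := ng_neg (tendsto_id (x := ng N (0 : K)))
    rw [neg_zero] at this
    exact this.eventually hT
  obtain ⟨k, hk1, hk2⟩ := ((tendsto_small (N := N) (1 : K)).eventually (hT'.and hT)).exists
  set τ : K := ((N : ℚ) / (N + 1)) ^ k • (1 : K) with hτd
  have hτ : τ ≠ 0 := smul_ne_zero (pow_ne_zero _ (div_ne_zero (by
    exact_mod_cast (by omega : N ≠ 0)) (by positivity))) one_ne_zero
  have hτ' : -τ ≠ 0 := neg_ne_zero.2 hτ
  obtain ⟨V₀, hV₀, hP⟩ := hG N hN K B hS y₀ hy₀ Y hY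
  set f := rch K y₀ with hf
  -- the linear interpolation
  let c₀ : K × K → K := fun a => ((a.1 - 1) * f.eval τ⁻¹ + (a.2 - 1) * f.eval (-τ)⁻¹) / 2
  let c₁ : K × K → K := fun a => ((a.1 - 1) * f.eval τ⁻¹ - (a.2 - 1) * f.eval (-τ)⁻¹) * τ / 2
  have a1 : Tendsto (fun a : K × K => (a.1 - 1) * f.eval τ⁻¹) (ng N 1 ×ˢ ng N 1) (ng N 0) := by
    simpa using ng_mul (ng_sub (tendsto_fst (f := ng N (1 : K)) (g := ng N (1 : K))) (ng_const 1))
      (ng_const (f.eval τ⁻¹))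
  have a2 : Tendsto (fun a : K × K => (a.2 - 1) * f.eval (-τ)⁻¹) (ng N 1 ×ˢ ng N 1) (ng N 0) := by
    simpa only [sub_self, zero_mul] using
      ng_mul (ng_sub (tendsto_snd (f := ng N (1 : K)) (g := ng N (1 : K))) (ng_const 1))
      (ng_const (f.eval (-τ)⁻¹))
  have b0 : Tendsto c₀ (ng N 1 ×ˢ ng N 1) (ng N 0) := by
    simpa only [add_zero, zero_div, ← div_eq_mul_inv] using ng_mul (ng_add a1 a2) (ng_const (2 : K)⁻¹)
  have b1 : Tendsto c₁ (ng N 1 ×ˢ ng N 1) (ng N 0) := by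
    simpa only [sub_zero, zero_mul, zero_div, ← div_eq_mul_inv] using
      ng_mul (ng_mul (ng_sub a1 a2) (ng_const τ)) (ng_const (2 : K)⁻¹)
  obtain ⟨V, hV, hc⟩ := G54.ex2 ((b0.eventually hV₀).and (b1.eventually hV₀))
  have hy₀Y : y₀ ∈ Y := self_of_ng (p := (· ∈ Y)) hY
  refine ⟨_, h (Set.mk_mem_prod hk2 hy₀Y), _, h (Set.mk_mem_prod hk1 hy₀Y), V, hV,
    fun a₁ h₁ a₂ h₂ => ?_⟩
  have e0 : c₀ (a₁, a₂) ∈ V₀ := (hc a₁ h₁ a₂ h₂).1
  have e1 : c₁ (a₁, a₂) ∈ V₀ := (hc a₁ h₁ a₂ h₂).2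
  have hdeg : (C (c₁ (a₁, a₂)) * X + C (c₀ (a₁, a₂))).degree < f.degree := by
    refine degree_linear_le.trans_lt ?_
    rw [degree_eq_natDegree (rch_monic K y₀).ne_zero, rch_natDegree]
    exact_mod_cast hd
  obtain ⟨y, hy, e⟩ := hP (f + (C (c₁ (a₁, a₂)) * X + C (c₀ (a₁, a₂))))
    ((rch_monic K y₀).add_of_left hdeg)
    (by rw [natDegree_add_eq_left_of_degree_lt hdeg, rch_natDegree]) fun i => by
      rw [coeff_add, add_sub_cancel_left]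
      rcases i with _ | _ | i
      · simpa using e0
      · simpa using e1
      · simpa [coeff_X, coeff_C] using self_of_ng (p := (· ∈ V₀)) hV₀
  refine ⟨_, h (Set.mk_mem_prod hk2 hy), _, h (Set.mk_mem_prod hk1 hy), ?_, ?_, ?_⟩
  · exact (Commute.one_left _).sub_left (((Commute.one_right _).sub_right
      ((Commute.refl y).smul_right _)).smul_left _)
  · simp only [P54.Nrd_one_sub K hτ, e, ← hf, eval_add, eval_mul, eval_C, eval_X, c₀, c₁]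
    field_simp
    ring
  · simp only [P54.Nrd_one_sub K hτ', e, ← hf, eval_add, eval_mul, eval_C, eval_X, c₀, c₁]
    field_simp
    ring

/-- germs of bimultiplicative pairings that vanish on commuting pairs and on `SL₁` are trivial -/
def GermCT : Prop := ∀ N : ℕ, 2 ≤ N → ∀ (K : Type u) [Field K] [NumberField K] (B : Type v)
  [Ring B] [Algebra K B] [Algebra ℚ B] [Algebra.IsCentral K B] [IsSimpleRing B]
  [FiniteDimensional K B], SplN N K B → ∀ (A : Type w) [CommGroup A] (be : B → B → A),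
  (∀ᶠ p : B × B × B in ng N 1 ×ˢ ng N 1 ×ˢ ng N 1,
    be (p.1 * p.2.1) p.2.2 = be p.1 p.2.2 * be p.2.1 p.2.2 ∧
    be p.2.2 (p.1 * p.2.1) = be p.2.2 p.1 * be p.2.2 p.2.1) →
  (∀ᶠ p : B × B in ng N 1 ×ˢ ng N 1,
    Commute p.1 p.2 ∨ Nrd K p.1 = 1 ∨ Nrd K p.2 = 1 → be p.1 p.2 = 1) →
  ∀ᶠ p : B × B in ng N 1 ×ˢ ng N 1, be p.1 p.2 = 1

theorem germCT (hG : NearG.{u, v}) : GermCT.{u, v, w} := by
  intro N hN K _ _ B _ _ _ _ _ _ hS A _ be h1 h2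
  have := fdQ K B
  rcases Nat.lt_or_ge (deg K B) 2 with hd | hd
  · have hd1 : deg K B = 1 := by have := deg_pos K B; omega
    exact h2.mono fun p hp => hp (Or.inl (P54.comm_of_deg K hd1 _ _))
  obtain ⟨U, hU, H⟩ := G54.core (nb_ng hN B) (Nrd K : B →*₀ K).toMonoidHom be h1 h2
  obtain ⟨x₀, hx₀, z₀, hz₀, V, hV, hct⟩ := ct_germ hG hN K B hS hd hU
  have hW : ∀ᶠ x in ng N (1 : B), x ∈ U ∧ Nrd K x ∈ V :=
    Eventually.and hU ((ng_Nrd_one K).eventually hV)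
  have H' := H x₀ hx₀ z₀ hz₀ {x | x ∈ U ∧ Nrd K x ∈ V} (fun _ h => h.1) (self_of_ng hW)
    fun x hx z hz => hct _ hx.2 _ hz.2
  exact (hW.prod_mk hW).mono fun p hp => H' _ hp.1 _ hp.2

end Crest.Agent.T24.In
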