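import Crest.Agent.T24.InDef_71
import Crest.Agent.T24.InG_71

-- ▼ part T24/InDet_71
section

/-!
# Row 24, inner step (helper71): the relative Dieudonné determinant
-/

set_option autoImplicit false
set_option linter.unusedSectionVars false

namespace Crest.Agent.T24.In

open Filter Matrix

universe v w

section Abs

variable {R : Type*} [Ring R] {X : Type*} [CommGroup X]

/-- `1 + I` is a group and `θ` is a homomorphism on it -/
structure RH (I : NonUnitalSubring R) (θ : R → X) : Prop where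
  inv : ∀ x, x - 1 ∈ I → ∃ y, y - 1 ∈ I ∧ x * y = 1 ∧ y * x = 1
  hom : ∀ x y, x - 1 ∈ I → y - 1 ∈ I → θ (x * y) = θ x * θ y

variable {I : NonUnitalSubring R} {θ : R → X}

theorem g_one : (1 : R) - 1 ∈ I := by rw [sub_self]; exact zero_mem _

theorem g_mul {x y : R} (hx : x - 1 ∈ I) (hy : y - 1 ∈ I) : x * y - 1 ∈ I := by
  have : x * y - 1 = (x - 1) * (y - 1) + (x - 1) + (y - 1) := by noncomm_ring
  rw [this]; exact add_mem (add_mem (mul_mem hx hy) hx) hy

theorem g_left {x y : R} (hx : x - 1 ∈ I) (hy : y ∈ I) : x * y ∈ I := by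
  have : x * y = (x - 1) * y + y := by noncomm_ring
  rw [this]; exact add_mem (mul_mem hx hy) hy

theorem g_right {x y : R} (hx : x ∈ I) (hy : y - 1 ∈ I) : x * y ∈ I := by
  have : x * y = x * (y - 1) + x := by noncomm_ring
  rw [this]; exact add_mem (mul_mem hx hy) hx

theorem RH.one (h : RH I θ) : θ 1 = 1 := by
  have := h.hom 1 1 g_one g_one
  rw [mul_one] at this
  exact mul_eq_left.1 this.symm

theorem RH.swap (h : RH I θ) {x l : R} (hx : x ∈ I) (hl : l ∈ I) :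
    θ (1 + x * l) = θ (1 + l * x) := by
  have h1 : (1 + x) - 1 ∈ I := by rwa [add_sub_cancel_left]
  have h2 : (1 - l) - 1 ∈ I := by rw [sub_sub_cancel_left]; exact neg_mem hl
  obtain ⟨y, hy, e1, e2⟩ := h.inv _ h1
  have h3 : (1 - y * x * (1 - l)) - 1 ∈ I := by
    rw [sub_sub_cancel_left]; exact neg_mem (g_right (g_left hy hx) h2)
  have h4 : (1 - (1 - l) * (y * x)) - 1 ∈ I := by
    rw [sub_sub_cancel_left]; exact neg_mem (g_left h2 (g_left hy hx))
  have c1 : (1 + x) * (y * x) = x := by rw [← mul_assoc, e1, one_mul]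
  have c2 : y * x * (1 + x) = x := by
    rw [mul_assoc, show x * (1 + x) = (1 + x) * x by noncomm_ring, ← mul_assoc, e2, one_mul]
  have a1 : 1 + x * l = (1 + x) * (1 - y * x * (1 - l)) := by
    rw [mul_sub, ← mul_assoc, c1]; noncomm_ring
  have a2 : 1 + l * x = (1 - (1 - l) * (y * x)) * (1 + x) := by
    rw [sub_mul, mul_assoc, c2]; noncomm_ring
  have a3 := h.hom _ _ h2 h3
  rw [show (1 - l) * (1 - y * x * (1 - l)) = (1 - (1 - l) * (y * x)) * (1 - l) by noncomm_ring,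
    h.hom _ _ h4 h2, mul_comm, mul_right_inj] at a3
  rw [a1, a2, h.hom _ _ h1 h3, h.hom _ _ h4 h1, a3, mul_comm]

/-- all entries lie in `I` -/
def Ent (I : NonUnitalSubring R) {m n : Type*} (A : Matrix m n R) : Prop := ∀ i j, A i j ∈ I

section Ent
variable {m n k : Type*}

theorem Ent.zero : Ent I (0 : Matrix m n R) := fun _ _ => zero_mem _

theorem Ent.add {A B : Matrix m n R} (hA : Ent I A) (hB : Ent I B) : Ent I (A + B) :=
  fun i j => add_mem (hA i j) (hB i j)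

theorem Ent.neg {A : Matrix m n R} (hA : Ent I A) : Ent I (-A) := fun i j => neg_mem (hA i j)

theorem Ent.mul [Fintype n] {A : Matrix m n R} {B : Matrix n k R} (hA : Ent I A) (hB : Ent I B) :
    Ent I (A * B) := fun i j => by
  rw [mul_apply]; exact sum_mem fun l _ => mul_mem (hA i l) (hB l j)

theorem Ent.left [Fintype m] [DecidableEq m] {A : Matrix m m R} {B : Matrix m k R}
    (hA : Ent I (A - 1)) (hB : Ent I B) : Ent I (A * B) := by
  have : A * B = (A - 1) * B + B := by rw [Matrix.sub_mul, Matrix.one_mul, sub_add_cancel]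
  rw [this]; exact (hA.mul hB).add hB

theorem Ent.right [Fintype n] [DecidableEq n] {A : Matrix m n R} {B : Matrix n n R}
    (hA : Ent I A) (hB : Ent I (B - 1)) : Ent I (A * B) := by
  have : A * B = A * (B - 1) + A := by rw [Matrix.mul_sub, Matrix.mul_one, sub_add_cancel]
  rw [this]; exact (hA.mul hB).add hA

theorem ent_blocks [DecidableEq m] [DecidableEq n] {a : Matrix m m R} {b : Matrix m n R}
    {c : Matrix n m R} {d : Matrix n n R} :
    Ent I (fromBlocks a b c d - 1) ↔ Ent I (a - 1) ∧ Ent I b ∧ Ent I c ∧ Ent I (d - 1) := by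
  have : fromBlocks a b c d - 1 = fromBlocks (a - 1) b c (d - 1) := by
    rw [← fromBlocks_one, sub_eq_add_neg, fromBlocks_neg, fromBlocks_add]
    simp [sub_eq_add_neg]
  rw [this]
  refine ⟨fun h => ⟨fun i j => h (.inl i) (.inl j), fun i j => h (.inl i) (.inr j),
    fun i j => h (.inr i) (.inl j), fun i j => h (.inr i) (.inr j)⟩, ?_⟩
  rintro ⟨h1, h2, h3, h4⟩ (i | i) (j | j)
  exacts [h1 i j, h2 i j, h3 i j, h4 i j]

end Ent

variable (I) in
/-- matrices over `I` -/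
def mat (ι : Type*) [Fintype ι] [DecidableEq ι] : NonUnitalSubring (Matrix ι ι R) where
  carrier := {A | Ent I A}
  add_mem' := Ent.add
  zero_mem' := Ent.zero
  mul_mem' := Ent.mul
  neg_mem' := Ent.neg

section Block
variable {m n : Type*} [Fintype m] [DecidableEq m] [Fintype n] [DecidableEq n]
  {θ₁ : Matrix m m R → X} {θ₂ : Matrix n n R → X}

/-- `L D U` -/
def ldu (c : Matrix n m R) (a : Matrix m m R) (d : Matrix n n R) (b : Matrix m n R) :
    Matrix (m ⊕ n) (m ⊕ n) R := fromBlocks a (a * b) (c * a) (c * a * b + d)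

theorem exists_ldu (h₁ : RH (mat I m) θ₁) {A : Matrix (m ⊕ n) (m ⊕ n) R} (hA : Ent I (A - 1)) :
    ∃ c a d b, Ent I c ∧ Ent I (a - 1) ∧ Ent I (d - 1) ∧ Ent I b ∧ A = ldu c a d b := by
  rw [← fromBlocks_toBlocks A] at hA ⊢
  obtain ⟨ha, hb, hc, hd⟩ := ent_blocks.1 hA
  obtain ⟨a', ha', e1, e2⟩ := h₁.inv _ ha
  refine ⟨A.toBlocks₂₁ * a', _, A.toBlocks₂₂ - A.toBlocks₂₁ * a' * A.toBlocks₁₂,
    a' * A.toBlocks₁₂, hc.right ha', ha, ?_, Ent.left ha' hb, ?_⟩
  · rw [sub_right_comm, sub_eq_add_neg]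
    exact hd.add ((hc.right ha').mul hb).neg
  · rw [ldu, Matrix.mul_assoc _ a', e2, Matrix.mul_one, ← Matrix.mul_assoc, e1, Matrix.one_mul,
      ← Matrix.mul_assoc, add_sub_cancel]


theorem ldu_mul {c₁ c₂ c₃ : Matrix n m R} {a₁ a₂ a₃ a₁' a₂' : Matrix m m R}
    {d₁ d₂ d₃ : Matrix n n R} {b₁ b₂ b₃ : Matrix m n R} (e1 : a₁' * a₁ = 1) (e2 : a₂ * a₂' = 1)
    (h : fromBlocks (1 + b₁ * c₂) b₁ c₂ 1 = ldu c₃ a₃ d₃ b₃) :
    ldu c₁ a₁ d₁ b₁ * ldu c₂ a₂ d₂ b₂ =
      ldu (c₁ + d₁ * c₃ * a₁') (a₁ * a₃ * a₂) (d₁ * d₃ * d₂) (a₂' * b₃ * d₂ + b₂) := by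
  have f1 : ldu c₁ a₁ d₁ b₁ = fromBlocks a₁ 0 (c₁ * a₁) d₁ * fromBlocks 1 b₁ 0 1 := by
    simp [ldu, fromBlocks_multiply]
  have f2 : ldu c₂ a₂ d₂ b₂ = fromBlocks 1 0 c₂ 1 * fromBlocks a₂ (a₂ * b₂) 0 d₂ := by
    simp [ldu, fromBlocks_multiply, Matrix.mul_assoc]
  have f3 : fromBlocks 1 b₁ 0 1 * fromBlocks 1 0 c₂ 1 = ldu c₃ a₃ d₃ b₃ := by
    rw [← h]; simp [fromBlocks_multiply]
  have g0 : ∀ z : Matrix m m R, a₁' * (a₁ * z) = z := fun z => by
    rw [← Matrix.mul_assoc, e1, Matrix.one_mul]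
  have g2 : ∀ z : Matrix m n R, a₂ * (a₂' * z) = z := fun z => by
    rw [← Matrix.mul_assoc, e2, Matrix.one_mul]
  rw [f1, f2, Matrix.mul_assoc, ← Matrix.mul_assoc (fromBlocks 1 b₁ 0 1), f3]
  simp only [ldu, fromBlocks_multiply, Matrix.mul_add, Matrix.add_mul, Matrix.mul_assoc,
    Matrix.mul_zero, Matrix.zero_mul, add_zero, g0, g2]
  congr 1 <;> abel

theorem block (h₁ : RH (mat I m) θ₁) (h₂ : RH (mat I n) θ₂)
    (h : ∀ (b : Matrix m n R) (c : Matrix n m R), Ent I b → Ent I c →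
      θ₁ (1 + b * c) = θ₂ (1 + c * b)) :
    ∃ Θ : Matrix (m ⊕ n) (m ⊕ n) R → X, RH (mat I (m ⊕ n)) Θ ∧
      ∀ a d, Ent I (a - 1) → Θ (fromBlocks a 0 0 d) = θ₁ a * θ₂ d := by
  let Θ : Matrix (m ⊕ n) (m ⊕ n) R → X := fun A => θ₁ A.toBlocks₁₁ *
    θ₂ (A.toBlocks₂₂ - A.toBlocks₂₁ * Ring.inverse A.toBlocks₁₁ * A.toBlocks₁₂)
  have hΘ : ∀ c a d b, Ent I (a - 1) → Θ (ldu c a d b) = θ₁ a * θ₂ d := fun c a d b ha => by
    obtain ⟨a', -, e1, e2⟩ := h₁.inv _ ha
    have : Ring.inverse a * a = 1 := Ring.inverse_mul_cancel _ ⟨⟨a, a', e1, e2⟩, rfl⟩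
    simp only [Θ, ldu, toBlocks_fromBlocks₁₁, toBlocks_fromBlocks₁₂, toBlocks_fromBlocks₂₁,
      toBlocks_fromBlocks₂₂]
    rw [Matrix.mul_assoc (c * a), ← Matrix.mul_assoc (Ring.inverse a), this, Matrix.one_mul,
      add_sub_cancel_left]
  refine ⟨Θ, ⟨fun A hA => ?_, fun A B hA hB => ?_⟩, fun a d ha => ?_⟩
  · obtain ⟨c, a, d, b, hc, ha, hd, hb, rfl⟩ := exists_ldu h₁ hA
    obtain ⟨a', ha', e1, e2⟩ := h₁.inv _ ha
    obtain ⟨d', hd', e3, e4⟩ := h₂.inv _ hd
    have f : ldu c a d b = fromBlocks 1 0 c 1 * fromBlocks a 0 0 d * fromBlocks 1 b 0 1 := by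
      simp [ldu, fromBlocks_multiply]
    have i1 : (fromBlocks 1 0 c 1 : Matrix (m ⊕ n) (m ⊕ n) R) * fromBlocks 1 0 (-c) 1 = 1 := by
      simp [fromBlocks_multiply]
    have i2 : (fromBlocks 1 0 (-c) 1 : Matrix (m ⊕ n) (m ⊕ n) R) * fromBlocks 1 0 c 1 = 1 := by
      simp [fromBlocks_multiply]
    have i3 : (fromBlocks 1 b 0 1 : Matrix (m ⊕ n) (m ⊕ n) R) * fromBlocks 1 (-b) 0 1 = 1 := by
      simp [fromBlocks_multiply]
    have i4 : (fromBlocks 1 (-b) 0 1 : Matrix (m ⊕ n) (m ⊕ n) R) * fromBlocks 1 b 0 1 = 1 := by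
      simp [fromBlocks_multiply]
    have i5 : fromBlocks a 0 0 d * fromBlocks a' 0 0 d' = 1 := by
      simp [fromBlocks_multiply, e1, e3]
    have i6 : fromBlocks a' 0 0 d' * fromBlocks a 0 0 d = 1 := by
      simp [fromBlocks_multiply, e2, e4]
    refine ⟨fromBlocks 1 (-b) 0 1 * (fromBlocks a' 0 0 d' * fromBlocks 1 0 (-c) 1), ?_, ?_, ?_⟩
    · have o1 : Ent I ((1 : Matrix m m R) - 1) := g_one (I := mat I m)
      have o2 : Ent I ((1 : Matrix n n R) - 1) := g_one (I := mat I n)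
      have o3 := g_mul (I := mat I (m ⊕ n)) (ent_blocks.2 ⟨ha', .zero, .zero, hd'⟩)
          (ent_blocks.2 ⟨o1, .zero, hc.neg, o2⟩)
      exact g_mul (I := mat I (m ⊕ n)) (ent_blocks.2 ⟨o1, hb.neg, .zero, o2⟩) o3
    · rw [f, mul_assoc, ← mul_assoc (fromBlocks 1 b 0 1), i3, one_mul, mul_assoc,
        ← mul_assoc (fromBlocks a 0 0 d), i5, one_mul, i1]
    · rw [f, mul_assoc, mul_assoc, ← mul_assoc (fromBlocks 1 0 (-c) 1),
        ← mul_assoc (fromBlocks 1 0 (-c) 1), i2, one_mul, ← mul_assoc (fromBlocks a' 0 0 d'), i6,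
        one_mul, i4]
  · obtain ⟨c₁, a₁, d₁, b₁, hc₁, ha₁, hd₁, hb₁, rfl⟩ := exists_ldu h₁ hA
    obtain ⟨c₂, a₂, d₂, b₂, hc₂, ha₂, hd₂, hb₂, rfl⟩ := exists_ldu h₁ hB
    have h1 : Ent I (1 + b₁ * c₂ - 1) := by rw [add_sub_cancel_left]; exact hb₁.mul hc₂
    have h2 : Ent I (1 + c₂ * b₁ - 1) := by rw [add_sub_cancel_left]; exact hc₂.mul hb₁
    obtain ⟨c₃, a₃, d₃, b₃, hc₃, ha₃, hd₃, hb₃, e⟩ := exists_ldu h₁
      (ent_blocks.2 ⟨h1, hb₁, hc₂, g_one (I := mat I n)⟩)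
    obtain ⟨a₁', -, -, e1⟩ := h₁.inv _ ha₁
    obtain ⟨a₂', -, e2, -⟩ := h₁.inv _ ha₂
    have key : θ₁ a₃ * θ₂ d₃ = 1 := by
      obtain ⟨k1, k2, k3, k4⟩ := fromBlocks_inj.1 e
      have k5 : d₃ * (1 + c₂ * b₁) = 1 := by
        have k6 : d₃ = 1 - c₃ * b₁ := by rw [k4, k2, Matrix.mul_assoc, add_sub_cancel_left]
        have k7 : c₃ * b₁ * (1 + c₂ * b₁) = c₂ * b₁ := by
          conv_rhs => rw [k3, ← k1]
          simp only [Matrix.mul_add, Matrix.add_mul, Matrix.mul_assoc, Matrix.mul_one]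
        rw [k6, sub_mul, k7, one_mul, add_sub_cancel_right]
      rw [← k1, h _ _ hb₁ hc₂, mul_comm, ← h₂.hom _ _ hd₃ h2, k5, h₂.one]
    have m1 := g_mul (I := mat I m) ha₁ ha₃
    have m2 := g_mul (I := mat I n) hd₁ hd₃
    rw [ldu_mul e1 e2 e, hΘ _ _ _ _ (g_mul (I := mat I m) m1 ha₂), hΘ _ _ _ _ ha₁, hΘ _ _ _ _ ha₂,
      h₁.hom _ _ m1 ha₂, h₁.hom _ _ ha₁ ha₃, h₂.hom _ _ m2 hd₂, h₂.hom _ _ hd₁ hd₃]
    calc _ = θ₁ a₁ * θ₂ d₁ * (θ₁ a₂ * θ₂ d₂) * (θ₁ a₃ * θ₂ d₃) := by ac_rfl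
      _ = _ := by rw [key, mul_one]
  · rw [← hΘ 0 a d 0 ha]; simp [ldu]

end Block

theorem RH.unit (h : RH I θ) : RH (mat I Unit) fun A => θ (A () ()) := by
  have e : ∀ A : Matrix Unit Unit R, A - 1 ∈ mat I Unit ↔ A () () - 1 ∈ I := fun A =>
    ⟨fun h => by simpa using h () (), fun h _ _ => by simpa using h⟩
  refine ⟨fun A hA => ?_, fun A B hA hB => ?_⟩
  · obtain ⟨y, hy, e1, e2⟩ := h.inv _ ((e A).1 hA)
    refine ⟨of fun _ _ => y, (e _).2 hy, ?_, ?_⟩ <;> ext ⟨⟩ ⟨⟩ <;> simp [mul_apply, e1, e2]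
  · rw [← h.hom _ _ ((e A).1 hA) ((e B).1 hB)]; simp [mul_apply]

variable (I θ) in
/-- a determinant on `1 + M_ι(I)` -/
def HasDet (ι : Type*) [Fintype ι] [DecidableEq ι] : Prop :=
  ∃ Θ : Matrix ι ι R → X, RH (mat I ι) Θ ∧
    ∀ d : ι → R, (∀ i, d i - 1 ∈ I) → Θ (diagonal d) = ∏ i, θ (d i)

theorem ent_diagonal {ι : Type*} [DecidableEq ι] {d : ι → R} (h : ∀ i, d i - 1 ∈ I) :
    Ent I (diagonal d - 1) := fun i j => by
  by_cases e : i = j
  · subst e; simpa using h i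
  · simp [e, zero_mem]

theorem ent_sub {α β : Type*} [DecidableEq α] [DecidableEq β] (e : α ≃ β) (A : Matrix β β R)
    (hA : Ent I (A - 1)) : Ent I (A.submatrix e e - 1) :=
  fun i j => by simpa [one_apply] using hA (e i) (e j)

theorem HasDet.equiv {ι κ : Type*} [Fintype ι] [DecidableEq ι] [Fintype κ] [DecidableEq κ]
    (e : ι ≃ κ) (h : HasDet I θ ι) : HasDet I θ κ := by
  obtain ⟨Θ, h1, h2⟩ := h
  refine ⟨fun A => Θ (A.submatrix e e), ⟨fun A hA => ?_, fun A B hA hB => ?_⟩, fun d hd => ?_⟩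
  · obtain ⟨y, hy, e1, e2⟩ := h1.inv _ (ent_sub e A hA)
    have : (A.submatrix e e).submatrix e.symm e.symm = A := by simp
    refine ⟨y.submatrix e.symm e.symm, ent_sub e.symm y hy, ?_, ?_⟩
    · rw [← this, submatrix_mul_equiv, e1, submatrix_one_equiv]
    · rw [← this, submatrix_mul_equiv, e2, submatrix_one_equiv]
  · rw [← h1.hom _ _ (ent_sub e A hA) (ent_sub e B hB), submatrix_mul_equiv]
  · simp only [submatrix_diagonal_equiv]
    exact (h2 _ fun i => hd (e i)).trans (e.prod_comp fun i => θ (d i))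

theorem HasDet.succ (h : RH I θ) {ι : Type*} [Fintype ι] [DecidableEq ι] (H : HasDet I θ ι) :
    HasDet I θ (Unit ⊕ ι) := by
  obtain ⟨Θ, h1, h2⟩ := H
  obtain ⟨Θ', h3, h4⟩ := block h.unit h1 (fun b c hb hc => by
    rcases isEmpty_or_nonempty ι with hι | ⟨⟨i₀⟩⟩
    · rw [Subsingleton.elim (1 + c * b) 1, h1.one]
      simp [mul_apply, h.one]
    let b' : Matrix ι ι R := of fun i j => if i = i₀ then b () j else 0
    let c' : Matrix ι ι R := of fun i j => if j = i₀ then c i () else 0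
    have hb' : b' ∈ mat I ι := fun i j => by
      simp only [b', of_apply]; split_ifs; exacts [hb _ _, zero_mem _]
    have hc' : c' ∈ mat I ι := fun i j => by
      simp only [c', of_apply]; split_ifs; exacts [hc _ _, zero_mem _]
    have e1 : c' * b' = c * b := by
      ext i j; simp [b', c', mul_apply]
    have e2 : 1 + b' * c' = diagonal (Function.update 1 i₀ ((1 + b * c : Matrix Unit Unit R) () ())) := by
      ext i j
      by_cases a1 : i = i₀ <;> by_cases a2 : j = i₀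
      · subst a1 a2; simp [b', c', mul_apply]
      · subst a1; simp [b', c', mul_apply, a2, Ne.symm a2]
      · subst a2; simp [b', c', mul_apply, a1]
      · simp [b', c', mul_apply, a1, a2, diagonal_apply, one_apply]
    rw [← e1, h1.swap hc' hb', e2, h2, Finset.prod_eq_single i₀]
    · simp
    · intro i _ hi; simp [hi, h.one]
    · simp
    · intro i
      by_cases a1 : i = i₀
      · subst a1; simpa using hb.mul hc () ()
      · simp [a1, zero_mem])
  refine ⟨Θ', h3, fun d hd => ?_⟩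
  have : diagonal d = fromBlocks (diagonal fun i => d (.inl i)) 0 0 (diagonal fun i => d (.inr i)) := by
    rw [fromBlocks_diagonal]; congr 1; ext (i | i) <;> rfl
  rw [this, h4 _ _ (ent_diagonal fun i => hd _), h2 _ fun i => hd _]
  simp


end Abs

variable {N : ℕ} {B : Type*} [Ring B] [Algebra ℚ B]



theorem RH.lh {X : Type*} [CommGroup X] {θ : B → X} {I : NonUnitalSubring B} (h : RH I θ)
    (hI : ∀ᶠ x in nr N (1 : B), x - 1 ∈ I) : LH N θ :=
  (hI.prod_mk hI).mono fun _ hp => h.hom _ _ hp.1 hp.2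


end Crest.Agent.T24.In
end

-- ▼ part T24/InGd_71

/-!
# Row 24, inner step (helper71): germ invariance, germ determinant, reduction to one entry
-/

set_option autoImplicit false
set_option linter.unusedSectionVars false

namespace Crest.Agent.T24.In

open Filter Matrix

variable {N : ℕ} {B : Type*} [Ring B] [Algebra ℚ B] [FiniteDimensional ℚ B]
  {X : Type*} [CommGroup X] {θ : B → X} {α : Type*} {l : Filter α}

theorem LG.mul (h : LG N θ) {f g : α → B} (hf : Tendsto f l (ng N 1)) (hg : Tendsto g l (ng N 1)) :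
    ∀ᶠ i in l, θ (f i * g i) = θ (f i) * θ (g i) := (hf.prodMk hg).eventually h

theorem LG.one (h : LG N θ) : θ 1 = 1 := by
  have := (h.mul (ng_const (l := (⊤ : Filter Unit)) 1) (ng_const 1)).exists.choose_spec
  rw [mul_one] at this
  exact mul_eq_left.1 this.symm

theorem LG.pow (h : LG N θ) {f : α → B} (hf : Tendsto f l (ng N 1)) (n : ℕ) :
    ∀ᶠ i in l, θ (f i ^ n) = θ (f i) ^ n := by
  induction n with
  | zero => simp [h.one]
  | succ n ih =>
    filter_upwards [ih, h.mul (by simpa using ng_pow hf n) hf] with i h1 h2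
    rw [pow_succ, h2, h1, pow_succ]

theorem LG.comp (h : LG N θ) {C : Type*} [Ring C] [Algebra ℚ C] {φ : C → B}
    (h1 : Tendsto φ (ng N 1) (ng N 1)) (h2 : ∀ x y, φ (x * y) = φ x * φ y) :
    LG N fun x => θ (φ x) :=
  (h.mul (h1.comp tendsto_fst) (h1.comp tendsto_snd)).mono fun _ hp =>
    (congrArg θ (h2 _ _)).trans hp

theorem ng_hom {C : Type*} [Ring C] [Algebra ℚ C] (φ : C →+* B) :
    Tendsto φ (ng N 1) (ng N 1) := by
  simpa using ng_map (N := N) φ.toAddMonoidHom 1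

theorem LG.comp_hom (h : LG N θ) {C : Type*} [Ring C] [Algebra ℚ C] (φ : C →+* B) :
    LG N fun x => θ (φ x) := h.comp (ng_hom φ) (map_mul φ)

theorem LG.swap (hN : 2 ≤ N) (h : LG N θ) {x y : α → B} (hx : Tendsto x l (ng N 0))
    (hy : Tendsto y l (ng N 0)) : ∀ᶠ i in l, θ (1 + x i * y i) = θ (1 + y i * x i) := by
  have h1 : Tendsto (fun i => 1 + x i) l (ng N 1) := by simpa using ng_add (ng_const 1) hx
  have h2 : Tendsto (fun i => 1 - y i) l (ng N 1) := by simpa using ng_sub (ng_const 1) hy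
  have h0 : Tendsto (fun i => Ring.inverse (1 + x i) * x i) l (ng N 0) := by
    simpa using ng_mul (ng_inv hN h1) hx
  have h3 : Tendsto (fun i => 1 - Ring.inverse (1 + x i) * x i * (1 - y i)) l (ng N 1) := by
    simpa using ng_sub (ng_const 1) (ng_mul h0 h2)
  have h4 : Tendsto (fun i => 1 - (1 - y i) * (Ring.inverse (1 + x i) * x i)) l (ng N 1) := by
    simpa using ng_sub (ng_const 1) (ng_mul h2 h0)
  filter_upwards [h1.eventually (ng_isUnit hN), h.mul h2 h3, h.mul h4 h2, h.mul h1 h3,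
    h.mul h4 h1] with i hu a3 a4 a5 a6
  have e1 := Ring.mul_inverse_cancel _ hu
  have e2 := Ring.inverse_mul_cancel _ hu
  generalize Ring.inverse (1 + x i) = z at *
  generalize x i = x at *
  generalize y i = y at *
  have c1 : (1 + x) * (z * x) = x := by rw [← mul_assoc, e1, one_mul]
  have c2 : z * x * (1 + x) = x := by
    rw [mul_assoc, show x * (1 + x) = (1 + x) * x by noncomm_ring, ← mul_assoc, e2, one_mul]
  have a1 : 1 + x * y = (1 + x) * (1 - z * x * (1 - y)) := by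
    rw [mul_sub, ← mul_assoc, c1]; noncomm_ring
  have a2 : 1 + y * x = (1 - (1 - y) * (z * x)) * (1 + x) := by
    rw [sub_mul, mul_assoc, c2]; noncomm_ring
  rw [show (1 - y) * (1 - z * x * (1 - y)) = (1 - (1 - y) * (z * x)) * (1 - y) by noncomm_ring,
    a4, mul_comm, mul_right_inj] at a3
  rw [a1, a2, a5, a6, a3, mul_comm]

/-- germ invariance under every unit -/
theorem LG.inv (hN : 2 ≤ N) (h : LG N θ) {s s' : B} (hs : s' * s = 1) :
    ∀ᶠ x in ng N (1 : B), θ (s * x * s') = θ x := by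
  obtain ⟨U, hU, V, hV, H⟩ := eventually_prod_iff.1
    (h.swap hN (l := ng N 0 ×ˢ ng N 0) tendsto_fst tendsto_snd)
  obtain ⟨k, hk⟩ := ((tendsto_small s').eventually hV).exists
  have h0 : ((N : ℚ) / (N + 1)) ^ k ≠ 0 := by positivity
  generalize ((N : ℚ) / (N + 1)) ^ k = t at *
  have h1 : Tendsto (fun x : B => (t⁻¹ • s) * (x - 1)) (ng N 1) (ng N 0) := by
    simpa using ng_mul (ng_const (t⁻¹ • s)) (ng_sub (tendsto_id (x := ng N (1 : B))) (ng_const 1))
  have hs' : s * s' = 1 := (dedekind (B := B)).mul_eq_one_symm hs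
  filter_upwards [h1.eventually hU] with x hx
  have := H hx hk
  simp only [smul_mul_assoc, mul_smul_comm, smul_smul, mul_inv_cancel₀ h0, inv_mul_cancel₀ h0,
    one_smul] at this
  rw [← mul_assoc, hs, one_mul, add_sub_cancel, mul_sub, sub_mul, mul_one, hs',
    add_sub_cancel] at this
  exact this

theorem LG.kill (hN : 2 ≤ N) (h : LG N θ) {s s' : B} (hs : s' * s = 1) {f : α → B}
    (hf : Tendsto f l (ng N 1)) (e : ∀ i, s * f i * s' = f i * f i) : ∀ᶠ i in l, θ (f i) = 1 := by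
  filter_upwards [hf.eventually (h.inv hN hs), h.mul hf hf] with i h1 h2
  rw [e, h2] at h1
  exact mul_eq_left.1 h1

section Block

variable {m n : Type*} [Fintype m] [DecidableEq m] [Fintype n] [DecidableEq n]

/-- lower factor -/
noncomputable def lC (A : Matrix (m ⊕ n) (m ⊕ n) B) : Matrix n m B :=
  A.toBlocks₂₁ * Ring.inverse A.toBlocks₁₁

/-- upper factor -/
noncomputable def lB (A : Matrix (m ⊕ n) (m ⊕ n) B) : Matrix m n B :=
  Ring.inverse A.toBlocks₁₁ * A.toBlocks₁₂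

/-- Schur complement -/
noncomputable def lD (A : Matrix (m ⊕ n) (m ⊕ n) B) : Matrix n n B :=
  A.toBlocks₂₂ - lC A * A.toBlocks₁₂

theorem eq_ldu {A : Matrix (m ⊕ n) (m ⊕ n) B} (h : IsUnit A.toBlocks₁₁) :
    A = ldu (lC A) A.toBlocks₁₁ (lD A) (lB A) := by
  rw [ldu, lB, lD, Matrix.mul_assoc (lC A), ← Matrix.mul_assoc A.toBlocks₁₁,
    Ring.mul_inverse_cancel _ h, Matrix.one_mul, add_sub_cancel, lC, Matrix.mul_assoc,
    Ring.inverse_mul_cancel _ h, Matrix.mul_one, fromBlocks_toBlocks]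

theorem lD_ldu (c : Matrix n m B) {a : Matrix m m B} (d : Matrix n n B) (b : Matrix m n B)
    (h : IsUnit a) : lD (ldu c a d b) = d := by
  simp only [lD, lC, ldu, toBlocks_fromBlocks₁₁, toBlocks_fromBlocks₁₂, toBlocks_fromBlocks₂₁,
    toBlocks_fromBlocks₂₂]
  rw [Matrix.mul_assoc (c * a), ← Matrix.mul_assoc (Ring.inverse a), Ring.inverse_mul_cancel _ h,
    Matrix.one_mul, add_sub_cancel_left]

theorem ng_blocks {a : α → Matrix m m B} {b : α → Matrix m n B} {c : α → Matrix n m B}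
    {d : α → Matrix n n B} (ha : Tendsto a l (ng N 1)) (hb : Tendsto b l (ng N 0))
    (hc : Tendsto c l (ng N 0)) (hd : Tendsto d l (ng N 1)) :
    Tendsto (fun i => fromBlocks (a i) (b i) (c i) (d i)) l (ng N 1) := by
  rw [← fromBlocks_one]
  refine ng_mat.2 ?_
  rintro (i | i) (j | j)
  exacts [ng_mat.1 ha i j, ng_mat.1 hb i j, ng_mat.1 hc i j, ng_mat.1 hd i j]

theorem ng_ldu (hN : 2 ≤ N) {f : α → Matrix (m ⊕ n) (m ⊕ n) B} (hf : Tendsto f l (ng N 1)) :
    Tendsto (fun i => (f i).toBlocks₁₁) l (ng N 1) ∧ Tendsto (fun i => lB (f i)) l (ng N 0) ∧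
      Tendsto (fun i => lC (f i)) l (ng N 0) ∧ Tendsto (fun i => lD (f i)) l (ng N 1) := by
  rw [← fromBlocks_one] at hf
  have h1 : Tendsto (fun i => (f i).toBlocks₁₁) l (ng N 1) :=
    ng_mat.2 fun i j => ng_mat.1 hf (.inl i) (.inl j)
  have h2 : Tendsto (fun i => (f i).toBlocks₁₂) l (ng N 0) :=
    ng_mat.2 fun i j => ng_mat.1 hf (.inl i) (.inr j)
  have h3 : Tendsto (fun i => (f i).toBlocks₂₁) l (ng N 0) :=
    ng_mat.2 fun i j => ng_mat.1 hf (.inr i) (.inl j)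
  have h4 : Tendsto (fun i => (f i).toBlocks₂₂) l (ng N 1) :=
    ng_mat.2 fun i j => ng_mat.1 hf (.inr i) (.inr j)
  have h0 := ng_inv (B := Matrix m m B) hN h1
  have h5 : Tendsto (fun i => lC (f i)) l (ng N 0) := by
    have := ng_matmul h3 h0
    rwa [Matrix.zero_mul] at this
  have h6 := ng_matmul h0 h2
  have h7 := ng_sub h4 (ng_matmul h5 h2)
  rw [Matrix.mul_zero] at h6
  rw [Matrix.mul_zero, sub_zero] at h7
  exact ⟨h1, h6, h5, h7⟩

theorem ldu_prod {A A' : Matrix (m ⊕ n) (m ⊕ n) B} (h : IsUnit A.toBlocks₁₁)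
    (h' : IsUnit A'.toBlocks₁₁) (h3 : IsUnit (1 + lB A * lC A')) :
    (A * A').toBlocks₁₁ = A.toBlocks₁₁ * (1 + lB A * lC A') * A'.toBlocks₁₁ ∧
    lD (A * A') = lD A * lD (fromBlocks (1 + lB A * lC A') (lB A) (lC A') 1) * lD A' ∧
    lD (fromBlocks (1 + lB A * lC A') (lB A) (lC A') 1) * (1 + lC A' * lB A) = 1 := by
  have e := eq_ldu (A := fromBlocks (1 + lB A * lC A') (lB A) (lC A') 1)
    (by rwa [toBlocks_fromBlocks₁₁])
  rw [toBlocks_fromBlocks₁₁] at e
  have e1 := ldu_mul (c₁ := lC A) (d₁ := lD A) (d₂ := lD A') (b₂ := lB A')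
    (Ring.inverse_mul_cancel _ h) (Ring.mul_inverse_cancel _ h') e
  rw [← eq_ldu h, ← eq_ldu h'] at e1
  refine ⟨by rw [e1]; rfl, by rw [e1, lD_ldu _ _ _ ((h.mul h3).mul h')], ?_⟩
  simp only [lD, lC.eq_1 (fromBlocks _ _ _ _), toBlocks_fromBlocks₁₁, toBlocks_fromBlocks₁₂,
    toBlocks_fromBlocks₂₁, toBlocks_fromBlocks₂₂]
  have e2 := Ring.inverse_mul_cancel _ h3
  generalize Ring.inverse (1 + lB A * lC A') = z at *
  have : lB A * (1 + lC A' * lB A) = (1 + lB A * lC A') * lB A := by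
    simp only [Matrix.mul_add, Matrix.add_mul, Matrix.mul_assoc, Matrix.mul_one, Matrix.one_mul]
  rw [sub_mul, one_mul, Matrix.mul_assoc, this, Matrix.mul_assoc, ← Matrix.mul_assoc z, e2,
    Matrix.one_mul, add_sub_cancel_right]

theorem blockG (hN : 2 ≤ N) {θ₁ : Matrix m m B → X} {θ₂ : Matrix n n B → X} (h₁ : LG N θ₁)
    (h₂ : LG N θ₂) (h : ∀ᶠ p : Matrix m n B × Matrix n m B in ng N 0 ×ˢ ng N 0,
      θ₁ (1 + p.1 * p.2) = θ₂ (1 + p.2 * p.1)) :
    LG N fun A : Matrix (m ⊕ n) (m ⊕ n) B => θ₁ A.toBlocks₁₁ * θ₂ (lD A) := by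
  obtain ⟨a1, b1, -, d1⟩ := ng_ldu hN (tendsto_fst (f := ng N (1 : Matrix (m ⊕ n) (m ⊕ n) B))
    (g := ng N (1 : Matrix (m ⊕ n) (m ⊕ n) B)))
  obtain ⟨a2, -, c2, d2⟩ := ng_ldu hN (tendsto_snd (f := ng N (1 : Matrix (m ⊕ n) (m ⊕ n) B))
    (g := ng N (1 : Matrix (m ⊕ n) (m ⊕ n) B)))
  have a3 := ng_add (ng_const 1) (ng_matmul b1 c2)
  have a4 := ng_add (ng_const 1) (ng_matmul c2 b1)
  rw [Matrix.mul_zero, add_zero] at a3 a4
  obtain ⟨-, -, -, d3⟩ := ng_ldu hN (ng_blocks a3 b1 c2 (ng_const 1))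
  filter_upwards [a1.eventually (ng_isUnit hN), a2.eventually (ng_isUnit hN),
    a3.eventually (ng_isUnit hN), (b1.prodMk c2).eventually h, h₁.mul a1 a3,
    h₁.mul (ng_mul_one a1 a3) a2, h₂.mul d1 d3, h₂.mul (ng_mul_one d1 d3) d2, h₂.mul d3 a4]
    with p u1 u2 u3 k1 k2 k3 k4 k5 k6
  obtain ⟨e1, e2, e3⟩ := ldu_prod u1 u2 u3
  rw [e3, h₂.one, ← k1] at k6
  rw [e1, e2, k3, k2, k5, k4, eq_inv_of_mul_eq_one_left k6.symm]
  simp only [mul_assoc, mul_comm, mul_left_comm, mul_inv_cancel_left]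

end Block

/-- `d` at the place `i`, `1` elsewhere -/
def En {ι : Type*} [DecidableEq ι] (i : ι) (d : B) : Matrix ι ι B :=
  diagonal (Function.update 1 i d)

section En
variable {ι : Type*} [Fintype ι] [DecidableEq ι]

theorem En_mul (i : ι) (a b : B) : En i (a * b) = En i a * En i b := by
  rw [En, En, En, diagonal_mul_diagonal]
  congr 1; ext j
  by_cases h : j = i <;> simp [h]

theorem ng_diagonal {d : α → ι → B} (h : Tendsto d l (ng N 1)) :
    Tendsto (fun i => diagonal (d i)) l (ng N 1) := ng_lin (diagonalAddMonoidHom ι B) h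

theorem ng_update (i : ι) :
    Tendsto (fun d : B => Function.update (1 : ι → B) i d) (ng N 1) (ng N 1) :=
  ng_pi fun j => by
    by_cases h : j = i
    · subst h; simp only [Function.update_self]; exact tendsto_id
    · simpa [h] using ng_const 1

theorem ng_En (i : ι) : Tendsto (En i : B → _) (ng N 1) (ng N 1) := ng_diagonal (ng_update i)

theorem LG.En_eq (hN : 2 ≤ N) {Φ : Matrix ι ι B → X} (h : LG N Φ) (i j : ι) :
    ∀ᶠ d in ng N (1 : B), Φ (En i d) = Φ (En j d) := by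
  filter_upwards [(ng_En j).eventually (h.inv hN (Matrix.swap_mul_self (R := B) i j))] with d hd
  rw [← hd, Matrix.swap, Equiv.Perm.permMatrix, PEquiv.toMatrix_toPEquiv_mul,
    PEquiv.mul_toMatrix_toPEquiv, submatrix_submatrix, Equiv.symm_swap, En, En, Function.comp_id,
    Function.id_comp, submatrix_diagonal_equiv]
  congr 2; ext k
  by_cases h1 : k = i
  · simp [h1]
  · have : Equiv.swap i j k ≠ j := fun e =>
      h1 ((Equiv.swap i j).injective (e.trans (Equiv.swap_apply_left i j).symm))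
    simp [h1, this]

end En

variable (N θ) in
/-- a germ determinant -/
def GDet (ι : Type*) [Fintype ι] [DecidableEq ι] : Prop :=
  ∃ Θ : Matrix ι ι B → X, LG N Θ ∧ ∀ᶠ d in ng N (1 : ι → B), Θ (diagonal d) = ∏ i, θ (d i)

theorem ng_sub_equiv {ι κ : Type*} [Fintype ι] [DecidableEq ι] [Fintype κ] [DecidableEq κ]
    (e : ι ≃ κ) : Tendsto (fun A : Matrix κ κ B => A.submatrix e e) (ng N 1) (ng N 1) := by
  rw [← submatrix_one_equiv e]
  exact ng_mat.2 fun i j => ng_mat.1 tendsto_id (e i) (e j)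

theorem LG.equiv {ι κ : Type*} [Fintype ι] [DecidableEq ι] [Fintype κ] [DecidableEq κ]
    (e : ι ≃ κ) {Θ : Matrix ι ι B → X} (h : LG N Θ) :
    LG N fun A : Matrix κ κ B => Θ (A.submatrix e e) :=
  h.comp (ng_sub_equiv e) fun _ _ => (submatrix_mul_equiv _ _ _ e _).symm

theorem ng_apply {ι : Type*} (i : ι) : Tendsto (fun d : ι → B => d i) (ng N 1) (ng N 1) :=
  ng_map (Pi.evalAddMonoidHom (fun _ => B) i) 1

theorem GDet.equiv {ι κ : Type*} [Fintype ι] [DecidableEq ι] [Fintype κ] [DecidableEq κ]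
    (e : ι ≃ κ) (h : GDet N θ ι) : GDet N θ κ := by
  obtain ⟨Θ, h1, h2⟩ := h
  refine ⟨_, h1.equiv e, ?_⟩
  have : Tendsto (fun d : κ → B => d ∘ e) (ng N 1) (ng N 1) := ng_pi fun i => ng_apply (e i)
  filter_upwards [this.eventually h2] with d hd
  rw [submatrix_diagonal_equiv, hd]
  exact e.prod_comp fun i => θ (d i)

theorem ng_unit : Tendsto (fun A : Matrix Unit Unit B => A () ()) (ng N 1) (ng N 1) :=
  ng_mat.1 tendsto_id () ()

theorem GDet.succ (hN : 2 ≤ N) (h : LG N θ) {ι : Type*} [Fintype ι] [DecidableEq ι]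
    (H : GDet N θ ι) : GDet N θ (Unit ⊕ ι) := by
  obtain ⟨Θ, h1, h2⟩ := H
  have h0 : LG N fun A : Matrix Unit Unit B => θ (A () ()) :=
    h.comp ng_unit fun x y => by simp [mul_apply]
  refine ⟨_, blockG hN h0 h1 ?_, ?_⟩
  · rcases isEmpty_or_nonempty ι with hι | ⟨⟨i₀⟩⟩
    · refine Eventually.of_forall fun p => ?_
      rw [Subsingleton.elim (1 + p.2 * p.1) 1, h1.one]
      simp [mul_apply, h.one]
    let b' : Matrix Unit ι B → Matrix ι ι B := fun b => of fun i j => if i = i₀ then b () j else 0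
    let c' : Matrix ι Unit B → Matrix ι ι B := fun c => of fun i j => if j = i₀ then c i () else 0
    have hb' : Tendsto b' (ng N 0) (ng N 0) := ng_mat.2 fun i j => by
      simp only [b', of_apply]; split_ifs; exacts [ng_mat.1 tendsto_id () j, ng_const 0]
    have hc' : Tendsto c' (ng N 0) (ng N 0) := ng_mat.2 fun i j => by
      simp only [c', of_apply]; split_ifs; exacts [ng_mat.1 tendsto_id i (), ng_const 0]
    have a3 := ng_add (ng_const 1) (ng_matmul (N := N) (l := ng N (0 : Matrix Unit ι B) ×ˢ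
      ng N (0 : Matrix ι Unit B)) tendsto_fst tendsto_snd)
    rw [Matrix.mul_zero, add_zero] at a3
    filter_upwards [h1.swap hN (hc'.comp tendsto_snd) (hb'.comp tendsto_fst),
      ((ng_update i₀).comp (ng_unit.comp a3)).eventually h2] with ⟨b, c⟩ k1 k2
    have e1 : c' c * b' b = c * b := by
      ext i j; simp [b', c', mul_apply]
    have e2 : 1 + b' b * c' c =
        diagonal (Function.update 1 i₀ ((1 + b * c : Matrix Unit Unit B) () ())) := by
      ext i j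
      by_cases a1 : i = i₀ <;> by_cases a2 : j = i₀
      · subst a1 a2; simp [b', c', mul_apply]
      · subst a1; simp [b', c', mul_apply, a2, Ne.symm a2]
      · subst a2; simp [b', c', mul_apply, a1]
      · simp [b', c', mul_apply, a1, a2, diagonal_apply, one_apply]
    simp only [Function.comp] at k1 k2 ⊢
    rw [← e1, k1, e2, k2, Finset.prod_eq_single i₀]
    · simp
    · intro i _ hi; simp [hi, h.one]
    · simp
  · have : Tendsto (fun d : Unit ⊕ ι → B => fun i => d (.inr i)) (ng N 1) (ng N 1) :=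
      ng_pi fun i => ng_apply _
    filter_upwards [this.eventually h2] with d hd
    simp [lD, toBlocks₁₂_diagonal, toBlocks₂₂_diagonal, toBlocks₁₁_diagonal, hd]

/-- the relative Dieudonné determinant, germ form -/
theorem gDet (hN : 2 ≤ N) (h : LG N θ) (ι : Type*) [Fintype ι] [DecidableEq ι] : GDet N θ ι := by
  have : ∀ n, GDet N θ (Fin n) := fun n => by
    induction n with
    | zero => exact ⟨fun _ => 1, .of_forall fun _ => (mul_one _).symm, .of_forall fun _ => by simp⟩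
    | succ n ih => exact (ih.succ hN h).equiv (Fintype.equivOfCardEq (by simp [add_comm]))
  exact (this _).equiv (Fintype.equivFin ι).symm

variable (N B X) in
/-- reduction to one diagonal entry -/
def GRed (ι : Type*) [Fintype ι] [DecidableEq ι] : Prop :=
  ∀ Φ : Matrix ι ι B → X, LG N Φ → ∀ i₀ : ι, ∀ U ∈ ng N (1 : B),
    ∀ᶠ A in ng N (1 : Matrix ι ι B), ∃ d ∈ U, Φ A = Φ (En i₀ d)

theorem GRed.equiv {ι κ : Type*} [Fintype ι] [DecidableEq ι] [Fintype κ] [DecidableEq κ]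
    (e : ι ≃ κ) (h : GRed N B X ι) : GRed N B X κ := by
  intro Φ hΦ i₀ U hU
  filter_upwards [(ng_sub_equiv e).eventually (h _ (hΦ.equiv e.symm) (e.symm i₀) U hU)]
    with A ⟨d, hd, hA⟩
  refine ⟨d, hd, ?_⟩
  rw [submatrix_submatrix, e.self_comp_symm, submatrix_id_id, En, submatrix_diagonal_equiv] at hA
  rw [hA, En]
  congr 2; ext k
  by_cases h1 : k = i₀ <;> simp [h1]

theorem GRed.succ (hN : 2 ≤ N) {ι : Type*} [Fintype ι] [DecidableEq ι] (H : GRed N B X ι) :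
    GRed N B X (Unit ⊕ ι) := by
  intro Φ h i₀ U hU
  obtain ⟨a1, b1, c1, d1⟩ := ng_ldu (m := Unit) (n := ι) (B := B) hN (l := ng N 1) tendsto_id
  have t1 := ng_blocks (ng_const 1) (ng_const 0) c1 (ng_const 1)
  have t2 := ng_blocks (ng_const 1) b1 (ng_const 0) (ng_const 1)
  have t3 := ng_blocks (n := ι) a1 (ng_const 0) (ng_const 0) (ng_const 1)
  have t4 := ng_blocks (m := Unit) (ng_const 1) (ng_const 0) (ng_const 0) d1
  let s : Matrix (Unit ⊕ ι) (Unit ⊕ ι) B := fromBlocks 1 0 0 ((2 : ℚ) • 1)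
  let s' : Matrix (Unit ⊕ ι) (Unit ⊕ ι) B := fromBlocks 1 0 0 ((2 : ℚ)⁻¹ • 1)
  have k1 := h.kill hN (s := s) (s' := s') (by simp [s, s', fromBlocks_multiply, smul_smul]) t1
    fun A => by simp [s, s', fromBlocks_multiply, smul_smul, ← two_smul ℚ]
  have k2 := h.kill hN (s := s') (s' := s) (by simp [s, s', fromBlocks_multiply, smul_smul]) t2
    fun A => by simp [s, s', fromBlocks_multiply, smul_smul, ← two_smul ℚ]
  have key : ∀ᶠ A in ng N (1 : Matrix (Unit ⊕ ι) (Unit ⊕ ι) B),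
      Φ A = Φ (En i₀ (A.toBlocks₁₁ () ())) * Φ (fromBlocks 1 0 0 (lD A)) := by
    filter_upwards [k1, k2, a1.eventually (ng_isUnit hN), h.mul t3 t4, h.mul t1 (ng_mul_one t3 t4),
      h.mul (ng_mul_one t1 (ng_mul_one t3 t4)) t2,
      (ng_unit.comp a1).eventually (h.En_eq hN (.inl ()) i₀)] with A k1 k2 u k3 k4 k5 k6
    simp only [id, Function.comp] at *
    rw [k4, k3, k1, k2, one_mul, mul_one] at k5
    have e1 : fromBlocks A.toBlocks₁₁ 0 0 1 = En (Sum.inl () : Unit ⊕ ι) (A.toBlocks₁₁ () ()) := by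
      ext (i | i) (j | j) <;> simp [En, one_apply, diagonal_apply]
    rw [← k6, ← e1, ← k5]
    conv_lhs => rw [eq_ldu u]
    simp [ldu, fromBlocks_multiply]
  rcases isEmpty_or_nonempty ι with hι | ⟨⟨j₀⟩⟩
  · filter_upwards [key, (ng_unit.comp a1).eventually hU] with A hA hA'
    refine ⟨_, hA', ?_⟩
    rw [hA, Subsingleton.elim (lD A) 1, fromBlocks_one, h.one, mul_one]; rfl
  have h' : LG N fun d : Matrix ι ι B => Φ (fromBlocks 1 0 0 d) :=
    h.comp (ng_blocks (ng_const 1) (ng_const 0) (ng_const 0) tendsto_id)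
      fun _ _ => by simp [fromBlocks_multiply]
  obtain ⟨V, hV, W, hW, hVW⟩ := eventually_prod_iff.1
    (((ng_mul_one tendsto_fst tendsto_snd).eventually hU).and
      (h.mul ((ng_En i₀).comp tendsto_fst) ((ng_En i₀).comp tendsto_snd)))
  filter_upwards [key, (ng_unit.comp a1).eventually hV,
    d1.eventually (H _ h' j₀ _ (hW.and (h.En_eq hN (.inr j₀) i₀)))] with A hA hA' ⟨d, hd, e⟩
  obtain ⟨k7, k8⟩ := hVW hA' hd.1
  refine ⟨_, k7, ?_⟩
  have e1 : fromBlocks 1 0 0 (En j₀ d) = En (Sum.inr j₀ : Unit ⊕ ι) d := by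
    ext (i | i) (j | j) <;> simp [En, diagonal_apply, Function.update_apply]
  simp only [id, Function.comp] at *
  rw [En_mul, k8, hA, e, e1, hd.2]

theorem gRed (hN : 2 ≤ N) (ι : Type*) [Fintype ι] [DecidableEq ι] : GRed N B X ι := by
  have : ∀ n, GRed N B X (Fin n) := fun n => by
    induction n with
    | zero => exact fun _ _ i => i.elim0
    | succ n ih => exact (ih.succ hN).equiv (Fintype.equivOfCardEq (by simp [add_comm]))
  exact (this _).equiv (Fintype.equivFin ι).symm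

end Crest.Agent.T24.In
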