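import Crest.Agent.T24.InDef_71

-- ▼ part T24/InRing_3
section

/-!
# Row 24, inner step: the leaves of pure ring theory INV, RED, ROOT (helper3)
-/

set_option autoImplicit false

namespace Crest.Agent.T24.In

open Filter

universe v w

namespace R3

variable {N : ℕ}

section ring
variable {B : Type*} [Ring B] [Algebra ℚ B] {X : Type*} [CommGroup X] {θ : B → X}
  {O : Subalgebra (ZN N) B} {m : ℕ}

theorem qadd_mem {x y : B} (hx : x ∈ dp O.toSubmodule m) (hy : y ∈ dp O.toSubmodule m) :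
    x + y + x * y ∈ dp O.toSubmodule m :=
  add_mem (add_mem hx hy) (mul_mem_dp_right O hx (dp_le _ _ hy))


/-- `θ` is a homomorphism on `1 + N ^ m O` -/
def Hom (O : Subalgebra (ZN N) B) (m : ℕ) (θ : B → X) : Prop :=
  ∀ x ∈ dp O.toSubmodule m, ∀ y ∈ dp O.toSubmodule m, θ ((1 + x) * (1 + y)) = θ (1 + x) * θ (1 + y)

theorem Hom.mono (h : Hom O m θ) {m' : ℕ} (hm : m ≤ m') : Hom O m' θ :=
  fun x hx y hy => h x (dp_anti _ hm hx) y (dp_anti _ hm hy)

theorem exists_hom (h : LH N θ) (hO : O.toSubmodule.FG) : ∃ m, 1 ≤ m ∧ Hom O m θ := by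
  obtain ⟨pa, ha, pb, hb, h⟩ := eventually_prod_iff.1 h
  obtain ⟨a, ha⟩ := exists_of_nr ha hO
  obtain ⟨b, hb⟩ := exists_of_nr hb hO
  exact ⟨a + b + 1, by omega, fun x hx y hy => h
    (ha _ (by rw [add_sub_cancel_left]; exact dp_anti _ (by omega) hx))
    (hb _ (by rw [add_sub_cancel_left]; exact dp_anti _ (by omega) hy))⟩

theorem Hom.one (h : Hom O m θ) : θ 1 = 1 := by
  have := h 0 (zero_mem _) 0 (zero_mem _)
  simpa using this

/-- `θ (1 + x l) = θ (1 + l x)` -/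
theorem Hom.swap [FiniteDimensional ℚ B] (hN : 2 ≤ N) (hO : O.toSubmodule.FG) (hm : 1 ≤ m)
    (h : Hom O m θ) {x l : B} (hx : x ∈ dp O.toSubmodule m) (hl : l ∈ dp O.toSubmodule m) :
    θ (1 + x * l) = θ (1 + l * x) := by
  obtain ⟨c, hc, c1, c2⟩ := exists_inv hN hO (dp_anti _ hm hx)
  have hu : 1 + -l ∈ O := add_mem O.one_mem (neg_mem (dp_le _ _ hl))
  have h1 : -(c * x * (1 + -l)) ∈ dp O.toSubmodule m :=
    neg_mem (mul_mem_dp_right O (mul_mem_dp_left O hc hx) hu)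
  have h2 : -((1 + -l) * (c * x)) ∈ dp O.toSubmodule m :=
    neg_mem (mul_mem_dp_left O hu (mul_mem_dp_left O hc hx))
  have e1 : 1 + x * l = (1 + x) * (1 + -(c * x * (1 + -l))) := by
    have : (1 + x) * (c * x * (1 + -l)) = x * (1 + -l) := by rw [← mul_assoc, ← mul_assoc, c1, one_mul]
    rw [mul_add, mul_neg, this]; noncomm_ring
  have e2 : 1 + l * x = (1 + -((1 + -l) * (c * x))) * (1 + x) := by
    have : (1 + -l) * (c * x) * (1 + x) = (1 + -l) * x := by
      rw [mul_assoc, mul_assoc, show x * (1 + x) = (1 + x) * x by noncomm_ring, ← mul_assoc c, c2,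
        one_mul]
    rw [add_mul, neg_mul, this]; noncomm_ring
  have e3 : (1 + -((1 + -l) * (c * x))) * (1 + -l) = (1 + -l) * (1 + -(c * x * (1 + -l))) := by
    noncomm_ring
  have a := h _ h2 _ (neg_mem hl)
  rw [e3, h _ (neg_mem hl) _ h1, mul_comm] at a
  rw [e1, e2, h _ hx _ h1, h _ h2 _ hx, mul_right_cancel a, mul_comm]

theorem binom {h δ : B} {n : ℕ} (hh : h ∈ O) (hδ : δ ∈ dp O.toSubmodule n) (hc : Commute h δ)
    (r : ℕ) : (h + δ) ^ (r + 1) - h ^ (r + 1) - (r + 1 : ℕ) • (h ^ r * δ) ∈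
      dp O.toSubmodule (n + n) := by
  induction r with
  | zero => simp
  | succ r ih =>
    have a := add_mem (mul_mem_dp_right O ih (add_mem hh (dp_le _ _ hδ)))
      (nsmul_mem (mul_mem_dp_left O (O.pow_mem hh r) (mul_mem_dp O hδ hδ)) (r + 1))
    convert a using 1
    have e : h ^ r * δ * h = h ^ (r + 1) * δ := by rw [mul_assoc, ← hc.eq, ← mul_assoc, ← pow_succ]
    rw [pow_succ (h + δ) (r + 1), pow_succ h (r + 1), sub_mul, sub_mul, smul_mul_assoc,
      mul_add (h ^ r * δ), e, mul_add (h ^ (r + 1)), mul_assoc (h ^ r), succ_nsmul _ (r + 1),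
      smul_add]
    abel

theorem pow_sub_one_mem {h : B} (hh : h - 1 ∈ dp O.toSubmodule m) (r : ℕ) :
    h ^ r - 1 ∈ dp O.toSubmodule m := by
  induction r with
  | zero => simp
  | succ r ih =>
    have a := qadd_mem ih hh
    convert a using 1
    rw [pow_succ]; noncomm_ring

omit [Ring B] [Algebra ℚ B] in
/-- division by `r` costs a bounded depth -/
theorem exists_div {V : Type*} [AddCommGroup V] [Module ℚ V] (N : ℕ) (r : ℚ) : ∃ k : ℕ,
    ∀ (Λ : Submodule (ZN N) V) (n : ℕ), ∀ x ∈ dp Λ (n + k), r • x ∈ dp Λ n := by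
  obtain ⟨k, hk⟩ := exists_pow_mul_mem N r
  refine ⟨k, ?_⟩
  rintro Λ n _ ⟨x, hx, rfl⟩
  refine ⟨_, zsmul_mem hk hx, ?_⟩
  rw [smul_smul, smul_smul, pow_add]; congr 1; ring

end ring

section mat
variable {B : Type*} [Ring B] [Algebra ℚ B] {ι : Type} [Fintype ι] [DecidableEq ι]
  {X : Type*} [CommGroup X] {Φ : Matrix ι ι B → X} {O : Subalgebra (ZN N) B} {m : ℕ}








end mat

end R3

open R3




end Crest.Agent.T24.In
end

-- ▼ part T24/InSn_3

/-!
# Row 24, inner step: an archimedean ring seminorm; one Newton iteration for all places (helper3)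
-/

set_option autoImplicit false

namespace Crest.Agent.T24.In.R3

open Filter Finset Topology

variable {N : ℕ} {B : Type*} [Ring B] [Algebra ℚ B]

theorem l1_mul {ι : Type*} [Fintype ι] (a b : Matrix ι ι ℚ) :
    ∑ i, ∑ j, |((a * b) i j : ℝ)| ≤ (∑ i, ∑ j, |(a i j : ℝ)|) * ∑ i, ∑ j, |(b i j : ℝ)| := by
  rw [sum_mul]
  refine sum_le_sum fun i _ => ?_
  calc ∑ j, |((a * b) i j : ℝ)| ≤ ∑ j, ∑ k, |(a i k : ℝ)| * |(b k j : ℝ)| := sum_le_sum fun j _ => by
        rw [Matrix.mul_apply]; push_cast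
        exact (abs_sum_le_sum_abs _ _).trans_eq (sum_congr rfl fun k _ => abs_mul _ _)
    _ ≤ _ := by
        rw [sum_comm, sum_mul]
        refine sum_le_sum fun k _ => ?_
        rw [← mul_sum]
        exact mul_le_mul_of_nonneg_left (single_le_sum (f := fun k => ∑ j, |(b k j : ℝ)|)
          (fun _ _ => sum_nonneg fun _ _ => abs_nonneg _) (mem_univ k)) (abs_nonneg _)

variable (B) in
/-- a ring seminorm that defines the archimedean topology -/
theorem exists_sn [FiniteDimensional ℚ B] : ∃ p : RingSeminorm B,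
    (∀ (q : ℚ) x, p (q • x) = |(q : ℝ)| * p x) ∧ (∀ φ : B →+ ℝ, ∃ C, 0 ≤ C ∧ ∀ x, |φ x| ≤ C * p x) ∧
    ∀ {α : Type*} (l : Filter α) (f : α → B) (a : B),
      (∀ φ : B →+ ℝ, Tendsto (fun i => φ (f i)) l (𝓝 (φ a))) →
        Tendsto (fun i => p (f i - a)) l (𝓝 0) := by
  classical
  let e := Module.finBasis ℚ B
  let M := Algebra.leftMulMatrix e
  let ψ : Fin _ → Fin _ → B →+ ℝ := fun i j => (Rat.castHom ℝ).toAddMonoidHom.comp
    ((Matrix.entryAddMonoidHom ℚ i j).comp M.toRingHom.toAddMonoidHom)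
  have hψ : ∀ i j x, ψ i j x = (M x i j : ℝ) := fun _ _ _ => rfl
  let p : RingSeminorm B :=
    { toFun := fun x => ∑ i, ∑ j, |ψ i j x|
      map_zero' := by simp
      add_le' := fun x y => by
        simp only [map_add, ← sum_add_distrib]
        exact sum_le_sum fun _ _ => sum_le_sum fun _ _ => abs_add_le _ _
      neg' := fun x => by simp
      mul_le' := fun x y => by simp only [hψ, map_mul]; exact l1_mul _ _ }
  have hp : ∀ x, p x = ∑ i, ∑ j, |ψ i j x| := fun _ => rfl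
  refine ⟨p, fun q x => ?_, fun φ => ?_, fun l f a h => ?_⟩
  · simp only [hp, map_rat_smul, Rat.smul_def, abs_mul, mul_sum]
  · refine ⟨∑ i, ∑ j, |(e.repr 1 j : ℝ) * φ (e i)|, by positivity, fun x => ?_⟩
    have h1 : φ x = ∑ i, ∑ j, ψ i j x * ((e.repr 1 j : ℝ) * φ (e i)) := by
      conv_lhs => rw [← e.sum_repr x, map_sum]
      refine sum_congr rfl fun i _ => ?_
      have := congrFun (Algebra.leftMulMatrix_mulVec_repr e x 1) i
      rw [mul_one] at this
      rw [map_rat_smul, ← this, Rat.smul_def, Matrix.mulVec, dotProduct]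
      push_cast
      rw [sum_mul]
      exact sum_congr rfl fun j _ => mul_assoc _ _ _
    rw [h1, sum_mul]
    refine (abs_sum_le_sum_abs _ _).trans (sum_le_sum fun i _ => ?_)
    rw [sum_mul]
    refine (abs_sum_le_sum_abs _ _).trans (sum_le_sum fun j _ => ?_)
    rw [abs_mul, mul_comm]
    refine mul_le_mul_of_nonneg_left ?_ (abs_nonneg _)
    exact (single_le_sum (f := fun j => |ψ i j x|) (fun _ _ => abs_nonneg _) (mem_univ j)).trans
      (single_le_sum (f := fun i => ∑ j, |ψ i j x|) (fun _ _ => by positivity) (mem_univ i))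
  · have := tendsto_finsetSum univ fun i _ => tendsto_finsetSum univ fun j _ =>
      ((h (ψ i j)).sub_const (ψ i j a)).abs
    simpa only [hp, map_sub, sub_self, abs_zero, sum_const_zero] using this

/-- the Newton iteration for the root of order `r + 1` -/
noncomputable def nw (r : ℕ) (g : B) (j : ℕ) : B :=
  Nat.rec 1 (fun _ x => x + ((r + 1 : ℕ) : ℚ)⁻¹ • (g - x ^ (r + 1))) j

theorem nw_succ (r : ℕ) (g : B) (j : ℕ) :
    nw r g (j + 1) = nw r g j + ((r + 1 : ℕ) : ℚ)⁻¹ • (g - nw r g j ^ (r + 1)) := rfl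

theorem nw_comm (r : ℕ) {g y : B} (hy : Commute g y) (j : ℕ) : Commute (nw r g j) y := by
  induction j with
  | zero => exact Commute.one_left y
  | succ j ih => exact ih.add_left ((hy.sub_left (ih.pow_left _)).smul_left _)

theorem nw_comm' (r : ℕ) (g : B) (j : ℕ) :
    Commute (nw r g j) (((r + 1 : ℕ) : ℚ)⁻¹ • (g - nw r g j ^ (r + 1))) :=
  ((nw_comm r (Commute.refl g) j).sub_right ((Commute.refl _).pow_right _)).smul_right _

theorem nw_err (r : ℕ) (g h : B) : g - (h + ((r + 1 : ℕ) : ℚ)⁻¹ • (g - h ^ (r + 1))) ^ (r + 1) =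
    -(((h + ((r + 1 : ℕ) : ℚ)⁻¹ • (g - h ^ (r + 1))) ^ (r + 1) - h ^ (r + 1) -
      (r + 1 : ℕ) • (h ^ r * ((r + 1 : ℕ) : ℚ)⁻¹ • (g - h ^ (r + 1)))) +
      (h ^ r - 1) * (g - h ^ (r + 1))) := by
  rw [mul_smul_comm, ← Nat.cast_smul_eq_nsmul ℚ, smul_smul,
    mul_inv_cancel₀ (Nat.cast_ne_zero.2 r.succ_ne_zero), one_smul, sub_mul, one_mul]
  abel

/-- `N`-adic convergence -/
theorem nw_adic (N r : ℕ) : ∃ k : ℕ, ∀ (O : Subalgebra (ZN N) B) (a : ℕ) (g : B),
    g - 1 ∈ dp O.toSubmodule (a + k) → ∀ j, nw r g j - 1 ∈ dp O.toSubmodule a ∧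
      g - nw r g j ^ (r + 1) ∈ dp O.toSubmodule j := by
  obtain ⟨k, hk⟩ := exists_div (V := B) N ((r + 1 : ℕ) : ℚ)⁻¹
  refine ⟨1 + k + k, fun O a g hg j => ?_⟩
  suffices h : nw r g j - 1 ∈ dp O.toSubmodule (a + 1) ∧
      g - nw r g j ^ (r + 1) ∈ dp O.toSubmodule (a + 1 + k + j + k) from
    ⟨dp_anti _ (by omega) h.1, dp_anti _ (by omega) h.2⟩
  induction j with
  | zero => exact ⟨by simp [nw], by simpa [nw, add_assoc] using hg⟩
  | succ j ih =>
    obtain ⟨h1, h3⟩ := ih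
    have hδ := hk _ _ _ h3
    have hO1 : nw r g j ∈ O := by
      have := add_mem (dp_le _ _ h1) O.one_mem
      rwa [sub_add_cancel] at this
    rw [nw_succ, nw_err, add_sub_right_comm]
    exact ⟨add_mem h1 (dp_anti _ (by omega) hδ), neg_mem (add_mem
      (dp_anti _ (by omega) (binom hO1 hδ (nw_comm' r g j) r))
      (dp_anti _ (by omega) (mul_mem_dp O (pow_sub_one_mem h1 r) h3)))⟩

omit [Algebra ℚ B] in
theorem sn_pow (p : RingSeminorm B) (r : ℕ) : ∃ C : ℝ, 0 ≤ C ∧ ∀ h : B, p (h - 1) ≤ 1 →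
    p (h ^ r - 1) ≤ C * p (h - 1) ∧ ∀ δ : B, p δ ≤ 1 → Commute h δ →
      p ((h + δ) ^ (r + 1) - h ^ (r + 1) - (r + 1 : ℕ) • (h ^ r * δ)) ≤ C * p δ ^ 2 := by
  have hn : ∀ (n : ℕ) (x : B), p (n • x) ≤ n * p x := fun n x => by
    induction n with
    | zero => simp
    | succ n ih => rw [succ_nsmul]; push_cast; linarith [map_add_le_add p (n • x) x]
  induction r with
  | zero => exact ⟨0, le_rfl, fun h _ => ⟨by simp, fun δ _ _ => by simp⟩⟩
  | succ r ih =>
    obtain ⟨C, C0, ih⟩ := ih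
    refine ⟨3 * C + (r + 1) * (C + 1), by positivity, fun h hh => ?_⟩
    obtain ⟨i1, i2⟩ := ih h hh
    have u0 := apply_nonneg p (h - 1)
    have r0 : (0 : ℝ) ≤ r * (C + 1) := by positivity
    refine ⟨?_, fun δ hδ hc => ?_⟩
    · rw [show h ^ (r + 1) - 1 = (h ^ r - 1) * (h - 1) + (h ^ r - 1) + (h - 1) by
        rw [pow_succ]; noncomm_ring]
      have a := map_add_le_add p ((h ^ r - 1) * (h - 1) + (h ^ r - 1)) (h - 1)
      have b := map_add_le_add p ((h ^ r - 1) * (h - 1)) (h ^ r - 1)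
      have c := (map_mul_le_mul p (h ^ r - 1) (h - 1)).trans
        (mul_le_of_le_one_right (apply_nonneg p _) hh)
      nlinarith
    · have i3 := i2 δ hδ hc
      set E := (h + δ) ^ (r + 1) - h ^ (r + 1) - (r + 1 : ℕ) • (h ^ r * δ) with hE
      have e : h ^ r * δ * h = h ^ (r + 1) * δ := by rw [mul_assoc, ← hc.eq, ← mul_assoc, ← pow_succ]
      have e2 : (h + δ) ^ (r + 1 + 1) - h ^ (r + 1 + 1) - (r + 1 + 1 : ℕ) • (h ^ (r + 1) * δ) =
          E * (h + δ) + (r + 1) • (h ^ r * (δ * δ)) := by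
        rw [hE, pow_succ (h + δ) (r + 1), pow_succ h (r + 1), sub_mul, sub_mul, smul_mul_assoc,
          mul_add (h ^ r * δ), e, mul_add (h ^ (r + 1)), mul_assoc (h ^ r), succ_nsmul _ (r + 1),
          smul_add]
        abel
      have E0 := apply_nonneg p E
      have a1 : p (E * (h + δ)) ≤ 3 * p E := by
        rw [show E * (h + δ) = E * (h - 1) + E * δ + E by noncomm_ring]
        linarith [map_add_le_add p (E * (h - 1) + E * δ) E, map_add_le_add p (E * (h - 1)) (E * δ),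
          (map_mul_le_mul p E (h - 1)).trans (mul_le_of_le_one_right E0 hh),
          (map_mul_le_mul p E δ).trans (mul_le_of_le_one_right E0 hδ)]
      have a2 : p (h ^ r * (δ * δ)) ≤ (C + 1) * p δ ^ 2 := by
        rw [show h ^ r * (δ * δ) = (h ^ r - 1) * (δ * δ) + δ * δ by noncomm_ring]
        have b1 := map_mul_le_mul p δ δ
        have b2 := (map_mul_le_mul p (h ^ r - 1) (δ * δ)).trans (mul_le_mul
          (i1.trans (mul_le_of_le_one_right C0 hh)) b1 (apply_nonneg p _) C0)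
        nlinarith [map_add_le_add p ((h ^ r - 1) * (δ * δ)) (δ * δ)]
      have a3 := (hn (r + 1) _).trans (mul_le_mul_of_nonneg_left a2 (Nat.cast_nonneg _))
      rw [e2]
      push_cast at a3
      nlinarith [map_add_le_add p (E * (h + δ)) ((r + 1) • (h ^ r * (δ * δ)))]

/-- archimedean convergence -/
theorem nw_arch (p : RingSeminorm B) (hp : ∀ (q : ℚ) x, p (q • x) = |(q : ℝ)| * p x) (r : ℕ) :
    ∃ η : ℝ, 0 < η ∧ ∀ g : B, p (g - 1) ≤ η → ∀ j, p (nw r g j - 1) ≤ 2 * p (g - 1) ∧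
      p (g - nw r g j ^ (r + 1)) ≤ p (g - 1) * (1 / 2) ^ j := by
  obtain ⟨C, C0, hC⟩ := sn_pow p r
  refine ⟨1 / (8 * (C + 1)), by positivity, fun g hg j => ?_⟩
  have g0 := apply_nonneg p (g - 1)
  rw [le_div_iff₀ (by positivity)] at hg
  suffices h : p (nw r g j - 1) ≤ 2 * (p (g - 1) - p (g - 1) * (1 / 2) ^ j) ∧
      p (g - nw r g j ^ (r + 1)) ≤ p (g - 1) * (1 / 2) ^ j from
    ⟨by linarith [h.1, (by positivity : 0 ≤ p (g - 1) * (1 / 2) ^ j)], h.2⟩
  induction j with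
  | zero => simp [nw]
  | succ j ih =>
    obtain ⟨h1, h2⟩ := ih
    have t0 : 0 ≤ p (g - 1) * (1 / 2) ^ j := by positivity
    have t1 : p (g - 1) * (1 / 2) ^ j ≤ p (g - 1) :=
      mul_le_of_le_one_right g0 (pow_le_one₀ (by norm_num) (by norm_num))
    have e0 := apply_nonneg p (g - nw r g j ^ (r + 1))
    have Cg : 0 ≤ C * p (g - 1) := by positivity
    have hδ : p (((r + 1 : ℕ) : ℚ)⁻¹ • (g - nw r g j ^ (r + 1))) ≤ p (g - nw r g j ^ (r + 1)) := by
      rw [hp]
      refine mul_le_of_le_one_left e0 ?_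
      push_cast
      rw [abs_of_nonneg (by positivity)]
      exact inv_le_one_of_one_le₀ (by linarith [Nat.cast_nonneg (α := ℝ) r])
    obtain ⟨a1, a2⟩ := hC (nw r g j) (by linarith)
    have a3 := a2 _ (by linarith) (nw_comm' r g j)
    have a4 := mul_le_mul_of_nonneg_left (pow_le_pow_left₀ (apply_nonneg p _) hδ 2) C0
    have a5 := (map_mul_le_mul p (nw r g j ^ r - 1) (g - nw r g j ^ (r + 1))).trans
      (mul_le_mul_of_nonneg_right a1 e0)
    have a6 : C * p (nw r g j - 1) ≤ 1 / 4 := by nlinarith [mul_nonneg C0 t0]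
    have a7 : C * p (g - nw r g j ^ (r + 1)) ≤ 1 / 4 := by
      nlinarith [mul_le_mul_of_nonneg_left (h2.trans t1) C0]
    rw [nw_succ, nw_err, add_sub_right_comm, map_neg_eq_map, pow_succ (1 / 2 : ℝ)]
    refine ⟨(map_add_le_add p _ _).trans (by linarith), (map_add_le_add p _ _).trans ?_⟩
    nlinarith [mul_le_mul_of_nonneg_right a6 e0, mul_le_mul_of_nonneg_right a7 e0]

end Crest.Agent.T24.In.R3
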