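import Crest.Agent.T24.HolDef_95
import Crest.Agent.T24.HolD_32
import Crest.Agent.T24.HolCDef_25
import Crest.Agent.T24.InSn_3
import Crest.Agent.T24.InG_71
import Crest.Agent.T24.InGd_71
import Crest.Agent.T24.InCtr_50
import Crest.Agent.T24.InNearG_23
import Crest.Agent.T24.WgWang_25
import Crest.Agent.T24.HolEA_65
import Crest.Agent.T24.InGct_54
import Crest.Agent.T24.Def_26
import Mathlib
import Crest.Agent.T24.HolId_32
import Crest.Agent.T24.InNear_23
import Crest.Agent.T24.WallB_86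
import Crest.Agent.T24.Csa6_50
import Crest.Agent.T24.CsaP_50
import Crest.Agent.T24.OpnB_6
import Crest.Agent.T24.Csa4_50
import Crest.Agent.T24.EmbW_56
import Crest.Agent.T24.LocL_59
import Crest.Agent.T24.TLink_31

-- ▼ part T24/HolCore_95
section

/-!
# Row 24, holonomy step (helper95): the glue
-/

set_option autoImplicit false
set_option linter.unusedSectionVars false

noncomputable section

namespace Crest.Agent.T24.Hol

open Ring Filter Csa Asa In Stab HolD NumberField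

universe u v w

section Words
variable (N : ℕ) (K B : Type*) [Field K] [NumberField K] [StarRing K] [Ring B] [StarRing B]
  [Algebra K B] [StarModule K B] [Algebra ℚ B] [Algebra.IsCentral K B] [IsSimpleRing B]
  [FiniteDimensional K B] (A : Type*) [CommGroup A]

/-- H1: cocycle, antisymmetry and steps -/
def H1 : Prop := ∀ (F : B → A) (Adm : B → Prop) (ψ : K → A), Sys N F Adm ψ →
  ∀ᶠ om in ng N (1 : K), star om * om = 1 → om ≠ 1 →
    HolC.Hyp K N (fun i : Fin 3 => algebraMap K B (om ^ (i : ℕ))) (algebraMap K B (2 - om))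
      (fun g g' y => rr F (star g * g') (star g * y))

variable {B A} in
/-- the germ rules of `φ` -/
structure Ph (φ : B → A) : Prop where
  one : φ 1 = 1
  inv : ∀ᶠ x in ng N (1 : B), ∀ y, x * y = 1 → φ y = (φ x)⁻¹
  st : ∀ᶠ x in ng N (1 : B), φ (star x) = (φ x)⁻¹
  cg : ∀ᶠ p : B × B in ng N (1 : B) ×ˢ ng N (1 : B), φ (star p.1 * p.2 * p.1) = φ p.2
  sc : ∀ᶠ p : K × B in ng N (1 : K) ×ˢ ng N (1 : B), φ (p.1 • p.2) = φ (p.1 • 1) * φ p.2
  re : ∀ᶠ c in ng N (1 : K), star c = c → φ (c • 1) = 1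
  dd : ∀ᶠ p : B × B in ng N (1 : B) ×ˢ ng N (1 : B), φ (p.1 * p.2 * p.1) = φ (p.1 ^ 2) * φ p.2

/-- H7: the end of the argument -/
def H7 : Prop := ∀ n : ℕ, n ≠ 0 → (∀ a : A, a ^ n = 1) → ∀ φ : B → A, Ph N K φ →
  ∃ N' : ℕ, 2 ≤ N' ∧ ng N' (1 : B) ≤ ng N 1 ∧
    ∀ᶠ x in ng N' (1 : B), star (Nrd K x) = Nrd K x → φ x = 1

variable {N K B A}

theorem exists_om (hN : 2 ≤ N) (hne : ∃ c : K, star c ≠ c) {p : K → Prop}
    (hp : ∀ᶠ om in ng N (1 : K), p om) : ∃ om, star om * om = 1 ∧ om ≠ 1 ∧ p om := by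
  obtain ⟨c, hc⟩ := hne
  set θ := c - star c with hθ
  have θ0 : θ ≠ 0 := sub_ne_zero.2 hc.symm
  have sθ : star θ = -θ := by simp [hθ]
  let t : ℕ → K := fun j => ((N : ℚ) / (N + 1)) ^ j • θ
  have ht : Tendsto t atTop (ng N 0) := tendsto_small θ
  have st : ∀ j, star (t j) = -t j := fun j => by
    simp only [t, Algebra.smul_def, eq_ratCast, star_mul', star_ratCast, sθ, mul_neg]
  have h1 : Tendsto (fun j => 1 + t j) atTop (ng N 1) := by simpa using ng_add (ng_const 1) ht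
  have h2 : Tendsto (fun j => 1 - t j) atTop (ng N 1) := by simpa using ng_sub (ng_const 1) ht
  have h3 := ng_mul_one h1 (ng_inv hN h2)
  obtain ⟨j, a, b, d⟩ := ((h3.eventually hp).and ((h1.eventually (ng_isUnit hN)).and
    (h2.eventually (ng_isUnit hN)))).exists
  have b0 := b.ne_zero
  have d0 := d.ne_zero
  rw [inverse_eq_inv'] at a
  refine ⟨_, ?_, fun h => ?_, a⟩
  · rw [star_mul', star_inv₀, star_add, star_sub, star_one, st, sub_neg_eq_add, ← sub_eq_add_neg]
    field_simp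
  · have t0 : t j ≠ 0 := smul_ne_zero (pow_ne_zero _ (by positivity)) θ0
    rw [mul_inv_eq_one₀ d0] at h
    exact t0 (by linear_combination (2 : K)⁻¹ * h)

theorem Sys.dat (hN : 2 ≤ N) {F : B → A} {Adm : B → Prop} {ψ : K → A} (h : Sys N F Adm ψ) :
    ∀ᶠ om in ng N (1 : K), star om * om = 1 → om ≠ 1 → HolD.Dat F Adm N ψ om (om - 1)⁻¹ := by
  have := fdQ K B
  obtain ⟨Z, hZ, V, hV, hO⟩ := h.O
  filter_upwards [hZ, h.S] with om oZ oS o1 o0
  have u0 : (om - 1)⁻¹ * (om - 1) = 1 := inv_mul_cancel₀ (sub_ne_zero.2 o0)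
  have n0 : (om - 1)⁻¹ ≠ 0 := left_ne_zero_of_mul_eq_one u0
  have su : star (om - 1)⁻¹ = -(om * (om - 1)⁻¹) := by
    have h := congrArg star u0
    rw [star_mul', star_sub, star_one] at h
    linear_combination -(om * (om - 1)⁻¹) * h + star (om - 1)⁻¹ * (om - 1)⁻¹ * o1
      - star (om - 1)⁻¹ * u0
  refine ⟨hN, ⟨h.unit _, h.C _ _, h.I _, h.re _ _⟩, o1, u0, ?_, oS, h.S⟩
  have h4 : Tendsto (fun z : B => (-1 : K)⁻¹ • ((om - 1)⁻¹ • z + star ((om - 1)⁻¹ • z)))
      (ng N 1) (ng N 1) := by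
    have h := ng_csmul (om - 1)⁻¹ (tendsto_id (x := ng N (1 : B)))
    have := ng_csmul (-1 : K)⁻¹ (ng_add h (ng_star h))
    rwa [star_smul, star_one, ← add_smul, smul_smul, su, show (-1 : K)⁻¹ *
      ((om - 1)⁻¹ + -(om * (om - 1)⁻¹)) = 1 by rw [inv_neg, inv_one]; linear_combination u0,
      one_smul] at this
  filter_upwards [hV, h4.eventually hV] with z hz hz'
  refine hO _ (om - 1)⁻¹ (-1) n0 ?_ ?_ (by simp) (by simp) hz'
  · rwa [su, neg_neg, mul_div_cancel_right₀ _ n0]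
  · rwa [inv_smul_smul₀ n0]

end Words

section Glob
variable {K : Type v} {B : Type w} [Field K] [NumberField K] [StarRing K] [Ring B] [StarRing B]
  [Algebra K B] [StarModule K B] [Algebra.IsCentral K B] [IsSimpleRing B] [FiniteDimensional K B]
  [Algebra ℚ B] {A : Type} [CommGroup A] {m : ℕ} {f : B → A}

/-- the last link -/
theorem link (hs : Stb K B) (hf : Ch (fun x => x ∈ unitary B ∧ x ∈ Deep K B m) f) {om : K}
    (o1 : star om * om = 1) (o0 : om ≠ 1) (od : algebraMap K B om ∈ Deep K B m) {g : B}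
    (hg : g ∈ unitary B) (gd : g ∈ Deep K B m) (hu : IsUnit (1 - om • g)) :
    phi (FF K f) (om - 1)⁻¹ ((1 - om) • inverse (1 - om • g)) = f g ∧
      star ((1 - om) • inverse (1 - om • g)) = (1 - om) • inverse (1 - om • g) * g := by
  have n0 : om - 1 ≠ 0 := sub_ne_zero.2 o0
  have ou : algebraMap K B om ∈ unitary B := by
    rw [Unitary.mem_iff, star_algebraMap, ← map_mul, ← map_mul, o1, mul_comm, o1]; simp
  have key : ∀ g : B, g ∈ unitary B → g ∈ Deep K B m → IsUnit (1 - om • g) →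
      FF K f ((om - 1)⁻¹ • (1 - om) • inverse (1 - om • g)) = f (algebraMap K B om) * f g := by
    intro g hg gd hu
    rw [Algebra.smul_def om g] at hu ⊢
    have h1 := FF_val hs hf (mul_mem ou hg) (mul_mem od gd) hu
    obtain ⟨ux, ⟨r, p, h⟩, hd⟩ := h1.1
    have e : aa ((-1 : K) • inverse (1 - algebraMap K B om * g)) =
        aa (inverse (1 - algebraMap K B om * g)) := by rw [aa_smul ux (by simp)]; simp
    have h' : Tr K ((-1 : K) • inverse (1 - algebraMap K B om * g)) (-r) p :=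
      ⟨neg_ne_zero.2 h.1, by rw [star_neg, h.2.1], h.2.2.1, by rw [h.2.2.2]; simp⟩
    rw [smul_smul, show (om - 1)⁻¹ * (1 - om) = -1 by field_simp; ring,
      FF_eq hs hf (Stab.isUnit_smul (by simp) ux) h' (e ▸ hd), e, ← FF_eq hs hf ux h hd, h1.2,
      hf.f_mul _ _ ⟨ou, od⟩ ⟨hg, gd⟩]
  have e1 : (1 : B) - om • 1 = (1 - om) • 1 := by rw [sub_smul, one_smul]
  have m0 : 1 - om ≠ 0 := sub_ne_zero.2 o0.symm
  have k1 := key 1 (one_mem _) (one_mem _) (e1 ▸ Stab.isUnit_smul m0 isUnit_one)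
  rw [e1, Stab.inv_smul m0 isUnit_one, smul_inv_smul₀ m0, inverse_one, f_one hf, mul_one] at k1
  refine ⟨by rw [phi, key g hg gd hu, k1, mul_div_cancel_left], ?_⟩
  have e2 := (Unitary.mem_iff.1 hg).2
  have e3 := mul_inverse_cancel _ hu.star
  have e4 := inverse_mul_cancel _ hu
  rw [star_smul, ← Ring.inverse_star, star_sub (1 : B), star_one, star_smul]
  rw [star_sub, star_one, star_smul] at e3
  have e5 : (1 - om • g) * inverse (1 - star om • star g) = -(om • g) := by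
    have : (1 : B) - om • g = -(om • g) * (1 - star om • star g) := by
      rw [neg_mul, mul_sub, mul_one, smul_mul_smul_comm, e2, mul_comm om, o1, one_smul, neg_sub]
    rw [this, mul_assoc, e3, mul_one]
  have e6 : inverse (1 - star om • star g) = -(om • (inverse (1 - om • g) * g)) := by
    rw [← mul_smul_comm, ← mul_neg, ← e5, ← mul_assoc, e4, one_mul]
  rw [e6, smul_neg, smul_smul, ← neg_smul, smul_mul_assoc, star_sub, star_one]
  congr 1
  linear_combination o1

theorem hol_of (hne : ∃ c : K, star c ≠ c) (hd : 3 ≤ deg K B) {N n : ℕ} (hN : 2 ≤ N) (hn : n ≠ 0)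
    (hA : ∀ a : A, a ^ n = 1) (hs : Stb K B) (hL : LH1 N K B)
    (hD : ∀ᶠ u in ng N (1 : B), u ∈ Deep K B m) (h1 : H1 N K B A) (h5 : HolC.ConstStmt.{v, w, 0})
    (h7 : H7 N K B A) (hf : Ch (fun x => x ∈ unitary B ∧ x ∈ Deep K B m) f) :
    ∃ N : ℕ, 2 ≤ N ∧ ∀ᶠ x in ng N (1 : B), x ∈ unitary B → Nrd K x = 1 → f x = 1 := by
  have := fdQ K B
  have S := sys hN hs hL.lh hD hf
  have alg : Tendsto (algebraMap K B) (ng N 1) (ng N 1) := by
    simpa using ng_map (N := N) (algebraMap K B).toAddMonoidHom 1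
  obtain ⟨om, o1, o0, ⟨a1, a2⟩, od⟩ :=
    exists_om hN hne (((S.dat hN).and (h1 _ _ _ S)).and (alg.eventually hD))
  have D := a1 o1 o0
  have c := h5 K B hne hd N hN A _ _ _ (a2 o1 o0)
  simp only [Fin.val_one, pow_one, Fin.val_zero, pow_zero, map_one, star_one, one_mul] at c
  obtain ⟨N', hN', hdv, H⟩ := h7 n hn hA _ ⟨HolD.Dat.one, D.inv, D.st, D.cg, D.sc, D.re,
    D.dd c (lh_of_nrd fun V hV => (hL V hV).mono fun _ hx hs =>
      let ⟨p, hp, _, e⟩ := hx hs; ⟨p, hp, e⟩)⟩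
  have m0 : 1 - om ≠ 0 := sub_ne_zero.2 o0.symm
  have t1 : Tendsto (fun g : B => (1 - om)⁻¹ • (1 - om • g)) (ng N' 1) (ng N' 1) := by
    have := ng_csmul (1 - om)⁻¹ (ng_sub (ng_const (N := N') (1 : B))
      (ng_csmul om (tendsto_id (x := ng N' (1 : B)))))
    rwa [show (1 : B) - om • 1 = (1 - om) • 1 by rw [sub_smul, one_smul], inv_smul_smul₀ m0] at this
  refine ⟨N', hN', ?_⟩
  filter_upwards [(ng_inv hN' t1).eventually H, t1.eventually (ng_isUnit hN'),
    hdv hD] with g k hu gd hg g1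
  have hu' : IsUnit (1 - om • g) := by
    have := Stab.isUnit_smul m0 hu
    rwa [smul_inv_smul₀ m0] at this
  rw [Stab.inv_smul (inv_ne_zero m0) hu', inv_inv] at k
  obtain ⟨l1, l2⟩ := link hs hf o1 o0 od hg gd hu'
  rw [← l1, k (by rw [← Nrd_star, l2, map_mul, g1, mul_one])]

end Glob

end Crest.Agent.T24.Hol
end
end

-- ▼ part T24/InRootG_3
section

/-!
# Row 24, inner step: approximate roots for the germ filter (helper3)
-/

set_option autoImplicit false

namespace Crest.Agent.T24.In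

open Filter Topology R3

universe v

/-- ROOT, germ form -/
theorem rootG : RootG.{v} := by
  intro N _ B _ _ _ r hr V hV
  obtain ⟨r, rfl⟩ := Nat.exists_eq_succ_of_ne_zero hr
  obtain ⟨O, hO⟩ := exists_od N B
  obtain ⟨p, hp, hφ, hl⟩ := exists_sn B
  have back : ∀ {α : Type v} (l : Filter α) (f : α → B) (a : B),
      Tendsto (fun i => p (f i - a)) l (𝓝 0) → Tendsto f l (na a) := fun l f a h =>
    tendsto_na.2 fun φ => by
      obtain ⟨C, -, hC⟩ := hφ φ
      rw [tendsto_iff_norm_sub_tendsto_zero]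
      refine squeeze_zero (fun _ => norm_nonneg _) (fun i => ?_) (by simpa using h.const_mul C)
      rw [← map_sub]; exact hC _
  obtain ⟨V₁, h₁, V₂, h₂, rfl⟩ := mem_inf_iff.1 hV
  obtain ⟨a, ha⟩ := exists_of_nr (p := (· ∈ V₁)) h₁ hO.fg
  obtain ⟨T, hT, hT'⟩ := mem_comap.1
    (back (comap (fun x => p (x - 1)) (𝓝 0)) id 1 tendsto_comap h₂)
  obtain ⟨ε, ε0, hε⟩ := Metric.mem_nhds_iff.1 hT
  obtain ⟨k, hk⟩ := nw_adic (B := B) N r
  obtain ⟨η, η0, hη⟩ := nw_arch p hp r
  have ev := (hl (na (1 : B)) id 1 (tendsto_na.1 tendsto_id)).eventually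
    (gt_mem_nhds (lt_min η0 (half_pos ε0)))
  filter_upwards [(hO.ev_nr 1 (a + k)).filter_mono (ng_le_nr _), ev.filter_mono (ng_le_na _)]
    with g g1 g2
  rw [id, lt_min_iff] at g2
  refine ⟨nw r g, fun j => ⟨⟨ha _ (hk O a g g1 j).1, hT' (hε ?_)⟩, fun y hy => nw_comm r hy j⟩,
    tendsto_ng.2 ⟨?_, ?_⟩⟩
  · rw [mem_ball_zero_iff, Real.norm_of_nonneg (apply_nonneg p _)]
    linarith [(hη g g2.1.le j).1]
  · rw [hO.tendsto_nr]
    intro m
    filter_upwards [eventually_ge_atTop m] with j hj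
    rw [← neg_sub]
    exact neg_mem (dp_anti _ hj (hk O a g g1 j).2)
  · refine tendsto_na.2 fun φ => ?_
    obtain ⟨C, C0, hC⟩ := hφ φ
    rw [tendsto_iff_norm_sub_tendsto_zero]
    refine squeeze_zero (fun _ => norm_nonneg _) (fun j => ?_) (by
      simpa only [mul_zero] using (tendsto_pow_atTop_nhds_zero_of_lt_one (r := (1 / 2 : ℝ))
        (by norm_num) (by norm_num)).const_mul (C * p (g - 1)))
    rw [← map_sub, mul_assoc]
    exact (hC _).trans (mul_le_mul_of_nonneg_left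
      ((map_sub_rev p _ _).trans_le (hη g g2.1.le j).2) C0)

end Crest.Agent.T24.In
end

-- ▼ part T24/InW_71
section

/-!
# Row 24, inner step (helper71): the relative theorem of Wang for germs of characters
-/

set_option autoImplicit false
set_option linter.unusedSectionVars false

namespace Crest.Agent.T24.In

open Filter Module Polynomial NumberField
open scoped TensorProduct IntermediateField
open Crest.Agent.T24.Csa Crest.Agent.T24.Hsm Crest.Agent.T24.Asa

universe u v w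

section Basic

variable (N : ℕ) (K : Type*) [Field K] [NumberField K] (B : Type*) [Ring B] [Algebra K B]
  [Algebra ℚ B] [Algebra.IsCentral K B] [IsSimpleRing B] [FiniteDimensional K B]
  (X : Type*) [CommGroup X]

/-- germs of characters are trivial on `SL₁` -/
def GW : Prop := ∀ θ : B → X, LG N θ → ∀ᶠ x in ng N (1 : B), Nrd K x = 1 → θ x = 1

variable {N K B X}

theorem GW.of_equiv {C : Type*} [Ring C] [Algebra K C] [Algebra ℚ C] [Algebra.IsCentral K C]
    [IsSimpleRing C] [FiniteDimensional K C] (e : B ≃ₐ[K] C) (h : GW N K C X) : GW N K B X := by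
  intro θ hθ
  have := fdQ K B
  have := fdQ K C
  filter_upwards [(ng_hom (e : B →+* C)).eventually (h _ (hθ.comp_hom (e.symm : C →+* B)))]
    with x hx h1
  simpa using hx ((Wg.Nrd_equiv e x).trans h1)

theorem GW.matrix (hN : 2 ≤ N) {ι : Type*} [Fintype ι] [DecidableEq ι] [Nonempty ι]
    (h : GW N K B X) : GW N K (Matrix ι ι B) X := by
  classical
  intro θ hθ
  have := fdQ K B
  obtain ⟨i₀⟩ : Nonempty ι := inferInstance
  let ν : Matrix ι ι B → Kˣ := fun A => if h : Nrd K A = 0 then 1 else Units.mk0 _ h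
  have hν : ∀ A, Nrd K A ≠ 0 → (ν A : K) = Nrd K A := fun A hA => by simp [ν, hA]
  have hu : ∀ᶠ A in ng N (1 : Matrix ι ι B), Nrd K A ≠ 0 :=
    (ng_isUnit hN).mono fun A hA => (isUnit_iff_Nrd A).1 hA
  have hΦ : LG N fun A => (θ A, ν A) := by
    filter_upwards [hθ, hu.prod_mk hu] with p h1 h2
    refine Prod.ext h1 (Units.ext ?_)
    rw [hν _ (by rw [map_mul]; exact mul_ne_zero h2.1 h2.2), map_mul, ← hν _ h2.1, ← hν _ h2.2]
    rfl
  filter_upwards [gRed hN ι _ hΦ i₀ _ ((h _ (hθ.comp (ng_En i₀) (En_mul i₀))).and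
    ((ng_En i₀).eventually hu)), hu] with A ⟨d, ⟨h1, h2⟩, h3⟩ h4 h5
  obtain ⟨h6, h7⟩ := Prod.ext_iff.1 h3
  have h8 : (ν A : K) = ν (En i₀ d) := congrArg _ h7
  rw [hν _ h4, hν _ h2, h5, En, Nrd_diagonal, Finset.prod_eq_single i₀ (fun j _ hj => by simp [hj])
    (by simp), Function.update_self] at h8
  exact h6.trans (h1 h8.symm)

omit [Algebra ℚ B] in
theorem SplN.bc (h : SplN N K B) (L : Type*) [Field L] [NumberField L] [Algebra K L] :
    SplN N L (L ⊗[K] B) := fun w hw => by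
  rw [deg_eq L (B := L ⊗[K] B) (finrank_baseChange.trans (finrank_eq_deg_sq K B))]
  exact (Spl.up w (h (below K w) fun hh => hw (by simpa using Ideal.mem_comap.1 hh))).bc

omit [Algebra ℚ B] in
theorem SplN.cz (h : SplN N K B) {E : Type*} [Field E] [NumberField E] [Algebra K E]
    (i : E →ₐ[K] B) : SplN N E (Cz i) := fun w hw =>
  spl_Cz i _ (Spl.up w (h (below K w) fun hh => hw (by simpa using Ideal.mem_comap.1 hh)))

end Basic

section Main

variable {N : ℕ} {X : Type w} [CommGroup X] {F : Type u} [Field F] [NumberField F]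

/-- Hasse–Schilling–Maass near `1` -/
theorem hsG (hN : 2 ≤ N) {B : Type v} [Ring B] [Algebra F B] [Algebra ℚ B] [Algebra.IsCentral F B]
    [IsSimpleRing B] [FiniteDimensional F B] (hS : SplN N F B) {U : Set B} (hU : U ∈ ng N (1 : B)) :
    ∀ᶠ e in ng N (1 : F), ∃ c ∈ U, Nrd F c = e := by
  have := fdQ F B
  obtain ⟨y₀, hy₀⟩ := exists_separable F B
  obtain ⟨t, ht⟩ : ∃ t, (rch F y₀).eval t ≠ 0 := by
    by_contra h
    push Not at h
    exact (rch_monic F y₀).ne_zero (Polynomial.funext fun t => by simp [h t])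
  obtain ⟨z, hz⟩ := (isUnit_iff_Nrd (K := F) (algebraMap F B t - y₀)).2 (by rwa [← eval_rch])
  have h1 : Tendsto (fun y => (algebraMap F B t - y) * (z⁻¹ : Bˣ)) (ng N y₀) (ng N 1) := by
    have := ng_mul (ng_sub (ng_const (algebraMap F B t)) (tendsto_id (x := ng N y₀)))
      (ng_const ((z⁻¹ : Bˣ) : B))
    rwa [← hz, Units.mul_inv] at this
  obtain ⟨V, hV, H⟩ := nearG N hN F B hS y₀ hy₀ _ (h1 hU)
  have h2 : Tendsto (fun e : F => (e - 1) * (rch F y₀).eval t) (ng N 1) (ng N 0) := by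
    simpa using ng_mul (ng_sub (tendsto_id (x := ng N (1 : F))) (ng_const 1))
      (ng_const ((rch F y₀).eval t))
  filter_upwards [h2 hV] with e he
  obtain ⟨y, hy, e1⟩ := H (rch F y₀ + C ((e - 1) * (rch F y₀).eval t))
    ((rch_monic F y₀).add_of_left (degree_C_le.trans_lt
      (natDegree_pos_iff_degree_pos.1 (by rw [rch_natDegree]; exact deg_pos F B))))
    (by rw [natDegree_add_C, rch_natDegree]) fun i => by
      rw [coeff_add, add_sub_cancel_left, coeff_C]
      split_ifs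
      exacts [he, self_of_ng hV]
  refine ⟨_, hy, mul_right_cancel₀ ht ?_⟩
  rw [eval_rch, ← map_mul, ← hz, Units.inv_mul_cancel_right, ← eval_rch, e1, hz, ← eval_rch]
  simp [sub_mul]

theorem h90 {L E : Type*} [Field L] [Field E] [Algebra L E] [FiniteDimensional L E] [IsGalois L E]
    {σ : E ≃ₐ[L] E} (hσ : ∀ x, x ∈ Subgroup.zpowers σ) {u : E} (hu : Algebra.norm L u = 1) :
    u * σ (∑ i ∈ Finset.range (orderOf σ), ∏ j ∈ Finset.range i, (σ ^ j) u) =
      ∑ i ∈ Finset.range (orderOf σ), ∏ j ∈ Finset.range i, (σ ^ j) u := by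
  classical
  let a : ℕ → E := fun i => ∏ j ∈ Finset.range i, (σ ^ j) u
  have han : a (orderOf σ) = 1 := by
    rw [← map_one (algebraMap L E), ← hu, Algebra.norm_eq_prod_automorphisms,
      ← IsCyclic.image_range_orderOf hσ, Finset.prod_image]
    intro i hi j hj h
    exact pow_injOn_Iio_orderOf (by simpa using hi) (by simpa using hj) h
  have h1 : ∀ i, u * σ (a i) = a (i + 1) := fun i => by
    simp only [a, Finset.prod_range_succ', map_prod, pow_succ', AlgEquiv.mul_apply,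
      pow_zero, AlgEquiv.one_apply]
    ring
  have h2 := (Finset.sum_range_succ a (orderOf σ)).symm.trans (Finset.sum_range_succ' _ _)
  rw [han, show a 0 = 1 from Finset.prod_range_zero _, add_left_inj] at h2
  rw [map_sum, Finset.mul_sum]
  exact (Finset.sum_congr rfl fun i _ => h1 i).trans h2.symm

variable (N X) in
/-- the theorem below dimension `d` -/
def WLt (d : ℕ) : Prop :=
  ∀ (F : Type u) (B : Type v) [Field F] [NumberField F] [Ring B] [Algebra F B] [Algebra ℚ B]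
    [Algebra.IsCentral F B] [IsSimpleRing B] [FiniteDimensional F B], SplN N F B →
    finrank F B < d → GW N F B X

section
variable {B : Type v} [Ring B] [Algebra F B] [Algebra ℚ B] [Algebra.IsCentral F B]
  [IsSimpleRing B] [FiniteDimensional F B]

theorem cycG (hN : 2 ≤ N) (hS : SplN N F B) (ih : WLt.{u, v} N X (finrank F B)) {M : Type u}
    [Field M] [Algebra F M] [FiniteDimensional F M] [IsGalois F M] [IsCyclic (M ≃ₐ[F] M)]
    (hM : finrank F M ≠ 1) (j : M →ₐ[F] B) {θ : B → X} (hθ : LG N θ) :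
    ∀ᶠ x in ng N (1 : B), x ∈ Cz j → Nrd F x = 1 → θ x = 1 := by
  have := NumberField.of_module_finite F M
  have := fdQ F B
  have := fdQ M (Cz j)
  have hlt : finrank M (Cz j) < finrank F B := by
    have h1 : 1 < finrank F M := lt_of_le_of_ne finrank_pos hM.symm
    have h2 : 0 < finrank M (Cz j) := finrank_pos
    rw [← Cz.finrank_mul j, ← finrank_mul_finrank F M (Cz j)]
    nlinarith [Nat.mul_pos (zero_lt_one.trans h1) h2]
  obtain ⟨σ, hσ⟩ := IsCyclic.exists_generator (α := M ≃ₐ[F] M)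
  obtain ⟨s, hs⟩ := skolemNoether j (j.comp (σ : M →ₐ[F] M))
  have hs' : ∀ a, j (σ a) = s * j a * ↑s⁻¹ := hs
  let γ : Cz j →+* Cz j :=
    { toFun := fun y => ⟨s * y * ↑s⁻¹, Cz.mem_iff.2 fun a => by
        rw [← σ.apply_symm_apply a, hs']
        simp only [mul_assoc, Units.inv_mul_cancel_left]
        rw [← mul_assoc (j _), Cz.mem_iff.1 y.2, mul_assoc]⟩
      map_one' := Subtype.ext (by simp)
      map_mul' := fun a b => Subtype.ext (by simp [mul_assoc])
      map_zero' := Subtype.ext (by simp)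
      map_add' := fun a b => Subtype.ext (by simp [mul_add, add_mul]) }
  have hγ : ∀ y : Cz j, Nrd M (γ y) = σ (Nrd M y) :=
    Nrd_map (σ : M →+* M) γ (fun c => Subtype.ext (hs' c).symm) rfl
  let ι : Cz j →+* B := (Cz j).val
  have hθ' := hθ.comp_hom ι
  have t1 := tendsto_fst (f := ng N (1 : Cz j)) (g := ng N (1 : Cz j))
  have t2 := tendsto_snd (f := ng N (1 : Cz j)) (g := ng N (1 : Cz j))
  have t3 := (ng_hom γ).comp t2
  have t4 := ng_mul_one (ng_mul_one t1 t3) (ng_inv hN t2)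
  obtain ⟨W, hW, U, hU, H⟩ := eventually_prod_iff.1
    ((t4.eventually (ih M (Cz j) (hS.cz j) hlt _ hθ')).and <| (hθ'.mul t4 t2).and <|
      (hθ'.mul t1 t3).and <| (((ng_hom ι).comp t2).eventually (hθ.inv hN s.inv_mul)).and
        (t2.eventually (ng_isUnit hN)))
  have hq : (orderOf σ : M) ≠ 0 := by exact_mod_cast (orderOf_pos σ).ne'
  have t5 : Tendsto (fun u : M => (orderOf σ : M)⁻¹ *
      ∑ i ∈ Finset.range (orderOf σ), ∏ j ∈ Finset.range i, (σ ^ j) u) (ng N 1) (ng N 1) := by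
    have := ng_mul (ng_const (orderOf σ : M)⁻¹) (ng_sum (Finset.range (orderOf σ)) fun i _ =>
      ng_prod (Finset.range i) fun j _ => ng_hom (N := N) ((σ ^ j : M ≃ₐ[F] M) : M →+* M))
    simpa [hq] using this
  have key : ∀ᶠ g : Cz j in ng N (1 : Cz j), Nrd F (g : B) = 1 → θ g = 1 := by
    filter_upwards [hW, (t5.comp (ng_Nrd_one M)).eventually (hsG hN (hS.cz j) hU)]
      with g hg ⟨c, hc, e⟩ h1
    obtain ⟨k1, k2, k3, k4, k5⟩ := H hg hc
    simp only [Function.comp] at k1 k2 k3 k4 k5 e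
    have e2 : Nrd M g * σ (Nrd M c) = Nrd M c := by
      rw [e, map_mul, mul_left_comm, h90 hσ (by rw [← Cz.Nrd_coe, h1]), map_inv₀, map_natCast]
    rw [k1 (by rw [map_mul, map_mul, hγ, e2, ← map_mul, Ring.mul_inverse_cancel _ k5, map_one]),
      one_mul, Ring.inverse_mul_cancel_right _ _ k5, k3] at k2
    exact mul_eq_right.1 (k2.trans k4.symm)
  have := (ng_of_inj ι.toAddMonoidHom Subtype.val_injective
    (tendsto_comap (f := fun x => ι.toAddMonoidHom (id x)))).eventually key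
  filter_upwards [eventually_comap.1 this] with x hx h1
  exact hx ⟨x, h1⟩ rfl

theorem pG [IsDomain B] (hN : 2 ≤ N) (hS : SplN N F B) (ih : WLt.{u, v} N X (finrank F B))
    {M : Type u} [Field M] [Algebra F M] [FiniteDimensional F M] [IsGalois F M] {p : ℕ}
    [Fact p.Prime] (hp : IsPGroup p (M ≃ₐ[F] M)) {y : B} (hy : ∀ c, algebraMap F B c ≠ y)
    (hspl : ((minpoly F y).map (algebraMap F M)).Splits) {θ : B → X} (hθ : LG N θ) :
    ∀ᶠ x in ng N (1 : B), Commute y x → Nrd F x = 1 → θ x = 1 := by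
  have hint : IsIntegral F y := Algebra.IsIntegral.isIntegral _
  obtain ⟨y', hy'⟩ := hspl.exists_eval_eq_zero (by
    rw [degree_map]; exact (minpoly.degree_pos hint).ne')
  rw [eval_map_algebraMap] at hy'
  have hmin : minpoly F y = minpoly F y' :=
    minpoly.eq_of_irreducible_of_monic (minpoly.irreducible hint) hy' (minpoly.monic hint)
  have hbot : y' ∉ (⊥ : IntermediateField F M) := by
    rintro ⟨c, rfl⟩
    have h2 := minpoly.aeval F y
    rw [hmin, show (Algebra.ofId F M).toRingHom c = algebraMap F M c from rfl,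
      minpoly.eq_X_sub_C, map_sub, aeval_X, aeval_C, sub_eq_zero] at h2
    exact hy c h2.symm
  obtain ⟨E, hle, _, _, hE⟩ := Wg.exists_cyclic hp hbot
  have hi : IsIntegral F y' := Algebra.IsIntegral.isIntegral _
  let pb := IntermediateField.adjoin.powerBasis hi
  have hpb : aeval y (minpoly F pb.gen) = 0 := by
    rw [IntermediateField.adjoin.powerBasis_gen, IntermediateField.minpoly_gen, ← hmin]
    exact minpoly.aeval F _
  filter_upwards [cycG hN hS ih hE ((pb.lift y hpb).comp (IntermediateField.inclusion hle)) hθ]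
    with x hx hc
  refine hx (Cz.mem_iff.2 fun a => ?_)
  obtain ⟨q, hq⟩ := pb.exists_eq_aeval' (IntermediateField.inclusion hle a)
  rw [AlgHom.comp_apply, hq, PowerBasis.lift_aeval]
  exact (Wg.commute_aeval hc q).eq

theorem gw_wedd (hN : 2 ≤ N) (hS : SplN N F B)
    (h : ∀ (D : Type v) [DivisionRing D] [Algebra F D] [Algebra ℚ D] [Algebra.IsCentral F D]
      [FiniteDimensional F D], SplN N F D → finrank F D ≤ finrank F B →
      (finrank F D = finrank F B → IsDomain B) → GW N F D X) : GW N F B X := by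
  obtain ⟨r, e, D, _, _, _, _, hr, he, hre, hD, ⟨φ⟩⟩ :=
    exists_wedderburn F B (finrank_eq_deg_sq F B)
  have : NeZero r := ⟨hr.ne'⟩
  let _ : Algebra ℚ D := Algebra.compHom D (algebraMap ℚ F)
  refine GW.of_equiv φ (GW.matrix hN (h D (fun v hv => ?_) ?_ fun h1 => ?_))
  · rw [deg_eq F hD]
    exact Spl.corner hr (hre ▸ (hS v hv).of_hom φ.symm.toAlgHom)
  · rw [hD, finrank_eq_deg_sq F B, hre]
    exact Nat.pow_le_pow_left (Nat.le_mul_of_pos_left _ hr) 2
  · rw [hD, finrank_eq_deg_sq F B, hre, Nat.pow_left_inj two_ne_zero] at h1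
    obtain rfl : r = 1 := Nat.eq_of_mul_eq_mul_right he (by rw [← h1, one_mul])
    let ψ : Matrix (Fin 1) (Fin 1) D →+* D :=
      { toFun := fun A => A 0 0
        map_one' := rfl
        map_mul' := fun A B => by simp [Matrix.mul_apply]
        map_zero' := rfl
        map_add' := fun _ _ => rfl }
    exact (ψ.comp (φ : B →+* _)).injective.isDomain _

end

theorem exists_reg (K L D : Type*) [Field K] [Field L] [Algebra K L] [FiniteDimensional K L]
    [Ring D] [Algebra K D] :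
    ∃ φ : L ⊗[K] D →ₐ[K] Matrix (Fin (finrank K L)) (Fin (finrank K L)) D,
      ∀ x : D, φ (1 ⊗ₜ x) = Matrix.diagonal fun _ => x :=
  ⟨Algebra.TensorProduct.lift
    ((Algebra.ofId K D).mapMatrix.comp (Algebra.leftMulMatrix (Module.finBasis K L)))
    (Matrix.scalarAlgHom _ K) fun a x => by
      change _ * Matrix.diagonal (fun _ => x) = Matrix.diagonal (fun _ => x) * _
      ext i j
      simp [Algebra.commutes], fun x => by simp⟩

theorem transG (hN : 2 ≤ N) {D C : Type*} [Ring D] [Algebra F D] [Algebra ℚ D]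
    [Algebra.IsCentral F D] [IsSimpleRing D] [FiniteDimensional F D] (L : Type*) [Field L]
    [NumberField L] [Ring C] [Algebra L C] [Algebra ℚ C] [Algebra.IsCentral L C] [IsSimpleRing C]
    [FiniteDimensional L C] {k : ℕ} (φ : C →+* Matrix (Fin k) (Fin k) D) (ι : D →+* C)
    (hφ : ∀ x, φ (ι x) = Matrix.diagonal fun _ => x) (hι : ∀ x, Nrd F x = 1 → Nrd L (ι x) = 1)
    (y : D) (H : ∀ θ : C → X, LG N θ →
      ∀ᶠ x in ng N (1 : C), Commute (ι y) x → Nrd L x = 1 → θ x = 1) {θ : D → X} (hθ : LG N θ) :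
    ∀ᶠ x in ng N (1 : D), Commute y x → Nrd F x = 1 → θ x ^ k = 1 := by
  have := fdQ F D
  have := fdQ L C
  obtain ⟨Θ, hΘ, hΘ'⟩ := gDet hN hθ (Fin k)
  filter_upwards [(ng_hom ι).eventually (H _ (hΘ.comp_hom φ)),
    (ng_pi (a := 1) fun _ => tendsto_id (x := ng N (1 : D))).eventually hΘ'] with x h1 h2 h3 h4
  have h5 := h1 (h3.map ι) (hι x h4)
  rw [hφ] at h5
  simpa using h2.symm.trans h5

section
variable {D : Type (max u v)} [DivisionRing D] [Algebra F D] [Algebra ℚ D]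
  [Algebra.IsCentral F D] [FiniteDimensional F D]

/-- one torus -/
theorem torusG (hN : 2 ≤ N) (hS : SplN N F D) (ih : WLt.{u, max u v} N X (finrank F D)) {n : ℕ}
    (hn : n ≠ 0) (hX : ∀ a : X, a ^ n = 1) {y : D} (hy : ∀ c, algebraMap F D c ≠ y) {θ : D → X}
    (hθ : LG N θ) : ∀ᶠ x in ng N (1 : D), Commute y x → Nrd F x = 1 → θ x = 1 := by
  have := fdQ F D
  have key : ∀ p : ℕ, p.Prime → ∃ m : ℕ, ¬ p ∣ m ∧
      ∀ᶠ x in ng N (1 : D), Commute y x → Nrd F x = 1 → θ x ^ m = 1 := by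
    intro p hp
    have := Fact.mk hp
    have hint : IsIntegral F y := Algebra.IsIntegral.isIntegral y
    let M := (minpoly F y).SplittingField
    have : IsGalois F M := IsGalois.of_separable_splitting_field
      (minpoly.irreducible hint).separable
    obtain ⟨P⟩ : Nonempty (Sylow p (M ≃ₐ[F] M)) := inferInstance
    let L := IntermediateField.fixedField (P : Subgroup (M ≃ₐ[F] M))
    have := NumberField.of_module_finite F L
    have hm : finrank F L = (P : Subgroup (M ≃ₐ[F] M)).index := by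
      have a1 := finrank_mul_finrank F L M
      rw [IntermediateField.finrank_fixedField_eq_card, ← IsGalois.card_aut_eq_finrank F M,
        ← (P : Subgroup (M ≃ₐ[F] M)).index_mul_card] at a1
      exact Nat.eq_of_mul_eq_mul_right Nat.card_pos a1
    refine ⟨finrank F L, hm ▸ P.not_dvd_index, ?_⟩
    have hdim : finrank L (L ⊗[F] D) = finrank F D := finrank_baseChange
    obtain ⟨φ, hφ⟩ := exists_reg F L D
    let ι : D →ₐ[F] L ⊗[F] D := Algebra.TensorProduct.includeRight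
    refine transG hN L φ.toRingHom ι.toRingHom hφ
      (fun x hx => (Wg.Nrd_bc L x).trans (by rw [hx, map_one])) y (fun θ' hθ' => ?_) hθ
    by_cases hdom : IsDomain (L ⊗[F] D)
    swap
    · refine (gw_wedd hN (hS.bc L) (fun E _ _ _ _ _ h1 h2 h3 => ih L E h1 ?_) _ hθ').mono
        fun _ h _ => h
      exact hdim ▸ lt_of_le_of_ne h2 fun h => hdom (h3 h)
    have hdvd : minpoly L (ι y) ∣ (minpoly F y).map (algebraMap F L) :=
      minpoly.dvd L _ (by rw [aeval_map_algebraMap, aeval_algHom_apply, minpoly.aeval, map_zero])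
    refine pG hN (hS.bc L) (by rw [hdim]; exact ih)
      (P.isPGroup'.of_equiv (IntermediateField.subgroupEquivAlgEquiv _)) (y := ι y)
      (fun c h2 => ?_) ?_ hθ'
    · have : y ∈ Subalgebra.center F D := Subalgebra.mem_center_iff.2 fun z =>
        ι.toRingHom.injective (by
          change ι (z * y) = ι (y * z)
          rw [map_mul, map_mul, ← h2, Algebra.commutes])
      obtain ⟨a, ha⟩ := (Algebra.IsCentral.mem_center_iff F).1 this
      exact hy a ha.symm
    · refine (SplittingField.splits (minpoly F y)).of_dvd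
        (map_ne_zero (minpoly.ne_zero hint)) ?_
      rw [IsScalarTower.algebraMap_eq F L M, ← Polynomial.map_map]
      exact Polynomial.map_dvd _ hdvd
  choose! m hm1 hm2 using key
  filter_upwards [(eventually_all_finset n.primeFactors).2 fun p hp =>
    hm2 p (Nat.prime_of_mem_primeFactors hp)] with x hx h1 h2
  rw [← orderOf_eq_one_iff]
  by_contra hne
  obtain ⟨p, hp, hdvd⟩ := Nat.exists_prime_and_dvd hne
  exact hm1 p hp (hdvd.trans (orderOf_dvd_of_pow_eq_one (hx p (Nat.mem_primeFactors.2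
    ⟨hp, hdvd.trans (orderOf_dvd_of_pow_eq_one (hX _)), hn⟩) h1 h2)))

theorem divG (hN : 2 ≤ N) (hS : SplN N F D) (ih : WLt.{u, max u v} N X (finrank F D)) {n : ℕ}
    (hn : n ≠ 0) (hX : ∀ a : X, a ^ n = 1) : GW N F D X := by
  intro θ hθ
  have := fdQ F D
  by_cases h1 : finrank F D = 1
  · refine .of_forall fun x hx => ?_
    obtain ⟨c, rfl⟩ := (Algebra.finrank_eq_one_iff_bijective_algebraMap.1 h1).2 x
    rw [Nrd_algebraMap, deg_eq F (d := 1) h1, pow_one] at hx
    rw [hx, map_one, hθ.one]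
  have hd := (deg_pos F D).ne'
  obtain ⟨W, hW, H⟩ := ng_root hN F hd
  obtain ⟨U₁, hU₁, U₂, hU₂, hU⟩ := eventually_prod_iff.1 hθ
  have t1 : Tendsto (fun h : D => (Nrd F h)⁻¹ • h ^ deg F D) (ng N 1) (ng N 1) := by
    simpa using ng_smul F (ng_inv hN (ng_Nrd_one (N := N) F (B := D)))
      (ng_pow (tendsto_id (x := ng N (1 : D))) (deg F D))
  have t2 : Tendsto (fun h : D => Nrd F h ^ n) (ng N 1) (ng N 1) := by
    simpa using ng_pow (ng_Nrd_one (N := N) F (B := D)) n
  filter_upwards [rootG N hN D (deg F D * n) (mul_ne_zero hd hn) _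
    ((hθ.pow t1 n).and ((t2.eventually hW).and (ng_isUnit hN))), hU₁] with g ⟨h, hh, hl⟩ hg h2
  have hg0 : g ≠ 0 := by rintro rfl; simp at h2
  obtain ⟨y, hy, hc⟩ : ∃ y : D, (∀ c, algebraMap F D c ≠ y) ∧ Commute g y := by
    by_cases hxF : ∀ c, algebraMap F D c ≠ g
    · exact ⟨g, hxF, Commute.refl _⟩
    · push Not at hxF
      obtain ⟨c, hc⟩ := hxF
      by_contra hn
      push Not at hn
      refine h1 (Algebra.finrank_eq_one_iff_bijective_algebraMap.2
        ⟨(algebraMap F D).injective, fun z => ?_⟩)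
      by_contra hz
      exact hn z (fun c e => hz ⟨c, e⟩) (hc ▸ Algebra.commutes c z)
  have t3 : Tendsto (fun j => Nrd F (h j) ^ n) atTop (ng N 1) := by
    refine H _ _ (.of_forall fun j => (hh j).1.2.1) ?_
    have := (ng_Nrd F g).comp hl
    rw [h2] at this
    exact this.congr fun j => by simp [← pow_mul, mul_comm]
  have t4 : Tendsto (fun j => g⁻¹ * ((Nrd F (h j))⁻¹ • h j ^ deg F D) ^ n) atTop (ng N 1) := by
    have := ng_mul (ng_const g⁻¹) (ng_smul F (ng_inv hN t3) hl)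
    rw [one_smul, inv_mul_cancel₀ hg0] at this
    exact this.congr fun j => by simp [_root_.smul_pow, pow_mul]
  obtain ⟨j, k1, k2⟩ := ((t4.eventually (torusG hN hS ih hn hX hy hθ)).and
    (t4.eventually hU₂)).exists
  have k3 := hU hg k2
  have k4 : Nrd F (h j) ≠ 0 := (isUnit_iff_Nrd _).1 (hh j).1.2.2
  rw [mul_inv_cancel_left₀ hg0, (hh j).1.1, hX, k1, mul_one] at k3
  · exact k3.symm
  · exact hc.symm.inv_right₀.mul_right
      (((((hh j).2 y hc).symm.pow_right _).smul_right _).pow_right _)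
  · rw [map_mul, map_pow, Nrd_smul, map_pow, ← mul_pow, inv_mul_cancel₀ k4, one_pow, one_pow,
      mul_one, map_inv₀, h2, inv_one]

end

theorem wLt (hN : 2 ≤ N) {n : ℕ} (hn : n ≠ 0) (hX : ∀ a : X, a ^ n = 1) (d : ℕ) :
    WLt.{u, max u v} N X d := by
  induction d with
  | zero => intro F B _ _ _ _ _ _ _ _ _ h; exact absurd h (Nat.not_lt_zero _)
  | succ d ih =>
    intro F B _ _ _ _ _ _ _ _ hS h
    refine gw_wedd hN hS fun D _ _ _ _ _ h1 h2 _ => divG.{u, v} hN h1 ?_ hn hX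
    intro F' B' _ _ _ _ _ _ _ _ h3 h4
    exact ih F' B' h3 (by omega)

end Main

/-- **the relative theorem of Wang, germ form** -/
theorem germW : GermW.{u, v, w} := by
  intro N hN K _ _ B _ _ _ _ _ _ hS X _ n hn hX
  exact GW.of_equiv (Algebra.TensorProduct.lid K B).symm
    (wLt.{u, v} hN hn hX _ K (K ⊗[K] B) (hS.bc K) (Nat.lt_succ_self _))


end Crest.Agent.T24.In
end

-- ▼ part T24/HolE_65
section

/-!
# Row 24, end of the holonomy step: `φ` is the germ of a homomorphism which kills the elements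
whose reduced norm is fixed by the involution
-/

set_option autoImplicit false
set_option linter.unusedSectionVars false

noncomputable section

namespace Crest.Agent.T24.HolE

open Filter Crest.Agent.T24.In Crest.Agent.T24.Csa

universe u v w

section Units

variable {N : ℕ} {B : Type v} [Ring B] [Algebra ℚ B] {α : Type*} {l : Filter α}

/-- the neighbourhoods of `1` in the unit group -/
def fu (N : ℕ) (B : Type v) [Ring B] [Algebra ℚ B] : Filter Bˣ := comap Units.val (ng N (1 : B))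

theorem tendsto_fu {f : α → Bˣ} : Tendsto f l (fu N B) ↔ Tendsto (fun i => (f i : B)) l (ng N 1) :=
  tendsto_comap_iff

theorem tval : Tendsto Units.val (fu N B) (ng N (1 : B)) := tendsto_comap

variable [FiniteDimensional ℚ B]

theorem gf (hN : 2 ≤ N) : GF (fu N B) where
  one U hU := by
    obtain ⟨V, hV, h⟩ := mem_comap.1 hU
    exact h (self_of_ng (p := (· ∈ V)) hV)
  mul := tendsto_fu.2 (ng_mul_one (tval.comp tendsto_fst) (tval.comp tendsto_snd))
  inv := tendsto_fu.2 ((ng_inv hN tval).congr fun u => Ring.inverse_unit u)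

open Classical in
/-- the unit underlying an invertible element -/
def un (x : B) : Bˣ := if h : IsUnit x then h.unit else 1

omit [FiniteDimensional ℚ B] in
theorem un_val {x : B} (h : IsUnit x) : (un x : B) = x := by rw [un, dif_pos h, IsUnit.unit_spec]

omit [FiniteDimensional ℚ B] in
theorem un_coe (u : Bˣ) : un (u : B) = u := Units.ext (un_val u.isUnit)

omit [FiniteDimensional ℚ B] in
theorem un_mul {x y : B} (hx : IsUnit x) (hy : IsUnit y) : un (x * y) = un x * un y :=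
  Units.ext (by rw [Units.val_mul, un_val hx, un_val hy, un_val (hx.mul hy)])

theorem tun (hN : 2 ≤ N) : Tendsto un (ng N (1 : B)) (fu N B) :=
  tendsto_fu.2 (tendsto_id.congr' ((ng_isUnit hN).mono fun _ h => (un_val h).symm))

theorem rt (hN : 2 ≤ N) : Rt (fu N B) := by
  intro U hU
  have hV : {x : B | un x ∈ U ∧ IsUnit x} ∈ ng N (1 : B) := inter_mem (tun hN hU) (ng_isUnit hN)
  refine ⟨_, tval (rootG N hN B 2 two_ne_zero _ hV), ?_⟩
  rintro x ⟨h, h1, h2⟩ W hW
  have h3 : Tendsto (fun j => x⁻¹ * un (h j) ^ 2) atTop (fu N B) := by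
    rw [tendsto_fu]
    have := ng_mul (ng_const (l := atTop) ((x⁻¹ : Bˣ) : B)) h2
    rw [Units.inv_mul] at this
    exact this.congr fun j => by rw [Units.val_mul, Units.val_pow_eq_pow_val, un_val (h1 j).1.2]
  obtain ⟨j, hj⟩ := (((gf hN).tinv h3).eventually hW).exists
  exact ⟨un (h j), (h1 j).1.1, _, hj, by group⟩

end Units

section Csa

variable {N : ℕ} (K : Type u) [Field K] [NumberField K] {B : Type v} [Ring B] [Algebra K B]
  [Algebra ℚ B] [Algebra.IsCentral K B] [IsSimpleRing B] [FiniteDimensional K B]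

/-- the theorem of Wang for germs on the unit group -/
theorem gw (hW : GermW.{u, v, w}) (hN : 2 ≤ N) (hS : SplN N K B) {X : Type w} [CommGroup X] {n : ℕ}
    (hn : n ≠ 0) {θ : Bˣ → X} (h1 : E2 (fu N B) fun x y => θ (x * y) = θ x * θ y)
    (h2 : ∀ᶠ x in fu N B, θ x ^ n = 1) : ∀ᶠ x : Bˣ in fu N B, Nrd K (x : B) = 1 → θ x = 1 := by
  classical
  have := fdQ K B
  let θ' : B → (powMonoidHom n : X →* X).ker := fun x =>
    if h : θ (un x) ^ n = 1 then ⟨θ (un x), h⟩ else 1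
  have e : ∀ᶠ x in ng N (1 : B), (θ' x : X) = θ (un x) :=
    ((tun hN).eventually h2).mono fun x hx => by simp only [θ', dif_pos hx]
  have h3 := hW N hN K B hS _ n hn (fun a => Subtype.ext a.2) θ' (by
    filter_upwards [h1.ev ((tun hN).comp tendsto_fst) ((tun hN).comp tendsto_snd),
      tendsto_fst.eventually e, tendsto_snd.eventually e,
      (ng_mul_one tendsto_fst tendsto_snd).eventually e, tendsto_fst.eventually (ng_isUnit hN),
      tendsto_snd.eventually (ng_isUnit hN)] with p a1 a2 a3 a4 a5 a6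
    apply Subtype.ext
    rw [Subgroup.coe_mul, a2, a3, a4, un_mul a5 a6]
    exact a1)
  filter_upwards [tval.eventually h3, tval.eventually e] with x a1 a2 hx
  rw [un_coe] at a2
  rw [← a2, a1 hx]
  rfl

theorem gct (hC : GermCT.{u, v, w}) (hN : 2 ≤ N) (hS : SplN N K B) {A : Type w} [CommGroup A]
    {β : Bˣ → Bˣ → A} (h1 : E3 (fu N B) fun x x' y => β (x * x') y = β x y * β x' y)
    (h2 : E3 (fu N B) fun x x' y => β y (x * x') = β y x * β y x')
    (h3 : E2 (fu N B) fun x y => x * y = y * x ∨ Nrd K (x : B) = 1 ∨ Nrd K (y : B) = 1 → β x y = 1) :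
    E2 (fu N B) fun x y => β x y = 1 := by
  have := fdQ K B
  have h4 := hC N hN K B hS A (fun x y => β (un x) (un y)) (by
    filter_upwards [h1.ev ((tun hN).comp t31) ((tun hN).comp t32) ((tun hN).comp t33),
      h2.ev ((tun hN).comp t31) ((tun hN).comp t32) ((tun hN).comp t33),
      t31.eventually (ng_isUnit hN), t32.eventually (ng_isUnit hN)] with p a1 a2 a3 a4
    rw [un_mul a3 a4]
    exact ⟨a1, a2⟩) (by
    filter_upwards [h3.ev ((tun hN).comp tendsto_fst) ((tun hN).comp tendsto_snd),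
      tendsto_fst.eventually (ng_isUnit hN), tendsto_snd.eventually (ng_isUnit hN)] with p a1 a2 a3 h
    refine a1 ?_
    simp only [Function.comp_apply, un_val a2, un_val a3]
    refine h.imp (fun h => ?_) id
    rw [← un_mul a2 a3, ← un_mul a3 a2, h.eq])
  filter_upwards [((tval.comp tendsto_fst).prodMk (tval.comp tendsto_snd)).eventually h4] with p a1
  simpa only [Function.comp_apply, un_coe] using a1

end Csa

variable {A : Type w} [CommGroup A]

/-- the rules for `φ` -/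
structure Phi (N : ℕ) (K : Type u) [Field K] [NumberField K] [StarRing K] {B : Type v} [Ring B]
    [StarRing B] [Algebra K B] [Algebra ℚ B] (φ : B → A) : Prop where
  one : φ 1 = 1
  inv : ∀ᶠ x in ng N (1 : B), ∀ y, x * y = 1 → φ y = (φ x)⁻¹
  st : ∀ᶠ x in ng N (1 : B), φ (star x) = (φ x)⁻¹
  cg : ∀ᶠ p : B × B in ng N 1 ×ˢ ng N 1, φ (star p.1 * p.2 * p.1) = φ p.2
  sc : ∀ᶠ p : K × B in ng N 1 ×ˢ ng N 1, φ (p.1 • p.2) = φ (p.1 • (1 : B)) * φ p.2
  re : ∀ᶠ c : K in ng N 1, star c = c → φ (c • (1 : B)) = 1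
  dd : ∀ᶠ p : B × B in ng N 1 ×ˢ ng N 1, φ (p.1 * p.2 * p.1) = φ (p.1 ^ 2) * φ p.2

variable {N : ℕ} {K : Type u} [Field K] [NumberField K] [StarRing K] {B : Type v} [Ring B]
  [StarRing B] [Algebra K B] [StarModule K B] [Algebra ℚ B] [Algebra.IsCentral K B] [IsSimpleRing B]
  [FiniteDimensional K B] {φ : B → A}

theorem Phi.mono (h : Phi N K φ) {N' : ℕ} (hN : N ∣ N') : Phi N' K φ :=
  have a := ng_le_of_dvd hN (1 : B)
  have b := ng_le_of_dvd hN (1 : K)
  ⟨h.one, h.inv.filter_mono a, h.st.filter_mono a, h.cg.filter_mono (prod_mono a a),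
    h.sc.filter_mono (prod_mono b a), h.re.filter_mono b, h.dd.filter_mono (prod_mono a a)⟩

theorem tstar : Tendsto (star : B → B) (ng N 1) (ng N 1) := by
  have := ng_map (N := N) (starAddEquiv (R := B)).toAddMonoidHom (1 : B)
  rwa [show (starAddEquiv (R := B)).toAddMonoidHom 1 = 1 from star_one B] at this

theorem tstarU : Tendsto (star : Bˣ → Bˣ) (fu N B) (fu N B) := tendsto_fu.2 (tstar.comp tval)

theorem Phi.ru (h : Phi N K φ) (hN : 2 ≤ N) : Ru (fu N B) star fun x : Bˣ => φ x := by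
  have := fdQ K B
  refine ⟨gf hN, tstarU, h.one, (tval.eventually h.inv).mono fun x hx => hx _ x.mul_inv, ?_,
    fun q => star_inv q, ?_⟩
  · filter_upwards [((tstar.comp (tval.comp tendsto_fst)).prodMk
      (tval.comp tendsto_snd)).eventually h.cg] with p hp
    simpa using hp
  · filter_upwards [((tval.comp tendsto_fst).prodMk (tval.comp tendsto_snd)).eventually h.dd] with p hp
    simpa using hp


/-- (a) the commutator pairing is trivial -/
theorem Phi.pair (h : Phi N K φ) (hW : GermW.{u, v, max v w}) (hC : GermCT.{u, v, w}) (hN : 2 ≤ N)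
    (hS : SplN N K B) {n : ℕ} (hn : n ≠ 0) (hA : ∀ a : A, a ^ n = 1) :
    E2 (fu N B) fun x y => φ (cm x y : Bˣ) = 1 := by
  have r := h.ru hN
  obtain ⟨V, hV, hm⟩ := r.be_mul.set
  have h1 := gw K hW hN hS (X := V → A) hn (θ := fun x y => φ (cm x y.1 : Bˣ))
    (E2.of_set hV fun x hx x' hx' => funext fun y => hm x hx x' hx' y.1 y.2)
    (Eventually.of_forall fun _ => funext fun _ => hA _)
  have h2 : E2 (fu N B) fun x y => Nrd K (x : B) = 1 → φ (cm x y : Bˣ) = 1 := by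
    filter_upwards [tendsto_fst.eventually h1, tendsto_snd.eventually_mem hV] with p a1 a2 hp
    exact congrFun (a1 hp) ⟨p.2, a2⟩
  refine gct K hC hN hS (β := fun x y => φ (cm x y : Bˣ)) r.be_mul r.be_mul' ?_
  filter_upwards [h2, h2.ev tendsto_snd tendsto_fst, r.be_swap.ev tendsto_snd tendsto_fst]
    with p a1 a2 a3 hp
  rcases hp with hp | hp | hp
  · have : cm p.1 p.2 = 1 := by rw [cm, hp]; group
    rw [this]; exact h.one
  · exact a1 hp
  · rw [a3, a2 hp, inv_one]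

/-- the reduced norm as a scalar unit -/
def sn (K : Type u) [Field K] [NumberField K] {B : Type v} [Ring B] [Algebra K B]
    [Algebra.IsCentral K B] [IsSimpleRing B] [FiniteDimensional K B] (x : Bˣ) : Bˣ :=
  Units.map (algebraMap K B).toMonoidHom (Units.map (Nrd K (B := B)).toMonoidHom x)

theorem sn_val (x : Bˣ) : (sn K x : B) = Nrd K (x : B) • (1 : B) := by
  rw [← Algebra.algebraMap_eq_smul_one]; rfl

theorem tsn : Tendsto (sn K) (fu N B) (fu N B) := by
  rw [tendsto_fu]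
  simp only [sn_val]
  simpa using ng_smul K ((ng_Nrd_one K).comp tval) (ng_const (1 : B))

theorem nrd_sn (x : Bˣ) : Nrd K (((sn K x)⁻¹ * x ^ deg K B : Bˣ) : B) = 1 := by
  have e : Nrd K (sn K x : B) = Nrd K (x : B) ^ deg K B := by rw [sn_val, Nrd_smul, map_one, mul_one]
  rw [Units.val_mul, map_mul, Units.val_pow_eq_pow_val, map_pow, ← e, ← map_mul, Units.inv_mul,
    map_one]

/-- the end of the holonomy step, fixed level -/
theorem Phi.fin (h : Phi N K φ) (hW : GermW.{u, v, max v w}) (hC : GermCT.{u, v, w}) (hN : 2 ≤ N)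
    (hS : SplN N K B) (hd : Odd (deg K B)) {n : ℕ} (hn : n ≠ 0) (hA : ∀ a : A, a ^ n = 1) :
    LG N φ ∧ ∀ᶠ x in ng N (1 : B), star (Nrd K x) = Nrd K x → φ x = 1 := by
  have := fdQ K B
  have r := h.ru hN
  have g := r.gf
  have hb := h.pair hW hC hN hS hn hA
  have hsq := r.sq hb
  obtain ⟨X, _, θ, t1, t2, t3⟩ := exists_hom (φ := fun x : Bˣ => φ x) g (r.swap hb) hsq (rt hN)
  have t4 := gw K hW hN hS (mul_ne_zero two_ne_zero hn) t1 (t2.mono fun x hx => hx n (hA _))
  have hsl : E2 (fu N B) fun x z => Nrd K (x : B) = 1 → φ (x * z : Bˣ) = φ z := by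
    filter_upwards [t3, tendsto_fst.eventually t4] with p a1 a2 hp using a1 (a2 hp)
  have hpw : E2 (fu N B) fun x z => φ (x ^ deg K B * z : Bˣ) = φ (sn K x) * φ z := by
    have a := g.tmul (g.tinv (tsn (K := K) |>.comp tendsto_fst))
      (g.tpow (tendsto_fst (f := fu N B) (g := fu N B)) (deg K B))
    filter_upwards [hsl.ev a tendsto_snd, ((((ng_Nrd_one K).comp tval).comp tendsto_fst).prodMk
      (tval.comp (g.tmul a tendsto_snd))).eventually h.sc] with p a1 a2
    simp only [Function.comp_apply] at a1 a2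
    rw [a1 (nrd_sn _), ← sn_val, ← one_mul (((sn K p.1)⁻¹ * p.1 ^ deg K B * p.2 : Bˣ) : B),
      ← smul_mul_assoc, ← sn_val, ← Units.val_mul] at a2
    rw [← a2]
    congr 2
    group
  obtain ⟨e, he⟩ := hd
  have hk : E2 (fu N B) fun x z => φ (x * z : Bˣ) = φ ((x⁻¹ ^ e) ^ 2 : Bˣ) * φ (sn K x) * φ z := by
    filter_upwards [hpw, hsq.ev (g.tpow (g.tinv tendsto_fst) e)
      (g.tmul (g.tpow tendsto_fst (deg K B)) tendsto_snd)] with p a1 a2
    rw [mul_assoc, ← a1, ← a2, he]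
    congr 2
    group
  have hm : E2 (fu N B) fun x z => φ (x * z : Bˣ) = φ x * φ z := by
    filter_upwards [hk, hk.ev tendsto_fst g.tone] with p a1 a2
    rw [mul_one, Units.val_one, h.one, mul_one] at a2
    rw [a1, a2]
  have hp : ∀ j : ℕ, ∀ᶠ x : Bˣ in fu N B, φ (x ^ j : Bˣ) = φ x ^ j := by
    intro j
    induction j with
    | zero => exact Eventually.of_forall fun x => by simpa using h.one
    | succ j ih =>
      filter_upwards [ih, hm.ev (g.tpow tendsto_id j) tendsto_id] with x a1 a2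
      simp only [id] at a2
      rw [pow_succ, a2, a1, pow_succ]
  have hz : ∀ᶠ x : Bˣ in fu N B, star (Nrd K (x : B)) = Nrd K (x : B) → φ x = 1 := by
    filter_upwards [hp (deg K B), hpw.ev tendsto_id g.tone, ((ng_Nrd_one K).comp tval).eventually h.re,
      tval.eventually h.st, hsl.ev (g.tmul tstarU g.inv) tendsto_id] with x a1 a2 a3 a4 a5 hx
    simp only [id, Function.comp_apply, mul_one, Units.val_one, h.one] at a2 a3 a5
    have b1 : φ x ^ (2 * e + 1) = 1 := by rw [← he, ← a1, a2, sn_val, a3 hx]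
    have b2 : φ x = (φ x)⁻¹ := by
      rw [← a4, ← a5, inv_mul_cancel_right, Units.coe_star]
      rw [Units.val_mul, map_mul, Units.coe_star, Nrd_star, hx, ← map_mul, Units.mul_inv, map_one]
    have b3 : φ x ^ 2 = 1 := by rw [pow_two]; exact mul_eq_one_iff_eq_inv.2 b2
    rwa [pow_succ, pow_mul, b3, one_pow, one_mul] at b1
  constructor
  · filter_upwards [hm.ev ((tun hN).comp tendsto_fst) ((tun hN).comp tendsto_snd),
      tendsto_fst.eventually (ng_isUnit hN), tendsto_snd.eventually (ng_isUnit hN)] with p a1 a2 a3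
    simpa only [Function.comp_apply, Units.val_mul, un_val a2, un_val a3] using a1
  · filter_upwards [(tun hN).eventually hz, ng_isUnit hN] with x a1 a2
    rwa [un_val a2] at a1

/-- H7 -/
theorem endStmt (hW : GermW.{u, v, max v w}) (hC : GermCT.{u, v, w}) (hS : SplStmt.{u, v})
    (hN : 2 ≤ N) (hd : Odd (deg K B)) {n : ℕ} (hn : n ≠ 0) (hA : ∀ a : A, a ^ n = 1) (h : Phi N K φ) :
    ∃ N', 2 ≤ N' ∧ N ∣ N' ∧ LG N' φ ∧
      ∀ᶠ x in ng N' (1 : B), star (Nrd K x) = Nrd K x → φ x = 1 := by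
  obtain ⟨N', h1, h2, h3⟩ := exists_splN hS hN K B
  exact ⟨N', h1, h2, (h.mono h2).fin hW hC h1 h3 hd hn hA⟩

/-- H7, unconditional -/
theorem endAll (hN : 2 ≤ N) (hd : Odd (deg K B)) {n : ℕ} (hn : n ≠ 0) (hA : ∀ a : A, a ^ n = 1)
    (h : Phi N K φ) : ∃ N', 2 ≤ N' ∧ N ∣ N' ∧ LG N' φ ∧
      ∀ᶠ x in ng N' (1 : B), star (Nrd K x) = Nrd K x → φ x = 1 :=
  endStmt germW (germCT nearG) splStmt hN hd hn hA h

end Crest.Agent.T24.HolE
end
end

-- ▼ part T24/HolPer_46
section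

/-!
# Row 24, HOL, leaf H2: periods on a ball of a subgroup (digital line lemma) (helper46)

`Val f La p e E`: the elements of `E` are periods of `f` on `La ∩ {p < e}` (centre `0`: use `fun y => f (y_b + y)`).
-/

set_option autoImplicit false

namespace Crest.Agent.T24.Per

open Finset

variable {V A : Type*} [AddCommGroup V] [Module ℚ V] {f : V → A} {La : AddSubgroup V} {p : Seminorm ℚ V}
  {e : ℝ} {E : Set V}

/-- the elements of `E` are periods of `f` on `La ∩ {p < e}` -/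
def Val (f : V → A) (La : AddSubgroup V) (p : Seminorm ℚ V) (e : ℝ) (E : Set V) : Prop :=
  ∀ x ∈ E, ∀ y ∈ La, p y < e → p (y + x) < e → f (y + x) = f y

/-- the small part of `E` spans `E` -/
def Sm (p : Seminorm ℚ V) (E : Set V) : Prop :=
  ∀ η : ℝ, 0 < η → E ⊆ Submodule.span ℚ {x ∈ E | p x < η}

theorem Val.mono (h : Val f La p e E) {e' : ℝ} {E' : Set V} {La' : AddSubgroup V} (he : e' ≤ e)
    (hE : E' ⊆ E) (hL : La' ≤ La) : Val f La' p e' E' :=
  fun x hx y hy h1 h2 => h x (hE hx) y (hL hy) (h1.trans_le he) (h2.trans_le he)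

theorem Val.inter {A' A'' : Type*} {f' : V → A'} {E' : Set V} (h : Val f La p e E)
    (h' : Val f' La p e E') (op : A → A' → A'') : Val (fun y => op (f y) (f' y)) La p e (E ∩ E') :=
  fun x hx y hy h1 h2 => congrArg₂ op (h x hx.1 y hy h1 h2) (h' x hx.2 y hy h1 h2)

theorem Val.comp {A' : Type*} (h : Val f La p e E) (g : A → A') : Val (fun y => g (f y)) La p e E :=
  fun x hx y hy h1 h2 => congrArg g (h x hx y hy h1 h2)

theorem Val.congr {f' : V → A} (h : Val f La p e E) (hE : E ⊆ La)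
    (hf : ∀ y ∈ La, p y < e → f' y = f y) : Val f' La p e E := fun x hx y hy h1 h2 => by
  rw [hf _ (La.add_mem hy (hE hx)) h2, hf _ hy h1, h x hx y hy h1 h2]

theorem Val.neg (h : Val f La p e E) (hE : E ⊆ La) {x : V} (hx : x ∈ E) {y : V} (hy : y ∈ La)
    (h1 : p y < e) (h2 : p (y + -x) < e) : f (y + -x) = f y := by
  have := h x hx (y + -x) (La.add_mem hy (La.neg_mem (hE hx))) h2 (by simpa using h1)
  simpa using this.symm

/-- a function with all periods is constant -/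
theorem Val.const (h : Val f La p e E) {y : V} (hy : y ∈ E) (h1 : p y < e) : f y = f 0 := by
  simpa using h y hy 0 La.zero_mem (by rw [map_zero]; exact (apply_nonneg p y).trans_lt h1) (by simpa using h1)

theorem small (hV : Val f La p e E) (hE : E ⊆ La) (T : Finset V) (hT : ↑T ⊆ E) (c : V → ℤ)
    (hc : ∀ g ∈ T, |c g| ≤ 1) {y : V} (hy : y ∈ La) (h : p y + ∑ g ∈ T, p g < e) :
    f (y + ∑ g ∈ T, c g • g) = f y := by
  classical
  induction T using Finset.induction_on generalizing y with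
  | empty => simp
  | insert g T hg ih =>
    rw [sum_insert hg] at h
    have hgE : g ∈ E := hT (mem_insert_self g T)
    have h0 : 0 ≤ ∑ g ∈ T, p g := sum_nonneg fun _ _ => apply_nonneg p _
    have h1 := apply_nonneg p g
    have h2 := map_add_le_add p y g
    have h3 := map_add_le_add p y (-g)
    rw [map_neg_eq_map] at h3
    have key : f (y + c g • g) = f y ∧ p (y + c g • g) ≤ p y + p g := by
      obtain h4 | h4 | h4 : c g = 1 ∨ c g = 0 ∨ c g = -1 := by
        have := abs_le.1 (hc g (mem_insert_self g T)); omega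
      · rw [h4, one_smul]; exact ⟨hV g hgE y hy (by linarith) (by linarith), h2⟩
      · rw [h4, zero_smul, add_zero]; exact ⟨rfl, by linarith⟩
      · rw [h4, neg_one_smul]; exact ⟨hV.neg hE hgE hy (by linarith) (by linarith), h3⟩
    rw [sum_insert hg, ← add_assoc, ih (fun x hx => hT (mem_insert_of_mem hx))
      (fun x hx => hc x (mem_insert_of_mem hx)) (La.add_mem hy (La.zsmul_mem (hE hgE) _))
      (by linarith [key.2]), key.1]

theorem round (p : Seminorm ℚ V) (T : Finset V) (q : V → ℚ) :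
    p (∑ g ∈ T, ⌊q g⌋ • g - ∑ g ∈ T, q g • g) ≤ ∑ g ∈ T, p g := by
  rw [← sum_sub_distrib]
  refine (le_sum_of_subadditive p (map_zero p).le (map_add_le_add p) T _).trans (sum_le_sum fun g _ => ?_)
  rw [← Int.cast_smul_eq_zsmul ℚ, ← sub_smul, map_smul_eq_mul]
  refine mul_le_of_le_one_left (apply_nonneg p g) ?_
  rw [← Rat.norm_cast_real, Real.norm_eq_abs, ← Rat.cast_abs, ← Rat.cast_one, Rat.cast_le, abs_le]
  constructor <;> linarith [Int.floor_le (q g), Int.lt_floor_add_one (q g)]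

/-- the digital line -/
theorem line (hV : Val f La p e E) (hE : E ⊆ La) (T : Finset V) (hT : ↑T ⊆ E) (a : V → ℤ) {y : V}
    (hy : y ∈ La) {r : ℝ} (h1 : p y < r) (h2 : p (y + ∑ g ∈ T, a g • g) < r)
    (hr : r + 2 * ∑ g ∈ T, p g ≤ e) : f (y + ∑ g ∈ T, a g • g) = f y := by
  obtain ⟨L, hL0, hL⟩ : ∃ L : ℕ, 0 < L ∧ ∀ g ∈ T, |(a g : ℚ)| ≤ L :=
    ⟨∑ g ∈ T, (a g).natAbs + 1, Nat.succ_pos _, fun g hg => by
      have := single_le_sum (f := fun g => (a g).natAbs) (fun _ _ => Nat.zero_le _) hg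
      rw [← Int.cast_abs, ← Int.natCast_natAbs, Int.cast_natCast, Nat.cast_le]; omega⟩
  have hL1 : (0 : ℚ) < L := Nat.cast_pos.2 hL0
  have key : ∀ s : ℕ, s ≤ L → f (y + ∑ g ∈ T, ⌊(s / L : ℚ) * a g⌋ • g) = f y := by
    intro s hs
    induction s with
    | zero => simp
    | succ s ih =>
      rw [← ih (by omega)]
      have t0 : (0 : ℚ) ≤ s / L := by positivity
      have t1 : (s / L : ℚ) ≤ 1 := by rw [div_le_one hL1, Nat.cast_le]; omega
      have hp : p (y + ∑ g ∈ T, ⌊(s / L : ℚ) * a g⌋ • g) < r + ∑ g ∈ T, p g := by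
        have e1 : y + ∑ g ∈ T, ⌊(s / L : ℚ) * a g⌋ • g =
            ((1 - s / L : ℚ) • y + (s / L : ℚ) • (y + ∑ g ∈ T, a g • g)) +
            (∑ g ∈ T, ⌊(s / L : ℚ) * a g⌋ • g - ∑ g ∈ T, ((s / L : ℚ) * a g) • g) := by
          simp only [smul_add, smul_sum, mul_smul, Int.cast_smul_eq_zsmul, sub_smul, one_smul]; abel
        have e2 := map_add_le_add p ((1 - s / L : ℚ) • y) ((s / L : ℚ) • (y + ∑ g ∈ T, a g • g))
        have e3 : p ((1 - s / L : ℚ) • y) + p ((s / L : ℚ) • (y + ∑ g ∈ T, a g • g)) < r := by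
          have a0 : (0 : ℝ) ≤ ((s / L : ℚ) : ℝ) := by exact_mod_cast t0
          have a1 : ((s / L : ℚ) : ℝ) ≤ 1 := by exact_mod_cast t1
          rw [map_smul_eq_mul, map_smul_eq_mul, ← Rat.norm_cast_real, ← Rat.norm_cast_real, Rat.cast_sub,
            Rat.cast_one, Real.norm_of_nonneg a0, Real.norm_of_nonneg (sub_nonneg.2 a1)]
          rcases le_total (p y) (p (y + ∑ g ∈ T, a g • g)) with h | h <;> nlinarith
        rw [e1]
        linarith [map_add_le_add p ((1 - s / L : ℚ) • y + (s / L : ℚ) • (y + ∑ g ∈ T, a g • g))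
          (∑ g ∈ T, ⌊(s / L : ℚ) * a g⌋ • g - ∑ g ∈ T, ((s / L : ℚ) * a g) • g),
          round p T fun g => (s / L : ℚ) * a g]
      rw [← small hV hE T hT (fun g => ⌊((s + 1 : ℕ) / L : ℚ) * a g⌋ - ⌊(s / L : ℚ) * a g⌋) (fun g hg => ?_)
        (y := y + ∑ g ∈ T, ⌊(s / L : ℚ) * a g⌋ • g)
        (La.add_mem hy (La.sum_mem fun g hg => La.zsmul_mem (hE (hT hg)) _)) (by linarith)]
      · simp only [sub_smul, sum_sub_distrib]; congr 1; abel
      · have e1 : ((s + 1 : ℕ) / L : ℚ) * a g = (s / L : ℚ) * a g + a g / L := by push_cast; ring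
        have e2 := abs_le.1 (hL g hg)
        have e3 : (a g / L : ℚ) ≤ 1 := (div_le_one hL1).2 e2.2
        have e4 : -1 ≤ (a g / L : ℚ) := by rw [le_div_iff₀ hL1]; linarith
        have e5 := Int.floor_mono (add_le_add_right e3 ((s / L : ℚ) * a g))
        have e6 := Int.floor_mono (add_le_add_right e4 ((s / L : ℚ) * a g))
        rw [Int.floor_add_one] at e5
        rw [← sub_eq_add_neg, Int.floor_sub_one] at e6
        rw [e1, abs_le]; constructor <;> omega
  simpa [hL1.ne'] using key L le_rfl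

theorem Sm.exists_finset [Module.Finite ℚ V] (hs : Sm p E) {σ : ℝ} (hσ : 0 < σ) :
    ∃ T : Finset V, ↑T ⊆ E ∧ E ⊆ Submodule.span ℚ (T : Set V) ∧ ∑ g ∈ T, p g ≤ σ := by
  obtain ⟨T, h1, h2, h3, -⟩ := Submodule.exists_finset_span_eq_linearIndepOn ℚ
    {x ∈ E | p x < σ / (Module.finrank ℚ V + 1)}
  refine ⟨T, fun x hx => (h1 hx).1, by rw [h3]; exact hs _ (by positivity), ?_⟩
  refine (sum_le_card_nsmul T _ _ fun g hg => (h1 hg).2.le).trans ?_
  have : (T.card : ℝ) ≤ Module.finrank ℚ V := by rw [h2]; exact_mod_cast Submodule.finrank_le _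
  rw [nsmul_eq_mul, ← mul_div_assoc, div_le_iff₀ (by positivity)]
  nlinarith

theorem exists_round (p : Seminorm ℚ V) {T : Finset V} {x : V} (hx : x ∈ Submodule.span ℚ (T : Set V)) :
    ∃ a : V → ℤ, p (x + ∑ g ∈ T, a g • g) ≤ ∑ g ∈ T, p g := by
  obtain ⟨q, -, hq⟩ := Submodule.mem_span_finset.1 (Submodule.neg_mem _ hx)
  exact ⟨fun g => ⌊q g⌋, by simpa [hq, add_comm] using round p T q⟩

/-- **PER** -/
theorem per [Module.Finite ℚ V] (hE : E ⊆ La) (h4 : ∀ x ∈ E, p x < e / 4) (hs : Sm p E)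
    (hV : Val f La p e E) : Val f La p (e / 4) (AddSubgroup.closure E) := by
  intro x hx y hy h1 h2
  have hcl : AddSubgroup.closure E ≤ La := (AddSubgroup.closure_le La).2 hE
  have he : 0 < e := by linarith [apply_nonneg p y]
  obtain ⟨M, hM⟩ : ∃ M : ℕ, ∀ T : Finset V, ↑T ⊆ E → E ⊆ Submodule.span ℚ (T : Set V) →
      ∃ a : V → ℤ, p (x + ∑ g ∈ T, a g • g) ≤ M * ∑ g ∈ T, p g ∧ ∀ y ∈ La,
        p y + (M + 2) * ∑ g ∈ T, p g < 3 / 4 * e → f (y + (x + ∑ g ∈ T, a g • g)) = f y := by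
    clear h1 h2 hy y
    have one : ∀ x ∈ La, p x < e / 4 → (∀ y ∈ La, p y < e → p (y + x) < e → f (y + x) = f y) →
        ∀ T : Finset V, ↑T ⊆ E → x ∈ Submodule.span ℚ (T : Set V) →
        ∃ a : V → ℤ, p (x + ∑ g ∈ T, a g • g) ≤ (1 : ℕ) * ∑ g ∈ T, p g ∧ ∀ y ∈ La,
          p y + ((1 : ℕ) + 2) * ∑ g ∈ T, p g < 3 / 4 * e → f (y + (x + ∑ g ∈ T, a g • g)) = f y := by
      intro x hx h1 h2 T hT h3
      obtain ⟨a, ha⟩ := exists_round p h3
      have h0 : 0 ≤ ∑ g ∈ T, p g := sum_nonneg fun _ _ => apply_nonneg p _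
      refine ⟨a, by simpa using ha, fun y hy h => ?_⟩
      push_cast at h
      have b1 := map_add_le_add p y x
      have b2 := map_add_le_add p y (x + ∑ g ∈ T, a g • g)
      rw [← add_assoc] at b2 ⊢
      rw [line hV hE T hT a (La.add_mem hy hx) (r := p y + e / 4 + ∑ g ∈ T, p g) (by linarith) (by linarith)
        (by linarith), h2 y hy (by linarith) (by linarith)]
    induction hx using AddSubgroup.closure_induction'' with
    | mem x hx => exact ⟨1, fun T hT h => one x (hE hx) (h4 x hx) (hV x hx) T hT (h hx)⟩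
    | neg_mem x hx =>
      exact ⟨1, fun T hT h => one (-x) (La.neg_mem (hE hx)) (by rw [map_neg_eq_map]; exact h4 x hx)
        (fun y hy => hV.neg hE hx hy) T hT (Submodule.neg_mem _ (h hx))⟩
    | zero => exact ⟨0, fun T _ _ => ⟨0, by simp, by simp⟩⟩
    | add x x' hx hx' ih ih' =>
      obtain ⟨M, hM⟩ := ih
      obtain ⟨M', hM'⟩ := ih'
      refine ⟨M + M', fun T hT h => ?_⟩
      obtain ⟨a, a1, a2⟩ := hM T hT h
      obtain ⟨b, b1, b2⟩ := hM' T hT h
      have h0 : 0 ≤ ∑ g ∈ T, p g := sum_nonneg fun _ _ => apply_nonneg p _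
      have e1 : x + x' + ∑ g ∈ T, (a + b) g • g = (x + ∑ g ∈ T, a g • g) + (x' + ∑ g ∈ T, b g • g) := by
        simp only [Pi.add_apply, add_smul, sum_add_distrib]; abel
      refine ⟨a + b, ?_, fun y hy h => ?_⟩
      · rw [e1]; push_cast
        linarith [map_add_le_add p (x + ∑ g ∈ T, a g • g) (x' + ∑ g ∈ T, b g • g)]
      · push_cast at h
        have := mul_nonneg (Nat.cast_nonneg (α := ℝ) M') h0
        rw [e1, ← add_assoc, b2 _ (La.add_mem hy (La.add_mem (hcl hx)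
          (La.sum_mem fun g hg => La.zsmul_mem (hE (hT hg)) _)))
          (by linarith [map_add_le_add p y (x + ∑ g ∈ T, a g • g)]), a2 y hy (by linarith)]
  obtain ⟨T, hT, h3, hσ⟩ := hs.exists_finset (σ := e / (2 * (M + 2))) (by positivity)
  obtain ⟨a, a1, a2⟩ := hM T hT h3
  have h0 : 0 ≤ ∑ g ∈ T, p g := sum_nonneg fun _ _ => apply_nonneg p _
  rw [le_div_iff₀ (by positivity)] at hσ
  have := mul_nonneg (Nat.cast_nonneg (α := ℝ) M) h0
  rw [← a2 y hy (by linarith), ← add_assoc, line hV hE T hT a (La.add_mem hy (hcl hx))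
    (r := e / 4 + M * ∑ g ∈ T, p g) (by linarith)
    (by rw [add_assoc]; linarith [map_add_le_add p y (x + ∑ g ∈ T, a g • g)]) (by linarith)]

/-- a subgroup whose small part spans it is generated by its small part -/
theorem Sm.le_closure [Module.Finite ℚ V] {P : AddSubgroup V} (hs : Sm p P) {η : ℝ} (hη : 0 < η) :
    P ≤ AddSubgroup.closure {x ∈ (P : Set V) | p x < η} := fun x hx => by
  obtain ⟨T, hT, h3, hσ⟩ := hs.exists_finset (half_pos hη)
  obtain ⟨a, ha⟩ := exists_round p (h3 hx)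
  have h1 : x + ∑ g ∈ T, a g • g ∈ {x ∈ (P : Set V) | p x < η} :=
    ⟨P.add_mem hx (P.sum_mem fun g hg => P.zsmul_mem (hT hg) _), (ha.trans hσ).trans_lt (half_lt_self hη)⟩
  have h2 : ∀ g ∈ T, g ∈ {x ∈ (P : Set V) | p x < η} := fun g hg => ⟨hT hg, by
    linarith [single_le_sum (f := fun g => p g) (fun _ _ => apply_nonneg p _) hg]⟩
  simpa using AddSubgroup.sub_mem _ (AddSubgroup.subset_closure h1) (AddSubgroup.sum_mem _ fun g hg =>
    AddSubgroup.zsmul_mem _ (AddSubgroup.subset_closure (h2 g hg)) (a g))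

theorem Sm.closure (hs : Sm p E) : Sm p (AddSubgroup.closure E) := fun η hη =>
  (AddSubgroup.closure_le (Submodule.span ℚ _).toAddSubgroup).2 fun _ hx =>
    Submodule.span_mono (fun _ hy => And.intro (AddSubgroup.subset_closure hy.1) hy.2) (hs η hη hx)


/-- **sums of period groups** -/
theorem per_iSup [Module.Finite ℚ V] {ι : Sort*} {P : ι → AddSubgroup V} (hL : ∀ i, P i ≤ La)
    (hs : ∀ i, Sm p (P i)) (hV : ∀ i, Val f La p e (P i)) :
    Val f La p (e / 4) (⨆ i, P i : AddSubgroup V) := by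
  intro x hx y hy h1 h2
  have he : 0 < e / 4 := (apply_nonneg p y).trans_lt h1
  refine per (E := {x | ∃ i, x ∈ P i ∧ p x < e / 4}) (fun _ ⟨i, h, _⟩ => hL i h) (fun _ ⟨_, _, h⟩ => h)
    (fun η hη x ⟨i, h, _⟩ => Submodule.span_mono ?_ (hs i (min η (e / 4)) (lt_min hη he) h))
    (fun x ⟨i, h, _⟩ => hV i x h) x ?_ y hy h1 h2
  · exact fun z hz => ⟨⟨i, hz.1, hz.2.trans_le (min_le_right _ _)⟩, hz.2.trans_le (min_le_left _ _)⟩
  · exact (iSup_le fun i => ((hs i).le_closure he).trans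
      (AddSubgroup.closure_mono fun z hz => Exists.intro i hz) : ⨆ i, P i ≤ _) hx

/-- local-global: multiples prime to every prime -/
theorem mem_of_primes {G : Type*} [AddCommGroup G] {P : AddSubgroup G} {x : G}
    (h : ∀ q : ℕ, q.Prime → ∃ M : ℕ, ¬ q ∣ M ∧ M • x ∈ P) : x ∈ P := by
  classical
  have hex : ∃ M : ℕ, 0 < M ∧ M • x ∈ P := by
    obtain ⟨M, h1, h2⟩ := h 2 Nat.prime_two
    exact ⟨M, Nat.pos_of_ne_zero fun h0 => h1 (h0 ▸ dvd_zero _), h2⟩
  obtain ⟨h0, h1⟩ := Nat.find_spec hex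
  by_cases h2 : Nat.find hex = 1
  · rwa [h2, one_smul] at h1
  obtain ⟨q, hq, hd⟩ := Nat.exists_prime_and_dvd h2
  obtain ⟨M, h3, h4⟩ := h q hq
  have h5 : (M % Nat.find hex) • x ∈ P := by
    have : (M % Nat.find hex) • x = M • x - (M / Nat.find hex) • Nat.find hex • x := by
      rw [eq_sub_iff_add_eq, ← mul_smul, ← add_smul, Nat.mod_add_div']
    rw [this]; exact P.sub_mem h4 (P.nsmul_mem h1 _)
  have h6 : M % Nat.find hex = 0 := by
    by_contra h6
    exact Nat.find_min hex (Nat.mod_lt M h0) ⟨Nat.pos_of_ne_zero h6, h5⟩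
  exact absurd (hd.trans (Nat.dvd_of_mod_eq_zero h6)) h3

end Crest.Agent.T24.Per
end

-- ▼ part T24/HolCA_25
section

/-!
# Row 24, HOL, leaf H5 (helper25): period modules
-/

set_option autoImplicit false

noncomputable section

namespace Crest.Agent.T24.HolC

open Filter NumberField Asa In Module Polynomial Csa
open scoped Topology

section top

variable {N : ℕ} {B : Type*} [Ring B] [Algebra ℚ B] [FiniteDimensional ℚ B]

variable (B) in
theorem exists_sem : ∃ p : Seminorm ℚ B, ∀ a : B,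
    (na a).HasBasis (fun ε : ℝ => 0 < ε) fun ε => {x | p (x - a) < ε} := by
  obtain ⟨n, ρ, h⟩ := exists_rep B
  refine ⟨Seminorm.of (fun x => ‖ρ x‖) (fun x y => by rw [map_add]; exact norm_add_le _ _)
    fun q x => ?_, fun a => ?_⟩
  · rw [map_rat_smul, ← Rat.cast_smul_eq_qsmul ℝ, norm_smul, Rat.norm_cast_real]
  · rw [h]
    refine (Metric.nhds_basis_ball.comap ρ).congr (fun _ => Iff.rfl) fun ε _ => ?_
    ext x
    simp only [Set.mem_preimage, mem_ball_iff_norm, ← map_sub, Set.mem_ofPred_eq]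
    rfl

theorem ng_iv (hN : 2 ≤ N) {α : Type*} {l : Filter α} {f : α → B} {a : B} (ha : IsUnit a)
    (hf : Tendsto f l (ng N a)) : (∀ᶠ i in l, IsUnit (f i)) ∧
      Tendsto (fun i => Ring.inverse (f i)) l (ng N (Ring.inverse a)) := by
  obtain ⟨u, rfl⟩ := ha
  have h1 : Tendsto (fun i => ↑u⁻¹ * f i) l (ng N 1) := by simpa using ng_mul (ng_const ↑u⁻¹) hf
  have h2 : ∀ᶠ i in l, IsUnit (f i) := (h1.eventually (ng_isUnit hN)).mono fun i h => by
    simpa using u.isUnit.mul h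
  refine ⟨h2, ?_⟩
  have h3 := ng_mul (ng_inv hN h1) (ng_const (↑u⁻¹ : B))
  rw [one_mul] at h3
  rw [Ring.inverse_unit]
  refine h3.congr' (h2.mono fun i h => ?_)
  obtain ⟨v, hv⟩ := h
  simp only [← hv]
  rw [← Units.val_mul, Ring.inverse_unit, Ring.inverse_unit, ← Units.val_mul]
  simp

end top

variable {K : Type*} [Field K] [NumberField K] [StarRing K] {N : ℕ}

variable (K N) in
/-- integral at the non-split places and at `N` -/
def Rb : Subring K where
  carrier := {c | ∀ w : Pl K, (¬ Split w ∨ (N : 𝓞 K) ∈ w.asIdeal) → w.valuation K c ≤ 1}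
  mul_mem' ha hb w hw := by rw [map_mul]; exact mul_le_one' (ha w hw) (hb w hw)
  one_mem' w _ := by simp
  add_mem' ha hb w hw := Valuation.map_add_le _ (ha w hw) (hb w hw)
  zero_mem' w _ := by simp
  neg_mem' ha w hw := by rw [Valuation.map_neg]; exact ha w hw

theorem int_mem (r : 𝓞 K) : (r : K) ∈ Rb K N := fun w _ => val_int w r

omit [StarRing K] in
theorem exists_nat (c : K) : ∃ b : ℕ, b ≠ 0 ∧ ∃ r : 𝓞 K, (r : K) = b * c := by
  obtain ⟨b, h1, -, h2⟩ := N23.exists_den_coprime (N := 1) (c := c) fun v hv =>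
    absurd ((Ideal.eq_top_iff_one _).2 (by simpa using hv)) v.isPrime.ne_top
  exact ⟨b, h1, h2⟩

omit [StarRing K] in
theorem ev_int (hN : 2 ≤ N) :
    ∀ᶠ x in ng N (0 : K), ∀ w : Pl K, (N : 𝓞 K) ∈ w.asIdeal → w.valuation K x ≤ 1 := by
  filter_upwards [ng_le_nr _ ((N23.basis_val (Basis.singleton Unit K) (by omega : N ≠ 0) 0).mem_of_mem
    (i := 0) trivial)] with x hx w hw
  simpa using hx w hw ()

theorem ev_mul (hN : 2 ≤ N) {M₀ : ℕ} (h0 : M₀ ≠ 0) :
    ∀ᶠ x in ng N (0 : K), ∃ M : ℕ, M.Coprime N ∧ ∃ r ∈ Rb K N, M * x = M₀ * r := by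
  have h : Tendsto (fun x : K => x * (M₀ : K)⁻¹) (ng N 0) (ng N 0) := by
    simpa using ng_mul (tendsto_id (x := ng N (0 : K))) (ng_const (M₀ : K)⁻¹)
  filter_upwards [h.eventually (ev_int hN)] with x hx
  obtain ⟨b, -, h1, r, h2⟩ := N23.exists_den_coprime hx
  have : (M₀ : K) ≠ 0 := by exact_mod_cast h0
  exact ⟨b, h1, r, int_mem r, by rw [h2]; field_simp⟩

theorem exists_mul {q : ℕ} (hq : q.Prime) (hN : ¬ q ∣ N) {x : K}
    (h : ∀ w : Pl K, (q : 𝓞 K) ∈ w.asIdeal → ¬ Split w → w.valuation K x ≤ 1) :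
    ∃ M : ℕ, ¬ q ∣ M ∧ M * x ∈ Rb K N := by
  obtain ⟨b, h0, r, hr⟩ := exists_nat x
  obtain ⟨k, M, h1, rfl⟩ := Nat.exists_eq_pow_mul_and_not_dvd h0 q hq.ne_one
  refine ⟨M, h1, fun w hw => ?_⟩
  by_cases hw' : (q : 𝓞 K) ∈ w.asIdeal
  · rw [map_mul]
    refine mul_le_one' (N23.val_nat w M) (h w hw' (hw.resolve_right fun h2 => ?_))
    exact (N23.val_N.2 hw').ne (N23.val_coprime h2 ((Nat.Prime.coprime_iff_not_dvd hq).2 hN))
  · have := val_int w r
    rwa [hr, Nat.cast_mul, Nat.cast_pow, mul_assoc, map_mul, map_pow, N23.val_eq_one hw', one_pow,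
      one_mul] at this

theorem exists_small (hN : 2 ≤ N) (hnd : ∀ V ∈ ng N (1 : K), {w ∈ V | star w * w = 1}.Infinite)
    {V : Set K} (hV : V ∈ ng N (0 : K)) : ∃ s ∈ V, s ≠ 0 ∧ s ∈ Rb K N := by
  have h : Tendsto (fun w : K => 1 - w) (ng N 1) (ng N 0) := by
    simpa using ng_sub (ng_const 1) (tendsto_id (x := ng N (1 : K)))
  obtain ⟨w, ⟨⟨h1, h2⟩, h3⟩, h4⟩ := (hnd _ (h (inter_mem hV (ev_int hN)))).exists_notMem_finset {1}
  refine ⟨1 - w, h1, sub_ne_zero.2 (Ne.symm (by simpa using h4)), fun v hv => hv.elim (fun hv => ?_) (h2 v)⟩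
  have h5 : v.valuation K (star w) = v.valuation K w := not_not.1 fun h => hv ⟨w, h⟩
  have h6 := congrArg (v.valuation K) h3
  rw [map_mul, h5, map_one, ← sq, pow_eq_one_iff_of_nonneg zero_le two_ne_zero] at h6
  exact Valuation.map_sub_le _ (by simp) h6.le

/-- the span of the `w⁻¹ - 1` -/
def II (V : Set K) : AddSubgroup K := AddSubgroup.closure ((fun w => w⁻¹ - 1) '' V)

variable {B A : Type*} [Ring B] [Algebra K B] [Algebra ℚ B] [FiniteDimensional K B]

theorem sm_of_st (hN : 2 ≤ N) (hnd : ∀ V ∈ ng N (1 : K), {w ∈ V | star w * w = 1}.Infinite)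
    {p : Seminorm ℚ B} (hp : ∀ ε > 0, {x | p x < ε} ∈ ng N (0 : B)) {P : AddSubgroup B}
    (hP : ∀ r ∈ Rb K N, ∀ x ∈ P, r • x ∈ P) : Per.Sm p P := fun η hη x hx => by
  let ω := integralBasis K
  have h : ∀ᶠ s in ng N (0 : K), ∀ i, p (s • ω i • x) < η := eventually_all.2 fun i => by
    have := ng_smul K (tendsto_id (x := ng N (0 : K))) (ng_const (ω i • x))
    rw [zero_smul] at this
    exact this (hp η hη)
  obtain ⟨s, h1, h2, h3⟩ := exists_small hN hnd h
  have e : x = ∑ i, ω.repr s⁻¹ i • s • ω i • x := by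
    simp_rw [smul_comm s, ← smul_assoc _ (ω _), ← Finset.sum_smul]
    rw [ω.sum_repr, inv_smul_smul₀ h2]
  rw [e]
  refine Submodule.sum_mem _ fun i _ => Submodule.smul_mem _ _ (Submodule.subset_span ⟨?_, h1 i⟩)
  exact hP _ h3 _ (hP _ (by rw [integralBasis_apply]; exact int_mem _) _ hx)

omit [StarRing K] [Algebra ℚ B] [FiniteDimensional K B] [NumberField K] in
theorem smul_mem_closure {V : Set K} {c : K} (hc : c ∈ II V) (u : B) :
    c • u ∈ AddSubgroup.closure ((fun w => (w⁻¹ - 1) • u) '' V) := by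
  have := AddSubgroup.mem_map_of_mem (LinearMap.toSpanSingleton K B u).toAddMonoidHom hc
  rwa [II, AddMonoidHom.map_closure, Set.image_image] at this

theorem sm_steps {V : Set K} (hV : ∀ w ∈ V, star w * w = 1)
    (hI : ∀ V' ∈ ng N (1 : K), ∃ M₀ : ℕ, M₀ ≠ 0 ∧ ∀ c ∈ Rb K N, M₀ * c ∈ II (V ∩ V'))
    {p : Seminorm ℚ B} (hp : ∀ ε > 0, {x | p x < ε} ∈ ng N (0 : B)) (u : B) :
    Per.Sm p ((fun w => (w⁻¹ - 1) • u) '' V) := by
  rintro η hη _ ⟨w, -, rfl⟩
  have h := ng_smul K (ng_sub (ng_map (N := N) (starAddEquiv : K ≃+ K).toAddMonoidHom 1)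
    (ng_const 1)) (ng_const u)
  simp only [AddEquiv.coe_toAddMonoidHom, starAddEquiv_apply, star_one, sub_self, zero_smul] at h
  obtain ⟨M₀, h0, hM⟩ := hI _ (h (hp η hη))
  obtain ⟨b, b0, r, hr⟩ := exists_nat (w⁻¹ - 1)
  have h1 := smul_mem_closure (hM r (int_mem r)) u
  have h2 : AddSubgroup.closure ((fun w => (w⁻¹ - 1) • u) '' (V ∩ _)) ≤
      (Submodule.span ℚ {x ∈ (fun w => (w⁻¹ - 1) • u) '' V | p x < η}).toAddSubgroup :=
    (AddSubgroup.closure_le _).2 (by
      rintro _ ⟨w, ⟨h1, h2⟩, rfl⟩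
      refine Submodule.subset_span ⟨⟨w, h1, rfl⟩, ?_⟩
      change p ((w⁻¹ - 1) • u) < η
      rw [← eq_inv_of_mul_eq_one_left (hV w h1)]
      exact h2)
  have h3 := Submodule.smul_mem _ ((M₀ * b : ℕ) : ℚ)⁻¹ (h2 h1)
  rwa [hr, ← mul_assoc, ← Nat.cast_mul, mul_smul, Nat.cast_smul_eq_nsmul,
    ← Nat.cast_smul_eq_nsmul ℚ, inv_smul_smul₀ (by simp [h0, b0])] at h3

variable (K N) in
/-- `P` is a module of periods -/
structure Gd (La : AddSubgroup B) (p : Seminorm ℚ B) (f : B → A) (e : ℝ) (P : AddSubgroup B) :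
    Prop where
  st : ∀ r ∈ Rb K N, ∀ x ∈ P, r • x ∈ P
  le : P ≤ La
  val : Per.Val f La p e P

variable (K N) in
/-- the sum of all modules of periods -/
def Mx (La : AddSubgroup B) (p : Seminorm ℚ B) (f : B → A) (e : ℝ) : AddSubgroup B :=
  ⨆ P : {P // Gd K N La p f e P}, P.1

variable {La : AddSubgroup B} {p : Seminorm ℚ B} {f : B → A} {e : ℝ} {P : AddSubgroup B}

omit [FiniteDimensional K B] in
theorem Gd.le_Mx (h : Gd K N La p f e P) : P ≤ Mx K N La p f e :=
  le_iSup (fun P : {P // Gd K N La p f e P} => P.1) ⟨P, h⟩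

theorem gd_Mx (hs : ∀ P : AddSubgroup B, (∀ r ∈ Rb K N, ∀ x ∈ P, r • x ∈ P) → Per.Sm p P) :
    Gd K N La p f (e / 4) (Mx K N La p f e) := by
  have := fdQ K B
  refine ⟨fun r hr x hx => ?_, iSup_le fun P => P.2.le,
    Per.per_iSup (fun P => P.2.le) (fun P => hs _ P.2.st) fun P => P.2.val⟩
  exact (iSup_le fun P x hx => P.2.le_Mx (P.2.st r hr x hx) :
    Mx K N La p f e ≤ (Mx K N La p f e).comap (DistribSMul.toAddMonoidHom B r)) hx

omit [FiniteDimensional K B] in
theorem Gd.inf {f₁ f₂ : B → A} {P₁ P₂ : AddSubgroup B} (h₁ : Gd K N La p f₁ e P₁)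
    (h₂ : Gd K N La p f₂ e P₂) (op : A → A → A)
    (hf : ∀ y ∈ La, p y < e → f y = op (f₁ y) (f₂ y)) : Gd K N La p f e (P₁ ⊓ P₂) :=
  ⟨fun r hr x hx => ⟨h₁.st r hr x hx.1, h₂.st r hr x hx.2⟩, inf_le_left.trans h₁.le,
    (h₁.val.inter h₂.val op).congr (fun _ hx => h₁.le hx.1) hf⟩

end Crest.Agent.T24.HolC
end
end

-- ▼ part T24/HolCB_25
section

/-!
# Row 24, HOL, leaf H5 (helper25): the constancy theorem from the local inputs
-/

set_option autoImplicit false

noncomputable section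

namespace Crest.Agent.T24.HolC

open Filter NumberField Asa In Module Polynomial Csa
open scoped Topology

variable {K B A : Type*} [Field K] [NumberField K] [StarRing K] [Ring B] [StarRing B] [Algebra K B]
  [Algebra ℚ B] [Algebra.IsCentral K B] [IsSimpleRing B] [FiniteDimensional K B] [CommGroup A]

/-- the coefficient of the Lagrange identity -/
def be (κ : Fin (deg K B) → K) (b : B) (j : Fin (deg K B)) : K :=
  (rch K b).eval (κ j) / ∏ i ∈ Finset.univ.erase j, (κ j - κ i)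

variable (K) in
/-- all relations on a fixed box -/
structure Bx (N M₀ : ℕ) (W : Fin 3 → Set B) (V : Set K) (La : AddSubgroup B) (p : Seminorm ℚ B)
    (e : ℝ) (F : B → B → B → A) : Prop where
  coc : ∀ i l m, i ≠ l → l ≠ m → i ≠ m → ∀ g ∈ W i, ∀ g' ∈ W l, ∀ g'' ∈ W m, ∀ y ∈ La, p y < e →
    F g g'' y = F g g' y * F g' g'' y
  anti : ∀ i l, i ≠ l → ∀ g ∈ W i, ∀ g' ∈ W l, ∀ y ∈ La, p y < e → F g g' y * F g' g y = 1
  step : ∀ i l, i ≠ l → ∀ g ∈ W i, ∀ g' ∈ W l, ∀ κ ∈ V, IsUnit (star g' * g - algebraMap K B κ) ∧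
    ∀ w ∈ V, ∀ s, s = (w⁻¹ - 1) • (1 - κ) • (g * Ring.inverse (star g' * g - algebraMap K B κ)) →
      s ∈ La ∧ p s < e / 4 ∧ ∀ y ∈ La, p y < e → F g g' (y + s) = F g g' y
  sm : ∀ P : AddSubgroup B, (∀ r ∈ Rb K N, ∀ x ∈ P, r • x ∈ P) → Per.Sm p P
  sms : ∀ u : B, Per.Sm p ((fun w => (w⁻¹ - 1) • u) '' V)
  ne : M₀ ≠ 0
  id : ∀ c ∈ Rb K N, M₀ * c ∈ II V
  pos : 0 < e

variable {N M₀ : ℕ} {W : Fin 3 → Set B} {V : Set K} {La : AddSubgroup B} {p : Seminorm ℚ B}
  {e : ℝ} {F : B → B → B → A} (h : Bx K N M₀ W V La p e F) {i l m : Fin 3} {g g' g'' : B}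

include h

omit [Algebra.IsCentral K B] [IsSimpleRing B] in
theorem Bx.one (hil : i ≠ l) (hg : g ∈ W i) (hg' : g' ∈ W l) {κ : K} (hκ : κ ∈ V) {r : K}
    (hr : r ∈ Rb K N) : (M₀ * r) • (1 - κ) • (g * Ring.inverse (star g' * g - algebraMap K B κ)) ∈
      Mx K N La p (F g g') (e / 4) := by
  have := fdQ K B
  set u := (1 - κ) • (g * Ring.inverse (star g' * g - algebraMap K B κ))
  have hs := (h.step i l hil g hg g' hg' κ hκ).2
  have h1 : (fun w => (w⁻¹ - 1) • u) '' V ⊆ La := by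
    rintro _ ⟨w, hw, rfl⟩; exact (hs w hw _ rfl).1
  have h2 := Per.per (f := F g g') h1 (by rintro _ ⟨w, hw, rfl⟩; exact (hs w hw _ rfl).2.1) (h.sms u)
    (by rintro _ ⟨w, hw, rfl⟩ y hy h1 -; exact (hs w hw _ rfl).2.2 y hy h1)
  let P := (Rb K N).toAddSubgroup.map (LinearMap.toSpanSingleton K B ((M₀ : K) • u)).toAddMonoidHom
  have h3 : P ≤ AddSubgroup.closure ((fun w => (w⁻¹ - 1) • u) '' V) := by
    rintro _ ⟨c, hc, rfl⟩
    simpa [smul_smul, mul_comm] using smul_mem_closure (h.id c hc) u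
  refine Gd.le_Mx (P := P) ⟨?_, h3.trans ((AddSubgroup.closure_le _).2 h1), h2.mono le_rfl h3 le_rfl⟩
    ⟨r, hr, by simp [smul_smul, mul_comm]⟩
  rintro a ha _ ⟨c, hc, rfl⟩
  exact ⟨a * c, (Rb K N).mul_mem ha hc, by simp [mul_smul]⟩

theorem Bx.lag (hil : i ≠ l) (hg : g ∈ W i) (hg' : g' ∈ W l) {κ : Fin (deg K B) → K}
    (hκ : Function.Injective κ) (hV : ∀ j, κ j ∈ V ∧ κ j ≠ 1) {c : K}
    (hc : ∀ j, ∃ r ∈ Rb K N, c * be κ (star g' * g) j / (1 - κ j) = M₀ * r) :
    c • g ∈ Mx K N La p (F g g') (e / 4) := by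
  have hu := fun j => (h.step i l hil g hg g' hg' _ (hV j).1).1
  have h1 := Id32.lag (s := Finset.univ) hκ.injOn (rch_monic K (star g' * g))
    (by rw [rch_natDegree, Finset.card_univ, Fintype.card_fin]) (aeval_rch _)
    fun j _ => by simpa using (hu j).neg
  have h0 : c • g = ∑ j, c • (g * be κ (star g' * g) j •
      Ring.inverse (algebraMap K B (κ j) - star g' * g)) := by
    rw [← Finset.smul_sum, ← Finset.mul_sum]
    exact congrArg (c • ·) ((mul_one g).symm.trans (congrArg (g * ·) h1.symm))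
  rw [h0]
  refine sum_mem fun j _ => ?_
  obtain ⟨r, hr, e⟩ := hc j
  have h2 := neg_mem (h.one hil hg hg' (hV j).1 hr)
  have h3 : Ring.inverse (algebraMap K B (κ j) - star g' * g) =
      -Ring.inverse (star g' * g - algebraMap K B (κ j)) := by
    obtain ⟨u, hu⟩ := hu j
    rw [← neg_sub, ← hu, ← Units.val_neg, Ring.inverse_unit, Ring.inverse_unit]; simp
  rwa [← e, smul_smul, div_mul_cancel₀ _ (sub_ne_zero.2 (hV j).2.symm), ← smul_neg, ← mul_neg, ← h3,
    mul_smul, ← mul_smul_comm] at h2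

omit [Algebra.IsCentral K B] [IsSimpleRing B] in
theorem Bx.tri (hil : i ≠ l) (hml : m ≠ l) (hmi : m ≠ i) (hg : g ∈ W i) (hg' : g' ∈ W l)
    (hg'' : g'' ∈ W m) : Mx K N La p (F g'' g) (e / 4) ⊓ Mx K N La p (F g'' g') (e / 4) ≤
      Mx K N La p (F g g') (e / 4 / 4) :=
  ((gd_Mx h.sm).inf (gd_Mx h.sm) (fun a b => a⁻¹ * b) fun y hy h1 => by
    have h2 : p y < e := by linarith [h.pos]
    rw [h.coc i m l hmi.symm hml hil g hg g'' hg'' g' hg' y hy h2,
      eq_inv_of_mul_eq_one_left (h.anti i m hmi.symm g hg g'' hg'' y hy h2)]).le_Mx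

omit h in
variable (K) in
/-- good nodes at `q` -/
def Nd (q : ℕ) (V : Set K) (b : B) : Prop := ∀ c : K, ∃ κ : Fin (deg K B) → K,
  Function.Injective κ ∧ ∀ j, κ j ∈ V ∧ κ j ≠ 1 ∧ ∀ w : Pl K, (q : 𝓞 K) ∈ w.asIdeal → ¬ Split w →
    w.valuation K (c * be κ b j / (1 - κ j)) ≤ 1

theorem Bx.nd {q : ℕ} (hq : q.Prime) (hN : ¬ q ∣ N) (hil : i ≠ l) (hg : g ∈ W i) (hg' : g' ∈ W l)
    (hn : Nd K q V (star g' * g)) (c : K) :
    ∃ M : ℕ, ¬ q ∣ M ∧ M • c • g ∈ Mx K N La p (F g g') (e / 4) := by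
  obtain ⟨κ, h1, h2⟩ := hn (c / M₀)
  choose M hM hr using fun j => exists_mul hq hN (h2 j).2.2
  refine ⟨∏ j, M j, fun hd => ?_, ?_⟩
  · obtain ⟨j, -, hj⟩ := (Prime.dvd_finsetProd_iff hq.prime _).1 hd
    exact hM j hj
  rw [← Nat.cast_smul_eq_nsmul K, smul_smul]
  refine h.lag hil hg hg' h1 (fun j => ⟨(h2 j).1, (h2 j).2.1⟩) fun j =>
    ⟨_, mul_mem (natCast_mem _ (∏ k ∈ Finset.univ.erase j, M k)) (hr j), ?_⟩
  have : (M₀ : K) ≠ 0 := by exact_mod_cast h.ne
  rw [← Finset.prod_erase_mul _ _ (Finset.mem_univ j)]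
  push_cast
  field_simp

omit h in
variable (K) in
/-- all vectors are periods up to a multiple prime to `q` -/
def Qp (N : ℕ) (La : AddSubgroup B) (p : Seminorm ℚ B) (f : B → A) (e : ℝ) (q : ℕ) : Prop :=
  ∃ P, Gd K N La p f e P ∧ ∀ x : B, ∃ M : ℕ, ¬ q ∣ M ∧ M • x ∈ P

omit h [StarRing B] [Algebra ℚ B] [Algebra.IsCentral K B] [IsSimpleRing B] [FiniteDimensional K B] in
theorem both {q : ℕ} (hq : q.Prime) {P P' : AddSubgroup B} {x x' : B}
    (h1 : ∃ M : ℕ, ¬ q ∣ M ∧ M • x ∈ P) (h2 : ∃ M : ℕ, ¬ q ∣ M ∧ M • x' ∈ P') :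
    ∃ M : ℕ, ¬ q ∣ M ∧ M • x ∈ P ∧ M • x' ∈ P' := by
  obtain ⟨M, a1, a2⟩ := h1
  obtain ⟨M', b1, b2⟩ := h2
  refine ⟨M * M', fun hd => (hq.dvd_mul.1 hd).elim a1 b1, ?_, ?_⟩
  · rw [mul_comm, mul_smul]; exact P.nsmul_mem a2 _
  · rw [mul_smul]; exact P'.nsmul_mem b2 _

theorem Bx.link {q : ℕ} (hq : q.Prime) (hN : ¬ q ∣ N) (hil : i ≠ l) (hml : m ≠ l) (hmi : m ≠ i)
    (hg : g ∈ W i) (hg' : g' ∈ W l) (hs : Submodule.span K
      {x | x ∈ W m ∧ Nd K q V (star g * x) ∧ Nd K q V (star g' * x)} = ⊤) :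
    Qp K N La p (F g g') (e / 4 / 4 / 4) q := by
  refine ⟨_, gd_Mx h.sm, fun x => ?_⟩
  suffices H : ∀ c : K, ∃ M : ℕ, ¬ q ∣ M ∧ M • c • x ∈ Mx K N La p (F g g') (e / 4 / 4) by
    simpa using H 1
  have hx : x ∈ Submodule.span K _ := hs ▸ Submodule.mem_top
  induction hx using Submodule.span_induction with
  | mem x hx =>
    intro c
    obtain ⟨M, h1, h2⟩ := both hq (h.nd hq hN hmi hx.1 hg hx.2.1 c) (h.nd hq hN hml hx.1 hg' hx.2.2 c)
    exact ⟨M, h1, h.tri hil hml hmi hg hg' hx.1 h2⟩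
  | zero => exact fun c => ⟨1, hq.not_dvd_one, by simp⟩
  | add x y _ _ hx hy =>
    intro c
    obtain ⟨M, h1, h2, h3⟩ := both hq (hx c) (hy c)
    exact ⟨M, h1, by rw [smul_add, smul_add]; exact add_mem h2 h3⟩
  | smul a x _ hx => exact fun c => by rw [smul_smul c]; exact hx _

omit [Algebra.IsCentral K B] [IsSimpleRing B] [FiniteDimensional K B] in
theorem Bx.trans {q : ℕ} (hq : q.Prime) (hil : i ≠ l) (hlm : l ≠ m) (him : i ≠ m)
    (hg : g ∈ W i) (hg' : g' ∈ W l) (hg'' : g'' ∈ W m) {e' : ℝ} (he : e' ≤ e)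
    (h1 : Qp K N La p (F g g') e' q) (h2 : Qp K N La p (F g' g'') e' q) :
    Qp K N La p (F g g'') e' q := by
  obtain ⟨P, a1, a2⟩ := h1
  obtain ⟨P', b1, b2⟩ := h2
  exact ⟨_, a1.inf b1 (· * ·) fun y hy h1 =>
    h.coc i l m hil hlm him g hg g' hg' g'' hg'' y hy (h1.trans_le he), fun x => both hq (a2 x) (b2 x)⟩

/-- the chain from the base `0` to the base `1` -/
theorem Bx.chain {q : ℕ} (hq : q.Prime) (hN : ¬ q ∣ N) {z : ℕ → B} {M : ℕ} (h0 : z 0 ∈ W 0)
    (hz : ∀ t ≤ M, z (t + 1) ∈ W (if Even t then 1 else 2))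
    (hs : ∀ t ≤ M, Submodule.span K {x | x ∈ W (if t = 0 then 2 else 0) ∧
      Nd K q V (star (z t) * x) ∧ Nd K q V (star (z (t + 1)) * x)} = ⊤) :
    Qp K N La p (F (z 0) (z (M + 1))) (e / 4 / 4 / 4) q := by
  induction M with
  | zero => exact h.link hq hN (by simp) (by simp) (by simp) h0 (hz 0 le_rfl) (hs 0 le_rfl)
  | succ M ih =>
    have k1 : (if Even M then (1 : Fin 3) else 2) ≠ if Even (M + 1) then 1 else 2 := by
      by_cases hM : Even M <;> simp [Nat.even_add_one, hM]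
    have k2 : ∀ t : ℕ, (0 : Fin 3) ≠ if Even t then 1 else 2 := fun t => by split_ifs <;> simp
    exact h.trans hq (k2 _) k1 (k2 _) h0 (hz M M.le_succ) (hz _ le_rfl) (by linarith [h.pos])
      (ih (fun t ht => hz t (by omega)) fun t ht => hs t (by omega))
      (h.link hq hN k1 (k2 _) (k2 _) (hz M M.le_succ) (hz _ le_rfl) (by simpa using hs _ le_rfl))

/-- uniform periods at `N` -/
theorem Bx.atN (hN : 2 ≤ N) {a : B} (h0 : g ∈ W 0) (hV : (V \ {1}).Infinite)
    (hs : Submodule.span K (W 2) = ⊤) : ∀ᶠ q : B × B in ng N a ×ˢ ng N (0 : B), q.1 ∈ W 1 →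
      ∃ M : ℕ, M.Coprime N ∧ M • q.2 ∈ Mx K N La p (F g q.1) (e / 4 / 4) := by
  have := fdQ K B
  let κ : Fin (deg K B) → K := fun j => hV.natEmbedding _ j
  have hκ : Function.Injective κ := fun i j h => Fin.ext ((hV.natEmbedding _).injective (Subtype.ext h))
  have hκV : ∀ j, κ j ∈ V ∧ κ j ≠ 1 := fun j => (hV.natEmbedding _ j).2
  obtain ⟨s, h1, h2, h3⟩ := exists_linearIndependent K (W 2)
  let b : Basis s K B := Basis.mk h3 (by rw [Subtype.range_coe, h2, hs])
  have := Module.Finite.finite_basis b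
  have := Fintype.ofFinite s
  have hb : ∀ t, b t ∈ W 2 := fun t => by rw [Basis.mk_apply]; exact h1 t.2
  have key : ∀ {f : B × B → B} {a₀ : B}, Tendsto f (ng N a ×ˢ ng N (0 : B)) (ng N a₀) →
      ∀ᶠ q : B × B in ng N a ×ˢ ng N (0 : B), ∀ t j, ∃ M : ℕ, M.Coprime N ∧ ∃ r ∈ Rb K N,
        M * (b.repr q.2 t * be κ (star (f q) * b t) j / (1 - κ j)) = M₀ * r := fun {f a₀} hf =>
    eventually_all.2 fun t => eventually_all.2 fun j => by
      refine Tendsto.eventually (l₂ := ng N (0 : K)) (f := fun q : B × B =>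
        b.repr q.2 t * be κ (star (f q) * b t) j / (1 - κ j)) ?_ (ev_mul hN h.ne)
      have h4 := ng_mul (ng_lin (starAddEquiv : B ≃+ B).toAddMonoidHom hf) (ng_const (b t))
      have h5 : Tendsto (fun q => (rch K (star (f q) * b t)).eval (κ j)) (ng N a ×ˢ ng N (0 : B))
          (ng N ((rch K (star a₀ * b t)).eval (κ j))) := by
        simp only [eval_rch]
        exact (ng_Nrd K _).comp (ng_sub (ng_const _) h4)
      have h6 := ng_mul (ng_mul (ng_lin (b.coord t).toAddMonoidHom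
        (tendsto_snd (f := ng N a) (g := ng N (0 : B)))) (ng_mul h5
          (ng_const (∏ i ∈ Finset.univ.erase j, (κ j - κ i))⁻¹))) (ng_const (1 - κ j)⁻¹)
      simpa [be, div_eq_mul_inv] using h6
  filter_upwards [key (ng_const g), key tendsto_fst] with q a1 a2 hq
  choose M hM r hr e1 using a1
  choose M' hM' r' hr' e2 using a2
  let T : ℕ := (∏ t, ∏ j, M t j) * ∏ t, ∏ j, M' t j
  refine ⟨T, Nat.Coprime.mul_left (Nat.Coprime.prod_left fun t _ => Nat.Coprime.prod_left fun j _ =>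
    hM t j) (Nat.Coprime.prod_left fun t _ => Nat.Coprime.prod_left fun j _ => hM' t j), ?_⟩
  rw [← b.sum_repr q.2, Finset.smul_sum]
  refine sum_mem fun t _ => h.tri (by simp) (by simp) (by simp) h0 hq (hb t) ?_
  rw [← Nat.cast_smul_eq_nsmul K, smul_smul]
  have dv : ∀ (M : s → Fin (deg K B) → ℕ) j, M t j ∣ ∏ t, ∏ j, M t j := fun M j =>
    (Finset.dvd_prod_of_mem _ (Finset.mem_univ j)).trans
      (Finset.dvd_prod_of_mem (fun t => ∏ j, M t j) (Finset.mem_univ t))
  refine ⟨h.lag (by simp) (hb t) h0 hκ hκV fun j => ?_, h.lag (by simp) (hb t) hq hκ hκV fun j => ?_⟩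
  · obtain ⟨c, hc⟩ : M t j ∣ T := (dv M j).mul_right _
    exact ⟨_, mul_mem (natCast_mem _ c) (hr t j), by
      rw [hc, mul_left_comm, ← e1]; push_cast; ring⟩
  · obtain ⟨c, hc⟩ : M' t j ∣ T := (dv M' j).mul_left _
    exact ⟨_, mul_mem (natCast_mem _ c) (hr' t j), by
      rw [hc, mul_left_comm, ← e2]; push_cast; ring⟩

omit h [Algebra.IsCentral K B] [IsSimpleRing B] in
/-- extraction of a box -/
theorem Hyp.box {o : Fin 3 → B} {y₀ : B} {R : B → B → B → A} (H : Hyp K N o y₀ R) (hN : 2 ≤ N)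
    (hnd : ∀ V ∈ ng N (1 : K), {w ∈ V | star w * w = 1}.Infinite)
    (hI : ∀ V ∈ ng N (1 : K), ∃ M₀ : ℕ, M₀ ≠ 0 ∧ ∀ c ∈ Rb K N,
      (M₀ : K) * c ∈ AddSubgroup.closure {x | ∃ w ∈ V, star w * w = 1 ∧ x = 1 - w}) :
    ∃ (M₀ : ℕ) (W : Fin 3 → Set B) (V : Set K) (La : AddSubgroup B) (p : Seminorm ℚ B) (e : ℝ),
      (∀ i, W i ∈ ng N (o i)) ∧ V ∈ ng N (1 : K) ∧ (La : Set B) ∈ ng N (0 : B) ∧
      (∀ ε > 0, {x | p x < ε} ∈ ng N (0 : B)) ∧
      Bx K N M₀ (fun i => W i ∩ unitary B) (V ∩ {w | star w * w = 1}) La p e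
        fun g g' y => R g g' (y₀ + y) := by
  classical
  have := fdQ K B
  obtain ⟨p, hp⟩ := exists_sem B
  obtain ⟨Λ, hΛ⟩ := exists_lat N B
  have hp0 : ∀ ε > 0, {x | p x < ε} ∈ ng N (0 : B) := fun ε hε =>
    ng_le_na _ (by simpa using (hp 0).mem_of_mem hε)
  let G : Filter ((Fin 3 → B) × K × K) := pi (fun i => ng N (o i)) ×ˢ ng N (1 : K) ×ˢ ng N (1 : K)
  have t1 : ∀ i, Tendsto (fun q : (Fin 3 → B) × K × K => q.1 i) G (ng N (o i)) := fun i =>
    (tendsto_eval_pi _ i).comp tendsto_fst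
  have t2 : Tendsto (fun q : (Fin 3 → B) × K × K => q.2.1) G (ng N 1) := tendsto_fst.comp tendsto_snd
  have t3 : Tendsto (fun q : (Fin 3 → B) × K × K => q.2.2) G (ng N 1) := tendsto_snd.comp tendsto_snd
  have u1 := fun i => (t1 i).comp (tendsto_fst (g := ng N y₀))
  have u2 := t2.comp (tendsto_fst (g := ng N y₀))
  have u3 := t3.comp (tendsto_fst (g := ng N y₀))
  have u4 := tendsto_snd (f := G) (g := ng N y₀)
  have c1 := eventually_all.2 fun i => eventually_all.2 fun l => eventually_all.2 fun m =>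
    eventually_all.2 fun a => eventually_all.2 fun b => eventually_all.2 fun c =>
      ((u1 i).prodMk ((u1 l).prodMk ((u1 m).prodMk u4))).eventually (H.coc i l m a b c)
  have c2 := eventually_all.2 fun i => eventually_all.2 fun l => eventually_all.2 fun a =>
    ((u1 i).prodMk ((u1 l).prodMk u4)).eventually (H.anti i l a)
  have c3 := eventually_all.2 fun i => eventually_all.2 fun l => eventually_all.2 fun a =>
    ((u1 i).prodMk ((u1 l).prodMk (u4.prodMk (u2.prodMk u3)))).eventually (H.step i l a)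
  obtain ⟨pa, h1, pb, h2, h3⟩ := eventually_prod_iff.1 (c1.and (c2.and c3))
  obtain ⟨⟨a, e⟩, ⟨-, he⟩, h4⟩ := ((hΛ.nr_basis y₀).inf (hp y₀)).mem_iff.1 h2
  have hLa : ((dp Λ a).toAddSubgroup : Set B) ∈ ng N (0 : B) :=
    ng_le_nr _ (nr_zero (N := N) (V := B) ▸ hΛ.dp_mem a)
  have c4 : ∀ᶠ q in G, ∀ i l, i ≠ l → IsUnit (star (q.1 l) * q.1 i - algebraMap K B q.2.2) ∧
      (star q.2.1 - 1) • (1 - q.2.2) • (q.1 i * Ring.inverse (star (q.1 l) * q.1 i -
        algebraMap K B q.2.2)) ∈ ((dp Λ a).toAddSubgroup : Set B) ∩ {x | p x < e / 4} :=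
    eventually_all.2 fun i => eventually_all.2 fun l => eventually_all.2 fun hil => by
      obtain ⟨a1, a2⟩ := ng_iv hN (by simpa using H.unit i l hil) (ng_sub (ng_mul
        (ng_lin (starAddEquiv : B ≃+ B).toAddMonoidHom (t1 l)) (t1 i))
        (ng_lin (algebraMap K B).toAddMonoidHom t3))
      have a3 := ng_smul K (ng_sub (ng_lin (starAddEquiv : K ≃+ K).toAddMonoidHom t2) (ng_const 1))
        (ng_smul K (ng_sub (ng_const 1) t3) (ng_mul (t1 i) a2))
      rw [sub_self (1 : K), zero_smul, smul_zero] at a3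
      exact a1.and (a3 (inter_mem hLa (hp0 _ (by positivity))))
  obtain ⟨W', hW', VV, hVV, h5⟩ := mem_prod_iff.1 (h1.and c4)
  obtain ⟨V₁, hV₁, V₂, hV₂, h6⟩ := mem_prod_iff.1 hVV
  obtain ⟨I, W, hW, h7⟩ := mem_pi'.1 hW'
  have ho : ∀ i, o i ∈ W i := fun i => self_of_ng (N := N) (p := (· ∈ W i)) (hW i)
  have key := fun (x : Fin 3 → B) (hx : ∀ i, x i ∈ W i) w κ (hw : w ∈ V₁ ∩ V₂) (hκ : κ ∈ V₁ ∩ V₂) =>
    h5 (Set.mk_mem_prod (h7 fun i _ => hx i) (h6 (Set.mk_mem_prod hw.1 hκ.2)))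
  have h11 : (1 : K) ∈ V₁ ∩ V₂ := self_of_ng (N := N) (p := (· ∈ V₁ ∩ V₂)) (inter_mem hV₁ hV₂)
  have hY : ∀ y ∈ (dp Λ a).toAddSubgroup, p y < e → pb (y₀ + y) := fun y a1 a2 =>
    h4 ⟨by simpa using a1, by simpa using a2⟩
  have up : ∀ {x : Fin 3 → B} {i g}, (∀ j, x j ∈ W j) → g ∈ W i →
      ∀ j, Function.update x i g j ∈ W j := fun {x i g} hx hg j => by
    by_cases hj : j = i
    · subst hj; simpa using hg
    · simpa [hj] using hx j
  have hI' : ∀ V' ∈ ng N (1 : K), ∃ M₀ : ℕ, M₀ ≠ 0 ∧ ∀ c ∈ Rb K N,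
      M₀ * c ∈ II (V₁ ∩ V₂ ∩ {w | star w * w = 1} ∩ V') := fun V' hV' => by
    have := ng_map (N := N) (starAddEquiv : K ≃+ K).toAddMonoidHom 1
    simp only [AddEquiv.coe_toAddMonoidHom, starAddEquiv_apply, star_one] at this
    obtain ⟨M₀, a1, a2⟩ := hI _ (this (inter_mem (inter_mem hV₁ hV₂) hV'))
    refine ⟨M₀, a1, fun c hc => (AddSubgroup.closure_le _).2 ?_ (a2 c hc)⟩
    rintro _ ⟨w, b1, b2, rfl⟩
    refine neg_sub w 1 ▸ neg_mem (AddSubgroup.subset_closure ⟨star w, ⟨⟨b1.1, ?_⟩, b1.2⟩, ?_⟩)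
    · change star (star w) * star w = 1
      rw [star_star, mul_comm, b2]
    · simp only [eq_inv_of_mul_eq_one_left b2, inv_inv]
  obtain ⟨M₀, a1, a2⟩ := hI' _ univ_mem
  refine ⟨M₀, W, V₁ ∩ V₂, _, p, e, hW, inter_mem hV₁ hV₂, hLa, hp0,
    fun i l m a b c g hg g' hg' g'' hg'' y b1 b2 => ?_, fun i l a g hg g' hg' y b1 b2 => ?_,
    fun i l a g hg g' hg' κ hκ => ?_, fun P => sm_of_st hN hnd hp0,
    sm_steps (fun w hw => hw.2) hI' hp0, a1, by simpa using a2, he⟩
  · have := (h3 (key _ (up (up (up ho hg.1) hg'.1) hg''.1) 1 1 h11 h11).1 (hY y b1 b2)).1 i l m a b c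
    simp only [Function.comp, Function.update_self, Function.update_of_ne a, Function.update_of_ne b,
      Function.update_of_ne c] at this
    exact this hg.2 hg'.2 hg''.2
  · have := (h3 (key _ (up (up ho hg.1) hg'.1) 1 1 h11 h11).1 (hY y b1 b2)).2.1 i l a
    simp only [Function.comp, Function.update_self, Function.update_of_ne a] at this
    exact this hg.2 hg'.2
  have k1 := fun w hw => (key _ (up (up ho hg.1) hg'.1) w κ hw hκ.1).2 i l a
  simp only [Function.update_self, Function.update_of_ne a] at k1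
  refine ⟨(k1 1 h11).1, fun w hw s hs => ?_⟩
  have k2 := (k1 w hw.1).2
  rw [eq_inv_of_mul_eq_one_left hw.2, ← hs] at k2
  refine ⟨k2.1, k2.2, fun y b1 b2 => ?_⟩
  have := (h3 (key _ (up (up ho hg.1) hg'.1) w κ hw.1 hκ.1).1 (hY y b1 b2)).2.2 i l a
  simp only [Function.comp, Function.update_self, Function.update_of_ne a] at this
  rw [hs, ← add_assoc, ← mul_smul]
  exact this hg.2 hg'.2 hw.2 hκ.2

omit h in
/-- **CONST** from the local inputs -/
theorem Hyp.const {o : Fin 3 → B} {y₀ : B} {R : B → B → B → A} (H : Hyp K N o y₀ R) (hN : 2 ≤ N)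
    (hnd : ∀ V ∈ ng N (1 : K), {w ∈ V | star w * w = 1}.Infinite)
    (hI : ∀ V ∈ ng N (1 : K), ∃ M₀ : ℕ, M₀ ≠ 0 ∧ ∀ c ∈ Rb K N,
      (M₀ : K) * c ∈ AddSubgroup.closure {x | ∃ w ∈ V, star w * w = 1 ∧ x = 1 - w})
    (hsp : ∀ a : unitary B, ∀ W ∈ ng N (a : B), Submodule.span K (W ∩ unitary B) = ⊤)
    (hch : ∀ q : ℕ, q.Prime → ¬ q ∣ N → ∀ V ∈ ng N (1 : K), ∀ g g' : unitary B, ∃ M₀ : ℕ, ∀ M ≥ M₀,
      ∀ (a a' : ℕ → unitary B) (W W' : ℕ → Set B),
      (∀ t, W t ∈ ng N (a t : B) ∧ W' t ∈ ng N (a' t : B)) → ∃ z : ℕ → unitary B, z 0 = g ∧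
        z (M + 1) = g' ∧ (∀ t, 0 < t → t ≤ M → (z t : B) ∈ W t) ∧ ∀ t ≤ M, Submodule.span K
          {x : B | x ∈ W' t ∩ unitary B ∧ Nd K q (V ∩ {w | star w * w = 1}) (star (z t : B) * x) ∧
            Nd K q (V ∩ {w | star w * w = 1}) (star (z (t + 1) : B) * x)} = ⊤) :
    ∀ᶠ q : B × B × B in ng N (o 1) ×ˢ ng N y₀ ×ˢ ng N y₀,
      q.1 ∈ unitary B → R (o 0) q.1 q.2.1 = R (o 0) q.1 q.2.2 := by
  have := fdQ K B
  obtain ⟨M₀, W, V, La, p, e, hW, hV, hLa, hp, h⟩ := H.box hN hnd hI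
  have ho : ∀ i, o i ∈ W i ∩ unitary B := fun i =>
    ⟨self_of_ng (N := N) (p := (· ∈ W i)) (hW i), H.uni i⟩
  have h1 := h.atN (a := o 1) hN (ho 0) ((hnd V hV).sdiff (Set.finite_singleton 1))
    (hsp ⟨o 2, H.uni 2⟩ _ (hW 2))
  have t0 : Tendsto (fun y => y - y₀) (ng N y₀) (ng N 0) := by
    simpa using ng_sub (tendsto_id (x := ng N y₀)) (ng_const y₀)
  have h2 : ∀ᶠ q : B × B in ng N (o 1) ×ˢ ng N y₀,
      q.1 ∈ unitary B → R (o 0) q.1 q.2 = R (o 0) q.1 y₀ := by
    filter_upwards [(tendsto_fst.prodMk (t0.comp tendsto_snd)).eventually h1,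
      tendsto_fst (hW 1), (t0.comp tendsto_snd) (hp (e / 4 / 4 / 4 / 4) (by linarith [h.pos]))]
      with q a1 a2 a3 hq
    obtain ⟨M, b1, b2⟩ := a1 ⟨a2, hq⟩
    have key : q.2 - y₀ ∈ Mx K N La p (fun y => R (o 0) q.1 (y₀ + y)) (e / 4 / 4 / 4) := by
      refine Per.mem_of_primes fun r hr => ?_
      by_cases hrN : r ∣ N
      · exact ⟨M, fun hd => hr.one_lt.ne' (Nat.eq_one_of_dvd_coprimes b1 hd hrN),
          (gd_Mx h.sm).le_Mx b2⟩
      obtain ⟨M₁, hM⟩ := hch r hr hrN V hV ⟨o 0, H.uni 0⟩ ⟨q.1, hq⟩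
      obtain ⟨z, z0, z1, z2, z3⟩ := hM (2 * M₁) (by omega)
        (fun t => ⟨_, H.uni (if Even (t - 1) then 1 else 2)⟩)
        (fun t => ⟨_, H.uni (if t = 0 then 2 else 0)⟩) _ _ fun t => ⟨hW _, hW _⟩
      obtain ⟨P, c1, c2⟩ := h.chain hr hrN (z := fun t => z t) (M := 2 * M₁) (by rw [z0]; exact ho 0)
        (fun t ht => ⟨by
          rcases ht.eq_or_lt with rfl | ht
          · rw [z1, if_pos (even_two_mul _)]; exact a2
          · exact z2 (t + 1) t.succ_pos ht, (z _).2⟩) z3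
      rw [z0, z1] at c1
      exact (c2 _).imp fun M hM => ⟨hM.1, c1.le_Mx hM.2⟩
    simpa using (gd_Mx h.sm).val.const key a3
  filter_upwards [(tendsto_fst.prodMk (tendsto_fst.comp tendsto_snd)).eventually h2,
    (tendsto_fst.prodMk (tendsto_snd.comp tendsto_snd)).eventually h2] with q a1 a2 hq
  exact (a1 hq).trans (a2 hq).symm

end Crest.Agent.T24.HolC
end
end

-- ▼ part T24/HolPDef_80
section

/-!
# Row 24, HOL, leaf H4 (helper80): words
-/

set_option autoImplicit false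

namespace Crest.Agent.T24.H80

open Filter NumberField Asa In Csa WithZero Finset

universe u v

section

variable (K : Type*) {B : Type*} [Field K] [NumberField K] [StarRing K] [Ring B] [StarRing B]
  [Algebra K B] [FiniteDimensional K B]

/-- good interpolation nodes for `b` at the non-split places over `p` -/
def Nod (p : ℕ) (V : Set K) (b : B) : Prop := ∀ (c : K) (m : ℕ), ∃ κ : Fin (deg K B) → K,
  Function.Injective κ ∧ ∀ j, κ j ∈ V ∧ star (κ j) * κ j = 1 ∧ κ j ≠ 1 ∧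
    IsUnit (algebraMap K B (κ j) - b) ∧ ∀ w : Pl K, (p : 𝓞 K) ∈ w.asIdeal → ¬ Split w →
      w.valuation K (c * ((rch K b).eval (κ j) / ∏ i ∈ univ.erase j, (κ j - κ i)) / (1 - κ j)) ≤
        exp (-(m : ℤ))

/-- an edge -/
def Ed (N p : ℕ) (g h : B) : Prop :=
  ∀ V ∈ ng N (1 : K), Nod K p V (star h * g) ∧ Nod K p V (star g * h)

end

/-- chains of edges between any two unitary elements -/
def ChainStmt : Prop := ∀ (K : Type u) [Field K] [NumberField K] [StarRing K] (B : Type v) [Ring B]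
  [StarRing B] [Algebra K B] [StarModule K B] [Algebra ℚ B] [Algebra.IsCentral K B] [IsSimpleRing B]
  [FiniteDimensional K B], (∃ c : K, star c ≠ c) → 3 ≤ deg K B → ∀ N p : ℕ, 2 ≤ N → p.Prime →
  ¬ p ∣ N → ∀ g g' : unitary B, ∃ M₀ : ℕ, ∀ M, M₀ ≤ M → ∀ (a a' : ℕ → unitary B) (W W' : ℕ → Set B),
    (∀ t, W t ∈ ng N (a t : B) ∧ W' t ∈ ng N (a' t : B)) → ∃ z : ℕ → unitary B, z 0 = g ∧
      z (M + 1) = g' ∧ (∀ t, 0 < t → t ≤ M → (z t : B) ∈ W t) ∧ ∀ t ≤ M, Submodule.span K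
        {h | h ∈ unitary B ∧ h ∈ W' t ∧ Ed K N p (z t : B) h ∧ Ed K N p (z (t + 1) : B) h} = ⊤

/-- unitary elements near a unitary element span -/
def Span0Stmt : Prop := ∀ (K : Type u) [Field K] [NumberField K] [StarRing K] (B : Type v) [Ring B]
  [StarRing B] [Algebra K B] [StarModule K B] [Algebra ℚ B] [FiniteDimensional K B],
  (∃ c : K, star c ≠ c) → ∀ N : ℕ, 2 ≤ N → ∀ (a : unitary B), ∀ W ∈ ng N (a : B),
    Submodule.span K {h | h ∈ unitary B ∧ h ∈ W} = ⊤

/-- infinitely many elements of norm one near `1` -/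
def Nodes0Stmt : Prop := ∀ (K : Type u) [Field K] [NumberField K] [StarRing K],
  (∃ c : K, star c ≠ c) → ∀ N : ℕ, 2 ≤ N → ∀ V ∈ ng N (1 : K),
    {κ | κ ∈ V ∧ star κ * κ = 1}.Infinite

end Crest.Agent.T24.H80
end

-- ▼ part T24/HolC_25
section

/-!
# Row 24, HOL, leaf H5 (helper25): CONST
-/

set_option autoImplicit false

namespace Crest.Agent.T24.HolC

open Filter NumberField Asa In

universe u v w

theorem nd_of_nod {K B : Type*} [Field K] [NumberField K] [StarRing K] [Ring B] [Algebra K B]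
    [Algebra.IsCentral K B] [IsSimpleRing B] [FiniteDimensional K B] {q : ℕ} {V : Set K} {b : B}
    (h : H80.Nod K q V b) : Nd K q (V ∩ {w | star w * w = 1}) b := fun c => by
  obtain ⟨κ, h1, h2⟩ := h c 0
  exact ⟨κ, h1, fun j => ⟨⟨(h2 j).1, (h2 j).2.1⟩, (h2 j).2.2.1, fun w a b => by
    simpa [be] using (h2 j).2.2.2.2 w a b⟩⟩

theorem constStmt (hI : IdealStmt.{u}) (hc : H80.ChainStmt.{u, v}) (hs : H80.Span0Stmt.{u, v})
    (hn : H80.Nodes0Stmt.{u}) : ConstStmt.{u, v, w} := by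
  intro K _ _ _ B _ _ _ _ _ _ _ _ hne hd N hN A _ o y₀ R H
  refine H.const hN (hn K hne N hN) (hI K hne N hN) (fun a W hW => ?_) fun q hq hqN V hV g g' => ?_
  · rw [← hs K B hne N hN a W hW]; congr 1; ext x; exact and_comm
  obtain ⟨M₀, h⟩ := hc K B hne hd N q hN hq hqN g g'
  refine ⟨M₀, fun M hM a a' W W' hW => ?_⟩
  obtain ⟨z, h1, h2, h3, h4⟩ := h M hM a a' W W' hW
  refine ⟨z, h1, h2, h3, fun t ht => eq_top_iff.2 ((h4 t ht).ge.trans (Submodule.span_mono ?_))⟩
  exact fun x hx => ⟨⟨hx.2.1, hx.1⟩, nd_of_nod (hx.2.2.1 V hV).2, nd_of_nod (hx.2.2.2 V hV).2⟩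

end Crest.Agent.T24.HolC
end

-- ▼ part T24/HolI_7
section

/-!
# Row 24, holonomy step: the additive group generated by the `1 - w`, `w` of norm one near `1`
-/

set_option autoImplicit false
set_option linter.unusedSectionVars false

namespace Crest.Agent.T24.HolI

open Filter Module NumberField IsDedekindDomain WithZero
open scoped Topology NumberField
open Crest.Agent.T24.In Crest.Agent.T24.Asa

universe u

variable {K : Type*} [Field K] [NumberField K] [StarRing K] {N : ℕ}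

/-- the generators -/
def Gen (V : Set K) : Set K := {x | ∃ w ∈ V, star w * w = 1 ∧ x = 1 - w}

theorem Gen.mono {V W : Set K} (h : V ⊆ W) : Gen V ⊆ Gen W :=
  fun _ ⟨w, h1, h2⟩ => ⟨w, h h1, h2⟩

theorem ng_star {α : Type*} {l : Filter α} {f : α → K} {a : K} (h : Tendsto f l (ng N a)) :
    Tendsto (fun i => star (f i)) l (ng N (star a)) :=
  ng_lin (starAddEquiv (R := K)).toAddMonoidHom h

theorem exists_half {V : Set K} (hV : V ∈ ng N (1 : K)) :
    ∃ W ∈ ng N (1 : K), W ⊆ V ∧ ∀ x ∈ W, ∀ y ∈ W, x * y ∈ V := by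
  have h := ng_mul_one (N := N) (l := ng N (1 : K) ×ˢ ng N (1 : K)) tendsto_fst tendsto_snd hV
  obtain ⟨W₁, h₁, W₂, h₂, h⟩ := mem_prod_iff.1 h
  exact ⟨V ∩ (W₁ ∩ W₂), inter_mem hV (inter_mem h₁ h₂), Set.inter_subset_left,
    fun x hx y hy => h (Set.mk_mem_prod hx.2.1 hy.2.2)⟩

theorem gen_mul {V W : Set K} (h1 : W ⊆ V) (h2 : ∀ x ∈ W, ∀ y ∈ W, x * y ∈ V) {S : Type*}
    [SetLike S K] [AddSubgroupClass S K] {M : S} (hM : Gen V ⊆ M) {x y : K} (hx : x ∈ Gen W)
    (hy : y ∈ Gen W) : x * y ∈ M := by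
  obtain ⟨a, ha, ha1, rfl⟩ := hx
  obtain ⟨b, hb, hb1, rfl⟩ := hy
  have : (1 - a) * (1 - b) = (1 - a) + (1 - b) - (1 - a * b) := by ring
  rw [this]
  refine sub_mem (add_mem (hM ⟨a, h1 ha, ha1, rfl⟩) (hM ⟨b, h1 hb, hb1, rfl⟩))
    (hM ⟨a * b, h2 a ha b hb, ?_, rfl⟩)
  rw [star_mul]
  linear_combination (star b * b) * ha1 + hb1

/-- quotients `x / star x` along a sequence tending to `1` -/
theorem ev_quot (hN : 2 ≤ N) {V : Set K} (hV : V ∈ ng N (1 : K)) {x : ℕ → K}
    (hx : Tendsto x atTop (ng N 1)) :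
    ∀ᶠ j in atTop, x j ≠ 0 ∧ 1 - x j / star (x j) ∈ Gen V := by
  have h1 : Tendsto (fun j => star (x j)) atTop (ng N 1) := by simpa using ng_star hx
  have h2 := ng_mul_one hx (ng_inv hN h1)
  filter_upwards [h2 hV, hx (ng_isUnit hN)] with j hj hu
  have h0 : x j ≠ 0 := IsUnit.ne_zero hu
  have h3 : star (x j) ≠ 0 := star_ne_zero.2 h0
  refine ⟨h0, x j / star (x j), ?_, ?_, rfl⟩
  · simpa [div_eq_mul_inv] using hj
  · rw [star_div₀, star_star]; field_simp

theorem span_top (hN : 2 ≤ N) (hK : ∃ c : K, star c ≠ c) {V : Set K} (hV : V ∈ ng N (1 : K)) :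
    Submodule.span ℚ (Gen V) = ⊤ := by
  classical
  have hex : ∃ n, ∃ U ∈ ng N (1 : K), U ⊆ V ∧ finrank ℚ (Submodule.span ℚ (Gen U)) = n :=
    ⟨_, V, hV, subset_rfl, rfl⟩
  obtain ⟨U, hU, hUV, hn⟩ := Nat.find_spec hex
  set D := Submodule.span ℚ (Gen U) with hD
  obtain ⟨W, hW, hWU, hWW⟩ := exists_half hU
  have hDW : Submodule.span ℚ (Gen W) = D := by
    refine Submodule.eq_of_le_of_finrank_le (Submodule.span_mono (Gen.mono hWU)) ?_
    rw [hn]
    exact Nat.find_min' hex ⟨W, hW, hWU.trans hUV, rfl⟩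
  have hmul : ∀ x ∈ D, ∀ y ∈ D, x * y ∈ D := by
    intro x hx y hy
    rw [← hDW] at hx hy
    have := Submodule.mul_mem_mul hx hy
    rw [Submodule.span_mul_span] at this
    refine Submodule.span_le.2 ?_ this
    rintro _ ⟨a, ha, b, hb, rfl⟩
    exact gen_mul hWU hWW (M := D) Submodule.subset_span ha hb
  have hdiv : ∀ x ∈ D, x ≠ 0 → ∀ y ∈ D, y / x ∈ D := by
    intro x hx h0 y hy
    let f : D →ₗ[ℚ] D := (LinearMap.mulLeft ℚ x).restrict fun z hz => hmul x hx z hz
    have hf : Function.Injective f := fun a b hab =>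
      Subtype.ext (mul_left_cancel₀ h0 (congrArg Subtype.val hab))
    obtain ⟨z, hz⟩ := LinearMap.injective_iff_surjective.1 hf ⟨y, hy⟩
    have : x * z = y := congrArg Subtype.val hz
    rw [← this, mul_div_cancel_left₀ _ h0]
    exact z.2
  have hskew : ∀ s : K, star s = -s → s ∈ D := by
    intro s hs
    rcases eq_or_ne s 0 with rfl | hs0
    · exact zero_mem _
    have h1 : Tendsto (fun j : ℕ => 1 + ((N : ℚ) / (N + 1)) ^ j • s) atTop (ng N 1) := by
      simpa using ng_add (ng_const 1) (tendsto_small (N := N) s)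
    obtain ⟨j, h0, hj⟩ := (ev_quot hN hU h1).exists
    set q : ℚ := ((N : ℚ) / (N + 1)) ^ j with hq
    have hq0 : q ≠ 0 := by positivity
    have hq1 : (q : K) ≠ 0 := by exact_mod_cast hq0
    have hst : star (1 + q • s) = 1 - q • s := by
      rw [star_add, star_one, star_rat_smul, hs, smul_neg, sub_eq_add_neg]
    have h3 : 1 - q • s ≠ 0 := hst ▸ star_ne_zero.2 h0
    rw [hst] at hj
    have hx : 1 - (1 + q • s) / (1 - q • s) ∈ D := Submodule.subset_span hj
    rw [Rat.smul_def] at h0 h3 hx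
    have hxe : 1 - (1 + q * s) / (1 - q * s) = -2 * q * s / (1 - q * s) := by field_simp; ring
    have hx0 : 1 - (1 + q * s) / (1 - q * s) ≠ 0 := by
      rw [hxe]
      exact div_ne_zero (mul_ne_zero (mul_ne_zero (by norm_num) hq1) hs0) h3
    have hone : (1 : K) ∈ D := by simpa [hx0] using hdiv _ hx hx0 _ hx
    have h2 : 1 + 1 - (1 - (1 + q * s) / (1 - q * s)) = 2 / (1 - q * s) := by field_simp; ring
    have h4 := hdiv _ (sub_mem (add_mem hone hone) hx)
      (by rw [h2]; exact div_ne_zero two_ne_zero h3) _ hx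
    have h5 := D.smul_mem (-q⁻¹) h4
    rw [h2, Rat.smul_def, hxe, div_div_div_cancel_right₀ h3] at h5
    convert h5 using 1
    push_cast
    field_simp
  refine top_unique (le_trans (fun x _ => ?_) (Submodule.span_mono (Gen.mono hUV)))
  obtain ⟨c, hc⟩ := hK
  have hθ : c - star c ≠ 0 := sub_ne_zero.2 hc.symm
  have hθ' : star c - c ≠ 0 := sub_ne_zero.2 hc
  have : x = (x - star x) / 2 + (c - star c) * ((x + star x) / 2 / (c - star c)) := by
    field_simp; ring
  rw [this]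
  refine add_mem (hskew _ ?_) (hmul _ (hskew _ (by simp)) _ (hskew _ ?_))
  · simp only [star_div₀, star_sub, star_star, star_ofNat]; ring
  · simp only [star_div₀, star_sub, star_add, star_star, star_ofNat]; field_simp; ring

theorem exists_den {S : Set K} {x : K} (hx : x ∈ Submodule.span ℚ S) :
    ∃ n : ℕ, n ≠ 0 ∧ (n : K) * x ∈ AddSubgroup.closure S := by
  induction hx using Submodule.span_induction with
  | mem x hx => exact ⟨1, one_ne_zero, by simpa using AddSubgroup.subset_closure hx⟩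
  | zero => exact ⟨1, one_ne_zero, by simp⟩
  | add x y _ _ hx hy =>
    obtain ⟨n, hn, h1⟩ := hx
    obtain ⟨m, hm, h2⟩ := hy
    refine ⟨n * m, mul_ne_zero hn hm, ?_⟩
    have := add_mem (nsmul_mem h1 m) (nsmul_mem h2 n)
    convert this using 1
    simp only [nsmul_eq_mul]; push_cast; ring
  | smul q x _ hx =>
    obtain ⟨n, hn, h1⟩ := hx
    refine ⟨n * q.den, mul_ne_zero hn q.den_nz, ?_⟩
    have := zsmul_mem h1 q.num
    convert this using 1
    have h2 : (q.num : K) = q * q.den := by exact_mod_cast (Rat.mul_den_eq_num q).symm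
    rw [zsmul_eq_mul, Rat.smul_def, h2]; push_cast; ring

theorem exists_lat {S : Set K} (h : Submodule.span ℚ S = ⊤) :
    ∃ n : ℕ, n ≠ 0 ∧ ∀ a : 𝓞 K, (n : K) * a ∈ AddSubgroup.closure S := by
  classical
  obtain ⟨s, hs⟩ := (Module.Finite.fg_top : (⊤ : Submodule ℤ (𝓞 K)).FG)
  choose f hf using fun x : K => exists_den (S := S) (x := x) (h ▸ Submodule.mem_top)
  refine ⟨∏ a ∈ s, f a, Finset.prod_ne_zero_iff.2 fun a _ => (hf a).1, fun a => ?_⟩
  have ha : a ∈ Submodule.span ℤ (s : Set (𝓞 K)) := hs ▸ Submodule.mem_top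
  induction ha using Submodule.span_induction with
  | mem x hx =>
    obtain ⟨c, hc⟩ := Finset.dvd_prod_of_mem (fun a : 𝓞 K => f a) hx
    rw [hc]
    convert nsmul_mem (hf x).2 c using 1
    simp only [nsmul_eq_mul]; push_cast; ring
  | zero => simp
  | add x y _ _ hx hy => simpa [mul_add] using add_mem hx hy
  | smul z x _ hx =>
    convert zsmul_mem hx z using 1
    simp only [zsmul_eq_mul, map_mul, map_intCast]; ring

/-- a natural number bigger than `N`, prime to `N`, in a given prime not containing `N` -/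
theorem exists_nat (w : Pl K) (hN : (N : 𝓞 K) ∉ w.asIdeal) :
    ∃ P : ℕ, N < P ∧ P.Coprime N ∧ (P : 𝓞 K) ∈ w.asIdeal := by
  have := w.isMaximal
  have : Finite (𝓞 K ⧸ w.asIdeal) := Ideal.finiteQuotientOfFreeOfNeBot _ w.ne_bot
  let _ := Ideal.Quotient.field w.asIdeal
  obtain ⟨p, hp⟩ := CharP.exists (𝓞 K ⧸ w.asIdeal)
  have hpp : p.Prime := CharP.char_is_prime (𝓞 K ⧸ w.asIdeal) p
  have hm : (p : 𝓞 K) ∈ w.asIdeal := by
    rw [← Ideal.Quotient.eq_zero_iff_mem, map_natCast]; exact CharP.cast_eq_zero _ p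
  have hc : p.Coprime N := (Nat.Prime.coprime_iff_not_dvd hpp).2 fun ⟨c, hc⟩ =>
    hN (by rw [hc]; push_cast; exact Ideal.mul_mem_right _ _ hm)
  refine ⟨p ^ (N + 1), (Nat.lt_succ_self N).trans (Nat.lt_pow_self hpp.one_lt),
    hc.pow_left _, ?_⟩
  push_cast
  exact Ideal.pow_mem_of_mem _ hm _ N.succ_pos

theorem tendsto_q (hN : 2 ≤ N) {P : ℕ} (h1 : N < P) (h2 : P.Coprime N) (x : K) :
    Tendsto (fun j : ℕ => ((N : ℚ) ^ j / ((N : ℚ) ^ j + (P : ℚ) ^ j)) • x) atTop (ng N 0) := by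
  refine tendsto_ng.2 ⟨?_, tendsto_na.2 fun φ => ?_⟩
  · rw [nr_zero]
    intro U hU
    obtain ⟨m, hm⟩ := exists_dp_subset hU (Submodule.fg_span_singleton (R := ZN N) x)
    refine mem_map.2 (eventually_atTop.2 ⟨m + 1, fun j hj => hm _ (dp_anti _
      ((Nat.le_succ m).trans hj) ?_)⟩)
    have h3 : ((N ^ j + P ^ j : ℕ) : ℚ)⁻¹ ∈ ZN N := inv_mem_ZN (by
      obtain ⟨i, rfl⟩ := Nat.exists_eq_add_of_le' ((Nat.le_add_left 1 m).trans hj)
      rw [add_comm, pow_succ N, Nat.coprime_add_mul_right_left]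
      exact h2.pow_left _)
    simp only [div_eq_mul_inv, mul_smul]
    push_cast at h3
    exact smul_mem_dp _ (zsmul_mem h3 (Submodule.mem_span_singleton_self x))
  · have hP : (0 : ℝ) < P := by exact_mod_cast (Nat.zero_le N).trans_lt h1
    have h3 : Tendsto (fun j : ℕ => ((N : ℝ) / P) ^ j) atTop (𝓝 0) :=
      tendsto_pow_atTop_nhds_zero_of_lt_one (by positivity)
        ((div_lt_one hP).2 (by exact_mod_cast h1))
    have h4 : Tendsto (fun j : ℕ => (N : ℝ) ^ j / ((N : ℝ) ^ j + (P : ℝ) ^ j)) atTop (𝓝 0) := by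
      refine squeeze_zero (fun j => by positivity) (fun j => ?_) h3
      rw [div_pow]
      gcongr
      exact le_add_of_nonneg_left (by positivity)
    simp only [map_rat_smul, map_zero]
    simpa [Rat.smul_def] using h4.mul_const (φ x)

theorem ev_lt (w : Pl K) {a : K} (ha : w.valuation K a < 1) (y : K) {g : ℤᵐ⁰} (hg : g ≠ 0) :
    ∀ᶠ j : ℕ in atTop, w.valuation K (a ^ j * y) < g := by
  rcases eq_or_ne a 0 with rfl | ha0
  · filter_upwards [eventually_gt_atTop 0] with j hj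
    simpa [hj.ne'] using zero_lt_iff.2 hg
  rcases eq_or_ne y 0 with rfl | hy0
  · exact Eventually.of_forall fun j => by simpa using zero_lt_iff.2 hg
  have h1 := val_ne_zero w ha0
  have h2 := val_ne_zero w hy0
  rw [← exp_log h1, ← exp_zero, exp_lt_exp] at ha
  filter_upwards [eventually_gt_atTop (log (w.valuation K y) - log g).toNat] with j hj
  rw [map_mul, map_pow, ← exp_log h1, ← exp_log h2, ← exp_log hg, ← exp_nsmul, ← exp_add,
    exp_lt_exp, nsmul_eq_mul]
  have : (log (w.valuation K y) - log g) < j := by omega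
  nlinarith

/-- generators with a pole of arbitrary order at a split place away from `N` -/
theorem exists_pole (hN : 2 ≤ N) {V : Set K} (hV : V ∈ ng N (1 : K)) (w : Pl K) (hs : Split w)
    (hw : (N : 𝓞 K) ∉ w.asIdeal) (x : K) :
    ∃ m ∈ Gen V, m ≠ 0 ∧ w.valuation K x ≤ w.valuation K m := by
  obtain ⟨x₀, h₀⟩ : ∃ x₀ : K, w.valuation K (star x₀) < w.valuation K x₀ := by
    obtain ⟨y, hy⟩ := hs
    rcases lt_or_gt_of_ne hy with h | h
    · exact ⟨y, h⟩
    · exact ⟨star y, by simpa using h⟩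
  have hx0 : x₀ ≠ 0 := by rintro rfl; simp at h₀
  have hs0 : star x₀ ≠ 0 := star_ne_zero.2 hx0
  have ha : w.valuation K (star x₀ / x₀) < 1 := by
    rw [map_div₀]; exact (div_lt_one₀ (zero_lt_iff.2 (val_ne_zero w hx0))).2 h₀
  obtain ⟨m, hm1, hm2⟩ := ((ev_lt w ha x one_ne_zero).and (ev_lt w ha 1 one_ne_zero)).exists
  set y := x₀ ^ m with hy
  have hy0 : y ≠ 0 := pow_ne_zero _ hx0
  have hy1 : star y ≠ 0 := star_ne_zero.2 hy0
  have hq : (star x₀ / x₀) ^ m = star y / y := by rw [hy, star_pow, div_pow]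
  rw [hq] at hm1 hm2
  obtain ⟨P, hP1, hP2, hP3⟩ := exists_nat w hw
  have hPv : w.valuation K (P : K) < 1 := by
    simpa using (w.valuation_lt_one_iff_mem (K := K) (P : 𝓞 K)).2 hP3
  have hNv : w.valuation K (N : K) = 1 := by
    have h1 : ¬ w.valuation K (N : K) < 1 := fun h =>
      hw ((w.valuation_lt_one_iff_mem (K := K) (N : 𝓞 K)).1 (by simpa using h))
    exact le_antisymm (by simpa using val_int w (N : 𝓞 K)) (not_lt.1 h1)
  have h1 : Tendsto (fun j : ℕ => 1 + ((N : ℚ) ^ j / ((N : ℚ) ^ j + (P : ℚ) ^ j)) • (y - 1)) atTop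
      (ng N 1) := by simpa using ng_add (ng_const 1) (tendsto_q hN hP1 hP2 (y - 1))
  obtain ⟨j, ⟨⟨h0, hj⟩, hj1, hj2⟩, hj3⟩ := (((ev_quot hN hV h1).and
    ((ev_lt w hPv (y - 1) (val_ne_zero w hy0)).and
      (ev_lt w hPv (star y - 1) (val_ne_zero w hy1)))).and (ev_lt w hPv 1 one_ne_zero)).exists
  have hd : w.valuation K ((N : K) ^ j + (P : K) ^ j) = 1 := by
    rw [mul_one] at hj3
    have : w.valuation K ((N : K) ^ j) = 1 := by rw [map_pow, hNv, one_pow]
    rw [Valuation.map_add_eq_of_lt_left _ (this ▸ hj3), this]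
  have hd0 : (N : K) ^ j + (P : K) ^ j ≠ 0 := fun h => by simp [h] at hd
  have key : ∀ z : K, w.valuation K ((P : K) ^ j * (z - 1)) < w.valuation K z →
      w.valuation K (1 + ((N : ℚ) ^ j / ((N : ℚ) ^ j + (P : ℚ) ^ j)) • (z - 1)) =
        w.valuation K z := by
    intro z hz
    have : 1 + ((N : ℚ) ^ j / ((N : ℚ) ^ j + (P : ℚ) ^ j)) • (z - 1) =
        z - (P : K) ^ j * (z - 1) / ((N : K) ^ j + (P : K) ^ j) := by
      rw [Rat.smul_def]; push_cast; field_simp; ring
    rw [this, Valuation.map_sub_eq_of_lt_left]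
    rwa [map_div₀, hd, div_one]
  set X := 1 + ((N : ℚ) ^ j / ((N : ℚ) ^ j + (P : ℚ) ^ j)) • (y - 1) with hX
  have hX1 : w.valuation K X = w.valuation K y := key y hj1
  have hX2 : w.valuation K (star X) = w.valuation K (star y) := by
    rw [hX, star_add, star_one, star_rat_smul, star_sub, star_one]; exact key _ hj2
  have hv : 0 < w.valuation K (star y / y) := zero_lt_iff.2 (val_ne_zero w (div_ne_zero hy1 hy0))
  have hX3 : w.valuation K (X / star X) = (w.valuation K (star y / y))⁻¹ := by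
    rw [map_div₀, hX1, hX2, map_div₀, inv_div]
  rw [mul_one] at hm2
  have hX4 : w.valuation K (1 : K) < w.valuation K (X / star X) := by
    rw [hX3, map_one]; exact (one_lt_inv₀ hv).2 hm2
  have hX5 := Valuation.map_sub_eq_of_lt_right _ hX4
  refine ⟨_, hj, fun h => ?_, ?_⟩
  · rw [h, map_zero] at hX5
    exact not_lt_zero (hX5 ▸ hX4)
  · rw [hX5, hX3]
    rw [map_mul] at hm1
    exact ((lt_inv_mul_iff₀ hv).2 hm1).le.trans (mul_one _).le

/-- THE IDEAL LEMMA -/
theorem ideal (hK : ∃ c : K, star c ≠ c) (hN : 2 ≤ N) {V : Set K} (hV : V ∈ ng N (1 : K)) :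
    ∃ M : ℕ, M ≠ 0 ∧ ∀ c : K,
      (∀ w : Pl K, (¬ Split w ∨ (N : 𝓞 K) ∈ w.asIdeal) → w.valuation K c ≤ 1) →
      (M : K) * c ∈ AddSubgroup.closure (Gen V) := by
  obtain ⟨W, hW, hWV, hWW⟩ := exists_half hV
  obtain ⟨n, hn, hl⟩ := exists_lat (span_top hN hK hW)
  have hn' : (n : K) ≠ 0 := by exact_mod_cast hn
  set M := Submodule.span (𝓞 K) (Gen W) with hM
  have h1 : ∀ x ∈ M, (n : K) * x ∈ AddSubgroup.closure (Gen V) := by
    have h2 : ∀ x ∈ AddSubgroup.closure (Gen W), ∀ y ∈ Gen W,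
        x * y ∈ AddSubgroup.closure (Gen V) := by
      intro x hx y hy
      induction hx using AddSubgroup.closure_induction with
      | mem x hx => exact gen_mul hWV hWW AddSubgroup.subset_closure hx hy
      | zero => simp
      | add a b _ _ ha hb => rw [add_mul]; exact add_mem ha hb
      | neg a _ ha => rw [neg_mul]; exact neg_mem ha
    have h3 : ∀ x ∈ M, ∀ a : 𝓞 K, (n : K) * (a * x) ∈ AddSubgroup.closure (Gen V) := by
      intro x hx
      induction hx using Submodule.span_induction with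
      | mem x hx => intro a; rw [← mul_assoc]; exact h2 _ (hl a) x hx
      | zero => simp
      | add x y _ _ hx hy => intro a; rw [mul_add, mul_add]; exact add_mem (hx a) (hy a)
      | smul b x _ hx =>
        intro a
        have := hx (a * b)
        rwa [Algebra.smul_def, ← mul_assoc (a : K)]
    intro x hx
    simpa using h3 x hx 1
  have hnM : (n : K) ∈ M := by
    have : AddSubgroup.closure (Gen W) ≤ M.toAddSubgroup :=
      (AddSubgroup.closure_le _).2 Submodule.subset_span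
    simpa using this (hl 1)
  refine ⟨n * n, mul_ne_zero hn hn, fun c hc => ?_⟩
  rw [Nat.cast_mul, mul_assoc]
  refine h1 _ ?_
  let J : Ideal (𝓞 K) := M.comap (LinearMap.toSpanSingleton (𝓞 K) K ((n : K) * c))
  by_contra hJ
  have hJ1 : J ≠ ⊤ := fun h => hJ (by simpa [J] using (Ideal.eq_top_iff_one J).1 h)
  obtain ⟨𝔪, h𝔪, hle⟩ := Ideal.exists_le_maximal J hJ1
  let w : Pl K := ⟨𝔪, h𝔪.isPrime, Ring.ne_bot_of_isMaximal_of_not_isField h𝔪
    (RingOfIntegers.not_isField K)⟩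
  obtain ⟨m, hm, hm0, hv⟩ : ∃ m ∈ M, m ≠ 0 ∧ w.valuation K ((n : K) * c) ≤ w.valuation K m := by
    by_cases hw : ¬ Split w ∨ (N : 𝓞 K) ∈ w.asIdeal
    · refine ⟨n, hnM, hn', ?_⟩
      rw [map_mul]
      exact mul_le_of_le_one_right' (hc w hw)
    · rw [not_or, not_not] at hw
      obtain ⟨m, h2, h3⟩ := exists_pole hN hW w hw.1 hw.2 ((n : K) * c)
      exact ⟨m, Submodule.subset_span h2, h3⟩
  obtain ⟨a, s, hs⟩ := w.exists_primeCompl_mul_eq_of_integer (K := K) ((n : K) * c / m) (by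
    rw [map_div₀]; exact div_le_one_of_le₀ hv zero_le)
  refine s.2 (hle ?_)
  have := M.smul_mem a hm
  change (s : 𝓞 K) • ((n : K) * c) ∈ M
  convert this using 1
  rw [Algebra.smul_def, Algebra.smul_def, ← hs]
  field_simp

theorem idealStmt : HolC.IdealStmt.{u} := fun _ _ _ _ hK _ hN _ hV => ideal hK hN hV

end Crest.Agent.T24.HolI
end

-- ▼ part T24/HolPA_80
section

/-!
# Row 24, HOL, leaf H4 (helper80), part A: the local set `Om`
-/

set_option autoImplicit false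
set_option linter.unusedSectionVars false

noncomputable section

namespace Crest.Agent.T24.H80

open Filter Topology Finset Polynomial Module Csa Matrix

theorem greedy {α β : Type*} {d : ℕ} (X : Fin d → Set α) (hX : ∀ j, (X j).Infinite)
    (f g : Fin d → α → β) (hf : ∀ j, Function.Injective (f j)) (hg : ∀ j, Function.Injective (g j)) :
    ∃ t : Fin d → α, (∀ j, t j ∈ X j) ∧ Function.Injective (fun j => f j (t j)) ∧
      Function.Injective fun j => g j (t j) := by
  induction d with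
  | zero => exact ⟨Fin.elim0, fun j => j.elim0, fun j => j.elim0, fun j => j.elim0⟩
  | succ d ih =>
    obtain ⟨t, h1, h2, h3⟩ := ih (fun j => X j.succ) (fun _ => hX _) (fun j => f j.succ)
      (fun j => g j.succ) (fun _ => hf _) fun _ => hg _
    obtain ⟨y, hy, hy'⟩ := (hX 0).exists_notMem_finite
      (((Set.finite_range fun j : Fin d => f j.succ (t j)).preimage (hf 0).injOn).union
        ((Set.finite_range fun j : Fin d => g j.succ (t j)).preimage (hg 0).injOn))
    rw [Set.mem_union, not_or] at hy'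
    have key : ∀ f : Fin (d + 1) → α → β, (fun j => f j ((Fin.cons y t : Fin (d + 1) → α) j)) =
        Fin.cons (f 0 y) fun j : Fin d => f j.succ (t j) := fun f =>
      funext fun j => Fin.cases rfl (fun _ => rfl) j
    refine ⟨Fin.cons y t, fun j => Fin.cases hy h1 j, ?_, ?_⟩
    · rw [key]; exact Fin.cons_injective_iff.2 ⟨hy'.1, h2⟩
    · rw [key]; exact Fin.cons_injective_iff.2 ⟨hy'.2, h3⟩

section Grp
variable {G : Type*} [Group G]

/-- chains of length `n` -/
def Ch (S : G → Prop) (g : G) (n : ℕ) (u : G) : Prop := ∃ z y : ℕ → G, z 0 = g ∧ z n = u ∧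
  ∀ t < n, S ((z t)⁻¹ * y t) ∧ S ((z (t + 1))⁻¹ * y t)

theorem Ch.step {S : G → Prop} {g u a b : G} {n : ℕ} (h : Ch S g n u) (ha : S a) (hb : S b) :
    Ch S g (n + 1) (u * (a * b⁻¹)) := by
  obtain ⟨z, y, h0, h1, h2⟩ := h
  refine ⟨Function.update z (n + 1) (u * (a * b⁻¹)), Function.update y n (u * a), by simpa using h0,
    by simp, fun t ht => ?_⟩
  rcases (Nat.lt_succ_iff_lt_or_eq.1 ht) with h | rfl
  · rw [Function.update_of_ne (by omega), Function.update_of_ne (by omega),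
      Function.update_of_ne (by omega)]
    exact h2 t h
  · rw [Function.update_of_ne (by omega), Function.update_self, Function.update_self, h1]
    exact ⟨by simpa using ha, by simpa [mul_assoc] using hb⟩

theorem ch_of {S : G → Prop} {a : G} (ha : S a)
    (h : ∀ u, u ∈ Subgroup.closure {x | ∃ a b, S a ∧ S b ∧ x = a * b⁻¹}) (g g' : G) :
    ∃ M₀, ∀ M, M₀ ≤ M → Ch S g M g' := by
  obtain ⟨n, hn⟩ : ∃ n, Ch S g n (g * (g⁻¹ * g')) := by
    refine Subgroup.closure_induction_right (p := fun x _ => ∃ n, Ch S g n (g * x))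
      ⟨0, fun _ => g, fun _ => g, rfl, by simp, by simp⟩ ?_ ?_ (h (g⁻¹ * g'))
    · rintro x - _ ⟨a, b, h1, h2, rfl⟩ ⟨n, hn⟩
      exact ⟨n + 1, mul_assoc g x _ ▸ hn.step h1 h2⟩
    · rintro x - _ ⟨a, b, h1, h2, rfl⟩ ⟨n, hn⟩
      exact ⟨n + 1, by simpa [mul_assoc] using hn.step h2 h1⟩
  rw [mul_inv_cancel_left] at hn
  refine ⟨n, fun M hM => ?_⟩
  induction M, hM using Nat.le_induction with
  | base => exact hn
  | succ M _ ih => simpa using ih.step ha ha

end Grp

theorem starRing_ext {R : Type*} [Ring R] {S T : StarRing R} (h : ∀ x, S.star x = T.star x) :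
    S = T := by
  rcases S with @⟨@⟨@⟨⟨f⟩, _⟩, _⟩, _⟩
  rcases T with @⟨@⟨@⟨⟨g⟩, _⟩, _⟩, _⟩
  obtain rfl : f = g := funext h
  rfl

variable (E : Type*) {A : Type*} [Field E] [CharZero E] [StarRing E] [Ring A] [StarRing A]
  [Algebra E A] [StarModule E A] [Algebra.IsCentral E A] [IsSimpleRing A] [FiniteDimensional E A]

/-- `d` distinct eigenvalues of norm one, different from `1` -/
def Om (d : ℕ) (u : A) : Prop := ∃ l : Fin d → E, Function.Injective l ∧
  ∀ j, star (l j) * l j = 1 ∧ l j ≠ 1 ∧ Nrd E (algebraMap E A (l j) - u) = 0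

variable {E}

theorem Om.adj {d : ℕ} {u : A} (h : Om E d u) : Om E d (star u) := by
  obtain ⟨l, h1, h2⟩ := h
  refine ⟨fun j => star (l j), star_injective.comp h1, fun j => ⟨?_, ?_, ?_⟩⟩
  · rw [star_star, mul_comm]; exact (h2 j).1
  · exact fun h => (h2 j).2.1 (star_eq_iff_star_eq.1 h ▸ star_one E)
  · rw [← Csa.star_algebraMap, ← star_sub, Wall.Nrd_star', (h2 j).2.2, star_zero]

theorem Om.conj {d : ℕ} {u g g' : A} (h : Om E d u) (hg : g' * g = 1) : Om E d (g * u * g') := by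
  obtain ⟨l, h1, h2⟩ := h
  exact ⟨l, h1, fun j => ⟨(h2 j).1, (h2 j).2.1, by
    rw [← eval_rch, rch_conj hg, eval_rch, (h2 j).2.2]⟩⟩

theorem infinite_one (hne : ∃ c : E, star c ≠ c) : {x : E | star x * x = 1}.Infinite := by
  obtain ⟨θ, h0, hθ⟩ := exists_skew hne
  have h1 : ∀ n : ℕ, (n : E) - θ ≠ 0 := fun n h => h0 (by
    have := congrArg star h
    rw [star_sub, star_natCast, hθ, star_zero] at this
    linear_combination (1 / 2 : E) * (this - h))
  have h2 : ∀ n : ℕ, (n : E) + θ ≠ 0 := fun n h => h1 n (by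
    have := congrArg star h
    rwa [star_add, star_natCast, hθ, star_zero, ← sub_eq_add_neg] at this)
  refine Set.infinite_of_injective_forall_mem (f := fun n : ℕ => ((n : E) + θ) / (n - θ))
    (fun n m h => ?_) fun n => ?_
  · rw [div_eq_div_iff (h1 n) (h1 m)] at h
    exact Nat.cast_injective (R := E)
      (mul_left_cancel₀ h0 (by linear_combination (-1 / 2 : E) * h))
  · have := h1 n
    have := h2 n
    rw [Set.mem_ofPred_eq, star_div₀, star_add, star_sub, star_natCast, hθ, sub_neg_eq_add,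
      ← sub_eq_add_neg]
    field_simp

theorem exists_dg (hne : ∃ c : E, star c ≠ c) {d : ℕ} [NeZero d]
    (ψ : A ≃ₐ[E] Matrix (Fin d) (Fin d) E) : ∃ dg : (Fin d → E) →ₐ[E] A,
      (∀ x, star (dg x) = dg (star x)) ∧ ∀ x, Nrd E (dg x) = ∏ i, x i := by
  rename_i iE _ _ _ _ _ _ _ _
  obtain ⟨S, M, e, a, h1, h2⟩ := exists_star_of_equiv hne ψ
  obtain rfl : iE = S := starRing_ext fun x => by
    have := @star_smul E E iE.toStar S.toStar _ M x 1
    rw [@star_one E _ S.toStarMul, smul_eq_mul, smul_eq_mul, mul_one, mul_one] at this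
    exact this.symm
  refine ⟨e.symm.toAlgHom.comp (diagonalAlgHom E), fun x => e.injective ?_, fun x => ?_⟩
  · have h3 := h2 (e.symm (diagonal x))
    change e (star (e.symm (diagonal x))) = e (e.symm (diagonal (star x)))
    rw [e.apply_symm_apply] at h3 ⊢
    rw [diagonal_conjTranspose] at h3
    ext i j
    have h4 := congrFun (congrFun h3 i) j
    rw [diagonal_mul, mul_diagonal] at h4
    refine mul_left_cancel₀ (h1 i).1 (h4.trans ?_)
    by_cases h : i = j
    · subst h; rw [mul_comm]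
    · simp [h]
  · have := det_eq e.toAlgHom (by rw [e.toLinearEquiv.finrank_eq, finrank_mat])
      (e.symm (diagonal x))
    change (e (e.symm (diagonal x))).det = _ at this
    rw [e.apply_symm_apply, det_diagonal] at this
    exact this.symm

/-- the unitary group is generated by the quotients of elements of `Om` -/
theorem local_chain (hne : ∃ c : E, star c ≠ c) {d : ℕ} (hd : 2 ≤ d)
    (ψ : A ≃ₐ[E] Matrix (Fin d) (Fin d) E) (iso : ∃ b : A, b ≠ 0 ∧ star b * b = 0)
    (g g' : unitary A) : ∃ M₀, ∀ M, M₀ ≤ M → Ch (fun u : unitary A => Om E d (u : A)) g M g' := by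
  have : NeZero d := ⟨by omega⟩
  obtain ⟨dg, h1, h2⟩ := exists_dg hne ψ
  have h3 : ∀ x : Fin d → E, (∀ j, star (x j) * x j = 1) → dg x ∈ unitary A := fun x hx => by
    have : star x * x = 1 := funext hx
    rw [Unitary.mem_iff, h1, ← map_mul, ← map_mul, mul_comm x, this, map_one]
    exact ⟨rfl, rfl⟩
  have h4 : ∀ (c : E) (x : Fin d → E), Nrd E (algebraMap E A c - dg x) = ∏ i, (c - x i) :=
    fun c x => by rw [← dg.commutes, ← map_sub, h2]; rfl
  have h5 : ∀ x : Fin d → E, Function.Injective x → (∀ j, star (x j) * x j = 1 ∧ x j ≠ 1) →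
      Om E d (dg x) := fun x hx h => ⟨x, hx, fun j => ⟨(h j).1, (h j).2, by
        rw [h4]; exact prod_eq_zero (mem_univ j) (sub_self _)⟩⟩
  set N : Subgroup (unitary A) :=
    Subgroup.closure {x | ∃ a b : unitary A, Om E d (a : A) ∧ Om E d (b : A) ∧ x = a * b⁻¹}
  have h6 : ∀ (x : Fin d → E) (hx : ∀ j, star (x j) * x j = 1), ∃ t : unitary A,
      Om E d (t : A) ∧ (⟨dg x, h3 x hx⟩ : unitary A) ∈ N := fun x hx => by
    have h0 : ∀ j, x j ≠ 0 := fun j => right_ne_zero_of_mul_eq_one (hx j)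
    obtain ⟨t, a1, a2, a3⟩ := greedy (fun j => {y : E | star y * y = 1} \ {1, (x j)⁻¹})
      (fun j => (infinite_one hne).sdiff (Set.toFinite _)) (fun _ => id) (fun j y => x j * y)
      (fun _ => Function.injective_id) fun j => mul_right_injective₀ (h0 j)
    simp only [Set.mem_sdiff, Set.mem_ofPred_eq, Set.mem_insert_iff, Set.mem_singleton_iff,
      not_or] at a1
    have a4 : ∀ j, star ((x * t) j) * (x * t) j = 1 := fun j => by
      rw [Pi.mul_apply, star_mul', mul_mul_mul_comm, hx, (a1 j).1, one_mul]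
    have a5 := h5 t a2 fun j => ⟨(a1 j).1, (a1 j).2.1⟩
    refine ⟨⟨_, h3 t fun j => (a1 j).1⟩, a5, Subgroup.subset_closure ⟨⟨_, h3 _ a4⟩,
      ⟨_, h3 t fun j => (a1 j).1⟩, h5 _ a3 fun j => ⟨a4 j, fun h =>
        (a1 j).2.2 (eq_inv_of_mul_eq_one_right h)⟩, a5, ?_⟩⟩
    exact eq_mul_inv_of_mul_eq (Subtype.ext (map_mul dg x t).symm)
  have h7 : ∀ c : E, star c * c = 1 → ∀ j,
      star (Pi.mulSingle (M := fun _ => E) (0 : Fin d) c j) * Pi.mulSingle (M := fun _ => E) 0 c j = 1 :=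
    fun c hc j => by by_cases h : j = 0 <;> simp [h, hc]
  have h8 : ∀ c : E, Nrd E (dg (Pi.mulSingle (0 : Fin d) c)) = c := fun c => by
    rw [h2, Fintype.prod_pi_mulSingle']
  obtain ⟨a, ha, hm⟩ := h6 _ (h7 (-1) (by simp))
  obtain ⟨b, hb⟩ : ∃ b, dg (Pi.mulSingle (0 : Fin d) (-1)) * b ≠ b * dg (Pi.mulSingle 0 (-1)) := by
    by_contra h
    push Not at h
    obtain ⟨c, hc⟩ := (Algebra.IsCentral.mem_center_iff E).1
      (Subalgebra.mem_center_iff.2 fun b => (h b).symm)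
    have a1 := h4 1 (Pi.mulSingle (0 : Fin d) (-1))
    rw [prod_eq_zero (mem_univ (⟨1, by omega⟩ : Fin d)) (by
      rw [Pi.mulSingle_eq_of_ne (by simp [Fin.ext_iff]), sub_self]), hc, ← map_sub,
      Nrd_algebraMap, pow_eq_zero_iff (deg_pos E A).ne', sub_eq_zero] at a1
    have a2 := h8 (-1)
    rw [hc, ← a1, map_one, map_one] at a2
    norm_num at a2
  have h9 : Wall.su E A ≤ N := by
    refine Wall.su_le_of_normal ψ (exists_skew hne) (Wall.sukAll_self E) iso (fun g _ x hx => ?_) hm hb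
    refine (show N.map (MulAut.conj g).toMonoidHom ≤ N from ?_) ⟨x, hx, rfl⟩
    rw [MonoidHom.map_closure]
    refine Subgroup.closure_mono ?_
    rintro _ ⟨_, ⟨a, b, b1, b2, rfl⟩, rfl⟩
    exact ⟨g * a * g⁻¹, g * b * g⁻¹, b1.conj g.2.1, b2.conj g.2.1, by simp [mul_assoc]⟩
  refine ch_of (S := fun u : unitary A => Om E d (u : A)) ha (fun u => ?_) g g'
  have a1 : star (Nrd E (u : A)) * Nrd E (u : A) = 1 := by
    rw [← Wall.Nrd_star', ← map_mul, u.2.1, map_one]
  obtain ⟨-, -, a2⟩ := h6 _ (h7 _ a1)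
  have a3 := N.mul_mem (h9 (x := u * (⟨_, h3 _ (h7 _ a1)⟩ : unitary A)⁻¹) ?_) a2
  · rwa [inv_mul_cancel_right] at a3
  · change Nrd E ((u : A) * star (dg _)) = 1
    rw [map_mul, Wall.Nrd_star', h8, mul_comm, a1]

theorem rch_eq_prod {d : ℕ} (hd : deg E A = d) {u : A} {l : Fin d → E} (h1 : Function.Injective l)
    (h2 : ∀ j, Nrd E (algebraMap E A (l j) - u) = 0) : rch E u = ∏ j, (X - C (l j)) := by
  have a1 : (∏ j, (X - C (l j))).Monic := monic_prod_of_monic _ _ fun j _ => monic_X_sub_C _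
  have a2 : (rch E u).degree = d := by
    rw [degree_eq_natDegree (rch_monic E u).ne_zero, rch_natDegree, hd]
  refine eq_of_degree_sub_lt_of_eval_index_eq univ h1.injOn ?_ fun j _ => ?_
  · have := degree_sub_lt_left (q := ∏ j, (X - C (l j))) (by rw [a2]; simp [degree_prod])
      (rch_monic E u).ne_zero (by rw [(rch_monic E u).leadingCoeff, a1.leadingCoeff])
    simpa [a2] using this
  · rw [eval_rch, h2, eval_prod]
    exact (prod_eq_zero (mem_univ j) (by simp)).symm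

section Top
variable (F : Type*) [NontriviallyNormedField F] [CompleteSpace F] [Algebra F E] [Algebra F A]
  [IsScalarTower F E A] [FiniteDimensional F E] [FiniteDimensional F A] [TopologicalSpace E]
  [IsTopologicalAddGroup E] [ContinuousSMul F E] [T2Space E] [ContinuousStar E] [TopologicalSpace A]
  [IsTopologicalAddGroup A] [ContinuousSMul F A] [T2Space A]

include F in
theorem continuous_rch (j : ℕ) : Continuous fun x : A => (rch E x).coeff j := by
  have := Opn.topRing F (A := E)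
  let e := Module.finBasis E A
  have h (x : A) : (rch E x).coeff j = MvPolynomial.eval (fun i => e.repr x i) (rchP E e j) := by
    rw [eval_rchP, e.sum_repr]
  simp only [h]
  exact (MvPolynomial.continuous_eval _).comp (continuous_pi fun i =>
    ((e.coord i).restrictScalars F).continuous_of_finiteDimensional)

include F in
/-- `Om` is open in the unitary group -/
theorem Om.ev {d : ℕ} (hd : deg E A = d) {u : A} (h : Om E d u) :
    ∀ᶠ x in 𝓝 u, x ∈ unitary A → Om E d x := by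
  have := Opn.topRing F (A := E)
  obtain ⟨l, h1, h2⟩ := h
  have h3 := rch_eq_prod hd h1 fun j => (h2 j).2.2
  have h4 : ∀ᶠ z in 𝓝 l, ∀ i j, z j ≠ 1 ∧ z j ≠ 0 ∧ (i ≠ j → z i ≠ z j ∧ star (z j) * z i ≠ 1) := by
    refine eventually_all.2 fun i => eventually_all.2 fun j =>
      ((continuous_apply j).continuousAt.eventually_ne (h2 j).2.1).and (((continuous_apply
        j).continuousAt.eventually_ne (right_ne_zero_of_mul_eq_one (h2 j).1)).and ?_)
    by_cases hij : i = j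
    · simp [hij]
    have a1 : ∀ᶠ z : Fin d → E in 𝓝 l, z i - z j ≠ 0 :=
      ContinuousAt.eventually_ne (by fun_prop) (sub_ne_zero.2 (h1.ne hij))
    have a2 : ∀ᶠ z : Fin d → E in 𝓝 l, star (z j) * z i ≠ 1 :=
      ContinuousAt.eventually_ne (by fun_prop) fun h => hij (h1 (mul_left_cancel₀
        (left_ne_zero_of_mul_eq_one h) (h.trans (h2 j).1.symm)))
    filter_upwards [a1, a2] with z a1 a2 _ using ⟨sub_ne_zero.1 a1, a2⟩
  rw [nhds_pi, Filter.Eventually, mem_pi'] at h4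
  obtain ⟨I, V, hV, h4⟩ := h4
  have a0 : ∀ x : A, (rch E x).natDegree < d + 1 := fun x => by rw [rch_natDegree, hd]; omega
  have h5 : ∀ j, ∀ᶠ x in 𝓝 u, ∃ z ∈ V j, Nrd E (algebraMap E A z - x) = 0 := fun j => by
    have a1 : (derivative (rch E u)).eval (l j) ≠ 0 := by
      have := (h3 ▸ separable_prod_X_sub_C_iff.2 h1 : (rch E u).Separable).aeval_derivative_ne_zero
        (x := l j) (by rw [coe_aeval_eq_eval, eval_rch, (h2 j).2.2])
      rwa [coe_aeval_eq_eval] at this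
    filter_upwards [Opn.hensel F (l := 𝓝 u) (d + 1) (c := fun i x => (rch E x).coeff i)
      (y := fun _ => l j) (u := fun _ => ((derivative (rch E u)).eval (l j))⁻¹)
      (fun i => (continuous_rch F i).tendsto u) tendsto_const_nhds tendsto_const_nhds
      (by rw [← eval_eq_sum_range' (a0 u), eval_rch, (h2 j).2.2])
      (by
        convert inv_mul_cancel₀ a1 using 2
        rw [derivative_eval, sum_over_range' _ (by simp) _ (a0 u)]
        simp only [mul_assoc]) (hV j)] with x hx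
    obtain ⟨z, -, b1, b2⟩ := hx ⊤ (fun x _ y _ => Commute.all x y) (fun _ => trivial) trivial trivial
    exact ⟨z, b1, by rw [← eval_rch, eval_eq_sum_range' (a0 x), b2]⟩
  filter_upwards [eventually_all.2 h5] with x hx hu
  choose z b1 b2 using hx
  have b3 := h4 (show z ∈ Set.pi I V from fun j _ => b1 j)
  have b4 : Function.Injective z := fun i j h => by_contra fun hij => ((b3 i j).2.2 hij).1 h
  refine ⟨z, b4, fun j => ⟨?_, (b3 j j).1, b2 j⟩⟩
  have b5 : star (z j) ≠ 0 := star_ne_zero.2 (b3 j j).2.1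
  have b6 : Nrd E (algebraMap E A (star (z j))⁻¹ - x) = 0 := by
    have : algebraMap E A (star (z j))⁻¹ - x =
        (-(star (z j))⁻¹) • (star (algebraMap E A (z j) - x) * x) := by
      rw [star_sub, sub_mul, hu.1, Csa.star_algebraMap, ← Algebra.smul_def, smul_sub, smul_smul,
        neg_mul, inv_mul_cancel₀ b5, Algebra.algebraMap_eq_smul_one, neg_smul, neg_smul, one_smul]
      abel
    rw [this, Nrd_smul, map_mul, Wall.Nrd_star', b2, star_zero, zero_mul, mul_zero]
  rw [← eval_rch, rch_eq_prod hd b4 b2, eval_prod, prod_eq_zero_iff] at b6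
  obtain ⟨i, -, hi⟩ := b6
  rw [eval_sub, eval_X, eval_C, sub_eq_zero] at hi
  have b7 : star (z j) * z i = 1 := by rw [← hi, mul_inv_cancel₀ b5]
  by_cases hij : i = j
  · rwa [hij] at b7
  · exact absurd b7 ((b3 i j).2.2 hij).2

end Top

end Crest.Agent.T24.H80
end
end

-- ▼ part T24/HolPB_80
section

/-!
# Row 24, HOL, leaf H4 (helper80), part B: unitary elements near a unitary element
-/

set_option autoImplicit false
set_option linter.unusedSectionVars false

noncomputable section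

namespace Crest.Agent.T24.H80

open Filter Topology Module Csa In Opn

universe u v

variable {N : ℕ}

section Vec
variable {V : Type*} [AddCommGroup V] [Module ℚ V]

theorem ev_notMem (T : Submodule ℚ V) {a : V} (h : a ∉ T) : ∀ᶠ x in ng N a, x ∉ T := by
  obtain ⟨φ, h1, h2⟩ := T.exists_dual_map_eq_bot_of_notMem h inferInstance
  have h3 := tendsto_na.1 (tendsto_id.mono_right (ng_le_na (N := N) a))
    ((Rat.castHom ℝ).toAddMonoidHom.comp φ.toAddMonoidHom)
  filter_upwards [h3.eventually_ne (b₂ := 0) (by simpa using h1)] with x hx hT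
  have : φ x = 0 := (Submodule.eq_bot_iff _).1 h2 _ ⟨x, hT, rfl⟩
  simp [this] at hx

/-- subspaces are closed -/
theorem mem_of_ng {α : Type*} {l : Filter α} [l.NeBot] (T : Submodule ℚ V) {f : α → V} {a : V}
    (hf : Tendsto f l (ng N a)) (h : ∀ᶠ i in l, f i ∈ T) : a ∈ T := by
  by_contra ha
  obtain ⟨i, h1, h2⟩ := ((hf.eventually (ev_notMem T ha)).and h).exists
  exact h1 h2

theorem ev_ne [FiniteDimensional ℚ V] {a c : V} (h : c ≠ a) : ∀ᶠ x in ng N a, x ≠ c := by
  filter_upwards [(ng_sub tendsto_id (ng_const c)).eventually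
    (ev_notMem (N := N) ⊥ (a := a - c) (by simpa [sub_eq_zero] using h.symm))] with x hx
  simpa [sub_eq_zero] using hx

end Vec

theorem tendsto_rat {q : ℕ} (hq : q.Coprime N) (h : N < q) :
    Tendsto (fun k : ℕ => ((N : ℚ) / q) ^ k) atTop (ng N 0) := by
  refine tendsto_ng.2 ⟨?_, tendsto_na.2 fun φ => ?_⟩
  · rw [nr_zero]
    intro U hU
    obtain ⟨m, hm⟩ := exists_dp_subset hU (Submodule.fg_span_singleton (R := ZN N) (1 : ℚ))
    refine mem_map.2 (eventually_atTop.2 ⟨m, fun k hk => hm _ (dp_anti _ hk ⟨_, zsmul_mem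
      (pow_mem (inv_mem_ZN hq) k) (Submodule.mem_span_singleton_self 1), ?_⟩)⟩)
    simp [div_eq_mul_inv, mul_pow]
  · have h0 : (0 : ℝ) < q := by exact_mod_cast h.pos
    have h1 : Tendsto (fun k : ℕ => ((N : ℝ) / q) ^ k) atTop (𝓝 0) :=
      tendsto_pow_atTop_nhds_zero_of_lt_one (by positivity)
        ((div_lt_one h0).2 (by exact_mod_cast h))
    have h2 : ∀ x : ℚ, φ x = x * φ 1 := fun x => by
      simpa [Rat.smul_def] using map_rat_smul φ x 1
    simpa [h2 (_ ^ _)] using h1.mul_const (φ 1)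

theorem tendsto_rat' (hN : 2 ≤ N) {q : ℕ} (hq : q.Coprime N) (h : N < q) :
    Tendsto (fun k : ℕ => (1 + ((q : ℚ) / N) ^ k)⁻¹) atTop (ng N 0) := by
  have h1 := tendsto_rat hq h
  have h2 := ng_mul h1 (ng_inv hN (by simpa using ng_add (ng_const (1 : ℚ)) h1))
  rw [zero_mul] at h2
  refine h2.congr fun k => ?_
  have : (0 : ℚ) < N := by positivity
  have : (0 : ℚ) < q := by exact_mod_cast h.pos
  simp only [Ring.inverse_eq_inv', div_pow]
  field_simp
  ring

section Alg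
variable {B : Type*} [Ring B] [StarRing B] [Algebra ℚ B] [FiniteDimensional ℚ B]

theorem core (hN : 2 ≤ N) (a : unitary B) {W : Set B} (hW : W ∈ ng N (a : B)) {r : ℕ → ℚ}
    (h0 : ∀ k, r k ≠ 0) (hr : Tendsto r atTop (ng N 0)) {X : B} (hX : star X = -X)
    (T : Submodule ℚ B) (h : ∀ᶠ k in atTop, IsUnit (1 - r k • X) → a * cay (r k • X) ∈ unitary B →
      a * cay (r k • X) ∈ W → a * cay (r k • X) ∈ T) : a * X ∈ T := by
  have hA : Anti (starAddEquiv (R := B)).toAddMonoidHom := ⟨star_mul, star_star⟩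
  have := dedekind (B := B)
  have h1 : Tendsto (fun k => r k • X) atTop (ng N 0) := by
    simpa using ng_lin (LinearMap.toSpanSingleton ℚ B X).toAddMonoidHom hr
  have h2 : Tendsto (fun k => 1 - r k • X) atTop (ng N 1) := by simpa using ng_sub (ng_const 1) h1
  have h3 := ng_inv hN h2
  have h4 : Tendsto (fun k => a * cay (r k • X)) atTop (ng N (a : B)) := by
    simpa [cay] using ng_mul (ng_const (a : B)) (ng_mul (ng_add (ng_const 1) h1) h3)
  have h5 : ∀ᶠ k in atTop, IsUnit (1 - r k • X) ∧ a * cay (r k • X) ∈ T := by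
    filter_upwards [h, h2.eventually (ng_isUnit hN), h4.eventually hW] with k a1 a2 a3
    have a4 : star (cay (r k • X)) * cay (r k • X) = 1 := hA.cay_unitary
      (show star (r k • X) = _ by rw [star_rat_smul, hX, smul_neg]) a2
    exact ⟨a2, a1 a2 (mul_mem a.2 ⟨a4, mul_eq_one_comm.1 a4⟩) a3⟩
  have h6 : (a : B) ∈ T := mem_of_ng T h4 (h5.mono fun _ h => h.2)
  refine mem_of_ng T (by simpa using ng_mul (ng_const (a * X : B)) h3) (h5.mono fun k hk => ?_)
  have a1 : (2 * r k) • (a * X * Ring.inverse (1 - r k • X)) = a * cay (r k • X) - a := by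
    have : cay (r k • X) - 1 = (2 * r k) • (X * Ring.inverse (1 - r k • X)) := by
      nth_rewrite 1 [← Ring.mul_inverse_cancel _ hk.1]
      rw [cay, ← sub_mul, ← smul_mul_assoc, mul_smul, two_smul]
      congr 1
      abel
    rw [mul_assoc, ← mul_smul_comm, ← this, mul_sub, mul_one]
  exact (T.smul_mem_iff (mul_ne_zero two_ne_zero (h0 k))).1 (a1 ▸ T.sub_mem hk.2 h6)

theorem sub0 (hN : 2 ≤ N) (a : unitary B) {W : Set B} (hW : W ∈ ng N (a : B)) (T : Submodule ℚ B)
    (h : ∀ x ∈ unitary B, x ∈ W → x ∈ T) {X : B} (hX : star X = -X) : a * X ∈ T :=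
  core hN a hW (fun _ => by positivity) (tendsto_rat (q := N + 1) (by simp) (by simp)) hX T
    (.of_forall fun _ _ => h _)

end Alg

variable {K : Type*} [Field K] [NumberField K] [StarRing K]

theorem eq_top_of_skew (hne : ∃ c : K, star c ≠ c) {B : Type*} [Ring B] [StarRing B] [Algebra K B]
    [StarModule K B] (a : unitary B) {T : Submodule K B} (h : ∀ X : B, star X = -X → a * X ∈ T) :
    T = ⊤ := by
  obtain ⟨θ, h0, hθ⟩ := exists_skew hne
  refine eq_top_iff.2 fun x _ => ?_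
  obtain ⟨y, rfl⟩ : ∃ y, x = a * y := ⟨star (a : B) * x, by rw [← mul_assoc, a.2.2, one_mul]⟩
  have h1 := h (y - star y) (by rw [star_sub, star_star, neg_sub])
  have h2 := h (θ • (y + star y)) (by rw [star_smul, hθ, star_add, star_star, add_comm, neg_smul])
  rw [mul_smul_comm, T.smul_mem_iff h0] at h2
  refine (T.smul_mem_iff (two_ne_zero (α := K))).1 ?_
  convert T.add_mem h1 h2 using 1
  rw [two_smul, ← mul_add, ← mul_add]
  congr 1
  abel

theorem infinite_of (hne : ∃ c : K, star c ≠ c) {P : K → Prop}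
    (H : ∀ W ∈ ng N (1 : K), ∀ T : Submodule ℚ K, (∀ x ∈ unitary K, x ∈ W → P x → x ∈ T) →
      ∀ X, star X = -X → X ∈ T) {V : Set K} (hV : V ∈ ng N (1 : K)) :
    {κ | κ ∈ V ∧ star κ * κ = 1 ∧ P κ}.Infinite := fun hf => by
  obtain ⟨θ, h0, hθ⟩ := exists_skew hne
  have h1 : ∀ᶠ x in ng N (1 : K), ∀ c ∈ {κ | κ ∈ V ∧ star κ * κ = 1 ∧ P κ} \ {1}, x ≠ c :=
    (eventually_all_finite (hf.subset Set.sdiff_subset)).2 fun c hc => ev_ne hc.2
  obtain ⟨q, hq⟩ := Submodule.mem_span_singleton.1 (H _ (inter_mem hV h1) (Submodule.span ℚ {1})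
    (fun x a1 a2 a3 => by
      obtain rfl : x = 1 := by_contra fun h => a2.2 x ⟨⟨a2.1, a1.1, a3⟩, h⟩ rfl
      exact Submodule.mem_span_singleton_self _) θ hθ)
  have h2 := congrArg star hq
  rw [star_rat_smul, star_one, hq, hθ] at h2
  exact h0 (by linear_combination (1 / 2 : K) * h2)

theorem span0Stmt : Span0Stmt.{u, v} := fun K _ _ _ B _ _ _ _ _ _ hne _ hN a _ hW =>
  have := fdQ K B
  eq_top_of_skew hne a fun _ hX => sub0 hN a hW (Submodule.restrictScalars ℚ (Submodule.span K _))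
    (fun _ h1 h2 => Submodule.subset_span (R := K) (by exact ⟨h1, h2⟩)) hX

theorem nodes0Stmt : Nodes0Stmt.{u} := fun K _ _ _ hne _ hN _ hV =>
  (infinite_of hne (P := fun _ => True) (fun _ hW T h _ hX => by
    simpa using sub0 hN (1 : unitary K) hW T (fun x a1 a2 => h x a1 a2 trivial) hX) hV).mono
      fun _ h => ⟨h.1, h.2.1⟩

/-- the fixed field of the involution -/
theorem exists_quad (hne : ∃ c : K, star c ≠ c) : ∃ k : IntermediateField ℚ K, Quad k K := by
  let σ : K ≃ₐ[ℚ] K := (starRingAut (R := K)).toRatAlgEquiv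
  refine ⟨IntermediateField.fixedField (Subgroup.zpowers σ), ?_, fun c => c.2 ⟨σ, Subgroup.mem_zpowers σ⟩,
    hne⟩
  rw [IntermediateField.finrank_fixedField_eq_card, Nat.card_zpowers]
  refine orderOf_eq_prime (AlgEquiv.ext fun x => star_star x) fun h => ?_
  obtain ⟨c, hc⟩ := hne
  exact hc (congrArg (fun f : K ≃ₐ[ℚ] K => f c) h)

end Crest.Agent.T24.H80
end
end

-- ▼ part T24/HolP_80

/-!
# Row 24, HOL, leaf H4 (helper80): chains of edges
-/

set_option autoImplicit false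
set_option linter.unusedSectionVars false

noncomputable section

namespace Crest.Agent.T24.H80

open Filter Topology Module Csa In Opn Asa NumberField WithZero Finset Polynomial Emb
open scoped Valued

universe u v

theorem norm_lt {F : Type*} [NormedField F] [IsUltrametricDist F] {N p : ℕ} (hN : 2 ≤ N)
    (hc : p.Coprime N) (hp : ‖(p : F)‖ < 1) : ‖((p ^ N : ℕ) : F) / N‖ < 1 := by
  have h1 : ‖(N : F)‖ = 1 := by
    refine le_antisymm (IsUltrametricDist.norm_natCast_le_one F N) (not_lt.1 fun h => ?_)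
    obtain ⟨a, b, hab⟩ := Nat.isCoprime_iff_coprime.2 hc
    have h2 : (a : F) * p + b * N = 1 := by exact_mod_cast congrArg (Int.cast (R := F)) hab
    have h3 := IsUltrametricDist.norm_add_le_max ((a : F) * p) (b * N)
    rw [h2, norm_one, norm_mul, norm_mul] at h3
    exact absurd h3 (not_le.2 (max_lt
      (mul_lt_one_of_nonneg_of_lt_one_right (IsUltrametricDist.norm_intCast_le_one F a)
        (norm_nonneg _) hp)
      (mul_lt_one_of_nonneg_of_lt_one_right (IsUltrametricDist.norm_intCast_le_one F b)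
        (norm_nonneg _) h)))
  rw [norm_div, h1, div_one, Nat.cast_pow, norm_pow]
  exact pow_lt_one₀ (norm_nonneg _) hp (by omega)

theorem box {E : Type*} [Field E] [TopologicalSpace E] [IsTopologicalRing E] [ContinuousInv₀ E]
    {d : ℕ} {l : Fin d → E} (h1 : Function.Injective l) (h2 : ∀ j, l j ≠ 1) {f : E[X]}
    (hf : ∀ j, f.eval (l j) = 0) (c : E) {U : Set E} (hU : U ∈ 𝓝 0) : ∃ O : Fin d → Set E,
      (∀ j, O j ∈ 𝓝 (l j)) ∧ ∀ y : Fin d → E, (∀ j, y j ∈ O j) → ∀ j,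
        c * (f.eval (y j) / ∏ i ∈ univ.erase j, (y j - y i)) / (1 - y j) ∈ U := by
  have h4 : ∀ᶠ y in 𝓝 l, ∀ j, c * (f.eval (y j) / ∏ i ∈ univ.erase j, (y j - y i)) / (1 - y j) ∈ U :=
    eventually_all.2 fun j => by
    have a1 : ContinuousAt (fun y : Fin d → E => c *
        (f.eval (y j) / ∏ i ∈ univ.erase j, (y j - y i)) / (1 - y j)) l :=
      (continuousAt_const.mul (ContinuousAt.div (g := fun y : Fin d → E => ∏ i ∈ univ.erase j,
        (y j - y i)) (f.continuous.comp (continuous_apply j)).continuousAt (by fun_prop)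
        (prod_ne_zero_iff.2 fun i hi => sub_ne_zero.2 (h1.ne (ne_of_mem_erase hi).symm)))).div
        (continuous_const.sub (continuous_apply j)).continuousAt (sub_ne_zero.2 (h2 j).symm)
    exact a1 (by simpa [hf] using hU)
  rw [nhds_pi, Filter.Eventually, mem_pi'] at h4
  obtain ⟨I, O, hO, h4⟩ := h4
  exact ⟨O, hO, fun y hy => h4 (show y ∈ Set.pi I O from fun j _ => hy j)⟩

variable (k K B : Type*) [Field k] [NumberField k] [Field K] [NumberField K] [Algebra k K]
  [StarRing K] [Quad k K] [Ring B] [StarRing B] [Algebra K B] [StarModule K B]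
  [Algebra.IsCentral K B] [IsSimpleRing B] [FiniteDimensional K B] [Algebra k B]
  [IsScalarTower k K B]

variable {k K B} in
theorem loc_D {F : Type*} [NontriviallyNormedField F] [CompleteSpace F] [Algebra k F]
    {a g : BC k K B F} (ha : a ∈ unitary _) (hg : g ∈ unitary _) {O : Set (BC k K B F)}
    (hO : O ∈ 𝓝 g) : ∃ (D : Set (BC k K B F)) (X : BC k K B F), IsOpen D ∧
      (fun x => (2⁻¹ : F) • (x - star x)) ⁻¹' D ∈ 𝓝 X ∧ ∀ x ∈ D, IsUnit (1 - x) ∧ a * cay x ∈ O := by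
  have : CharZero F := charZero_of_injective_algebraMap (algebraMap k F).injective
  obtain ⟨θ, h0, hθ⟩ := exists_skew (Quad.ne (k := k) (K := K))
  have h1 : (a * ·) ⁻¹' O ∈ 𝓝 (star a * g) := (continuous_const_mul a).continuousAt.preimage_mem_nhds
    (by rwa [← mul_assoc, ha.2, one_mul])
  obtain ⟨X, hX, h2, h3⟩ := (W56.antiL k K B F).cay_dense two_ne_zero
    (((Ne.isUnit h0).map (algebraMap K B)).map (BC.inc k K B F)) (W56.commute_inc k K B F θ)
    (by
      change star (BC.inc k K B F (algebraMap K B θ)) = _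
      rw [BC.star_inc, T24.star_algebraMap, hθ, map_neg, map_neg])
    (mul_mem (Unitary.star_mem ha) hg).1 (interior_mem_nhds.2 h1)
  have h4 : {x | IsUnit (1 - x) ∧ a * cay x ∈ O} ∈ 𝓝 X :=
    ((tendsto_id.const_sub 1).eventually (Opn.ev_isUnit F h2)).and
      ((cay_continuousAt F h2) (mem_interior_iff_mem_nhds.1 h3))
  have h5 : star X = -X := hX
  have h6 : Continuous fun x : BC k K B F => (2⁻¹ : F) • (x - star x) := by fun_prop
  have h7 : (2⁻¹ : F) • (X - star X) = X := by simp [h5, ← two_smul F X, smul_smul]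
  exact ⟨interior {x | IsUnit (1 - x) ∧ a * cay x ∈ O}, X, isOpen_interior,
    h6.continuousAt.preimage_mem_nhds (by rwa [h7, interior_mem_nhds]),
    fun x hx => (interior_subset hx :)⟩

variable {k B} {N p : ℕ}

/-- weak approximation at `p` inside a neighbourhood for `ng N` -/
theorem wa_sub [Algebra ℚ B] (hN : 2 ≤ N) (hp : p.Prime) (hpN : ¬ p ∣ N) {S : Finset (Pl k)}
    (hS : ∀ v ∈ S, v.valuation k (p : k) < 1) (a : unitary B) {W : Set B} (hW : W ∈ ng N (a : B))
    (g : ∀ v : Pl k, BC k K B (Kv v)) (O : ∀ v : Pl k, Set (BC k K B (Kv v)))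
    (hg : ∀ v ∈ S, g v ∈ unitary _ ∧ O v ∈ 𝓝 (g v)) (T : Submodule ℚ B)
    (hT : ∀ x ∈ unitary B, x ∈ W → (∀ v ∈ S, BC.inc k K B _ x ∈ O v) → x ∈ T) {Y : B}
    (hY : star Y = -Y) : a * Y ∈ T := by
  have := fdQ K B
  have := fun v : Pl k => Loc.charZero_adic k v
  have hc := (Nat.Prime.coprime_iff_not_dvd hp).2 hpN
  choose! D X h1 h2 h4 using fun v (hv : v ∈ S) =>
    loc_D (toU k K B (Kv v) a).2 (hg v hv).1 (hg v hv).2
  have hq : ∀ (v : Pl k) (r : ℚ) (x : B),
      BC.inc k K B (Kv v) (r • x) = (r : Kv v) • BC.inc k K B (Kv v) x := fun v r x => by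
    rw [← Rat.cast_smul_eq_qsmul k, map_smul, ← algebraMap_smul (Kv v), map_ratCast]
  have ht : ∀ v ∈ S, Tendsto (fun n : ℕ => (((p ^ N : ℕ) : Kv v) / N) ^ n) atTop (𝓝 0) :=
    fun v hv => tendsto_pow_atTop_nhds_zero_of_norm_lt_one (norm_lt hN hc (by
      rw [← map_natCast (algebraMap k (Kv v)), Valued.toNormedField.norm_lt_one_iff, Loc.val_alg]
      exact hS v hv))
  have key : ∀ Z : B, star Z = -Z → (∀ v ∈ S, BC.inc k K B _ Z ∈ D v) → a * Z ∈ T := by
    intro Z a1 a2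
    refine core hN a hW (fun _ => by have := hp.pos; positivity)
      (tendsto_rat' hN (hc.pow_left N) (Nat.lt_pow_self hp.one_lt)) a1 T ?_
    have a3 : ∀ v ∈ S, ∀ᶠ n : ℕ in atTop,
        BC.inc k K B _ ((1 + (((p ^ N : ℕ) : ℚ) / N) ^ n)⁻¹ • Z) ∈ D v := fun v hv => by
      have := ((((ht v hv).const_add 1).inv₀ (by simp)).smul_const (BC.inc k K B _ Z)).eventually_mem
        ((h1 v hv).mem_nhds (by simpa using a2 v hv))
      simpa only [hq, Rat.cast_inv, Rat.cast_add, Rat.cast_pow, Rat.cast_div, Rat.cast_natCast,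
        Rat.cast_one] using this
    filter_upwards [(eventually_all_finset S).2 a3] with n a4 a5 a6 a7
    refine hT _ a6 a7 fun v hv => ?_
    rw [map_mul]
    exact (map_cay (BC.inc k K B (Kv v)).toRingHom a5).symm ▸ (h4 v hv _ (a4 v hv)).2
  obtain ⟨b, hb, -⟩ := waB k K B S X _ (fun _ => 0) (fun _ => Set.univ) h2 fun _ => univ_mem
  set Z : B := (2⁻¹ : ℚ) • (b - star b) with hZ
  have a1 : star Z = -Z := by rw [hZ, star_rat_smul, star_sub, star_star, ← smul_neg, neg_sub]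
  have a2 : ∀ v ∈ S, BC.inc k K B _ Z ∈ D v := fun v hv => by
    simpa [hZ, hq] using hb v hv
  have a3 : ∀ v ∈ S, ∀ᶠ n : ℕ in atTop,
      BC.inc k K B _ (Z + (((p ^ N : ℕ) : ℚ) / N) ^ n • Y) ∈ D v := fun v hv => by
    have := (((ht v hv).smul_const (BC.inc k K B _ Y)).const_add (BC.inc k K B _ Z)).eventually_mem
      ((h1 v hv).mem_nhds (by simpa using a2 v hv))
    simpa only [map_add, hq, Rat.cast_pow, Rat.cast_div, Rat.cast_natCast] using this
  obtain ⟨n, hn⟩ := ((eventually_all_finset S).2 a3).exists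
  have a4 := T.sub_mem (key _ (by rw [star_add, a1, star_rat_smul, hY, smul_neg, neg_add]) hn)
    (key Z a1 a2)
  rwa [mul_add, add_sub_cancel_left, mul_smul_comm,
    T.smul_mem_iff (by have := hp.pos; positivity)] at a4

theorem exists_nhds (v : Pl k) (m : ℕ) : ∃ U ∈ 𝓝 (0 : BC k K K (Kv v)), ∀ x : K,
    BC.inc k K K _ x ∈ U → ∀ w : Pl K, below k w = v → w.valuation K x ≤ exp (-(m : ℤ)) := by
  obtain ⟨δ, b, -, -, hi, hb⟩ := TL31.exists_basis k K
  refine ⟨_, (TL31.nhds_box k K K v b).mem_of_mem (i := m) trivial, fun x hx w hw => ?_⟩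
  subst hw
  have h1 : ∀ i, w.valuation K (algebraMap k K (b.repr x i)) ≤ exp (-(m : ℤ)) := fun i => by
    have := hx i
    rw [TL31.crd_inc, Loc.val_alg] at this
    exact below_le_exp w _ _ this
  rw [hb x]
  refine Valuation.map_add_le _ (h1 0) ?_
  rw [map_mul]
  exact (mul_le_of_le_one_right' (hi w)).trans (h1 1)

/-- `Om` at the place `v` (no condition at a split place) -/
def OmV {v : Pl k} (x : BC k K B (Kv v)) : Prop :=
  ∀ _ : IsEmpty (K →ₐ[k] Kv v), Om (BC k K K (Kv v)) (deg K B) x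

variable {K}

theorem OmV.adj {v : Pl k} {x : BC k K B (Kv v)} (h : OmV K x) : OmV K (star x) :=
  fun i => (h i).adj

theorem OmV.ev {v : Pl k} {u : BC k K B (Kv v)} (h : OmV K u) :
    ∀ᶠ x in 𝓝 u, x ∈ unitary _ → OmV K x := by
  by_cases i : IsEmpty (K →ₐ[k] Kv v)
  · filter_upwards [(h i).ev (Kv v) (BC.deg_E k K (Kv v) B)] with x hx hu _ using hx hu
  · exact .of_forall fun _ _ j => absurd j i

theorem chain_loc (hd : 3 ≤ deg K B) (v : Pl k) (g g' : Uc k K B (Kv v)) :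
    ∃ M₀, ∀ M, M₀ ≤ M → Ch (fun u : Uc k K B (Kv v) => OmV K (u : BC k K B (Kv v))) g M g' := by
  by_cases i : IsEmpty (K →ₐ[k] Kv v)
  · obtain ⟨ψ⟩ := Loc.bc_mat K B v
    obtain ⟨M₀, h⟩ := local_chain (Quad.ne (k := Kv v)) (by omega) ψ (Loc.bc_iso K B v hd) g g'
    refine ⟨M₀, fun M hM => ?_⟩
    obtain ⟨z, y, h0, h1, h2⟩ := h M hM
    exact ⟨z, y, h0, h1, fun t ht => ⟨fun _ => (h2 t ht).1, fun _ => (h2 t ht).2⟩⟩
  · exact ch_of (a := 1) (fun j => absurd j i) (fun u => Subgroup.subset_closure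
      ⟨u, 1, fun j => absurd j i, fun j => absurd j i, by simp⟩) g g'

theorem loc_nod {v : Pl k} {b : B} (h : OmV K (BC.inc k K B (Kv v) b)) (c : K) (m : ℕ) :
    ∃ (g : Fin (deg K B) → BC k K K (Kv v)) (O : Fin (deg K B) → Set (BC k K K (Kv v))),
      (∀ j, g j ∈ unitary _ ∧ O j ∈ 𝓝 (g j)) ∧ ∀ κ : Fin (deg K B) → K,
        (∀ j, BC.inc k K K _ (κ j) ∈ O j) → ∀ j, ∀ w : Pl K, below k w = v → ¬ Split w →
          w.valuation K (c * ((rch K b).eval (κ j) / ∏ i ∈ univ.erase j, (κ j - κ i)) / (1 - κ j)) ≤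
            exp (-(m : ℤ)) := by
  by_cases i : IsEmpty (K →ₐ[k] Kv v)
  swap
  · exact ⟨1, fun _ => Set.univ, fun j => ⟨one_mem _, univ_mem⟩, fun κ _ j w hw hs =>
      absurd (hw ▸ Loc.isEmpty_iff.2 hs) i⟩
  obtain ⟨l, h1, h2⟩ := h i
  obtain ⟨U, hU, h3⟩ := exists_nhds K v m
  have : ContinuousInv₀ (BC k K K (Kv v)) := ⟨fun x hx => by
    simpa only [Ring.inverse_eq_inv'] using inverse_continuousAt (Kv v) hx.isUnit⟩
  obtain ⟨O, hO, h4⟩ := box h1 (fun j => (h2 j).2.1) (f := rch _ (BC.inc k K B (Kv v) b))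
    (fun j => by rw [eval_rch, (h2 j).2.2]) (BC.inc k K K (Kv v) c) hU
  refine ⟨l, O, fun j => ⟨⟨(h2 j).1, (mul_comm _ _).trans (h2 j).1⟩, hO j⟩,
    fun κ hκ j w hw _ => h3 _ ?_ w hw⟩
  have := h4 _ hκ j
  have e := eval_map_apply (p := rch K b) (BC.inc k K K (Kv v)).toRingHom (κ j)
  rw [BC.rch_inc] at this
  convert this using 1
  simp only [map_mul, map_div₀, map_sub, map_one, map_prod]
  exact congrArg (fun t => _ * (t / _) / _) e.symm

theorem nod_of (hN : 2 ≤ N) (hp : p.Prime) (hpN : ¬ p ∣ N) {S : Finset (Pl k)}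
    (hS : ∀ v, v ∈ S ↔ v.valuation k (p : k) < 1) {b : B}
    (h : ∀ v ∈ S, OmV K (BC.inc k K B (Kv v) b)) {V : Set K} (hV : V ∈ ng N (1 : K)) :
    Nod K p V b := fun c m => by
  choose! g O h1 h2 using fun v (hv : v ∈ S) => loc_nod (h v hv) c m
  obtain ⟨κ, h3, h4, -⟩ := greedy (fun j => {κ | κ ∈ V ∧ star κ * κ = 1 ∧
      ∀ v ∈ S, BC.inc k K K _ κ ∈ O v j} \ ({1} ∪ {x | IsRoot (rch K b) x}))
    (fun j => (infinite_of (Quad.ne (k := k)) (fun W hW T hT X hX => by
      simpa using wa_sub K hN hp hpN (fun v => (hS v).1) (1 : unitary K) hW (fun v => g v j)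
        (fun v => O v j) (fun v hv => h1 v hv j) T hT hX) hV).sdiff
      ((Set.finite_singleton _).union (finite_setOfPred_isRoot (rch_monic K b).ne_zero)))
    (fun _ => id) (fun _ => id) (fun _ => Function.injective_id) fun _ => Function.injective_id
  refine ⟨κ, h4, fun j => ⟨(h3 j).1.1, (h3 j).1.2.1, fun e => (h3 j).2 (.inl e),
    (isUnit_iff_Nrd _).2 fun e => (h3 j).2 (.inr ((eval_rch b _).trans e)), fun w a1 a2 => ?_⟩⟩
  have hv : below k w ∈ S := by
    rw [hS, ← below_lt_one, map_natCast]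
    simpa using (w.valuation_lt_one_iff_mem (K := K) _).2 a1
  exact h2 _ hv κ (fun j => (h3 j).1.2.2 _ hv) j w rfl a2

theorem ed_of (hN : 2 ≤ N) (hp : p.Prime) (hpN : ¬ p ∣ N) {S : Finset (Pl k)}
    (hS : ∀ v, v ∈ S ↔ v.valuation k (p : k) < 1) {g h : B}
    (H : ∀ v ∈ S, OmV K (star (BC.inc k K B (Kv v) g) * BC.inc k K B (Kv v) h)) :
    Ed K N p g h := fun _ hV =>
  ⟨nod_of hN hp hpN hS (fun v hv => by simpa using (H v hv).adj) hV,
    nod_of hN hp hpN hS (fun v hv => by simpa using H v hv) hV⟩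

include k in
theorem chain [Algebra ℚ B] (hd : 3 ≤ deg K B) (hN : 2 ≤ N) (hp : p.Prime) (hpN : ¬ p ∣ N)
    (g g' : unitary B) : ∃ M₀ : ℕ, ∀ M, M₀ ≤ M → ∀ (a a' : ℕ → unitary B) (W W' : ℕ → Set B),
    (∀ t, W t ∈ ng N (a t : B) ∧ W' t ∈ ng N (a' t : B)) → ∃ z : ℕ → unitary B, z 0 = g ∧
      z (M + 1) = g' ∧ (∀ t, 0 < t → t ≤ M → (z t : B) ∈ W t) ∧ ∀ t ≤ M, Submodule.span K
        {h | h ∈ unitary B ∧ h ∈ W' t ∧ Ed K N p (z t : B) h ∧ Ed K N p (z (t + 1) : B) h} = ⊤ := by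
  obtain ⟨S, hS⟩ : ∃ S : Finset (Pl k), ∀ v, v ∈ S ↔ v.valuation k (p : k) < 1 :=
    ⟨(show {v : Pl k | v.valuation k (p : k) < 1}.Finite from (finite_ne_one (x := (p : k))
      (by exact_mod_cast hp.ne_zero)).subset fun v hv => ne_of_lt hv).toFinset, by simp⟩
  have sp : ∀ (a : unitary B), ∀ W ∈ ng N (a : B), ∀ (y : ∀ v : Pl k, Uc k K B (Kv v))
      (O : ∀ v : Pl k, BC k K B (Kv v) → Prop), (∀ v ∈ S, ∀ᶠ x in 𝓝 (y v : BC k K B (Kv v)),
        x ∈ unitary _ → O v x) → Submodule.span K {h | h ∈ unitary B ∧ h ∈ W ∧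
          ∀ v ∈ S, O v (BC.inc k K B _ h)} = ⊤ := fun a W hW y O h =>
    eq_top_of_skew (Quad.ne (k := k)) a fun _ hX => wa_sub K hN hp hpN (fun v => (hS v).1) a hW
      (fun v => y v) _ (fun v hv => ⟨(y v).2, h v hv⟩)
      (Submodule.restrictScalars ℚ (Submodule.span K _)) (fun x h1 h2 h3 => Submodule.subset_span
        (R := K) (by exact ⟨h1, h2, fun v hv => h3 v hv (toU k K B _ ⟨x, h1⟩).2⟩)) hX
  choose M₀ hM using fun v : Pl k => chain_loc hd v (toU k K B _ g) (toU k K B _ g')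
  refine ⟨S.sup M₀, fun M hM' a a' W W' hW => ?_⟩
  choose! z y h0 h1 h2 using fun v (hv : v ∈ S) =>
    hM v (M + 1) (((le_sup hv).trans hM').trans M.le_succ)
  have h3 : ∀ t, ∃ Z : unitary B, (t = 0 → Z = g) ∧ (t = M + 1 → Z = g') ∧
      (0 < t → t ≤ M → (Z : B) ∈ W t) ∧ ∀ v ∈ S, ∀ s ≤ M, t = s ∨ t = s + 1 →
        OmV K (star (BC.inc k K B (Kv v) Z) * (y v s : BC k K B (Kv v))) := fun t => by
    have a0 : ∀ v ∈ S, ∀ s ≤ M, t = s ∨ t = s + 1 →
        OmV K (star (z v t : BC k K B (Kv v)) * (y v s : BC k K B (Kv v))) := by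
      rintro v hv s hs (rfl | rfl)
      exacts [(h2 v hv _ (by omega)).1, (h2 v hv _ (by omega)).2]
    rcases eq_or_ne t 0 with rfl | a1
    · exact ⟨g, fun _ => rfl, by omega, by omega, fun v hv => by simpa [h0 v hv] using a0 v hv⟩
    rcases eq_or_ne t (M + 1) with rfl | a2
    · exact ⟨g', by omega, fun _ => rfl, by omega, fun v hv => by simpa [h1 v hv] using a0 v hv⟩
    have a3 := sp _ _ (hW t).1 (fun v => z v t) (fun v x => ∀ s ∈ range (M + 1), t = s ∨ t = s + 1 →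
      OmV K (star x * (y v s : BC k K B (Kv v)))) fun v hv => by
        have : ∀ s ∈ range (M + 1), ∀ᶠ x in 𝓝 (z v t : BC k K B (Kv v)), x ∈ unitary _ →
            t = s ∨ t = s + 1 → OmV K (star x * (y v s : BC k K B (Kv v))) := fun s hs => by
          by_cases a4 : t = s ∨ t = s + 1
          · filter_upwards [((continuous_star.mul continuous_const).tendsto _).eventually (a0 v hv s (by simpa [Nat.lt_succ_iff] using hs) a4).ev]
              with x hx hu _ using hx (mul_mem (Unitary.star_mem hu) (y v s).2)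
          · exact .of_forall fun _ _ h => absurd h a4
        filter_upwards [(eventually_all_finset _).2 this] with x hx hu s hs using hx s hs hu
    obtain ⟨Z, ⟨b1, b2, b3⟩, -⟩ := Set.not_subset.1 fun h =>
      top_ne_bot (a3.symm.trans (Submodule.span_eq_bot.2 h))
    exact ⟨⟨Z, b1⟩, by omega, by omega, fun _ _ => b2, fun v hv s hs =>
      b3 v hv s (mem_range.2 (by omega))⟩
  choose Z a1 a2 a3 a4 using h3
  refine ⟨Z, a1 0 rfl, a2 _ rfl, a3, fun t ht => eq_top_iff.2 (le_trans (sp _ _ (hW t).2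
    (fun v => y v t) (fun v x => OmV K (star (BC.inc k K B (Kv v) (Z t)) * x) ∧
      OmV K (star (BC.inc k K B (Kv v) (Z (t + 1))) * x)) fun v hv => ?_).ge
    (Submodule.span_mono fun h ⟨b1, b2, b3⟩ => ⟨b1, b2, ed_of hN hp hpN hS fun v hv => (b3 v hv).1,
      ed_of hN hp hpN hS fun v hv => (b3 v hv).2⟩))⟩
  filter_upwards [(continuous_const_mul _).continuousAt.eventually (a4 t v hv t ht (.inl rfl)).ev,
    (continuous_const_mul _).continuousAt.eventually (a4 (t + 1) v hv t ht (.inr rfl)).ev]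
    with x b1 b2 hu
  exact ⟨b1 (mul_mem (Unitary.star_mem (toU k K B _ (Z t)).2) hu),
    b2 (mul_mem (Unitary.star_mem (toU k K B _ (Z (t + 1))).2) hu)⟩

theorem chainStmt : ChainStmt.{u, v} := fun K _ _ _ B _ _ _ _ _ _ _ _ hne hd _ _ hN hp hpN g g' => by
  obtain ⟨k, _⟩ := exists_quad hne
  exact chain (k := k) hd hN hp hpN g g'

end Crest.Agent.T24.H80
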