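import Mathlib

/-!
# Row 24: unitary groups over division rings with an involution of the second kind (helper86)

Cartan–Dieudonné, transvections, normal subgroups, `U = T · diag`.
-/

set_option autoImplicit false
set_option linter.unusedSectionVars false
set_option linter.unusedSimpArgs false

namespace Crest.Agent.T24.Wall

/-- a nondegenerate hermitian form on a left `D`-module, `star` being of the second kind -/
structure HF (D V : Type*) [DivisionRing D] [StarRing D] [AddCommGroup V] [Module D V] where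
  h : V → V → D
  add_left : ∀ x y z, h (x + y) z = h x z + h y z
  smul_left : ∀ (a : D) x y, h (a • x) y = a * h x y
  symm : ∀ x y, star (h x y) = h y x
  nd : ∀ x, (∀ y, h x y = 0) → x = 0
  sk : ∃ θ : D, θ ≠ 0 ∧ star θ = -θ ∧ ∀ a, θ * a = a * θ

namespace HF

variable {D V : Type*} [DivisionRing D] [StarRing D] [AddCommGroup V] [Module D V] (F : HF D V)

attribute [simp] add_left smul_left symm

@[simp] theorem add_right (x y z : V) : F.h x (y + z) = F.h x y + F.h x z := by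
  rw [← F.symm, add_left, star_add, symm, symm]
@[simp] theorem smul_right (a : D) (x y : V) : F.h x (a • y) = F.h x y * star a := by
  rw [← F.symm, smul_left, star_mul, symm]
@[simp] theorem zero_left (y : V) : F.h 0 y = 0 := by simpa using F.smul_left 0 0 y
@[simp] theorem zero_right (y : V) : F.h y 0 = 0 := by rw [← F.symm, zero_left, star_zero]
@[simp] theorem neg_left (x y : V) : F.h (-x) y = -F.h x y := by simpa using F.smul_left (-1) x y
@[simp] theorem neg_right (x y : V) : F.h x (-y) = -F.h x y := by simpa using F.smul_right (-1) x y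
@[simp] theorem sub_left (x y z : V) : F.h (x - y) z = F.h x z - F.h y z := by
  rw [sub_eq_add_neg, add_left, neg_left, sub_eq_add_neg]
@[simp] theorem sub_right (x y z : V) : F.h x (y - z) = F.h x y - F.h x z := by
  rw [sub_eq_add_neg, add_right, neg_right, sub_eq_add_neg]

theorem eq_zero_comm {x y : V} : F.h x y = 0 ↔ F.h y x = 0 := by rw [← F.symm, star_eq_zero]

theorem nd' {y : V} (h : ∀ x, F.h x y = 0) : y = 0 := F.nd y fun x => F.eq_zero_comm.1 (h x)

theorem ext_right {y y' : V} (h : ∀ x, F.h x y = F.h x y') : y = y' :=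
  sub_eq_zero.1 (F.nd' fun x => by rw [sub_right, h, sub_self])

/-- the unitary group -/
def U : Subgroup (V ≃ₗ[D] V) where
  carrier := {g | ∀ x y, F.h (g x) (g y) = F.h x y}
  mul_mem' ha hb x y := (ha _ _).trans (hb x y)
  one_mem' _ _ := rfl
  inv_mem' {g} hg x y := by
    rw [← hg]; simp


/-- `x ↦ x + h x u * r • u` -/
def rk (u : V) (r : D) : V →ₗ[D] V where
  toFun x := x + (F.h x u * r) • u
  map_add' x y := by simp only [add_left, add_mul, add_smul]; abel
  map_smul' a x := by simp only [smul_left, RingHom.id_apply, smul_add, smul_smul, mul_assoc]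

theorem rk_apply (u : V) (r : D) (x : V) : F.rk u r x = x + (F.h x u * r) • u := rfl

theorem rk_rk (u : V) (r r' : D) (x : V) :
    F.rk u r (F.rk u r' x) = F.rk u (r + r' + r' * F.h u u * r) x := by
  simp only [rk_apply, add_left, smul_left, add_assoc, ← add_smul]
  congr 2
  noncomm_ring

/-- transvection -/
def tv (e : V) (he : F.h e e = 0) (s : D) : V ≃ₗ[D] V :=
  LinearEquiv.ofLinearMap (F.rk e s) (F.rk e (-s))
    (LinearMap.ext fun x => by simp [he, rk_apply])
    (LinearMap.ext fun x => by simp [he, rk_apply])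

theorem tv_apply {e : V} (he : F.h e e = 0) (s : D) (x : V) :
    F.tv e he s x = x + (F.h x e * s) • e := rfl

theorem tv_mem {e : V} (he : F.h e e = 0) {s : D} (hs : star s = -s) : F.tv e he s ∈ F.U :=
  fun x y => by simp [tv_apply, he, hs, mul_assoc]

theorem tv_mul {e : V} (he : F.h e e = 0) (s s' : D) :
    F.tv e he s * F.tv e he s' = F.tv e he (s + s') :=
  LinearEquiv.ext fun x => (F.rk_rk e s s' x).trans (by rw [he, mul_zero, zero_mul, add_zero]; rfl)

theorem tv_zero {e : V} (he : F.h e e = 0) : F.tv e he 0 = 1 :=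
  LinearEquiv.ext fun x => by simp [tv_apply]

theorem tv_inv {e : V} (he : F.h e e = 0) (s : D) : (F.tv e he s)⁻¹ = F.tv e he (-s) :=
  inv_eq_of_mul_eq_one_right (by rw [tv_mul, add_neg_cancel, tv_zero])


variable {F} in
theorem tv_conj {g : V ≃ₗ[D] V} (hg : g ∈ F.U) {e e' : V} {a : D} (he : F.h e e = 0)
    (he' : F.h e' e' = 0) (h : g e = a • e') (s : D) :
    g * F.tv e he s * g⁻¹ = F.tv e' he' (star a * s * a) := by
  rw [mul_inv_eq_iff_eq_mul]
  refine LinearEquiv.ext fun x => ?_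
  simp only [LinearEquiv.mul_apply, tv_apply, map_add, map_smul]
  rw [← hg x e, h, smul_right, smul_smul]
  simp only [mul_assoc]

/-- quasi-reflection -/
def qr (u : V) (c : D) (hc : c ≠ 0) (h : c + star c = F.h u u) : V ≃ₗ[D] V :=
  LinearEquiv.ofLinearMap (F.rk u (-c⁻¹)) (F.rk u (-(star c)⁻¹))
    (LinearMap.ext fun x => (F.rk_rk _ _ _ x).trans (by
      have := star_ne_zero.2 hc
      rw [← h]
      simp [rk_apply, mul_add, add_mul, hc, this]
      left; abel))
    (LinearMap.ext fun x => (F.rk_rk _ _ _ x).trans (by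
      have := star_ne_zero.2 hc
      rw [← h]
      simp [rk_apply, mul_add, add_mul, hc, this]))

theorem qr_apply {u : V} {c : D} (hc : c ≠ 0) (h : c + star c = F.h u u) (x : V) :
    F.qr u c hc h x = x - (F.h x u * c⁻¹) • u := by
  show F.rk _ _ _ = _
  rw [rk_apply, mul_neg, neg_smul, sub_eq_add_neg]

theorem qr_mem {u : V} {c : D} (hc : c ≠ 0) (h : c + star c = F.h u u) : F.qr u c hc h ∈ F.U :=
  fun x y => by
    have := star_ne_zero.2 hc
    simp only [qr_apply, sub_left, sub_right, smul_left, smul_right, ← h, star_mul, symm, star_inv₀,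
      mul_add, add_mul, sub_mul, mul_assoc, inv_mul_cancel_left₀ hc, mul_inv_cancel_left₀ this]
    abel

/-- the group generated by the transvections -/
def T : Subgroup (V ≃ₗ[D] V) :=
  Subgroup.closure {g | ∃ (e : V) (he : F.h e e = 0) (s : D), star s = -s ∧ g = F.tv e he s}

theorem tv_T {e : V} (he : F.h e e = 0) {s : D} (hs : star s = -s) : F.tv e he s ∈ F.T :=
  Subgroup.subset_closure ⟨e, he, s, hs, rfl⟩

theorem T_le {N : Subgroup (V ≃ₗ[D] V)}
    (h : ∀ (e : V) (he : F.h e e = 0) (s : D), star s = -s → F.tv e he s ∈ N) : F.T ≤ N :=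
  (Subgroup.closure_le _).2 fun _ ⟨e, he, s, hs, hg⟩ => hg ▸ h e he s hs

theorem T_le_U : F.T ≤ F.U := F.T_le fun _ he _ hs => F.tv_mem he hs

variable {F} in
theorem conj_T {g t : V ≃ₗ[D] V} (hg : g ∈ F.U) (ht : t ∈ F.T) : g * t * g⁻¹ ∈ F.T :=
  F.T_le (N := F.T.comap (MulAut.conj g).toMonoidHom) (fun e he s hs => by
    have he' : F.h (g e) (g e) = 0 := (hg e e).trans he
    show g * _ * g⁻¹ ∈ F.T
    rw [tv_conj hg he he' (one_smul D _).symm]
    exact F.tv_T he' (by simpa using hs)) ht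

/-! ## polarisation, Cartan–Dieudonné -/

variable [CharZero D]

theorem pol {n : V →ₗ[D] V} (h : ∀ x, F.h x (n x) = 0) : n = 0 := by
  obtain ⟨θ, h0, h1, h2⟩ := F.sk
  have a : ∀ x y, F.h x (n y) + F.h y (n x) = 0 := fun x y => by
    have := h (x + y)
    simp only [map_add, add_left, add_right, h] at this
    simpa [add_comm] using this
  refine LinearMap.ext fun y => F.nd' fun x => ?_
  have b := a (θ • x) y
  have c := a x y
  simp only [map_smul, smul_left, smul_right, h1, mul_neg, ← h2] at b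
  have : θ * (2 * F.h x (n y)) = 0 := by
    rw [eq_neg_of_add_eq_zero_right c] at b
    rw [← b]; noncomm_ring
  simpa [h0] using this

/-- Cartan–Dieudonné, induction form; the vectors of the quasi-reflections are orthogonal to the fixed
vectors of `g` -/
theorem cd_ind [FiniteDimensional D V] {N : Subgroup (V ≃ₗ[D] V)} {P : V → Prop}
    (hN : ∀ (u : V) (c : D) (hc : c ≠ 0) (h : c + star c = F.h u u),
      (∀ z, P z → F.h z u = 0) → F.qr u c hc h ∈ N)
    {g : V ≃ₗ[D] V} (hg : g ∈ F.U) (hP : ∀ z, P z → g z = z) : g ∈ N := by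
  induction' hn : Module.finrank D V - Module.finrank D (LinearMap.ker (1 - g.toLinearMap))
    using Nat.strong_induction_on with n ih generalizing g
  by_cases h1 : ∀ x, F.h x ((1 - g.toLinearMap) x) = 0
  · have : g = 1 := LinearEquiv.ext fun x => by
      have := LinearMap.congr_fun (F.pol h1) x
      exact (sub_eq_zero.1 this).symm
    exact this ▸ N.one_mem
  obtain ⟨x, hx⟩ := not_forall.1 h1
  change F.h x (x - g x) ≠ 0 at hx
  have hc : F.h x (x - g x) + star (F.h x (x - g x)) = F.h (x - g x) (x - g x) := by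
    simp only [symm, sub_left, sub_right, star_sub, hg x x]; abel
  have fx : ∀ z, g z = z → F.h z (x - g x) = 0 := fun z hz => by
    rw [sub_right, ← hg z x, hz, sub_self]
  set q := F.qr _ _ hx hc with hq
  have q1 : q x = g x := by rw [hq, qr_apply, mul_inv_cancel₀ hx, one_smul, sub_sub_cancel]
  have q2 : ∀ z, g z = z → (q⁻¹ * g) z = z := fun z hz => by
    rw [LinearEquiv.mul_apply, hz, LinearEquiv.coe_inv, LinearEquiv.symm_apply_eq, hq, qr_apply,
      fx z hz, zero_mul, zero_smul, sub_zero]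
  have mem : ∀ (g : V ≃ₗ[D] V) z, z ∈ LinearMap.ker (1 - g.toLinearMap) ↔ g z = z := fun g z => by
    rw [LinearMap.mem_ker]; exact sub_eq_zero.trans eq_comm
  have lt : LinearMap.ker (1 - g.toLinearMap) < LinearMap.ker (1 - (q⁻¹ * g).toLinearMap) := by
    refine lt_of_le_of_ne (fun z hz => (mem _ _).2 (q2 z ((mem _ _).1 hz))) fun e => hx ?_
    have : g x = x := (mem _ _).1 (e ▸ (mem _ _).2 (by
      rw [LinearEquiv.mul_apply, LinearEquiv.coe_inv, LinearEquiv.symm_apply_eq, q1]))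
    exact fx x this
  have l1 := Submodule.finrank_lt_finrank_of_lt lt
  have l2 := Submodule.finrank_le (LinearMap.ker (1 - (q⁻¹ * g).toLinearMap))
  have hqN : q ∈ N := hN _ _ hx hc fun z hz => fx z (hP z hz)
  have hqU : q ∈ F.U := F.qr_mem hx hc
  clear_value q
  have := ih _ (by omega) (F.U.mul_mem (F.U.inv_mem hqU) hg) (fun z hz => q2 z (hP z hz)) rfl
  simpa using N.mul_mem hqN this

/-- Cartan–Dieudonné -/
theorem cd [FiniteDimensional D V] {N : Subgroup (V ≃ₗ[D] V)}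
    (hN : ∀ (u : V) (c : D) (hc : c ≠ 0) (h : c + star c = F.h u u), F.qr u c hc h ∈ N) : F.U ≤ N :=
  fun _ hg => F.cd_ind (P := fun _ => False) (fun u c hc h _ => hN u c hc h) hg fun _ => False.elim

/-! ## hyperbolic pairs -/

/-- hyperbolic pair -/
structure Hyp (e f : V) : Prop where
  ee : F.h e e = 0
  ff : F.h f f = 0
  ef : F.h e f = 1

variable {F} {e f : V}

theorem Hyp.fe (p : F.Hyp e f) : F.h f e = 1 := by rw [← F.symm, p.ef, star_one]

theorem Hyp.symm (p : F.Hyp e f) : F.Hyp f e := ⟨p.ff, p.ee, p.fe⟩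

theorem Hyp.ne (p : F.Hyp e f) : e ≠ 0 := fun h => by simpa [h] using p.ef

theorem Hyp.map (p : F.Hyp e f) {g : V ≃ₗ[D] V} (hg : g ∈ F.U) : F.Hyp (g e) (g f) :=
  ⟨(hg _ _).trans p.ee, (hg _ _).trans p.ff, (hg _ _).trans p.ef⟩

theorem half (a : D) : a * 2⁻¹ + a * 2⁻¹ = a := by
  rw [← mul_add, ← two_mul, mul_inv_cancel₀ two_ne_zero, mul_one]

theorem two_inv_comm (a : D) : 2⁻¹ * a = a * 2⁻¹ := by
  have : Commute (2 : D) a := by simpa using Nat.cast_commute 2 a
  exact this.inv_left₀.eq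

theorem star_half {a : D} (h : star a = a) : star (a * 2⁻¹) = a * 2⁻¹ := by
  rw [star_mul, star_inv₀, star_ofNat, h, two_inv_comm]

/-- a partner in the plane of `e` and `y` -/
theorem partner (he : F.h e e = 0) {y : V} (hy : F.h y e = 1) : F.Hyp e (y - (F.h y y * 2⁻¹) • e) := by
  have hy' : F.h e y = 1 := by rw [← F.symm, hy, star_one]
  refine ⟨he, ?_, by simp [he, hy']⟩
  simp only [sub_left, sub_right, smul_left, smul_right, he, hy, hy', star_half (F.symm y y), mul_one,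
    one_mul, zero_mul, mul_zero, sub_zero, sub_sub, half, sub_self]

theorem partner' (he : F.h e e = 0) {y : V} (hy : F.h y e ≠ 0) :
    ∃ f, F.Hyp e f ∧ ∃ a b : D, b ≠ 0 ∧ y = a • e + b • f := by
  have p := partner he (y := (F.h y e)⁻¹ • y) (by rw [smul_left, inv_mul_cancel₀ hy])
  refine ⟨_, p, F.h y e * (F.h ((F.h y e)⁻¹ • y) ((F.h y e)⁻¹ • y) * 2⁻¹), F.h y e, hy, ?_⟩
  rw [smul_sub, smul_inv_smul₀ hy, smul_smul, add_sub_cancel]

theorem exists_hyp (he : F.h e e = 0) (h0 : e ≠ 0) : ∃ f, F.Hyp e f := by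
  obtain ⟨y, hy⟩ := not_forall.1 fun h => h0 (F.nd' h)
  exact (partner' he hy).imp fun _ h => h.1

theorem Hyp.perp (p : F.Hyp e f) (x : V) : F.h (x - F.h x f • e - F.h x e • f) e = 0 ∧
    F.h (x - F.h x f • e - F.h x e • f) f = 0 := by simp [p.ee, p.ff, p.ef, p.fe]

theorem Hyp.ext (p : F.Hyp e f) {g g' : V ≃ₗ[D] V} (h1 : g e = g' e) (h2 : g f = g' f)
    (h3 : ∀ z, F.h z e = 0 → F.h z f = 0 → g z = g' z) : g = g' := LinearEquiv.ext fun x => by
  have := h3 _ (p.perp x).1 (p.perp x).2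
  simpa only [map_sub, map_smul, h1, h2, sub_left_inj] using this

/-- a vector orthogonal to the complement of the plane lies in the plane -/
theorem Hyp.plane (p : F.Hyp e f) {x : V} (h : ∀ z, F.h z e = 0 → F.h z f = 0 → F.h z x = 0) :
    x = F.h x f • e + F.h x e • f := by
  refine sub_eq_zero.1 (F.nd' fun y => ?_)
  have a := h _ (p.perp y).1 (p.perp y).2
  simp only [sub_left, smul_left] at a
  simp only [sub_right, add_right, smul_right, F.symm]
  rw [← a]; abel

/-- `e ↦ a e`, `f ↦ b f` -/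
def dl (F : HF D V) (e f : V) (a b : D) : V →ₗ[D] V where
  toFun x := x + (F.h x f * (a - 1)) • e + (F.h x e * (b - 1)) • f
  map_add' x y := by simp only [add_left, add_mul, add_smul]; abel
  map_smul' a x := by simp only [smul_left, RingHom.id_apply, smul_add, smul_smul, mul_assoc]

theorem dl_apply (a b : D) (x : V) :
    F.dl e f a b x = x + (F.h x f * (a - 1)) • e + (F.h x e * (b - 1)) • f := rfl

theorem dl_dl (p : F.Hyp e f) (a b a' b' : D) (x : V) :
    F.dl e f a b (F.dl e f a' b' x) = F.dl e f (a' * a) (b' * b) x := by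
  simp only [dl_apply, add_left, smul_left, p.ee, p.ff, p.ef, p.fe, mul_zero, mul_one, add_zero]
  rw [show F.h x f * (a' * a - 1) = F.h x f * (a' - 1) + (F.h x f + F.h x f * (a' - 1)) * (a - 1) by
    noncomm_ring, show F.h x e * (b' * b - 1) =
      F.h x e * (b' - 1) + (F.h x e + F.h x e * (b' - 1)) * (b - 1) by noncomm_ring, add_smul, add_smul]
  abel

/-- `diag (a, a^{*-1}, 1, …, 1)` -/
def Hyp.dg (p : F.Hyp e f) (a : Dˣ) : V ≃ₗ[D] V :=
  LinearEquiv.ofLinearMap (F.dl e f a (star ↑a⁻¹)) (F.dl e f ↑a⁻¹ (star ↑a))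
    (LinearMap.ext fun x => (dl_dl p _ _ _ _ x).trans (by
      rw [← star_mul, Units.inv_mul, star_one]; simp [dl_apply]))
    (LinearMap.ext fun x => (dl_dl p _ _ _ _ x).trans (by
      rw [← star_mul, Units.mul_inv, star_one]; simp [dl_apply]))

theorem Hyp.dg_apply (p : F.Hyp e f) (a : Dˣ) (x : V) : p.dg a x =
    x + (F.h x f * ((a : D) - 1)) • e + (F.h x e * (star (↑a⁻¹ : D) - 1)) • f := rfl

theorem Hyp.dg_e (p : F.Hyp e f) (a : Dˣ) : p.dg a e = (a : D) • e := by
  simp [dg_apply, p.ee, p.ef, sub_smul]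

theorem Hyp.dg_f (p : F.Hyp e f) (a : Dˣ) : p.dg a f = star (↑a⁻¹ : D) • f := by
  simp [dg_apply, p.ff, p.fe, sub_smul]

theorem Hyp.dg_z (p : F.Hyp e f) (a : Dˣ) {z : V} (h1 : F.h z e = 0) (h2 : F.h z f = 0) :
    p.dg a z = z := by simp [dg_apply, h1, h2]

theorem Hyp.dg_mul (p : F.Hyp e f) (a b : Dˣ) : p.dg a * p.dg b = p.dg (b * a) :=
  LinearEquiv.ext fun x => (dl_dl p _ _ _ _ x).trans (by
    rw [← star_mul, ← Units.val_mul, ← Units.val_mul, ← mul_inv_rev]; rfl)

theorem Hyp.dg_one (p : F.Hyp e f) : p.dg 1 = 1 := LinearEquiv.ext fun x => by simp [dg_apply]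

theorem Hyp.dg_inv (p : F.Hyp e f) (a : Dˣ) : (p.dg a)⁻¹ = p.dg a⁻¹ :=
  inv_eq_of_mul_eq_one_right (by rw [dg_mul, inv_mul_cancel, dg_one])

theorem Hyp.dg_mem (p : F.Hyp e f) (a : Dˣ) : p.dg a ∈ F.U := fun x y => by
  have h1 : (a : D) * ↑a⁻¹ = 1 := a.mul_inv
  have h2 : star (↑a⁻¹ : D) * star (a : D) = 1 := by rw [← star_mul, h1, star_one]
  have e1 : ∀ u v : D, u * ((a : D) - 1) * ((↑a⁻¹ - 1) * v) =
      -(u * ((a : D) - 1) * v) - u * ((↑a⁻¹ - 1) * v) := fun u v => by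
    have : u * (a : D) * (↑a⁻¹ * v) = u * v := by rw [mul_assoc, ← mul_assoc (a : D), h1, one_mul]
    simp only [mul_sub, sub_mul, mul_one, one_mul, this]; abel
  have e2 : ∀ u v : D, u * (star (↑a⁻¹ : D) - 1) * ((star (a : D) - 1) * v) =
      -(u * (star (↑a⁻¹ : D) - 1) * v) - u * ((star (a : D) - 1) * v) := fun u v => by
    have : u * star (↑a⁻¹ : D) * (star (a : D) * v) = u * v := by
      rw [mul_assoc, ← mul_assoc (star _), h2, one_mul]
    simp only [mul_sub, sub_mul, mul_one, one_mul, this]; abel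
  simp only [dg_apply, add_left, add_right, smul_left, smul_right, p.ee, p.ff, p.ef, p.fe, star_mul,
    star_sub, star_star, star_one, F.symm, mul_zero, mul_one, add_zero, zero_add, add_mul, zero_mul,
    e1, e2]
  abel


/-- the Weyl element -/
def Hyp.w (p : F.Hyp e f) (s : D) : V ≃ₗ[D] V :=
  F.tv e p.ee (-s⁻¹) * F.tv f p.ff s * F.tv e p.ee (-s⁻¹)

theorem skew_inv {s : D} (hs : star s = -s) : star (-s⁻¹) = - -s⁻¹ := by
  rw [star_neg, star_inv₀, hs, inv_neg]

theorem Hyp.w_T (p : F.Hyp e f) {s : D} (hs : star s = -s) : p.w s ∈ F.T :=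
  F.T.mul_mem (F.T.mul_mem (F.tv_T _ (skew_inv hs)) (F.tv_T _ hs)) (F.tv_T _ (skew_inv hs))

theorem Hyp.w_e (p : F.Hyp e f) {s : D} (h0 : s ≠ 0) : p.w s e = s • f := by
  simp [w, tv_apply, p.ee, p.ef, p.fe, h0, add_comm e]

theorem Hyp.w_f (p : F.Hyp e f) {s : D} (h0 : s ≠ 0) : p.w s f = -s⁻¹ • e := by
  simp [w, tv_apply, p.ee, p.ff, p.ef, p.fe, h0]

theorem Hyp.w_z (p : F.Hyp e f) (s : D) {z : V} (h1 : F.h z e = 0) (h2 : F.h z f = 0) :
    p.w s z = z := by simp [w, tv_apply, h1, h2]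

theorem Hyp.dg_T (p : F.Hyp e f) {a : Dˣ} (ha : star (a : D) = a) : p.dg a ∈ F.T := by
  obtain ⟨θ, h0, h1, h2⟩ := F.sk
  have hs : star (θ * a) = -(θ * a) := by rw [star_mul, ha, h1, mul_neg, h2]
  have h0' : θ * a ≠ 0 := mul_ne_zero h0 a.ne_zero
  have : p.dg a = p.w (-θ) * p.w (θ * a) := by
    refine p.ext ?_ ?_ fun z z1 z2 => ?_
    · rw [dg_e, LinearEquiv.mul_apply, p.w_e h0', map_smul, p.w_f (neg_ne_zero.2 h0), smul_smul,
        inv_neg, neg_neg, h2, mul_inv_cancel_right₀ h0]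
    · rw [dg_f, LinearEquiv.mul_apply, p.w_f h0', map_smul, p.w_e (neg_ne_zero.2 h0), smul_smul,
        neg_mul_neg, mul_inv_rev, inv_mul_cancel_right₀ h0, Units.val_inv_eq_inv_val, star_inv₀, ha]
    · rw [p.dg_z a z1 z2, LinearEquiv.mul_apply, p.w_z _ z1 z2, p.w_z _ z1 z2]
  rw [this]
  exact F.T.mul_mem (p.w_T (by rw [star_neg, h1])) (p.w_T hs)

/-- the group `Σ (D)` generated by the hermitian elements -/
def Sg (D : Type*) [DivisionRing D] [StarRing D] : Subgroup Dˣ :=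
  Subgroup.closure {a | star (a : D) = a}

theorem Hyp.dg_T' (p : F.Hyp e f) {a : Dˣ} (ha : a ∈ Sg D) : p.dg a ∈ F.T := by
  induction ha using Subgroup.closure_induction with
  | mem a h => exact p.dg_T h
  | one => exact p.dg_one ▸ F.T.one_mem
  | mul a b _ _ h h' => exact p.dg_mul b a ▸ F.T.mul_mem h' h
  | inv a _ h => exact p.dg_inv a ▸ F.T.inv_mem h

/-- `T` is transitive on isotropic lines -/
theorem trans_line {e e' : V} (he : F.h e e = 0) (h0 : e ≠ 0) (he' : F.h e' e' = 0) (h0' : e' ≠ 0) :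
    ∃ t ∈ F.T, ∃ a : D, a ≠ 0 ∧ t e = a • e' := by
  obtain ⟨θ, θ0, θ1, -⟩ := F.sk
  have A : ∀ {e e' : V}, F.h e e = 0 → F.h e' e' = 0 → F.h e' e ≠ 0 →
      ∃ t ∈ F.T, ∃ a : D, a ≠ 0 ∧ t e = a • e' := fun {e e'} he he' h => by
    have p : F.Hyp e ((F.h e' e)⁻¹ • e') := Hyp.symm
      ⟨by simp [he'], he, by rw [smul_left, inv_mul_cancel₀ h]⟩
    exact ⟨_, p.w_T θ1, θ * (F.h e' e)⁻¹, mul_ne_zero θ0 (inv_ne_zero h), by rw [p.w_e θ0, smul_smul]⟩
  by_cases h : F.h e' e = 0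
  swap
  · exact A he he' h
  obtain ⟨y, hy, hy'⟩ : ∃ y, F.h y e ≠ 0 ∧ F.h y e' ≠ 0 := by
    obtain ⟨y, hy⟩ := not_forall.1 fun h => h0 (F.nd' h)
    obtain ⟨y', hy'⟩ := not_forall.1 fun h => h0' (F.nd' h)
    by_cases a : F.h y e' = 0
    · by_cases b : F.h y' e = 0
      · exact ⟨y + y', by simpa [b] using hy, by simpa [a] using hy'⟩
      · exact ⟨y', b, hy'⟩
    · exact ⟨y, hy, a⟩
  obtain ⟨f, p, a, b, -, rfl⟩ := partner' he hy
  have h' : F.h e' f ≠ 0 := fun h' => hy' (by simp [F.eq_zero_comm.1 h, F.eq_zero_comm.1 h'])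
  obtain ⟨t, ht, c, hc, e1⟩ := A he p.ff (by rw [p.fe]; exact one_ne_zero)
  obtain ⟨t', ht', c', hc', e2⟩ := A p.ff he' h'
  exact ⟨t' * t, F.T.mul_mem ht' ht, c * c', mul_ne_zero hc hc', by
    rw [LinearEquiv.mul_apply, e1, map_smul, e2, smul_smul]⟩

theorem Hyp.tv_partner {f' : V} (p : F.Hyp e f) (p' : F.Hyp e f') {c : D} (h : f' = f + c • e) :
    star c = -c ∧ F.tv e p.ee c f = f' := by
  have := p'.ff
  simp only [h, add_left, add_right, smul_left, smul_right, p.ee, p.ff, p.ef, p.fe, mul_one, one_mul,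
    zero_add, mul_zero, add_zero, zero_mul] at this
  exact ⟨eq_neg_of_add_eq_zero_right this, by rw [tv_apply, p.fe, one_mul, h]⟩

/-- the stabiliser of `e` in `T` is transitive on the partners of `e` -/
theorem trans_partner {f' : V} (p : F.Hyp e f) (p' : F.Hyp e f') : ∃ t ∈ F.T, t e = e ∧ t f = f' := by
  have h2 : (2⁻¹ : D) + 2⁻¹ = 1 := by simpa using half (1 : D)
  have q := partner p.ee (y := (2⁻¹ : D) • (f + f'))
    (by rw [smul_left, add_left, p.fe, p'.fe, mul_add, mul_one, h2])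
  set y := (2⁻¹ : D) • (f + f') with hy
  have yy : y + y = f + f' := by rw [hy, ← add_smul, h2, one_smul]
  have m1 : star ((-1 : Dˣ) : D) = (-1 : Dˣ) := by simp
  have tT : q.dg (-1) * p.dg (-1) ∈ F.T := F.T.mul_mem (q.dg_T m1) (p.dg_T m1)
  have te : (q.dg (-1) * p.dg (-1)) e = e := by
    rw [LinearEquiv.mul_apply, p.dg_e, map_smul, q.dg_e, smul_smul]; simp
  obtain ⟨c, tf⟩ : ∃ c : D, f' = (q.dg (-1) * p.dg (-1)) f + c • e := by
    refine ⟨(F.h y y * 2⁻¹ + F.h y y * 2⁻¹) - (F.h f (y - (F.h y y * 2⁻¹) • e) +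
      F.h f (y - (F.h y y * 2⁻¹) • e)), ?_⟩
    rw [LinearEquiv.mul_apply, p.dg_f, map_smul, q.dg_apply, p.fe]
    simp only [inv_neg, inv_one, Units.val_neg, Units.val_one, star_neg, star_one, one_mul,
      mul_sub, mul_neg, mul_one, sub_smul, neg_smul, one_smul, add_smul, smul_sub]
    rw [eq_sub_of_add_eq' yy.symm]
    abel
  have pt : F.Hyp e ((q.dg (-1) * p.dg (-1)) f) := by simpa only [te] using p.map (F.T_le_U tT)
  obtain ⟨c1, c2⟩ := pt.tv_partner p' tf
  exact ⟨F.tv e p.ee c * (q.dg (-1) * p.dg (-1)), F.T.mul_mem (F.tv_T _ c1) tT, by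
    rw [LinearEquiv.mul_apply, te, tv_apply, p.ee, zero_mul, zero_smul, add_zero], c2⟩

/-! ## `U = T · diag` -/

/-- the subgroup `T · diag` -/
def Hyp.R (p : F.Hyp e f) : Subgroup (V ≃ₗ[D] V) where
  carrier := {g | ∃ t ∈ F.T, ∃ a, g = t * p.dg a}
  one_mem' := ⟨1, F.T.one_mem, 1, by rw [p.dg_one, mul_one]⟩
  mul_mem' := by
    rintro _ _ ⟨t, ht, a, rfl⟩ ⟨t', ht', a', rfl⟩
    exact ⟨_, F.T.mul_mem ht (conj_T (p.dg_mem a) ht'), a' * a, by rw [← p.dg_mul]; group⟩
  inv_mem' := by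
    rintro _ ⟨t, ht, a, rfl⟩
    exact ⟨_, conj_T (F.U.inv_mem (p.dg_mem a)) (F.T.inv_mem ht), a⁻¹, by rw [← p.dg_inv]; group⟩

theorem Hyp.T_le_R (p : F.Hyp e f) : F.T ≤ p.R := fun t ht => ⟨t, ht, 1, by rw [p.dg_one, mul_one]⟩

theorem Hyp.dg_R (p : F.Hyp e f) (a : Dˣ) : p.dg a ∈ p.R := ⟨1, F.T.one_mem, a, (one_mul _).symm⟩

theorem Hyp.R_le_U (p : F.Hyp e f) : p.R ≤ F.U := by
  rintro _ ⟨t, ht, a, rfl⟩
  exact F.U.mul_mem (F.T_le_U ht) (p.dg_mem a)

theorem Hyp.trans_pair (p : F.Hyp e f) {e' f' : V} (p' : F.Hyp e' f') :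
    ∃ r ∈ p.R, r e = e' ∧ r f = f' := by
  obtain ⟨t, ht, a, ha, h⟩ := trans_line p.ee p.ne p'.ee p'.ne
  have r1 : t * p.dg (Units.mk0 a ha)⁻¹ ∈ p.R := ⟨t, ht, _, rfl⟩
  have e1 : (t * p.dg (Units.mk0 a ha)⁻¹) e = e' := by
    rw [LinearEquiv.mul_apply, p.dg_e, map_smul, h, smul_smul]; simp [ha]
  obtain ⟨t', ht', e2, e3⟩ := trans_partner (e1 ▸ p.map (p.R_le_U r1)) p'
  exact ⟨t' * (t * p.dg (Units.mk0 a ha)⁻¹), p.R.mul_mem (p.T_le_R ht') r1, by
    rw [LinearEquiv.mul_apply, e1, e2], e3⟩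

/-- the unitary group of the hyperbolic plane -/
theorem Hyp.plane_R (p : F.Hyp e f) {g : V ≃ₗ[D] V} (hg : g ∈ F.U)
    (hz : ∀ z, F.h z e = 0 → F.h z f = 0 → g z = z) : g ∈ p.R := by
  have A : ∀ {g : V ≃ₗ[D] V}, g ∈ F.U → (∀ z, F.h z e = 0 → F.h z f = 0 → g z = z) →
      F.h (g e) e = 0 → g ∈ p.R := fun {g} hg hz h => by
    have pl : ∀ {g : V ≃ₗ[D] V}, g ∈ F.U → (∀ z, F.h z e = 0 → F.h z f = 0 → g z = z) →
        ∀ x, (x = e ∨ x = f) → g x = F.h (g x) f • e + F.h (g x) e • f := fun {g} hg hz x hx =>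
      p.plane fun z z1 z2 => by rw [← hz z z1 z2, hg]; rcases hx with rfl | rfl <;> assumption
    have e1 := pl hg hz e (.inl rfl)
    rw [h, zero_smul, add_zero] at e1
    generalize F.h (g e) f = a at e1
    have ha : a ≠ 0 := fun h => (p.map hg).ne (by rw [e1, h, zero_smul])
    obtain ⟨g', hg'⟩ : ∃ g', g' = p.dg (Units.mk0 _ ha)⁻¹ * g := ⟨_, rfl⟩
    have gU : g' ∈ F.U := hg' ▸ F.U.mul_mem (p.dg_mem _) hg
    have gz : ∀ z, F.h z e = 0 → F.h z f = 0 → g' z = z := fun z z1 z2 => by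
      rw [hg', LinearEquiv.mul_apply, hz z z1 z2, p.dg_z _ z1 z2]
    have ge : g' e = e := by
      rw [hg', LinearEquiv.mul_apply, e1, map_smul, p.dg_e, smul_smul]; simp [ha]
    have gf := pl gU gz f (.inr rfl)
    have pg : F.Hyp e (g' f) := by simpa only [ge] using p.map gU
    rw [pg.fe, one_smul, add_comm] at gf
    generalize F.h (g' f) f = c at gf
    obtain ⟨c1, c2⟩ := p.tv_partner pg gf
    have : g' = F.tv e p.ee c := p.ext (by rw [ge, tv_apply, p.ee]; simp) c2.symm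
      fun z z1 z2 => by rw [gz z z1 z2, tv_apply, z1]; simp
    have := p.R.mul_mem (p.R.inv_mem (p.dg_R (Units.mk0 _ ha)⁻¹)) (p.T_le_R (F.tv_T p.ee c1))
    rwa [← ‹g' = F.tv _ _ _›, hg', inv_mul_cancel_left] at this
  by_cases h : F.h (g e) e = 0
  · exact A hg hz h
  have e1 : g e = F.h (g e) f • e + F.h (g e) e • f :=
    p.plane fun z z1 z2 => by rw [← hz z z1 z2, hg, z1]
  have i1 := (p.map hg).ee
  generalize F.h (g e) f = a at e1
  generalize F.h (g e) e = b at e1 h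
  rw [e1] at i1
  simp only [add_left, add_right, smul_left, smul_right, p.ee, p.ff, p.ef, p.fe, mul_one, one_mul,
    zero_add, mul_zero, add_zero, zero_mul] at i1
  have hs : star (-(b⁻¹ * a)) = - -(b⁻¹ * a) := by
    have hb := star_ne_zero.2 h
    rw [star_neg, neg_inj, star_mul, star_inv₀, eq_neg_iff_add_eq_zero]
    have := congrArg (fun x => b⁻¹ * x * (star b)⁻¹) i1
    simpa [mul_add, add_mul, mul_assoc, h, hb] using this
  obtain ⟨θ, θ0, θ1, -⟩ := F.sk
  have tT := F.T.mul_mem (p.w_T θ1) (F.tv_T p.ee hs)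
  have := A (F.U.mul_mem (F.T_le_U tT) hg) (fun z z1 z2 => by
    simp only [LinearEquiv.mul_apply, hz z z1 z2, tv_apply, z1, zero_mul, zero_smul, add_zero,
      p.w_z _ z1 z2]) (by
    simp [LinearEquiv.mul_apply, e1, tv_apply, p.ee, p.fe, p.w_e θ0, p.w_f θ0, h, smul_smul])
  exact (p.R.mul_mem_cancel_left (p.T_le_R tT)).1 this

theorem Hyp.qr_R (p : F.Hyp e f) {u : V} {c : D} (hc : c ≠ 0) (h : c + star c = F.h u u) :
    F.qr u c hc h ∈ p.R := by
  by_cases hu : F.h u u = 0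
  · have : F.qr u c hc h = F.tv u hu (-c⁻¹) := LinearEquiv.ext fun _ => rfl
    exact this ▸ p.T_le_R (F.tv_T hu (skew_inv (eq_neg_of_add_eq_zero_right (h.trans hu))))
  obtain ⟨e', he, he'⟩ : ∃ e', F.h e' e' = 0 ∧ F.h u e' ≠ 0 := by
    by_cases h1 : F.h u e = 0
    swap
    · exact ⟨e, p.ee, h1⟩
    by_cases h2 : F.h u f = 0
    swap
    · exact ⟨f, p.ff, h2⟩
    exact ⟨_, (partner p.ee (y := f + u) (by simp [p.fe, h1])).ff, by simpa [h1, h2] using hu⟩
  obtain ⟨f', p', a, b, -, hab⟩ := partner' he he'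
  obtain ⟨r, hr, r1, r2⟩ := p.trans_pair p'
  have rU := p.R_le_U hr
  have := p.plane_R (F.U.mul_mem (F.U.mul_mem (F.U.inv_mem rU) (F.qr_mem hc h)) rU) fun z z1 z2 => by
    have : F.h (r z) u = 0 := by rw [hab, ← r1, ← r2]; simp [rU z, z1, z2]
    simp [qr_apply, this]
  simpa [mul_assoc] using p.R.mul_mem (p.R.mul_mem hr this) (p.R.inv_mem hr)

/-- (W2) `U = T · diag` -/
theorem Hyp.decomp [FiniteDimensional D V] (p : F.Hyp e f) {g : V ≃ₗ[D] V} (hg : g ∈ F.U) :
    ∃ t ∈ F.T, ∃ a : Dˣ, g = t * p.dg a := F.cd (N := p.R) (fun _ _ hc h => p.qr_R hc h) hg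

/-! ## normal subgroups -/

theorem comm_of_skew {A B : D} (h : ∀ s : D, star s = -s → s * A = B * s) (F : HF D V) :
    A = B ∧ ∀ x, A * x = x * A := by
  obtain ⟨θ, θ0, θ1, θ2⟩ := F.sk
  have e : A = B := mul_left_cancel₀ θ0 ((h θ θ1).trans (θ2 B).symm)
  subst e
  refine ⟨rfl, fun x => ?_⟩
  have h1 := h (x - star x) (by simp)
  have h2 := h (θ * (x + star x)) (by rw [star_mul, θ1, mul_neg, θ2]; simp [add_comm])
  rw [← mul_assoc, ← θ2 A, mul_assoc, mul_assoc] at h2
  have h3 := mul_left_cancel₀ θ0 h2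
  have : 2 * (A * x - x * A) = 0 := by
    have : 2 * (A * x - x * A) = (A * (x - star x) - (x - star x) * A) +
      (A * (x + star x) - (x + star x) * A) := by noncomm_ring
    rw [this, h1, h3]; simp
  simpa [sub_eq_zero] using this

/-- a map whose form vanishes on the isotropic vectors is a central scalar -/
theorem scalar_of_iso (he : F.h e e = 0) (h0 : e ≠ 0) {n : V →ₗ[D] V}
    (h : ∀ v, F.h v v = 0 → F.h v (n v) = 0) : ∃ c : D, (∀ x, c * x = x * c) ∧ ∀ v, n v = c • v := by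
  obtain ⟨θ, θ0, θ1, θ2⟩ := F.sk
  have ne := h e he
  have A : ∀ v, F.h v e = 1 → (F.h e (n v) = F.h v (n e) ∧ ∀ x, F.h e (n v) * x = x * F.h e (n v)) ∧
      F.h v (n v) = F.h v v * F.h e (n v) := fun v hv => by
    have hv' : F.h e v = 1 := by rw [← F.symm, hv, star_one]
    have k : ∀ c : D, c + star c = F.h v v →
        F.h v (n v) = c * F.h e (n v) + F.h v (n e) * star c := fun c hc => by
      have := h (v - c • e) (by simp [he, hv, hv', ← hc])
      simp only [map_sub, map_smul, sub_left, sub_right, smul_left, smul_right, ne, mul_zero,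
        zero_mul, sub_zero, sub_mul] at this
      rw [← sub_eq_zero, ← this]; abel
    have k0 := k _ (by rw [star_half (F.symm v v), half])
    have c := comm_of_skew (A := F.h e (n v)) (B := F.h v (n e)) (fun s hs => by
      have := k (F.h v v * 2⁻¹ + s) (by
        rw [star_add, hs, star_half (F.symm v v), add_add_add_comm, half, add_neg_cancel, add_zero])
      rw [k0, star_add, hs, add_mul, mul_add, add_add_add_comm, left_eq_add, mul_neg] at this
      exact eq_of_sub_eq_zero (by rw [sub_eq_add_neg, this])) F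
    refine ⟨c, ?_⟩
    rw [k0, ← c.1, c.2 (star _), ← add_mul, star_half (F.symm v v), half]
  obtain ⟨f, p⟩ := exists_hyp he h0
  have B : ∀ z, F.h z e = 0 → F.h e (n z) = F.h z (n e) := fun z hz => by
    have a := (A (f + z) (by simp [p.fe, hz])).1.1
    rwa [map_add, add_right, add_left, (A f p.fe).1.1, add_right_inj] at a
  have C : ∀ z, F.h z e = 0 → F.h e (n z) = 0 := fun z hz => by
    have a := B (θ • z) (by simp [hz])
    rw [map_smul, smul_right, smul_left, ← B z hz, θ1, mul_neg, ← θ2, neg_eq_iff_add_eq_zero,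
      ← two_mul] at a
    simpa [θ0] using a
  obtain ⟨c, hc, cc⟩ : ∃ c, F.h e (n f) = c ∧ ∀ x, c * x = x * c := ⟨_, rfl, (A f p.fe).1.2⟩
  have sc : ∀ x, star c * x = x * star c := fun x => by
    simpa using congrArg star (cc (star x)).symm
  have E : ∀ v, F.h v e = 1 → F.h v (n v) = F.h v v * c := fun v hv => by
    have := C (v - f) (by simp [hv, p.fe])
    rw [map_sub, sub_right, sub_eq_zero, hc] at this
    rw [(A v hv).2, this]
  have E' : ∀ v, F.h v e ≠ 0 → F.h v (n v) = F.h v v * c := fun v hv => by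
    have := E ((F.h v e)⁻¹ • v) (by simp [hv])
    simp only [map_smul, smul_left, smul_right] at this
    rw [mul_assoc, mul_assoc, ← cc, mul_assoc, ← mul_assoc (F.h v v)] at this
    exact mul_right_cancel₀ (star_ne_zero.2 (inv_ne_zero hv)) (mul_left_cancel₀ (inv_ne_zero hv) this)
  have E'' : ∀ v, F.h v (n v) = F.h v v * c := fun z => by
    by_cases hz : F.h z e = 0
    swap
    · exact E' z hz
    have a1 := E (f + z) (by simp [p.fe, hz])
    have a2 := E (f - z) (by simp [p.fe, hz])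
    have a3 := E f p.fe
    simp only [map_add, map_sub, add_left, add_right, sub_left, sub_right, add_mul, sub_mul, a3] at a1 a2
    have : 2 * (F.h z (n z) - F.h z z * c) = 0 := by
      rw [two_mul, ← sub_eq_zero.2 a1]
      rw [← sub_eq_zero] at a2 ⊢
      rw [← a2]; abel
    simpa [sub_eq_zero] using this
  refine ⟨star c, sc, fun v => sub_eq_zero.1 ?_⟩
  exact LinearMap.congr_fun (F.pol (n := n - ⟨⟨fun v => star c • v, fun _ _ => smul_add ..⟩,
    fun a v => by simp only [smul_smul, sc, RingHom.id_apply]⟩) fun x => by simp [E'']) v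

/-- (W1) a subgroup of `U` normalised by `T` is central or contains `T` -/
theorem T_le_of_normal (he : F.h e e = 0) (h0 : e ≠ 0) {N : Subgroup (V ≃ₗ[D] V)} (hU : N ≤ F.U)
    (hN : ∀ t ∈ F.T, ∀ n ∈ N, t * n * t⁻¹ ∈ N) {n : V ≃ₗ[D] V} (hn : n ∈ N)
    (hc : ¬ ∃ c : D, (∀ x, c * x = x * c) ∧ ∀ v, n v = c • v) : F.T ≤ N := by
  obtain ⟨v, hv⟩ := not_forall.1 fun h => hc (scalar_of_iso he h0 (n := n.toLinearMap) h)
  obtain ⟨v0, v1⟩ := Classical.not_imp.1 hv
  change F.h v (n v) ≠ 0 at v1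
  have v2 : F.h (n v) v ≠ 0 := fun h => v1 (F.eq_zero_comm.1 h)
  obtain ⟨b, hb, b0⟩ : ∃ b, F.h (n v) v = b ∧ b ≠ 0 := ⟨_, rfl, v2⟩
  have p : F.Hyp v (b⁻¹ • n v) :=
    Hyp.symm ⟨by simp [hU hn v v, v0], v0, by rw [smul_left, hb, inv_mul_cancel₀ b0]⟩
  have A : ∀ s : D, star s = -s → F.tv _ p.ff (star b * s * b) * F.tv v v0 (-s) ∈ N := fun s hs => by
    have := N.mul_mem hn (hN _ (F.tv_T v0 hs) _ (N.inv_mem hn))
    rwa [← mul_assoc, ← mul_assoc, tv_conj (hU hn) v0 p.ff (smul_inv_smul₀ b0 _).symm, tv_inv] at this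
  have c2 : ∀ x : D, 2 * x = x * 2 := fun x => by rw [two_mul, mul_two]
  have B : ∀ s : D, star s = -s → F.tv v v0 s ∈ N := fun s hs => by
    have k : ∀ q : ℚ, star ((q : D) * s) = -(q * s) := fun q => by
      rw [star_mul, star_ratCast, hs, neg_mul, Rat.cast_comm]
    have dT := p.dg_T (a := Units.mk0 2 two_ne_zero) (by simp)
    have dU := F.T_le_U dT
    have a1 := hN _ dT _ (A _ (k (-4 / 15)))
    have a2 := N.inv_mem (A _ (k (-1 / 15)))
    rw [← conj_mul, tv_conj dU p.ff p.ff (p.dg_f _), tv_conj dU v0 v0 (p.dg_e _)] at a1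
    have a3 := N.mul_mem a2 a1
    have q1 : star (star (↑(Units.mk0 (2 : D) two_ne_zero)⁻¹ : D)) *
        (star b * (((-4 / 15 : ℚ) : D) * s) * b) * star (↑(Units.mk0 (2 : D) two_ne_zero)⁻¹ : D) =
        star b * (((-1 / 15 : ℚ) : D) * s) * b := by
      have e : (2⁻¹ : D) = ((1 / 2 : ℚ) : D) := by simp
      simp only [Units.val_inv_eq_inv_val, Units.val_mk0, e, star_ratCast, ← Rat.smul_def,
        ← Rat.cast_comm, smul_mul_assoc, mul_smul_comm, smul_smul]
      norm_num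
    have q2 : - -(((-1 / 15 : ℚ) : D) * s) + star (↑(Units.mk0 (2 : D) two_ne_zero) : D) *
        -(((-4 / 15 : ℚ) : D) * s) * (↑(Units.mk0 (2 : D) two_ne_zero) : D) = s := by
      have e : (2 : D) = ((2 : ℚ) : D) := by simp
      simp only [Units.val_mk0]
      simp only [e, star_ratCast, ← Rat.smul_def, ← Rat.cast_comm, smul_neg, smul_smul, neg_neg,
        ← neg_smul, ← add_smul]
      norm_num
    rwa [q1, mul_inv_rev, mul_assoc, inv_mul_cancel_left, tv_inv, tv_mul, q2] at a3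
  refine F.T_le fun e' he' s hs => ?_
  by_cases h' : e' = 0
  · have : F.tv e' he' s = 1 := LinearEquiv.ext fun x => by simp [tv_apply, h']
    exact this ▸ N.one_mem
  obtain ⟨t, ht, a, ha, h⟩ := trans_line v0 p.ne he' h'
  have ha' := star_ne_zero.2 ha
  have := hN t ht _ (B ((star a)⁻¹ * s * a⁻¹) (by simp [hs, mul_assoc]))
  rwa [tv_conj (F.T_le_U ht) v0 he' h, ← mul_assoc, ← mul_assoc, mul_inv_cancel₀ ha', one_mul,
    inv_mul_cancel_right₀ ha] at this


end HF

end Crest.Agent.T24.Wall
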