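import Crest.Agent.T24.EvInd_15
import Crest.Agent.T24.NaFin_33_Mg
import Crest.Agent.T24.EvE1_23
import Crest.Agent.T24.EvTor_62
import Crest.Agent.T24.EvC_20
import Crest.Agent.T24.CocS_98
import Crest.Agent.T24.HolLH_28
import Crest.Agent.T24.HolDef_95
import Crest.Agent.T24.OpnB_6
import Crest.Agent.T24.Def_26
import Crest.Agent.T24.CsaP_50
import Crest.Agent.T24.Line_83
import Crest.Agent.T24.StabDef_43
import Crest.Agent.T24.LanB_73
import Crest.Agent.T24.Csa4_50
import Crest.Agent.T24.LocG_59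
import Crest.Agent.T24.WallA_86
import Crest.Agent.T24.HilC_56
import Crest.Agent.T24.DefS_26
import Crest.Agent.T24.BcB_98
import Crest.Agent.T24.LocI_53
import Crest.Agent.T24.LanD_73
import Crest.Agent.T24.EmbB_13
import Crest.Agent.T24.HnAll_7
import Crest.Agent.T24.Pow_53
import Crest.Agent.T24.HolP_80_Mg
import Crest.Agent.T24.HolZ_56
import Crest.Agent.T24.HolR_38

-- ▼ part T24/EvIndB_15
section

/-!
# Row 24, central step for even degree (helper15): the proved leaves plugged in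
-/

set_option autoImplicit false

namespace Crest.Agent.T24

universe u v w

theorem Evn.cenEven_top (hS : SaStmt.{u, v, w})
    (hO : CenOddStmt.{u, v, w}) (h1 : Ct2.Ct2Stmt.{u, v, w, u}) (h2 : Ev.Ct2CStmt.{u, v, w})
    (h3 : Evn.LamStmt.{u, v, w}) : CenEvenStmt.{u, v, w} :=
  Evn.cenEven_of hO (nstKStmt splExStmt splIsoStmt cocStmt tLinkStmt hS Loc.valStmt) (Ev.waNStmt hS) h1
    h2 (Ev.decCStmt (Ev.e1Stmt Ev.torStmt) (Ev.e2Stmt (Ev.waNStmt hS) Ev.copStmt)) Evn.epsStmt
    Evn.towStmt Evn.q2Stmt h3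


/-- the same with the odd central step as a hypothesis -/
theorem mp_of₃ (hS : SaStmt.{u, v, w}) (h1 : Na.IndepStmt.{u, v, w}) (hO : CenOddStmt.{u, v, w})
    (h5 : Ct2.Ct2Stmt.{u, v, w, u}) (h6 : Ev.Ct2CStmt.{u, v, w}) (h7 : Evn.LamStmt.{u, v, w}) :
    MPStmt.{u, v, w} :=
  mp_of cocStmt hS (Na.naStmt h1) (Na.twStmt h1) hO (Evn.cenEven_top hS hO h5 h6 h7)

end Crest.Agent.T24
end

-- ▼ part T24/HolLs_28
section

/-! Row 24, holonomy step (helper28): (LH1) in the words of `HolDef_95`. -/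

set_option autoImplicit false

namespace Crest.Agent.T24.Hol

open Csa

universe u v w

theorem lh1Stmt (D : Dat.{u, v, w}) (hd : Odd (deg D.K D.B)) [Algebra ℚ D.B] (N : ℕ) (hN : 2 ≤ N) :
    LH1 N D.K D.B := fun V hV => by
  filter_upwards [Hol28.lh1 D.k hd (by omega) hV] with h h1 hh
  obtain ⟨r, p, h2, -, h3, h4, h5⟩ := h1 hh
  exact ⟨p, h3, h4, by rw [h5, ← h2, algebraMap_smul]⟩

end Crest.Agent.T24.Hol
end

-- ▼ part T24/StabOA_6
section

/-!
# Row 24, stability, part (O), file A (helper6): the rational parametrisation, generic units, line polynomials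
-/

set_option autoImplicit false
set_option linter.unusedSectionVars false

noncomputable section

namespace Crest.Agent.T24.Stab.O6

open Module Polynomial Csa Opn Filter Topology

local notation "inv" => Ring.inverse

section Ring

variable {A : Type*} [Ring A] [StarRing A]

/-- Cayley transform -/
def vf (a : A) : A := inv (1 - a) * (1 + a)
/-- the solution of `star z * (v q - 1) = (1 - c) g` -/
def zf (c g q a : A) : A := star ((1 - c) * g * inv (vf a * q - 1))
/-- `x` -/
def xf (z s : A) : A := star z * z * inv 2 - s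
/-- `ze` -/
def zef (g z s : A) : A := z + inv g * xf z s
/-- `ze'` -/
def zef' (c g e z s : A) : A := z + inv c * e * inv g * xf z s
/-- the root of `ze` -/
def Af (g z : A) : A := g * z + star z * z * inv 2
/-- the root of `ze'` -/
def Af' (c g e z : A) : A := c * g * inv e * z + star z * z * inv 2

theorem star_inv (x : A) : star (inv x) = inv (star x) := (Ring.inverse_star x).symm


theorem zef_eq {g : A} (hg : IsUnit g) (z s : A) : zef g z s = inv g * (Af g z - s) := by
  rw [zef, Af, xf, add_sub_assoc, mul_add, Ring.inverse_mul_cancel_left _ _ hg]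

theorem zef'_eq {c g e : A} (hc : IsUnit c) (hcc : ∀ x, Commute c x) (hg : IsUnit g) (he : IsUnit e)
    (z s : A) : zef' c g e z s = inv c * e * inv g * (Af' c g e z - s) := by
  rw [zef', Af', xf, add_sub_assoc, mul_add]
  congr 1
  rw [(hcc g).eq, mul_assoc, mul_assoc, mul_assoc, mul_assoc, Ring.inverse_mul_cancel_left _ _ hg,
    ← mul_assoc e, ← (hcc e).eq, mul_assoc, Ring.mul_inverse_cancel_left _ _ he,
    Ring.inverse_mul_cancel_left _ _ hc]

section
variable {a : A} (ha : star a = -a) (h1 : IsUnit (1 - a))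
include ha h1

theorem unit_add : IsUnit (1 + a) := by simpa [ha] using h1.star

theorem star_vf : star (vf a) = (1 - a) * inv (1 + a) := by
  simp [vf, star_inv, ha, sub_eq_add_neg]

theorem vf_unitary : star (vf a) * vf a = 1 := by
  have hc : Commute (1 + a) (1 - a) :=
    ((Commute.one_right _).sub_right ((Commute.one_left a).add_left (Commute.refl a)))
  rw [star_vf ha h1, vf, ← (commute_inverse hc).eq, mul_assoc,
    Ring.inverse_mul_cancel_left _ _ (unit_add ha h1), Ring.mul_inverse_cancel _ h1]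

theorem vf_unit : IsUnit (vf a) := h1.ringInverse.mul (unit_add ha h1)

theorem vf_unitary' : vf a * star (vf a) = 1 := by
  rw [← inverse_eq (vf_unit ha h1) (vf_unitary ha h1), Ring.mul_inverse_cancel _ (vf_unit ha h1)]

/-- clearing denominators -/
theorem unit_of_Q {α β γ : A}
    (h : IsUnit ((1 + a) * α * (1 + a) + (1 - a) * β * (1 - a) + (1 - a) * γ * (1 + a))) :
    IsUnit (vf a * α + β * star (vf a) + γ) := by
  have h2 := unit_add ha h1
  have : vf a * α + β * star (vf a) + γ = inv (1 - a) *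
      ((1 + a) * α * (1 + a) + (1 - a) * β * (1 - a) + (1 - a) * γ * (1 + a)) * inv (1 + a) := by
    rw [star_vf ha h1, vf]
    generalize 1 + a = P at h2 ⊢
    generalize 1 - a = M at h1 ⊢
    simp only [mul_add, add_mul, mul_assoc, Ring.inverse_mul_cancel_left _ _ h1,
      Ring.mul_inverse_cancel _ h2, mul_one]
  rw [this]
  exact (h1.ringInverse.mul h).mul h2.ringInverse

end



theorem zf_spec {c g q a : A} (h1 : IsUnit (vf a * q - 1)) :
    star (zf c g q a) * (vf a * q - 1) = (1 - c) * g := by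
  rw [zf, star_star, Ring.inverse_mul_cancel_right _ _ h1]

section Map
variable {A' : Type*} [Ring A'] [StarRing A'] (φ : A →+* A') (hs : ∀ x, φ (star x) = star (φ x))
  (hi : ∀ x, φ (inv x) = inv (φ x))
include hs hi


end Map

end Ring

/-! ## Polynomial maps -/

section PM

variable {K B : Type*} [Field K] [Ring B] [Algebra K B] [FiniteDimensional K B]

/-- non-commutative polynomial maps -/
inductive PM : (B → B) → Prop
  | const (b : B) : PM fun _ => b
  | id : PM fun x => x
  | add {f g : B → B} : PM f → PM g → PM fun x => f x + g x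
  | mul {f g : B → B} : PM f → PM g → PM fun x => f x * g x

theorem PM.sub {f g : B → B} (hf : PM f) (hg : PM g) : PM fun x => f x - g x := by
  simpa [sub_eq_add_neg] using hf.add ((PM.const (-1)).mul hg)

theorem PM.mat {f : B → B} (hf : PM f) {ι : Type*} [Fintype ι] [DecidableEq ι] (e : Basis ι K B)
    (a b : B) : ∃ M : Matrix ι ι K[X], ∀ t : K,
      Algebra.leftMulMatrix e (f (a + t • b)) = (evalRingHom t).mapMatrix M := by
  induction hf with
  | const c => exact ⟨(Algebra.leftMulMatrix e c).map C, fun t => by ext; simp⟩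
  | id => exact ⟨(Algebra.leftMulMatrix e a).map C + (X : K[X]) • (Algebra.leftMulMatrix e b).map C,
      fun t => by ext; simp [mul_comm t]⟩
  | add _ _ h1 h2 =>
    obtain ⟨M, hM⟩ := h1
    obtain ⟨N, hN⟩ := h2
    exact ⟨M + N, fun t => by rw [map_add, map_add, hM, hN]⟩
  | mul _ _ h1 h2 =>
    obtain ⟨M, hM⟩ := h1
    obtain ⟨N, hN⟩ := h2
    exact ⟨M * N, fun t => by rw [map_mul, map_mul, hM, hN]⟩

theorem PM.finite {f : B → B} (hf : PM f) {a b : B} {t0 : K} (h : IsUnit (f (a + t0 • b))) :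
    {t : K | ¬IsUnit (f (a + t • b))}.Finite := by
  classical
  set e := finBasis K B
  obtain ⟨M, hM⟩ := hf.mat e a b
  have hp : ∀ t : K, M.det.eval t = LinearMap.det (LinearMap.mulLeft K (f (a + t • b))) := fun t => by
    rw [← LinearMap.det_toMatrix e, ← coe_evalRingHom, RingHom.map_det, ← hM]
    rfl
  have h0 : M.det ≠ 0 := fun h0 => (isUnit_iff_det K).1 h (by rw [← hp, h0, eval_zero])
  refine (finite_setOfPred_isRoot h0).subset fun t ht => ?_
  rw [Set.mem_ofPred_eq, isUnit_iff_det K, not_not, ← hp] at ht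
  exact ht

/-- finitely many polynomial maps that are units at `±1` are units at a point `a₀ + t (t₁ θ - a₀)` -/
theorem PM.generic {k : Type*} [Field k] [Infinite k] [Algebra k K] [Algebra k B] [IsScalarTower k K B]
    {J : Type*} [Finite J] {f : J → B → B} (hf : ∀ j, PM (f j))
    (h : ∀ j, IsUnit (f j 1) ∨ IsUnit (f j (-1))) {θ : K} (hθ : θ ≠ 0) (a : B) :
    ∃ t1 : k, {t : k | ¬∀ j, IsUnit (f j (a + t • (t1 • algebraMap K B θ - a)))}.Finite := by
  have key : ∀ (a b : B), (∀ j, ∃ t0 : K, IsUnit (f j (a + t0 • b))) →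
      {t : k | ¬∀ j, IsUnit (f j (a + t • b))}.Finite := fun a b H => by
    choose t0 H using H
    refine (Set.finite_iUnion fun j => ((hf j).finite (H j)).preimage
      (algebraMap k K).injective.injOn).subset fun t ht => ?_
    simpa using ht
  obtain ⟨t1, ht1⟩ := (key 0 (algebraMap K B θ) fun j => (h j).elim
    (fun h => ⟨θ⁻¹, by rwa [zero_add, Algebra.smul_def, ← map_mul, inv_mul_cancel₀ hθ, map_one]⟩)
    (fun h => ⟨-θ⁻¹, by
      rwa [zero_add, neg_smul, Algebra.smul_def, ← map_mul, inv_mul_cancel₀ hθ, map_one]⟩)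
    ).exists_notMem
  refine ⟨t1, key _ _ fun j => ⟨1, ?_⟩⟩
  simpa using not_not.1 ht1 j

theorem pm_Q (α β γ : B) :
    PM fun a => (1 + a) * α * (1 + a) + (1 - a) * β * (1 - a) + (1 - a) * γ * (1 + a) :=
  have h1 : PM fun a : B => 1 + a := (PM.const 1).add PM.id
  have h2 : PM fun a : B => 1 - a := (PM.const 1).sub PM.id
  (((h1.mul (.const α)).mul h1).add ((h2.mul (.const β)).mul h2)).add ((h2.mul (.const γ)).mul h1)

end PM

/-! ## The generic units -/

section Gen

variable {K B : Type*} [Field K] [CharZero K] [StarRing K] [Ring B] [StarRing B] [Algebra K B]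
  [StarModule K B] [FiniteDimensional K B]

/-- the generic conditions on `a` -/
structure Gen (c g q a : B) : Prop where
  h1 : IsUnit (1 - a)
  h2 : IsUnit (vf a * q - 1)
  h3 : IsUnit (zf c g q a + 1)
  h4 : IsUnit (Af g (zf c g q a) + star (Af g (zf c g q a)))
  h5 : IsUnit (Af g (zf c g q a) + star (Af' c g (vf a * q) (zf c g q a)))
  h6 : IsUnit (Af' c g (vf a * q) (zf c g q a) + star (Af' c g (vf a * q) (zf c g q a)))

variable (K) in
include K in
theorem half_add_half (x : B) : x * inv 2 + x * inv 2 = x := by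
  have h2 : IsUnit (2 : B) := by
    simpa only [map_ofNat] using (two_ne_zero (α := K)).isUnit.map (algebraMap K B)
  rw [← add_mul, ← mul_two, Ring.mul_inverse_cancel_right _ _ h2]

theorem star_half (z : B) : star (star z * z * inv 2) = star z * z * inv 2 := by
  rw [star_mul, star_inv, star_ofNat, star_mul, star_star,
    (commute_inverse (Commute.ofNat_right _ 2)).eq]

theorem generic {k : Type*} [Field k] [Infinite k] [Algebra k K] [Algebra k B] [IsScalarTower k K B]
    {c : K} (hc : star c ≠ c) {g q : B} (hg : IsUnit g) (hq : IsUnit q) {θ : K} (hθ : θ ≠ 0)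
    (a0 : B) : ∃ t1 : k, {t : k | star (a0 + t • (t1 • algebraMap K B θ - a0)) =
      -(a0 + t • (t1 • algebraMap K B θ - a0)) ∧
      ¬Gen (algebraMap K B c) g q (a0 + t • (t1 • algebraMap K B θ - a0))}.Finite := by
  have hc1 : 1 - c ≠ 0 := fun h => hc (by rw [← sub_eq_zero.1 h, star_one])
  have hc0 : c ≠ 0 := fun h => hc (by rw [h, star_zero])
  set κ := (1 - c)⁻¹ with hκ
  have hκ0 : κ ≠ 0 := inv_ne_zero hc1
  have h2 : IsUnit (2 : B) := by
    simpa only [map_ofNat] using (two_ne_zero (α := K)).isUnit.map (algebraMap K B)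
  have us : ∀ {r : K} {x : B}, r ≠ 0 → IsUnit x → IsUnit (r • x) := fun hr hx => by
    rw [Algebra.smul_def]; exact (hr.isUnit.map _).mul hx
  set κ' := 1 - κ + star (c * κ)
  have hκ' : κ' ≠ 0 := by
    have h3 : 1 - star c ≠ 0 := by simpa using (star_ne_zero.2 hc1)
    have : κ' = (star c - c) / ((1 - c) * (1 - star c)) := by
      simp only [κ', hκ, star_mul', star_inv₀, star_sub, star_one]
      field_simp
      ring
    rw [this]
    exact div_ne_zero (sub_ne_zero.2 hc) (mul_ne_zero hc1 h3)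
  set α : Fin 5 → B := ![q, q, κ • q, 0, (-star (c * κ)) • inv (star q)]
  set β : Fin 5 → B := ![0, 0, star κ • star q, κ' • 1, (-(c * κ)) • inv q]
  set γ : Fin 5 → B := ![-1, (1 - c) • g - 1, (1 - κ - star κ) • 1, κ • q - star (c * κ) • inv (star q),
    (c * κ + star (c * κ) + 1) • 1]
  obtain ⟨t1, h⟩ := PM.generic (k := k) (K := K) (J := Option (Fin 5))
    (f := fun j a => j.elim (1 - a) fun j =>
      (1 + a) * α j * (1 + a) + (1 - a) * β j * (1 - a) + (1 - a) * γ j * (1 + a))
    (fun j => by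
      rcases j with _ | j
      exacts [(PM.const 1).sub PM.id, pm_Q _ _ _])
    (fun j => by
      have e : (1 : B) + 1 = 2 := one_add_one_eq_two
      rcases j with _ | j
      · right; simpa [e] using h2
      · simp only [Option.elim, sub_self, zero_mul, add_zero, add_neg_cancel, sub_neg_eq_add, mul_zero,
          zero_add, e]
        fin_cases j
        · exact .inl ((h2.mul hq).mul h2)
        · exact .inl ((h2.mul hq).mul h2)
        · exact .inl ((h2.mul (us hκ0 hq)).mul h2)
        · exact .inr ((h2.mul (us hκ' isUnit_one)).mul h2)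
        · exact .inl ((h2.mul (us (neg_ne_zero.2 (star_ne_zero.2 (mul_ne_zero hc0 hκ0)))
            hq.star.ringInverse)).mul h2)) hθ a0
  refine ⟨t1, h.subset fun t ⟨ha, ht⟩ H => ht ?_⟩
  generalize a0 + t • (t1 • algebraMap K B θ - a0) = a at ha H
  have h1 : IsUnit (1 - a) := H none
  have H' := fun j => unit_of_Q ha h1 (H (some j))
  have hv := vf_unitary ha h1
  have hv' := vf_unitary' ha h1
  have hvu := vf_unit ha h1
  have hm : IsUnit (vf a * q - 1) := by simpa [α, β, γ, sub_eq_add_neg] using H' 0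
  have hz := zf_spec (c := algebraMap K B c) (g := g) hm
  have eG : (1 - algebraMap K B c) * g = (1 - c) • g := by rw [Algebra.smul_def, map_sub, map_one]
  rw [eG] at hz
  have hzu : IsUnit (zf (algebraMap K B c) g q a) := by
    rw [zf, eG]; exact ((us hc1 hg).mul hm.ringInverse).star
  set z := zf (algebraMap K B c) g q a
  set v := vf a
  have hg1 : κ • (star z * (v * q - 1)) = g := by rw [hz, smul_smul, inv_mul_cancel₀ hc1, one_smul]
  have hg2 : star κ • ((star q * star v - 1) * z) = star g := by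
    simpa using congrArg star hg1
  have ie : inv (v * q) = inv q * star v := by
    rw [Ring.inverse_mul (.inl hvu), inverse_eq hvu hv]
  have q1 := Ring.mul_inverse_cancel _ hq
  have q2 := Ring.inverse_mul_cancel _ hq.star
  have hh := half_add_half K (star z * z)
  have e1 : (v * q - 1) * (inv q * star v) = 1 - inv q * star v := by
    rw [sub_mul, one_mul, mul_assoc, ← mul_assoc q, q1, one_mul, hv']
  have e2 : v * inv (star q) * (star q * star v - 1) = 1 - v * inv (star q) := by
    rw [mul_sub, mul_one, mul_assoc, ← mul_assoc (inv _), q2, one_mul, hv']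
  have a1 : algebraMap K B c * g * inv (v * q) * z = star z * ((c * κ) • (1 - inv q * star v)) * z := by
    rw [ie, ← e1, ← hg1, ← Algebra.smul_def]
    simp only [smul_mul_assoc, mul_smul_comm, smul_smul, mul_assoc]
  have a2 : star (algebraMap K B c * g * inv (v * q) * z) =
      star z * (star (c * κ) • (1 - v * inv (star q))) * z := by
    rw [a1]; simp [star_inv, mul_assoc]
  have a3 : g * z = star z * (κ • (v * q - 1)) * z := by
    rw [← hg1]; simp only [smul_mul_assoc, mul_smul_comm]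
  have a4 : star (g * z) = star z * (star κ • (star q * star v - 1)) * z := by
    rw [a3]; simp [mul_assoc]
  have fin : ∀ {x y X Y : B}, x = star z * X * z → star y = star z * Y * z → IsUnit (X + Y + 1) →
      IsUnit (x + star z * z * inv 2 + star (y + star z * z * inv 2)) := fun {x y X Y} hx hy h => by
    have : x + star z * z * inv 2 + star (y + star z * z * inv 2) = star z * (X + Y + 1) * z := by
      rw [star_add, star_half, hx, hy, mul_add, mul_add, add_mul, add_mul, mul_one]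
      nth_rewrite 3 [← hh]
      abel
    rw [this]
    exact (hzu.star.mul h).mul hzu
  refine ⟨h1, hm, ?_, fin a3 a4 ?_, fin a3 a2 ?_, fin a1 a2 ?_⟩
  · have : star (z + 1) * (v * q - 1) = v * α 1 + β 1 * star v + γ 1 := by
      simp only [star_add, star_one, add_mul, hz, one_mul, α, β, γ, Matrix.cons_val, zero_mul]
      abel
    have h3 : IsUnit (star (z + 1) * (v * q - 1) * inv (v * q - 1)) :=
      (this ▸ H' 1).mul hm.ringInverse
    rw [Ring.mul_inverse_cancel_right _ _ hm] at h3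
    simpa using h3.star
  · convert H' 2 using 1
    simp only [α, β, γ, Matrix.cons_val, smul_sub, sub_smul, one_smul, mul_smul_comm, smul_mul_assoc]
    abel
  · convert hvu.mul (H' 3) using 1
    simp only [α, β, γ, κ', Matrix.cons_val, smul_sub, sub_smul, add_smul, one_smul, mul_smul_comm,
      smul_mul_assoc, mul_zero, zero_add, mul_add, mul_sub, one_mul, hv', add_mul, sub_mul]
    abel
  · convert H' 4 using 1
    simp only [α, β, γ, Matrix.cons_val, smul_sub, add_smul, one_smul, mul_smul_comm, smul_mul_assoc,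
      neg_smul, mul_neg, neg_mul]
    abel

end Gen

/-! ## Affine norm polynomials -/

section Aff

variable {K B : Type*} [Field K] [CharZero K] [Ring B] [Algebra K B] [Algebra.IsCentral K B]
  [IsSimpleRing B] [FiniteDimensional K B] {ι : Type*} [Fintype ι]

theorem totalDegree_aeval_le {σ τ : Type*} (f : σ → MvPolynomial τ K) (hf : ∀ i, (f i).totalDegree ≤ 1)
    (P : MvPolynomial σ K) : (MvPolynomial.aeval f P).totalDegree ≤ P.totalDegree := by
  conv_lhs => rw [P.as_sum, map_sum]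
  refine (MvPolynomial.totalDegree_finsetSum _ _).trans (Finset.sup_le fun m hm => ?_)
  rw [MvPolynomial.aeval_monomial]
  refine (MvPolynomial.totalDegree_mul _ _).trans ?_
  rw [MvPolynomial.algebraMap_eq, MvPolynomial.totalDegree_C, zero_add, Finsupp.prod]
  refine (MvPolynomial.totalDegree_finsetProd _ _).trans (le_trans ?_ (MvPolynomial.le_totalDegree hm))
  exact Finset.sum_le_sum fun i _ => (MvPolynomial.totalDegree_pow _ _).trans
    (by simpa using Nat.mul_le_mul_left (m i) (hf i))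

variable (K) in
/-- `Nrd (A + ∑ xᵢ eᵢ)` as a polynomial in `x` -/
def aff (A : B) (e : ι → B) : MvPolynomial ι K :=
  MvPolynomial.aeval (fun o : Option ι => o.elim 1 MvPolynomial.X) (nrdP K fun o : Option ι => o.elim A e)

theorem eval_aff (A : B) (e : ι → B) (x : ι → K) :
    MvPolynomial.eval x (aff K A e) = Nrd K (A + ∑ i, x i • e i) := by
  have := eval_nrdP (K := K) (fun o : Option ι => o.elim A e) fun o => o.elim 1 x
  rw [Fintype.sum_option] at this
  simp only [Option.elim, one_smul] at this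
  rw [← this, aff, ← MvPolynomial.coe_aeval_eq_eval, RingHom.coe_coe, ← AlgHom.comp_apply,
    MvPolynomial.comp_aeval, ← MvPolynomial.coe_aeval_eq_eval, RingHom.coe_coe]
  congr 2
  funext o
  cases o <;> simp

theorem totalDegree_aff (A : B) (e : ι → B) : (aff K A e).totalDegree ≤ deg K B :=
  (totalDegree_aeval_le _ (fun o => by cases o <;> simp) _).trans (nrdP_hom _).totalDegree_le

theorem aff_ne_zero (A : B) (e : Basis ι K B) : aff K A e ≠ 0 := fun h => by
  have := eval_aff A e (e.repr (1 - A))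
  rw [h, e.sum_repr, add_sub_cancel, map_one, map_zero] at this
  exact zero_ne_one this

theorem eval_line (a b : ι → K) (f : MvPolynomial ι K) (t : K) :
    (MvPolynomial.aeval (fun i => C (a i) + C (b i) * X) f : K[X]).eval t =
      MvPolynomial.eval (fun i => a i + b i * t) f := by
  rw [← coe_aeval_eq_eval, ← AlgHom.comp_apply, MvPolynomial.comp_aeval,
    ← MvPolynomial.coe_aeval_eq_eval, RingHom.coe_coe]
  simp

theorem relPrime_aff {A A' : B} (h : IsUnit (A + A')) (e : Basis ι K B) :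
    IsRelPrime (aff K A fun i => -e i) (aff K A' e) := by
  have hs : ∀ t : K, ∑ i, (e.repr A i + -e.repr 1 i * t) • e i = A - algebraMap K B t := fun t => by
    simp only [add_smul, Finset.sum_add_distrib, e.sum_repr, neg_smul, mul_comm _ t, mul_smul,
      Finset.sum_neg_distrib, ← Finset.smul_sum, Algebra.algebraMap_eq_smul_one, sub_eq_add_neg,
      smul_neg]
  have h1 : (MvPolynomial.aeval (fun i => C (e.repr A i) + C (-e.repr 1 i) * X)
      (aff K A fun i => -e i) : K[X]) = X ^ deg K B := Polynomial.funext fun t => by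
    rw [eval_line, eval_aff]
    simp only [smul_neg, Finset.sum_neg_distrib, hs]
    simp [Nrd_algebraMap]
  refine Line.relPrime_of_line (L := K) (e.repr A) (fun i => -e.repr 1 i) ?_ ?_ ?_
  · simp only [h1]
    refine IsCoprime.pow_left ((irreducible_X.coprime_iff_not_dvd).2 fun hd => ?_)
    rw [X_dvd_iff, coeff_zero_eq_eval_zero, eval_line, eval_aff, hs, map_zero, sub_zero,
      add_comm] at hd
    exact (isUnit_iff_Nrd _).1 h hd
  · exact aff_ne_zero A (e.map (LinearEquiv.neg K))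
  · simp only [h1, natDegree_X_pow]
    exact totalDegree_aff _ _

end Aff

end Crest.Agent.T24.Stab.O6
end
end

-- ▼ part T24/StabB_43
section

/-!
# Row 24 (helper43): stability from the choice of good parameters
-/

set_option autoImplicit false
set_option linter.unusedSectionVars false

noncomputable section

namespace Crest.Agent.T24.Stab

open Ring Module WithZero Csa Asa Polynomial

universe u v w

section Glob
variable (K : Type v) (B : Type w) [Field K] [NumberField K] [StarRing K] [Ring B] [StarRing B]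
  [Algebra K B] [StarModule K B] [Algebra.IsCentral K B] [IsSimpleRing B] [FiniteDimensional K B]

/-- good parameters exist -/
def Out : Prop := ∀ (m : ℕ) (c : K) (g p q : B), star c ≠ c → IsUnit g → IsUnit p → IsUnit q →
  g + star g = star p * p → c • g + star (c • g) = star q * q →
  ∃ x z v μ : B, v ∈ unitary B ∧ x + star x = star z * z ∧ star z * (v * q - p) = (1 - c) • g ∧
    IsUnit x ∧ IsUnit (xx x g z p) ∧ IsUnit (z + p) ∧ IsUnit (ze x g z p) ∧
    IsUnit (ze x (c • g) z (v * q)) ∧ rho x z ∈ Deep K B m ∧ rho (xx x g z p) (z + p) ∈ Deep K B m ∧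
    IsUnit μ ∧ star μ * μ = el c x g z p (v * q) ∧
    ∀ y, Commute (el c x g z p (v * q)) y → Commute μ y

variable {K B}

include K in
theorem isUnit_of_star_mul {x : B} (h : IsUnit (star x * x)) : IsUnit x := by
  rw [isUnit_iff_Nrd (K := K)] at h ⊢
  rw [map_mul] at h
  exact right_ne_zero_of_mul h

theorem ne_zero_of_hq {c : K} {g q : B} (uq : IsUnit q) (hq : c • g + star (c • g) = star q * q) :
    c ≠ 0 := by
  rintro rfl
  have := uq.star.mul uq
  rw [← hq] at this
  simp at this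

/-- a similitude is unitary up to a scalar when the degree is odd -/
theorem exists_unitary_smul (hd : Odd (deg K B)) {c : K} (hc : c ≠ 0) (hs : star c = c) {u : B}
    (hu : star u * u = algebraMap K B c) : ∃ e : K, e ≠ 0 ∧ star e * e = c := by
  obtain ⟨n, hn⟩ := hd
  have h := congrArg (Nrd K) hu
  rw [map_mul, Nrd_star, Nrd_algebraMap, hn] at h
  have h0 : Nrd K u ≠ 0 := by
    intro h0
    rw [h0, mul_zero] at h
    exact pow_ne_zero _ hc h.symm
  refine ⟨Nrd K u / c ^ n, div_ne_zero h0 (pow_ne_zero _ hc), ?_⟩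
  rw [star_div₀, star_pow, hs, div_mul_div_comm, h]
  field_simp
  ring

theorem stb_of_out (hd : Odd (deg K B)) (H : Out K B) : Stb K B := by
  intro A _ m f h c g p q hc ug up uq hg hq d3 dc
  have d3' : rho g p ∈ unitary B ∧ rho g p ∈ Deep K B m := ⟨rho_mem ug hg, d3⟩
  have hcu : algebraMap K B (star c / c) ∈ unitary B := by
    have hs : star c ≠ 0 := star_ne_zero.2 hc
    rw [Unitary.mem_iff, star_algebraMap, ← map_mul, ← map_mul, star_div₀, star_star]
    constructor
    · rw [show c / star c * (star c / c) = 1 by field_simp, map_one]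
    · rw [show star c / c * (c / star c) = 1 by field_simp, map_one]
  by_cases hs : star c = c
  · have h1 := mul_inverse_cancel p up
    have h2 := inverse_mul_cancel p up
    have h4 := inverse_mul_cancel _ up.star
    have hu : star (q * inverse p) * (q * inverse p) = algebraMap K B c := by
      rw [star_smul, hs, ← smul_add, hg] at hq
      rw [star_mul, ← Ring.inverse_star, Algebra.algebraMap_eq_smul_one]
      have : inverse (star p) * (star q * q) * inverse p = c • 1 := by
        rw [← hq, mul_smul_comm, smul_mul_assoc, ← mul_assoc, h4, one_mul, h1]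
      rw [← this]; noncomm_ring
    obtain ⟨e, he, hee⟩ := exists_unitary_smul hd hc hs hu
    have hs' : star e ≠ 0 := star_ne_zero.2 he
    have hw : e⁻¹ • (q * inverse p) ∈ unitary B := by
      refine (isUnit_smul (inv_ne_zero he) (uq.mul up.ringInverse)).mem_unitary_of_star_mul_self ?_
      rw [star_smul, smul_mul_smul_comm, hu, Algebra.algebraMap_eq_smul_one, smul_smul, ← hee,
        star_inv₀, show (star e)⁻¹ * e⁻¹ * (star e * e) = 1 by field_simp, one_smul]
    have e1 : rho (c • g) q = rho g (e⁻¹ • (q * inverse p) * p) := by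
      rw [smul_mul_assoc, mul_assoc, h2, mul_one, rho, rho, inv_smul hc ug, star_smul,
        smul_mul_assoc, smul_mul_smul_comm, mul_smul_comm, smul_mul_assoc, ← hee, star_inv₀,
        mul_inv, mul_comm e⁻¹]
    have f1 : f 1 = 1 := by
      have h3 := h.mul _ _ (h.inv _ d3') d3'
      rw [(Unitary.mem_iff.1 d3'.1).1] at h3
      have h4 := h.f_mul 1 1 h3 h3
      rwa [mul_one, left_eq_mul] at h4
    rw [e1, rho_conj hw, h.f_conj _ _ hw d3', hs, div_self hc, map_one, f1, one_mul]
  · obtain ⟨x, z, v, μ, hv, hx, hz, ux, uX, uzp, uζ, uζ', d1, d2, uμ, hμ, cμ⟩ :=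
      H m c g p q hs ug up uq hg hq
    have hq' : c • g + star (c • g) = star (v * q) * (v * q) := by
      rw [hq, star_mul, mul_assoc, ← mul_assoc (star v), (Unitary.mem_iff.1 hv).1, one_mul]
    have hz' : g + star z * p = c • g + star z * (v * q) := by
      rw [sub_smul, one_smul, mul_sub] at hz
      linear_combination (norm := noncomm_ring) -hz
    have uzq : IsUnit (z + v * q) := by
      refine isUnit_of_star_mul (K := K) ?_
      rw [← h_xx hx hq', (yy_smul (x := x) hc ug hz').1, h_xx hx hg]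
      exact uzp.star.mul uzp
    have := (h.two hc ux ug uX hx hg hq' hz' uzp uzq uζ uζ' uμ hμ
      (cμ _ (el_mul hc ux ug uX hx hg hq' hz' uζ)) ⟨rho_mem ux hx, d1⟩
      ⟨rho_mem uX (h_xx hx hg), d2⟩ d3' ⟨hcu, dc⟩)
    have d5 : rho (c • g) q ∈ unitary B ∧ rho (c • g) q ∈ Deep K B m := by
      have h5 := h.conj _ _ (Unitary.star_mem hv) this.1
      rwa [← rho_conj (Unitary.star_mem hv), ← mul_assoc, (Unitary.mem_iff.1 hv).1, one_mul] at h5
    rw [← this.2, rho_conj hv, h.f_conj _ _ hv d5]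

end Glob

def OutStmt : Prop := ∀ D : Dat.{u, v, w}, 3 ≤ deg D.K D.B → Odd (deg D.K D.B) → Out D.K D.B

theorem stabStmt_of (H : OutStmt.{u, v, w}) : StabStmt.{u, v, w} :=
  fun D h3 hd => stb_of_out hd (H D h3 hd)

end Crest.Agent.T24.Stab
end
end

-- ▼ part T24/StabOD_6
section

/-!
# Row 24, stability, part (O) (helper6): the statements of the pieces
-/

set_option autoImplicit false
set_option linter.unusedSectionVars false

noncomputable section

namespace Crest.Agent.T24.Stab

open Ring Module WithZero Csa Asa Filter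

universe u v w

section Glob
variable (k : Type u) (K : Type v) (B : Type w) [Field k] [NumberField k] [Field K] [NumberField K]
  [Algebra k K] [StarRing K] [Quad k K] [Ring B] [StarRing B] [Algebra K B] [StarModule K B]
  [Algebra.IsCentral K B] [IsSimpleRing B] [FiniteDimensional K B] [Algebra k B] [IsScalarTower k K B]

/-- the output of (O) for `p = 1`, in parametrised form -/
def Par : Prop := ∀ (m : ℕ) (c : K) (g q : B), Dt c g q → ∃ a s μ : B, star a = -a ∧ star s = -s ∧
  IsUnit (1 - a) ∧ IsUnit (cv a * q - 1) ∧ IsUnit (x1 c g q a s) ∧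
  IsUnit (xx (x1 c g q a s) g (zz c g q a) 1) ∧ IsUnit (zz c g q a + 1) ∧
  IsUnit (ze (x1 c g q a s) g (zz c g q a) 1) ∧
  IsUnit (ze (x1 c g q a s) (c • g) (zz c g q a) (cv a * q)) ∧
  rho (x1 c g q a s) (zz c g q a) ∈ Deep K B m ∧
  rho (xx (x1 c g q a s) g (zz c g q a) 1) (zz c g q a + 1) ∈ Deep K B m ∧
  IsUnit μ ∧ star μ * μ = EL c g q a s ∧ ∀ y, Commute (EL c g q a s) y → Commute μ y

variable [Module.Finite k B]

/-- the toolkit at almost all places -/
structure Tool : Prop where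
  /-- G1: integral units have local norms as eigenvalues -/
  uni : ∀ δ : kˣ, ∀ᶠ v : Pl k in cofinite, ∀ l : B, IsUnit l → Cl v 0 l → Cl v 0 (inverse l) →
    LNf v (δ : k) l
  /-- G2: the inverse of an integral element of unit norm is integral -/
  inv : ∀ᶠ v : Pl k in cofinite, ∀ y : B, Cl v 0 y → (∀ w : Pl K, below k w = v → val w y = 1) →
    Cl v 0 (inverse y)
  /-- G3 -/
  str : ∀ᶠ v : Pl k in cofinite, ∀ y : B, Cl v 0 y → Cl v 0 (star y)
  /-- G3': an integral element has integral norm -/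
  nrd : ∀ (w : Pl K) (y : B), Cl (below k w) 0 y → val w y ≤ 1
  /-- G5 -/
  spl : ∀ (δ : kˣ) (v : Pl k), δ ∈ Hn.Sq v → ∀ l : B, LNf v (δ : k) l

/-- G4: `s` large -/
def Large : Prop := ∀ (δ : kˣ) (c : K) (g q : B), Dt c g q → ∀ᶠ v : Pl k in cofinite, ∀ a : B,
  star a = -a → IsUnit (1 - a) → IsUnit (cv a * q - 1) → ∃ s : B, star s = -s ∧ ∃ m, ∀ s' : B,
    star s' = -s' → Cl v m (s' - s) → LNf v (δ : k) (EL c g q a s')

end Glob

def ParStmt : Prop := ∀ D : Dat.{u, v, w}, 3 ≤ deg D.K D.B → Odd (deg D.K D.B) → Par D.K D.B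
def ToolStmt : Prop := ∀ D : Dat.{u, v, w}, Tool D.k D.K D.B
def LargeStmt : Prop := ∀ D : Dat.{u, v, w}, Large D.k D.K D.B

end Crest.Agent.T24.Stab
end
end

-- ▼ part T24/StabOB_6
section

/-!
# Row 24, stability, part (O), file B (helper6): closeness, weak approximation, the choice of `a`
-/

set_option autoImplicit false
set_option linter.unusedSectionVars false

noncomputable section

namespace Crest.Agent.T24.Stab.O6

open Module WithZero Csa Asa Filter NumberField

local notation "inv" => Ring.inverse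

section Cl

variable {k : Type*} [Field k] [NumberField k] {B : Type*} [Ring B] [Algebra k B] [Module.Finite k B]
  {v : Pl k} {m : ℕ} {φ : k →+* ℝ} {x y : B}

theorem cl_add (hx : Cl v m x) (hy : Cl v m y) : Cl v m (x + y) := fun i j => by
  simpa using (v.valuation k).map_add_le (hx i j) (hy i j)

theorem cl_sub (hx : Cl v m x) (hy : Cl v m y) : Cl v m (x - y) := fun i j => by
  simpa using (v.valuation k).map_sub_le (hx i j) (hy i j)

theorem cl_mul (hx : Cl v 0 x) (hy : Cl v 0 y) : Cl v 0 (x * y) := fun i j => by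
  rw [map_mul, Matrix.mul_apply]
  refine Valuation.map_sum_le _ fun l _ => ?_
  simpa using mul_le_mul' (hx i l) (hy l j)

theorem ci_add {ε ε' : ℝ} (hx : Ci φ ε x) (hy : Ci φ ε' y) : Ci φ (ε + ε') (x + y) := fun i j => by
  simpa using (abs_add_le _ _).trans_lt (add_lt_add (hx i j) (hy i j))

theorem ev_cl (y : B) : ∀ᶠ v : Pl k in cofinite, Cl v 0 y :=
  eventually_all.2 fun i => eventually_all.2 fun j => eventually_cofinite.2 (by
    simpa using finite_not_le (mat k y i j))

variable {ι : Type*} [Fintype ι]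

theorem cl_sum {e : ι → B} (he : ∀ i, Cl v 0 (e i)) {s : ι → k}
    (hs : ∀ i, v.valuation k (s i) ≤ 1) : Cl v 0 (∑ i, s i • e i) := fun a b => by
  rw [map_sum, Matrix.sum_apply]
  refine Valuation.map_sum_le _ fun l _ => ?_
  simpa using mul_le_mul' (hs l) (he l a b)

theorem close_f (e : ι → B) (v : Pl k) (m : ℕ) : ∀ᶠ n : ℕ in atTop, ∀ s : ι → k,
    (∀ i, v.valuation k (s i) ≤ exp (-(n : ℤ))) → Cl v m (∑ i, s i • e i) := by
  have key : ∀ c : k, ∀ᶠ n : ℕ in atTop, exp (-(n : ℤ)) * v.valuation k c ≤ exp (-(m : ℤ)) := by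
    intro c
    rcases eq_or_ne (v.valuation k c) 0 with h | h
    · simp [h]
    · filter_upwards [eventually_ge_atTop (m + (log (v.valuation k c)).natAbs)] with n hn
      rw [← exp_log h, ← exp_add, exp_le_exp]
      omega
  filter_upwards [eventually_all.2 fun i => eventually_all.2 fun a => eventually_all.2 fun b =>
    key (mat k (e i) a b)] with n hn s hs a b
  rw [map_sum, Matrix.sum_apply]
  refine Valuation.map_sum_le _ fun l _ => ?_
  simpa using (mul_le_mul' (hs l) le_rfl).trans (hn l a b)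

theorem close_r (e : ι → B) (φ : k →+* ℝ) {ε : ℝ} (hε : 0 < ε) : ∃ η > 0, ∀ s : ι → k,
    (∀ i, |φ (s i)| < η) → Ci φ ε (∑ i, s i • e i) := by
  set C := ∑ i, ∑ a, ∑ b, |φ (mat k (e i) a b)|
  have hC : 0 ≤ C := by positivity
  refine ⟨ε / (C + 1), by positivity, fun s hs a b => ?_⟩
  rw [map_sum, Matrix.sum_apply, map_sum]
  refine (Finset.abs_sum_le_sum_abs _ _).trans_lt (lt_of_le_of_lt (b := ε / (C + 1) * C) ?_ ?_)
  · rw [Finset.mul_sum]
    refine Finset.sum_le_sum fun l _ => ?_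
    rw [map_smul, Matrix.smul_apply, smul_eq_mul, map_mul, abs_mul]
    refine mul_le_mul (hs l).le ?_ (abs_nonneg _) (by positivity)
    exact (Finset.single_le_sum (f := fun b => |φ (mat k (e l) a b)|) (fun _ _ => abs_nonneg _)
      (Finset.mem_univ b)).trans (Finset.single_le_sum
        (f := fun a => ∑ b, |φ (mat k (e l) a b)|) (fun _ _ => by positivity) (Finset.mem_univ a))
  · rw [div_mul_eq_mul_div, div_lt_iff₀ (by positivity)]
    nlinarith

/-- weak approximation in `k`, infinitely many solutions -/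
theorem wa_inf (S : Finset (Pl k)) (a : Pl k → k) (m : ℕ) (r : (k →+* ℝ) → k)
    (ε : (k →+* ℝ) → ℝ) (hε : ∀ φ, 0 < ε φ) {v₀ : Pl k} (h₀ : v₀ ∉ S) :
    {x : k | (∀ v ∈ S, v.valuation k (x - a v) ≤ exp (-(m : ℤ))) ∧
      ∀ φ : k →+* ℝ, |φ (x - r φ)| < ε φ}.Infinite := by
  obtain ⟨-, c, ε', h0, -, h⟩ := Lan.conv ∅ (fun _ => 1) (fun _ => one_pos) r ε hε
  exact (approx_infinite S v₀ h₀ a m c h0).mono fun x hx => ⟨hx.1, h x hx.2.1⟩

/-- targets in the `k`-span of a family, in coordinates -/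
theorem coords (e : ι → B) (S : Finset (Pl k)) (m : Pl k → ℕ) (ε : (k →+* ℝ) → ℝ)
    (hε : ∀ φ, 0 < ε φ) : ∃ (n : ℕ) (η : (k →+* ℝ) → ℝ), (∀ φ, 0 < η φ) ∧
      (∀ v ∈ S, ∀ s t : ι → k, (∀ i, v.valuation k (s i - t i) ≤ exp (-(n : ℤ))) →
        Cl v (m v) (∑ i, s i • e i - ∑ i, t i • e i)) ∧
      ∀ φ, ∀ s t : ι → k, (∀ i, |φ (s i - t i)| < η φ) →
        Ci φ (ε φ) (∑ i, s i • e i - ∑ i, t i • e i) := by
  obtain ⟨n, hn⟩ := ((eventually_all_finset S).2 fun v _ => close_f e v (m v)).exists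
  choose η h0 h1 using fun φ => close_r e φ (hε φ)
  have E : ∀ s t : ι → k, ∑ i, s i • e i - ∑ i, t i • e i = ∑ i, (s i - t i) • e i := fun s t => by
    simp [sub_smul]
  exact ⟨n, η, h0, fun v hv s t h => E s t ▸ hn v hv _ h, fun φ s t h => E s t ▸ h1 φ _ h⟩

/-- integral units -/
structure IU (v : Pl k) (y : B) : Prop where
  u : IsUnit y
  a : Cl v 0 y
  b : Cl v 0 (inv y)

theorem IU.mul (hx : IU v x) (hy : IU v y) : IU v (x * y) :=
  ⟨hx.u.mul hy.u, cl_mul hx.a hy.a, by rw [Ring.inverse_mul (.inl hx.u)]; exact cl_mul hy.b hx.b⟩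

theorem IU.inv' (hx : IU v x) : IU v (inv x) :=
  ⟨hx.u.ringInverse, hx.b, by rw [Ring.inverse_inverse hx.u]; exact hx.a⟩

theorem IU.star [StarRing B] (hs : ∀ y : B, Cl v 0 y → Cl v 0 (star y)) (hx : IU v x) :
    IU v (star x) := ⟨hx.u.star, hs _ hx.a, star_inv x ▸ hs _ hx.b⟩

theorem ev_iu (hy : IsUnit y) : ∀ᶠ v : Pl k in cofinite, IU v y :=
  ((ev_cl y).and (ev_cl _)).mono fun _ h => ⟨hy, h.1, h.2⟩

end Cl

section Glob
variable {k : Type*} {K : Type*} {B : Type*} [Field k] [NumberField k] [Field K] [NumberField K]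
  [Algebra k K] [StarRing K] [Quad k K] [Ring B] [StarRing B] [Algebra K B] [StarModule K B]
  [Algebra.IsCentral K B] [IsSimpleRing B] [FiniteDimensional K B] [Algebra k B] [IsScalarTower k K B]

theorem smul_k (t : k) (x : B) : t • x = algebraMap k K t • x := (algebraMap_smul K t x).symm

variable (K) in
include K in
theorem star_ksmul (t : k) (x : B) : star (t • x) = t • star x := by
  rw [smul_k (K := K) t x, smul_k (K := K) t (star x), star_smul, Quad.star_k]

variable (k K B) in
/-- a `K`-basis of skew elements; the skew elements are its `k`-span -/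
theorem exists_skew_basis : ∃ e : Basis (Fin (finrank K B)) K B, (∀ i, star (e i) = -e i) ∧
    ∀ s : B, star s = -s → ∃ x : Fin (finrank K B) → k, ∑ i, x i • e i = s := by
  obtain ⟨e, he⟩ := exists_herm_basis (K := K) (B := B) (Quad.ne (k := k))
  obtain ⟨θ, h0, hθ⟩ := exists_skew (Quad.ne (k := k) (K := K))
  refine ⟨e.unitsSMul fun _ => Units.mk0 θ h0, fun i => ?_, fun s hs => ?_⟩
  · simp [Basis.unitsSMul_apply, Units.smul_def, he, hθ]
  · have h : ∀ i, ∃ a : k, algebraMap k K a = θ⁻¹ * e.repr s i := fun i =>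
      fixed Quad.fr (sig_ne k K) (by
        rw [sig_apply, star_mul', ← repr_star e he, hs, star_inv₀, hθ]; simp)
    choose x hx using h
    refine ⟨x, ?_⟩
    conv_rhs => rw [← e.sum_repr s]
    refine Finset.sum_congr rfl fun i _ => ?_
    rw [smul_k (K := K), hx, Basis.unitsSMul_apply, Units.smul_def, smul_smul, Units.val_mk0,
      mul_right_comm, inv_mul_cancel₀ h0, one_mul]

variable (K) in
include K in
theorem skew_sum {ι : Type*} [Fintype ι] {e : ι → B} (he : ∀ i, star (e i) = -e i) (x : ι → k) :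
    star (∑ i, x i • e i) = -∑ i, x i • e i := by
  simp [star_ksmul K, he]

variable [Module.Finite k B]

/-- the choice of `a` -/
theorem exists_a {c : K} {g q : B} (h : Dt c g q) (S : Finset (Pl k)) {v₀ : Pl k} (h₀ : v₀ ∉ S)
    (a : Pl k → B) (ha : ∀ v, star (a v) = -a v) (m : Pl k → ℕ) (r : (k →+* ℝ) → B)
    (hr : ∀ φ, star (r φ) = -r φ) (ε : (k →+* ℝ) → ℝ) (hε : ∀ φ, 0 < ε φ) :
    ∃ b : B, star b = -b ∧ Gen (algebraMap K B c) g q b ∧ (∀ v ∈ S, Cl v (m v) (b - a v)) ∧
      ∀ φ, Ci φ (ε φ) (b - r φ) := by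
  obtain ⟨e, he, hs⟩ := exists_skew_basis k K B
  obtain ⟨θ, h0, hθ⟩ := exists_skew (Quad.ne (k := k) (K := K))
  choose a' ha' using fun v => hs _ (ha v)
  choose r' hr' using fun φ => hs _ (hr φ)
  have hε2 : ∀ φ, 0 < ε φ / 2 := fun φ => half_pos (hε φ)
  obtain ⟨n, η, hη, h1, h2⟩ := coords e S m _ hε2
  choose x hx using fun i => (wa_inf S (a' · i) n (r' · i) η hη h₀).nonempty
  set a0 := ∑ i, x i • e i
  have ha0 : star a0 = -a0 := skew_sum K he x
  obtain ⟨t1, hfin⟩ := generic (k := k) h.hc h.ug h.uq h0 a0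
  set d := t1 • algebraMap K B θ - a0
  have hd : star d = -d := by
    rw [star_sub, ha0, star_ksmul K, ← algebraMap_star_comm, hθ, map_neg, smul_neg]
    simp only [d]; abel
  obtain ⟨n', η', hη', h3, h4⟩ := coords (fun _ : Unit => d) S m _ hε2
  obtain ⟨t, ht, hg⟩ := (wa_inf S 0 n' 0 η' hη' h₀).exists_notMem_finite hfin
  have hb : star (a0 + t • d) = -(a0 + t • d) := by
    rw [star_add, star_ksmul K, ha0, hd, smul_neg, neg_add]
  refine ⟨a0 + t • d, hb, not_not.1 fun hn => hg ⟨hb, hn⟩, fun v hv => ?_, fun φ => ?_⟩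
  · rw [add_sub_right_comm, ← ha' v]
    exact cl_add (h1 v hv _ _ fun i => (hx i).1 v hv)
      (by simpa using h3 v hv (fun _ => t) 0 fun _ => ht.1 v hv)
  · rw [add_sub_right_comm, ← hr' φ, ← add_halves (ε φ)]
    exact ci_add (h2 φ _ _ fun i => (hx i).2 φ) (by simpa using h4 φ (fun _ => t) 0 fun _ => ht.2 φ)

end Glob

end Crest.Agent.T24.Stab.O6
end
end

-- ▼ part T24/StabOC_6
section

/-!
# Row 24, stability, part (O), file C (helper6): the line trick and the assembly
-/

set_option autoImplicit false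
set_option linter.unusedSectionVars false

noncomputable section

namespace Crest.Agent.T24.Stab.O6

open Module WithZero Csa Asa Filter NumberField

local notation "inv" => Ring.inverse

universe u v w

section Glob
variable {k : Type u} {K : Type v} {B : Type w} [Field k] [NumberField k] [Field K] [NumberField K]
  [Algebra k K] [StarRing K] [Quad k K] [Ring B] [StarRing B] [Algebra K B] [StarModule K B]
  [Algebra.IsCentral K B] [IsSimpleRing B] [FiniteDimensional K B] [Algebra k B] [IsScalarTower k K B]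

theorem map_aff {ι : Type*} [Fintype ι] (A : B) (e : ι → B) :
    MvPolynomial.map (sig k K : K →+* K) (aff K A e) = aff K (star A) fun i => star (e i) :=
  MvPolynomial.funext fun x => by
    have h := MvPolynomial.eval₂_comp_left (sig k K : K →+* K) (RingHom.id K) (fun i => star (x i))
      (aff K A e)
    rw [MvPolynomial.eval₂_id, eval_aff] at h
    have e1 : ((sig k K : K →+* K) ∘ fun i => star (x i)) = x := funext fun i => by simp
    rw [e1, RingHom.comp_id] at h
    rw [MvPolynomial.eval_map, eval_aff, ← h]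
    exact (T24.Nrd_star K _).symm.trans (by simp)

theorem ev_aff {ι : Type*} [Fintype ι] (A : B) (e : ι → B) (s : ι → k) :
    Line.ev s (aff K A e) = Nrd K (A + ∑ i, s i • e i) := by
  simp only [Line.ev, eval_aff, algebraMap_smul]

theorem ev_aff' {ι : Type*} [Fintype ι] (A : B) (e : ι → B) (s : ι → k) :
    Line.ev s (aff K A fun i => -e i) = Nrd K (A - ∑ i, s i • e i) := by
  simp [ev_aff, sub_eq_add_neg]

theorem ev_mul {ι : Type*} (s : ι → k) (p q : MvPolynomial ι K) :
    Line.ev s (p * q) = Line.ev s p * Line.ev s q := map_mul _ _ _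

theorem zz_eq (c : K) (g q a : B) : zz c g q a = zf (algebraMap K B c) g q a := by
  rw [zz, zf, Algebra.smul_def, map_sub, map_one, mul_assoc]; rfl

variable (K) in
include K in
theorem inv_two : inv (2 : B) = algebraMap K B 2⁻¹ := by
  rw [← map_ofNat (algebraMap K B) 2, ← Opn.map_inverse _ two_ne_zero.isUnit, Ring.inverse_eq_inv']

theorem star_x1 (c : K) (g q a : B) {s : B} (hs : star s = -s) :
    star (x1 c g q a s) = xf (zz c g q a) s := by
  rw [x1, xf, inv_two K, ← Algebra.commutes, ← Algebra.smul_def]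
  simp [hs, sub_eq_add_neg]

variable {c : K} {g q : B} (h : Dt c g q)
include h

omit h in
theorem inv_comm (c : K) (y : B) : inv (algebraMap K B c) * y = y * inv (algebraMap K B c) :=
  (Opn.commute_inverse (Algebra.commutes c _ : Commute _ _).symm).eq.symm

theorem c_ne : c ≠ 0 := fun h0 => h.hc (by simp [h0])

theorem ze_eq (a : B) {s : B} (hs : star s = -s) :
    ze (x1 c g q a s) g (zz c g q a) 1 = inv g * (Af g (zz c g q a) - s) := by
  rw [← zef_eq h.ug, ze, star_x1 c g q a hs, one_mul, zef]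

theorem ze_eq' {a : B} (hv : IsUnit (vf a)) {s : B} (hs : star s = -s) :
    ze (x1 c g q a s) (c • g) (zz c g q a) (cv a * q) = inv (algebraMap K B c) * (vf a * q) * inv g *
      (Af' (algebraMap K B c) g (vf a * q) (zz c g q a) - s) := by
  have hc := (c_ne h).isUnit.map (algebraMap K B)
  rw [← zef'_eq hc (Algebra.commutes c) h.ug (hv.mul h.uq), ze, star_x1 c g q a hs, zef',
    Algebra.smul_def, Ring.inverse_mul (.inl hc), ← mul_assoc, ← inv_comm, mul_assoc (inv _) (vf a * q)]
  rfl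

theorem EL_eq {a : B} (ha : star a = -a) (h1 : IsUnit (1 - a)) {s : B} (hs : star s = -s) {Z : B}
    (hZ : Z = inv (algebraMap K B c) * q * inv g *
      (Af' (algebraMap K B c) g (vf a * q) (zz c g q a) - s) * (inv (Af g (zz c g q a) - s) * g)) :
    EL c g q a s = star Z * Z := by
  have : ka c (x1 c g q a s) g (zz c g q a) 1 (cv a * q) = vf a * Z := by
    rw [ka, ze_eq h a hs, ze_eq' h (vf_unit ha h1) hs, Ring.inverse_mul (.inl h.ug.ringInverse),
      Ring.inverse_inverse h.ug, hZ, ← mul_assoc (inv _) (vf a), inv_comm c (vf a)]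
    simp only [mul_assoc]
  rw [EL, el, this, star_mul, mul_assoc, ← mul_assoc (star (vf a)), vf_unitary ha h1, one_mul]

variable [Module.Finite k B]

omit h in
theorem val_eq_one {x y : ℤᵐ⁰} (hx : x ≤ 1) (hy : y ≤ 1) (h : x * y = 1) : x = 1 ∧ y = 1 :=
  ⟨hx.antisymm (by simpa [h] using mul_le_mul' (le_refl x) hy),
    hy.antisymm (by simpa [h] using mul_le_mul' hx (le_refl y))⟩

/-- the choice of `s`: the line trick -/
theorem exists_s {θ : K} {δ : kˣ} (hθ : Th θ δ) (T : Tool k K B) {a : B}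
    (G : Gen (algebraMap K B c) g q a) (S₁ : Finset (Pl k)) (t : Pl k → B)
    (ht : ∀ v, star (t v) = -t v) (m : Pl k → ℕ) (r : (k →+* ℝ) → B)
    (hr : ∀ φ, star (r φ) = -r φ) (ε : (k →+* ℝ) → ℝ) (hε : ∀ φ, 0 < ε φ) :
    ∃ s : B, star s = -s ∧ IsUnit (x1 c g q a s) ∧ IsUnit (xx (x1 c g q a s) g (zz c g q a) 1) ∧
      IsUnit (Af g (zz c g q a) - s) ∧
      IsUnit (Af' (algebraMap K B c) g (vf a * q) (zz c g q a) - s) ∧
      (∀ φ, Ci φ (ε φ) (s - r φ)) ∧ ∀ v, Cl v (m v) (s - t v) ∨ (v ∉ S₁ ∧ (δ ∈ Hn.Sq v ∨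
        (IU v (Af g (zz c g q a) - s) ∧
          IU v (Af' (algebraMap K B c) g (vf a * q) (zz c g q a) - s)))) := by
  classical
  have hθ' : θ ^ 2 = algebraMap k K δ := by rw [hθ.sq, sq]
  obtain ⟨e, he, hs⟩ := exists_skew_basis k K B
  choose t' ht' using fun v => hs _ (ht v)
  choose r' hr' using fun φ => hs _ (hr φ)
  rw [zz_eq] at *
  have h4 := G.h4
  have h5 := G.h5
  have h6 := G.h6
  simp only [x1, xx, zz_eq]
  generalize zf (algebraMap K B c) g q a = z at *
  generalize Af g z = A at *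
  generalize Af' (algebraMap K B c) g (vf a * q) z = A' at *
  have hn : ∀ A : B, aff K A (fun i => -e i) ≠ 0 := fun A => aff_ne_zero A (e.map (LinearEquiv.neg K))
  obtain ⟨S₀, H⟩ := Line.line_sigma (sig k K) (f := aff K A (fun i => -e i) * aff K A' fun i => -e i)
    (h := aff K A (fun i => -e i) * aff K A' (fun i => -e i) *
      (aff K ((2⁻¹ : K) • (star z * z)) e * aff K ((2⁻¹ : K) • (star z * z) + g + star z * 1) e))
    (by
      simp only [map_mul, map_aff, star_neg, he, neg_neg]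
      refine ((relPrime_aff h4 e).mul_right (relPrime_aff h5 e)).mul_left
        ((relPrime_aff ?_ e).mul_right (relPrime_aff h6 e))
      simpa [add_comm] using h5.star)
    (mul_ne_zero (mul_ne_zero (hn _) (hn _)) (mul_ne_zero (aff_ne_zero _ _) (aff_ne_zero _ _)))
  have hev := eventually_cofinite.1 (((T.inv.and (ev_cl A)).and (ev_cl A')).and
    (eventually_all.2 fun i => ev_cl (k := k) (e i)))
  set S := S₀ ∪ S₁ ∪ hev.toFinset
  obtain ⟨v₀, h₀, hd₀⟩ := Lan.exists_split_Sq Quad.fr (sig_ne k K) hθ.sk hθ' S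
  obtain ⟨n, η, hη, h1, h2⟩ := coords e S m _ hε
  have hη2 : ∀ φ, 0 < η φ / 2 := fun φ => half_pos (hη φ)
  choose x hx using fun i => (wa_inf S 0 0 (r' · i) _ hη2 h₀).nonempty
  obtain ⟨η', h0, hη'⟩ : ∃ η' > 0, ∀ φ, η' ≤ η φ / 2 := by
    rcases isEmpty_or_nonempty (k →+* ℝ) with h | h
    · exact ⟨1, one_pos, fun ρ => h.elim ρ⟩
    · obtain ⟨ρ, hρ⟩ := Finite.exists_min fun φ => η φ / 2
      exact ⟨_, hη2 ρ, hρ⟩
  obtain ⟨s, s1, s2, s3, s4, s5⟩ := H S (by intro v hv; simp [S, hv]) v₀ h₀ t' n x η' h0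
  rw [ev_mul, ev_mul, ev_mul, ev_aff', ev_aff', ev_aff, ev_aff] at s4
  simp only [mul_ne_zero_iff, ← isUnit_iff_Nrd] at s4
  refine ⟨∑ i, s i • e i, skew_sum K he s, s4.2.1, by convert s4.2.2 using 1; abel, s4.1.1, s4.1.2,
    fun φ => hr' φ ▸ h2 φ _ _ fun i => ?_, fun v => ?_⟩
  · have e1 := s2 (Complex.ofRealHom.comp φ) i
    have e2 := (hx i).2 φ
    rw [RingHom.comp_apply, Complex.ofRealHom_eq_coe, Complex.norm_real, Real.norm_eq_abs] at e1
    rw [← sub_add_sub_cancel _ (x i), map_add]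
    linarith [abs_add_le (φ (s i - x i)) (φ (x i - r' φ i)), hη' φ]
  by_cases hv : v ∈ S
  · exact .inl (ht' v ▸ h1 v hv _ _ (s1 v hv))
  refine .inr ⟨fun h => hv (by simp [S, h]), or_iff_not_imp_left.2 fun hd => ?_⟩
  have hv0 : v ≠ v₀ := fun h => hd (h ▸ hd₀)
  obtain ⟨⟨⟨g1, g2⟩, g3⟩, g4⟩ := not_not.1 fun h => hv (Finset.mem_union_right _ (hev.mem_toFinset.2 h))
  have hc := cl_sum g4 (s3 v hv hv0)
  have key : ∀ w : Pl K, below k w = v →
      val w (A - ∑ i, s i • e i) = 1 ∧ val w (A' - ∑ i, s i • e i) = 1 := by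
    rintro w rfl
    have := s5 w hv hv0 (Lan.not_splits Quad.fr (sig_ne k K) hθ.sk hθ' hd)
    rw [ev_mul, ev_aff', ev_aff', map_mul] at this
    exact val_eq_one (T.nrd w _ (cl_sub g2 hc)) (T.nrd w _ (cl_sub g3 hc)) this
  exact ⟨⟨s4.1.1, cl_sub g2 hc, g1 _ (cl_sub g2 hc) fun w hw => (key w hw).1⟩,
    s4.1.2, cl_sub g3 hc, g1 _ (cl_sub g3 hc) fun w hw => (key w hw).2⟩

omit h in
theorem par (hT : (TT K B).Finite) (N : Nrm k K B) (NF : NearF k K B) (NR : NearR k K B)
    (NT : NearT k K B) (T : Tool k K B) (L : Large k K B) : Par K B := by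
  classical
  intro m c g q h
  obtain ⟨θ, δ, hθ1, hθ2⟩ := Lan.exists_theta Quad.fr (sig_ne k K)
  have hθ : Th θ δ := ⟨hθ1, by rw [← hθ2, sq]⟩
  set R : Pl k → B → B → Prop := fun v a s => LNf v (δ : k) (EL c g q a s) ∧
    ∀ w ∈ TT K B, below k w = v →
      val w (rho (x1 c g q a s) (zz c g q a) - 1) < exp (-(m : ℤ)) ∧
      val w (rho (xx (x1 c g q a s) g (zz c g q a) 1) (zz c g q a + 1) - 1) < exp (-(m : ℤ))
  have hF : ∀ v, ∃ a s : B, star a = -a ∧ star s = -s ∧ ∃ n, ∀ a' s' : B, star a' = -a' →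
      star s' = -s' → Cl v n (a' - a) → Cl v n (s' - s) → R v a' s' := fun v => by
    by_cases hd : δ ∈ Hn.Sq v
    · obtain ⟨a, s, ha, hs, n, H⟩ := NT m c g q h v
      exact ⟨a, s, ha, hs, n, fun a' s' h1 h2 h3 h4 => ⟨T.spl δ v hd _, H a' s' h1 h2 h3 h4⟩⟩
    · obtain ⟨a, s, ha, hs, n, H⟩ := NF θ δ hθ c g q h v hd
      refine ⟨a, s, ha, hs, n, fun a' s' h1 h2 h3 h4 => ⟨H a' s' h1 h2 h3 h4, ?_⟩⟩
      rintro w hw rfl
      exact (Lan.not_splits Quad.fr (sig_ne k K) hθ1 hθ2 hd hw.1).elim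
  have hR : ∀ φ : k →+* ℝ, ∃ a s : B, star a = -a ∧ star s = -s ∧ ∃ ε > 0, ∀ a' s' : B,
      star a' = -a' → star s' = -s' → Ci φ ε (a' - a) → Ci φ ε (s' - s) → φ δ < 0 →
      LNr φ (EL c g q a' s') := fun φ => by
    by_cases hd : φ δ < 0
    · obtain ⟨a, s, ha, hs, ε, h0, H⟩ := NR θ δ hθ c g q h φ hd
      exact ⟨a, s, ha, hs, ε, h0, fun a' s' h1 h2 h3 h4 _ => H a' s' h1 h2 h3 h4⟩
    · exact ⟨0, 0, by simp, by simp, 1, one_pos, fun _ _ _ _ _ _ h => (hd h).elim⟩
  choose av sv hav hsv n hn using hF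
  choose ar sr har hsr ε hε hr using hR
  have hc := (c_ne h).isUnit.map (algebraMap K B)
  have hev := eventually_cofinite.1 ((((((L δ c g q h).and (T.uni δ)).and T.str).and
    (ev_iu (k := k) ((hc.ringInverse.mul h.uq).mul h.ug.ringInverse))).and (ev_iu h.ug)).and
    (hT.image (below k)).compl_mem_cofinite)
  have hS : ∀ v ∉ hev.toFinset, _ := fun v hv => not_not.1 fun h => hv (hev.mem_toFinset.2 h)
  generalize hev.toFinset = S at hS
  obtain ⟨v₀, h₀, -⟩ := Lan.exists_split_Sq Quad.fr (sig_ne k K) hθ1 hθ2 S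
  obtain ⟨a, ha, G, a1, a2⟩ := exists_a h S h₀ av hav n ar har ε hε
  have hs2 : ∀ v, ∃ s : B, star s = -s ∧ ∃ n, ∀ s' : B, star s' = -s' → Cl v n (s' - s) →
      R v a s' := fun v => by
    by_cases hv : v ∈ S
    · exact ⟨sv v, hsv v, n v, fun s' h1 h2 => hn v a s' ha h1 (a1 v hv) h2⟩
    · obtain ⟨s, hs, n, H⟩ := (hS v hv).1.1.1.1.1 a ha G.h1 G.h2
      exact ⟨s, hs, n, fun s' h1 h2 => ⟨H s' h1 h2, fun w hw h => ((hS v hv).2 ⟨w, hw, h⟩).elim⟩⟩
  choose t ht n' hn' using hs2
  obtain ⟨s, hs, u1, u2, u3, u4, s1, s2⟩ := exists_s h hθ T G S t ht n' sr hsr ε hε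
  have hE := EL_eq h ha G.h1 hs rfl
  have uZ := (((hc.ringInverse.mul h.uq).mul h.ug.ringInverse).mul u4).mul (u3.ringInverse.mul h.ug)
  have hRv : ∀ v, R v a s := fun v => by
    rcases s2 v with h1 | ⟨hv, h1⟩
    · exact hn' v s hs h1
    obtain ⟨⟨⟨⟨⟨-, g1⟩, g2⟩, g3⟩, g4⟩, g5⟩ := hS v hv
    refine ⟨h1.elim (T.spl δ v · _) fun h1 => ?_, fun w hw h => (g5 ⟨w, hw, h⟩).elim⟩
    have hZ := (g3.mul h1.2).mul (h1.1.inv'.mul g4)
    have := (hZ.star g2).mul hZ
    rw [← hE] at this
    exact g1 _ this.u this.a this.b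
  obtain ⟨μ, m1, m2, m3⟩ := N θ δ hθ (EL c g q a s) (by simp [hE]) (hE ▸ uZ.star.mul uZ)
    (fun v => (hRv v).1) fun φ => hr φ a s ha hs (a2 φ) (s1 φ)
  refine ⟨a, s, μ, ha, hs, G.h1, G.h2, u1, u2, zz_eq c g q a ▸ G.h3, ?_, ?_,
    fun w hw => ((hRv _).2 w hw rfl).1, fun w hw => ((hRv _).2 w hw rfl).2, m1, m2, m3⟩
  · exact ze_eq h a hs ▸ h.ug.ringInverse.mul u3
  · exact ze_eq' h (vf_unit ha G.h1) hs ▸
      ((hc.ringInverse.mul ((vf_unit ha G.h1).mul h.uq)).mul h.ug.ringInverse).mul u4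

end Glob

/-- **(O)** from its leaves -/
theorem parStmt (N : NrmStmt.{u, v, w}) (NF : NearFStmt.{u, v, w}) (NR : NearRStmt.{u, v, w})
    (NT : NearTStmt.{u, v, w}) (T : ToolStmt.{u, v, w}) (L : LargeStmt.{u, v, w}) :
    ParStmt.{u, v, w} := fun D h3 hd =>
  par (Loc.finite_TT (by omega)) (N D) (NF D hd) (NR D) (NT D) (T D) (L D)

end Crest.Agent.T24.Stab.O6
end
end

-- ▼ part T24/StabL_66
section

/-! # Row 24, STAB (L): the local lemma (helper66) -/

set_option autoImplicit false

noncomputable section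

namespace Crest.Agent.T24.Stab.L66

open Module Polynomial Wall

/-- a real place: `K = ℂ` -/
def LocR (K : Type*) [Field K] [StarRing K] : Prop :=
  IsAlgClosed K ∧ ∀ x y : K, ∃ z, star x * x + star y * y = star z * z

/-- a finite place: hermitian forms in three variables are isotropic -/
def LocP (K : Type*) [Field K] [StarRing K] : Prop :=
  ∀ a b c : K, star a = a → star b = b → star c = c → ∃ x y z : K, (x ≠ 0 ∨ y ≠ 0 ∨ z ≠ 0) ∧
    a * (star x * x) + b * (star y * y) + c * (star z * z) = 0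

section Lin

variable {K V : Type*} [Field K] [AddCommGroup V] [Module K V] [FiniteDimensional K V]

theorem isUnit_of_inj {f : End K V} (h : ∀ x, f x = 0 → x = 0) : IsUnit f :=
  (LinearMap.isUnit_iff_ker_eq_bot f).2 (LinearMap.ker_eq_bot'.2 h)

theorem exB {W U : Submodule K V} (hd : finrank K W + finrank K U = finrank K V) (α : End K V)
    (h : ∀ w ∈ W, α w ∈ U → w = 0) :
    ∃ β : End K V, (∀ w ∈ W, β w = 0) ∧ (∀ x, β x ∈ U) ∧ IsUnit (α + β) := by
  have h1 := (U.mkQ ∘ₗ α).finrank_range_add_finrank_ker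
  have h2 := Submodule.finrank_le (LinearMap.range (U.mkQ ∘ₗ α))
  have h3 := U.finrank_quotient_add_finrank
  obtain ⟨N, hN'⟩ : ∃ N, N = LinearMap.ker (U.mkQ ∘ₗ α) := ⟨_, rfl⟩
  have hN : ∀ x, x ∈ N ↔ α x ∈ U := fun x => by simp [hN']
  rw [← hN'] at h1
  have hc : IsCompl W N := (Submodule.isCompl_iff_disjoint _ _ (by omega)).2
    (Submodule.disjoint_def.2 fun x hx hx' => h x hx ((hN x).1 hx'))
  have h4 := Submodule.finrank_add_eq_of_isCompl hc
  let j : N ≃ₗ[K] U := LinearEquiv.ofFinrankEq _ _ (by omega)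
  refine ⟨LinearMap.ofIsCompl hc 0 (U.subtype ∘ₗ j.toLinearMap - α ∘ₗ N.subtype),
    fun w hw => LinearMap.ofIsCompl_apply_left hc (⟨w, hw⟩ : W), fun x => ?_,
    isUnit_of_inj fun x hx => ?_⟩
  · obtain ⟨w, n, rfl, -⟩ := Submodule.existsUnique_add_of_isCompl hc x
    simpa using U.sub_mem (j n).2 ((hN n).1 n.2)
  · obtain ⟨w, n, rfl, -⟩ := Submodule.existsUnique_add_of_isCompl hc x
    have e : α w + j n = 0 := by simpa [add_assoc] using hx
    have hw : (w : V) = 0 := h w w.2 (by rw [eq_neg_of_add_eq_zero_left e]; exact U.neg_mem (j n).2)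
    have hn : n = 0 := by simpa [hw] using e
    simp [hw, hn]

theorem exA (α β : End K V) (h : ∀ x, α x = 0 → β x = 0 → x = 0) : ∃ a, IsUnit (α + a * β) := by
  obtain ⟨U, hU⟩ := (LinearMap.range (α ∘ₗ (LinearMap.ker β).subtype)).exists_isCompl
  have h1 := Submodule.finrank_add_eq_of_isCompl hU
  rw [LinearMap.finrank_range_of_inj
    ((injective_iff_map_eq_zero _).2 fun x hx => Subtype.ext (h x hx x.2))] at h1
  obtain ⟨γ, g1, -, g3⟩ := exB h1 α fun w hw hw' =>
    h w (Submodule.disjoint_def.1 hU.1 _ ⟨⟨w, hw⟩, rfl⟩ hw') hw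
  obtain ⟨a, ha⟩ := LinearMap.exists_extend
    ((LinearMap.ker β).liftQ γ g1 ∘ₗ β.quotKerEquivRange.symm.toLinearMap)
  refine ⟨a, ?_⟩
  have : a * β = γ := LinearMap.ext fun x => by
    exact (LinearMap.congr_fun ha ⟨β x, x, rfl⟩).trans
      (congrArg ((LinearMap.ker β).liftQ γ g1) (β.quotKerEquivRange_symm_apply_image x _))
  rwa [this]

theorem exists_notMem {W U : Submodule K V} (h : finrank K W < finrank K U) : ∃ e ∈ U, e ∉ W := by
  by_contra h'
  push Not at h'
  exact absurd (Submodule.finrank_mono (show U ≤ W from h')) h.not_ge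

theorem finrank_inf_ker (U : Submodule K V) (f : V →ₗ[K] K) :
    finrank K U ≤ finrank K ↥(U ⊓ LinearMap.ker f) + 1 := by
  have h1 := f.finrank_range_add_finrank_ker
  have h2 := Submodule.finrank_le (LinearMap.range f)
  have h3 := Submodule.finrank_sup_add_finrank_inf_eq U (LinearMap.ker f)
  have h4 := Submodule.finrank_le (U ⊔ LinearMap.ker f)
  rw [finrank_self] at h2
  omega

end Lin

section Skew

variable {K A : Type*} [Field K] [StarRing K] [CharZero K] [Ring A] [StarRing A] [Algebra K A]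
  [StarModule K A] [FiniteDimensional K A]

omit [StarRing A] [StarModule K A] in
theorem ex_fixed {ι : Type*} (I : Finset ι) (a b : ι → A) (h : ∀ i ∈ I, ∃ t : K, IsUnit (a i + t • b i)) :
    ∃ t : K, star t = t ∧ ∀ i ∈ I, IsUnit (a i + t • b i) := by
  have : (⋃ i ∈ I, {t : K | ¬IsUnit (a i + t • b i)}).Finite :=
    I.finite_toSet.biUnion fun i hi => Opn.finite_nonunit K (h i hi).choose_spec
  obtain ⟨t, ht, ht'⟩ := Csa.infinite_fixed.exists_notMem_finite this
  exact ⟨t, ht, by simpa using ht'⟩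

/-- finitely many unit conditions, each solvable, have a common skew solution -/
theorem exD (hne : ∃ c : K, star c ≠ c) (S : Submodule K A) (hS : ∀ x ∈ S, star x ∈ S) {ι : Type*}
    (I : Finset ι) (α β : ι → A) (h : ∀ i ∈ I, ∃ b ∈ S, IsUnit (α i + b * β i)) :
    ∃ s ∈ S, star s = -s ∧ ∀ i ∈ I, IsUnit (α i + s * β i) := by
  classical
  obtain ⟨θ, h0, hθ⟩ := Csa.exists_skew hne
  have sk : ∀ s s' : A, star s = -s → star s' = -s' → ∀ t : K, star t = t →
      star (s + t • s') = -(s + t • s') := fun s s' h h' t ht => by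
    rw [star_add, star_smul, h, h', ht, smul_neg, neg_add]
  induction I using Finset.induction_on with
  | empty => exact ⟨0, S.zero_mem, by simp, by simp⟩
  | insert j I hj ih =>
    obtain ⟨s, sS, hs, hI⟩ := ih fun i hi => h i (Finset.mem_insert_of_mem hi)
    obtain ⟨b, bS, hb⟩ := h j (Finset.mem_insert_self _ _)
    obtain ⟨s', sS', hs', hj'⟩ : ∃ s' ∈ S, star s' = -s' ∧ IsUnit (α j + s' * β j) := by
      have e : b = (2⁻¹ : K) • (b - star b) + θ • ((2 * θ)⁻¹ • (b + star b)) := by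
        rw [smul_smul, show θ * (2 * θ)⁻¹ = 2⁻¹ by field_simp, ← smul_add,
          show b - star b + (b + star b) = (2 : K) • b by rw [two_smul]; abel, smul_smul]; simp
      obtain ⟨t, ht, ht'⟩ := ex_fixed (K := K) {()} (fun _ => α j + (2⁻¹ : K) • (b - star b) * β j)
        (fun _ => (2 * θ)⁻¹ • (b + star b) * β j) fun _ _ =>
          ⟨θ, by rwa [add_assoc, ← smul_mul_assoc, ← add_mul, ← e]⟩
      refine ⟨(2⁻¹ : K) • (b - star b) + t • ((2 * θ)⁻¹ • (b + star b)),
        S.add_mem (S.smul_mem _ (S.sub_mem bS (hS b bS)))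
          (S.smul_mem _ (S.smul_mem _ (S.add_mem bS (hS b bS)))), sk _ _ ?_ ?_ t ht, ?_⟩
      · simp [← smul_neg]
      · rw [star_smul, star_inv₀, star_mul', hθ, star_ofNat, star_add, star_star, mul_neg, inv_neg,
          neg_smul, add_comm]
      · simpa [add_mul, add_assoc] using ht' () (by simp)
    obtain ⟨t, ht, ht'⟩ := ex_fixed (K := K) (insert j I) (fun i => α i + s * β i)
      (fun i => (s' - s) * β i) fun i hi => by
        rcases Finset.mem_insert.1 hi with rfl | hi
        · exact ⟨1, by simpa [sub_mul, add_assoc] using hj'⟩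
        · exact ⟨0, by simpa using hI i hi⟩
    refine ⟨s + t • (s' - s), S.add_mem sS (S.smul_mem _ (S.sub_mem sS' sS)),
      sk _ _ hs (by rw [star_sub, hs, hs', neg_sub_neg, neg_sub]) t ht, fun i hi => ?_⟩
    simpa [add_mul, add_assoc] using ht' i hi

end Skew

section Form

variable {K V : Type*} [Field K] [StarRing K] [AddCommGroup V] [Module K V] (F : HF K V)

/-- `x ↦ h x y` -/
def fn (y : V) : V →ₗ[K] K where
  toFun x := F.h x y
  map_add' a b := F.add_left a b y
  map_smul' a b := F.smul_left a b y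

/-- orthogonal complement -/
def perp (W : Submodule K V) : Submodule K V where
  carrier := {x | ∀ w ∈ W, F.h x w = 0}
  add_mem' ha hb w hw := by rw [F.add_left, ha w hw, hb w hw, add_zero]
  zero_mem' w _ := F.zero_left w
  smul_mem' c x hx w hw := by rw [F.smul_left, hx w hw, mul_zero]

/-- maximal totally isotropic subspace -/
structure Mx (W : Submodule K V) : Prop where
  iso : W ≤ perp F W
  mx : ∀ e ∈ perp F W, F.h e e = 0 → e ∈ W

variable [FiniteDimensional K V]

theorem finrank_perp (W : Submodule K V) : finrank K W + finrank K (perp F W) = finrank K V := by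
  classical
  let b := finBasis K W
  let T : V →ₗ[K] (Fin (finrank K W) → K) := LinearMap.pi fun i => fn F (b i)
  have sr : ∀ x (t : Fin (finrank K W) → K), F.h x ↑(∑ i, t i • b i) = ∑ i, T x i * star (t i) :=
    fun x t => by
      rw [← F.symm, show F.h ↑(∑ i, t i • b i) x = fn F x ↑(∑ i, t i • b i) from rfl]
      simp [fn, T, mul_comm]
  have h1 : LinearMap.ker T = perp F W := by
    ext x
    refine ⟨fun hx w hw => ?_, fun hx => funext fun i => hx _ (b i).2⟩
    have := sr x (b.repr ⟨w, hw⟩)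
    rw [b.sum_repr, LinearMap.mem_ker.1 hx] at this
    simpa using this
  have h2 : LinearMap.range T = ⊤ := by
    by_contra h
    obtain ⟨f, f0, hf⟩ := Submodule.exists_le_ker_of_lt_top _ (lt_top_iff_ne_top.2 h)
    have e : ∑ i, star (f (Pi.single i 1)) • b i = 0 := Subtype.ext (F.nd' fun x => by
      have : f (T x) = 0 := hf ⟨x, rfl⟩
      rw [sr, ← this, LinearMap.pi_apply_eq_sum_univ]
      refine Finset.sum_congr rfl fun i _ => ?_
      rw [star_star, smul_eq_mul]
      congr 2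
      exact funext fun j => by simp [Pi.single_apply, eq_comm])
    refine f0 ((Pi.basisFun K _).ext fun i => ?_)
    simpa using Fintype.linearIndependent_iff.1 b.linearIndependent _ e i
  have := T.finrank_range_add_finrank_ker
  rwa [h1, h2, finrank_top, Module.finrank_fin_fun] at this

theorem exists_mx : ∃ W, Mx F W := by
  obtain ⟨W, hW, hm⟩ := (set_has_maximal_iff_noetherian (R := K) (M := V)).2 inferInstance
    {W | W ≤ perp F W} ⟨⊥, show ⊥ ≤ perp F ⊥ from bot_le⟩
  refine ⟨W, hW, fun e he h0 => ?_⟩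
  by_contra hn
  refine hm (W ⊔ Submodule.span K {e}) (fun x hx y hy => ?_) (lt_of_le_of_ne le_sup_left fun h =>
    hn (h ▸ Submodule.mem_sup_right (Submodule.mem_span_singleton_self e)))
  obtain ⟨w, hw, _, ⟨s, rfl⟩, rfl⟩ := by
    simpa only [Submodule.mem_sup, Submodule.mem_span_singleton] using hx
  obtain ⟨w', hw', _, ⟨s', rfl⟩, rfl⟩ := by
    simpa only [Submodule.mem_sup, Submodule.mem_span_singleton] using hy
  simp [hW hw w' hw', he w' hw', F.eq_zero_comm.1 (he w hw), h0]

variable {F} {W : Submodule K V}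

omit [FiniteDimensional K V] in
theorem Mx.nrm (m : Mx F W) {e e' : V} {t : K} (he : e ∈ perp F W) (h : e' - t • e ∈ W) :
    F.h e' e' = star t * t * F.h e e := by
  obtain ⟨w, hw, rfl⟩ : ∃ w ∈ W, e' = t • e + w := ⟨_, h, by abel⟩
  simp [m.iso hw w hw, he w hw, F.eq_zero_comm.1 (he w hw)]
  ring

omit [FiniteDimensional K V] in
theorem Mx.nrR (m : Mx F W) (hK : LocR K) {e e' : V} (he : e ∈ perp F W) (he' : e' ∈ perp F W)
    (h0 : F.h e e ≠ 0) : ∃ μ, F.h e' e' = star μ * μ * F.h e e := by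
  have := hK.1
  obtain ⟨b, hb⟩ := IsAlgClosed.exists_eq_mul_self (F.h e' e' / F.h e e)
  have h1 : star b * star b = b * b := by rw [← star_mul, ← hb, star_div₀, F.symm, F.symm]
  rw [div_eq_iff h0] at hb
  rcases mul_self_eq_mul_self_iff.1 h1 with h | h
  · exact ⟨b, by rw [h, hb]⟩
  obtain ⟨z, hz⟩ := hK.2 (F.h e' e / F.h e e) b
  refine ⟨F.h e' e / F.h e e - z, m.nrm he (m.mx _ (sub_mem he' (Submodule.smul_mem _ _ he)) ?_)⟩
  simp only [HF.sub_left, HF.sub_right, HF.smul_left, HF.smul_right, star_sub, star_div₀, HF.symm,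
    hb, h] at hz ⊢
  field_simp at hz ⊢
  linear_combination -hz

theorem Mx.one (m : Mx F W) (hK : LocP K) (ho : Odd (finrank K V)) :
    ∃ e ∈ perp F W, e ∉ W ∧ ∀ x ∈ perp F W, ∃ t : K, x - t • e ∈ W := by
  have h1 := finrank_perp F W
  have h2 := Submodule.finrank_mono m.iso
  obtain ⟨k, hk⟩ := ho
  obtain ⟨e, he, heW⟩ := exists_notMem (W := W) (U := perp F W) (by omega)
  refine ⟨e, he, heW, fun x hx => ?_⟩
  by_cases h3 : finrank K (perp F W) ≤ finrank K W + 1
  · have l1 : W < W ⊔ Submodule.span K {e} := lt_of_le_of_ne le_sup_left fun h =>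
      heW (h ▸ Submodule.mem_sup_right (Submodule.mem_span_singleton_self e))
    have l2 := Submodule.finrank_lt_finrank_of_lt l1
    rw [← Submodule.eq_of_le_of_finrank_le (sup_le m.iso
      ((Submodule.span_singleton_le_iff_mem _ _).2 he)) (by omega)] at hx
    obtain ⟨w, hw, _, ⟨s, rfl⟩, rfl⟩ := by
      simpa only [Submodule.mem_sup, Submodule.mem_span_singleton] using hx
    exact ⟨s, by simpa using hw⟩
  exfalso
  have l1 := finrank_inf_ker (perp F W) (fn F e)
  obtain ⟨f, ⟨hf, (fe : F.h f e = 0)⟩, hfW⟩ :=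
    exists_notMem (W := W) (U := perp F W ⊓ LinearMap.ker (fn F e)) (by omega)
  have l2 := finrank_inf_ker (perp F W ⊓ LinearMap.ker (fn F e)) (fn F f)
  obtain ⟨g, ⟨⟨hg, (ge : F.h g e = 0)⟩, (gf : F.h g f = 0)⟩, hgW⟩ := exists_notMem (W := W)
    (U := perp F W ⊓ LinearMap.ker (fn F e) ⊓ LinearMap.ker (fn F f)) (by omega)
  obtain ⟨x, y, z, h0, h⟩ := hK _ _ _ (F.symm e e) (F.symm f f) (F.symm g g)
  have ef := F.eq_zero_comm.1 fe
  have eg := F.eq_zero_comm.1 ge
  have fg := F.eq_zero_comm.1 gf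
  have hw : x • e + y • f + z • g ∈ W := m.mx _ (add_mem (add_mem (Submodule.smul_mem _ _ he)
    (Submodule.smul_mem _ _ hf)) (Submodule.smul_mem _ _ hg)) (by
      simp [fe, ge, gf, ef, eg, fg]; linear_combination h)
  rcases h0 with h0 | h0 | h0
  · exact heW (m.mx e he (by simpa [ef, eg, h0] using he _ hw))
  · exact hfW (m.mx f hf (by simpa [fe, fg, h0] using hf _ hw))
  · exact hgW (m.mx g hg (by simpa [ge, gf, h0] using hg _ hw))

/-- the spectrum of `l = u* u` -/
theorem Mx.spec (m : Mx F W) (hK : LocR K ∨ LocP K ∧ Odd (finrank K V)) {u l : End K V} {c : K}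
    (hu : Function.Injective u) (hl : ∀ x y, F.h (l x) y = F.h (u x) (u y)) (ha : ∀ w ∈ W, u w = w)
    (hb : ∀ x, u x - c • x ∈ perp F W) : ∃ R : Multiset K,
      aeval l (R.map fun r => X - C r).prod = 0 ∧
        ∀ r ∈ R, r = c ∨ r = star c ∨ ∃ μ, μ ≠ 0 ∧ r = star μ * μ := by
  have h1 : ∀ x, l x - c • x ∈ perp F W := fun x w hw => by
    rw [F.sub_left, hl, ha w hw, ← F.sub_left, hb x w hw]
  have h2 : ∀ w ∈ W, l w = star c • w := fun w hw => sub_eq_zero.1 (F.nd _ fun y => by
    have := F.eq_zero_comm.1 (hb y w hw)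
    rw [F.sub_right, F.smul_right, mul_comm] at this
    rw [F.sub_left, hl, ha w hw, F.smul_left, this])
  have h3 : ∀ e ∈ perp F W, u e ∈ perp F W := fun e he => by
    simpa using add_mem (hb e) (Submodule.smul_mem _ c he)
  have h4 : ∀ e ∈ perp F W, e ∉ W → ∀ μ r : K, l e - r • e ∈ W →
      F.h (u e) (u e) = star μ * μ * F.h e e → μ ≠ 0 ∧ r = star μ * μ := fun e he heW μ r hr h => by
    have e0 : F.h e e ≠ 0 := fun h => heW (m.mx e he h)
    have := F.eq_zero_comm.1 (he _ hr)
    rw [F.sub_left, F.smul_left, hl, h, ← sub_mul] at this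
    refine ⟨fun h0 => heW ?_, (sub_eq_zero.1 ((mul_eq_zero.1 this).resolve_right e0)).symm⟩
    have hw := m.mx _ (h3 e he) (by rw [h, h0]; simp)
    exact hu (ha _ hw) ▸ hw
  rcases hK with hK | ⟨hK, ho⟩
  · have := hK.1
    refine ⟨(minpoly K l).roots, ?_, fun r hr => ?_⟩
    · rw [← (IsAlgClosed.splits _).eq_prod_roots_of_monic (minpoly.monic (Algebra.IsIntegral.isIntegral l))]
      exact minpoly.aeval K l
    by_cases r1 : r = c
    · exact .inl r1
    by_cases r2 : r = star c
    · exact .inr (.inl r2)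
    obtain ⟨e, he⟩ := (End.hasEigenvalue_iff_isRoot.2 (isRoot_of_mem_roots hr)).exists_hasEigenvector
    have e1 : e ∈ perp F W := by
      have := h1 e
      rwa [he.apply_eq_smul, ← sub_smul, Submodule.smul_mem_iff _ (sub_ne_zero.2 r1)] at this
    have e2 : e ∉ W := fun h => r2 (smul_left_injective K he.2 (he.apply_eq_smul.symm.trans (h2 e h)))
    obtain ⟨μ, hμ⟩ := m.nrR hK e1 (h3 e e1) fun h => e2 (m.mx e e1 h)
    exact .inr (.inr ⟨μ, h4 e e1 e2 μ r (by rw [he.apply_eq_smul, sub_self]; exact W.zero_mem) hμ⟩)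
  · obtain ⟨e, he, heW, h⟩ := m.one hK ho
    obtain ⟨μ, hμ⟩ := h _ (h3 e he)
    obtain ⟨r, hr⟩ := h (l e) (by simpa using add_mem (h1 e) (Submodule.smul_mem _ c he))
    refine ⟨{star c, r, c}, LinearMap.ext fun x => ?_, fun r' hr' => ?_⟩
    · obtain ⟨s, hs⟩ := h _ (h1 x)
      have : l (l x - c • x) - r • (l x - c • x) ∈ W := by
        generalize l x - c • x = y at hs
        obtain ⟨w, hw, rfl⟩ : ∃ w ∈ W, y = s • e + w := ⟨_, hs, by abel⟩
        have := add_mem (W.smul_mem s hr) (W.smul_mem (star c - r) hw)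
        convert this using 1
        rw [map_add, map_smul, h2 w hw]
        module
      simpa [Algebra.algebraMap_eq_smul_one, sub_eq_zero] using h2 _ this
    · simp only [Multiset.insert_eq_cons, Multiset.mem_cons, Multiset.mem_singleton] at hr'
      rcases hr' with rfl | rfl | rfl
      · exact .inr (.inl rfl)
      · exact .inr (.inr ⟨μ, h4 e he heW μ _ hr (m.nrm he hμ)⟩)
      · exact .inl rfl

end Form

section Ring

variable {K A : Type*} [Field K] [StarRing K] [Ring A] [StarRing A] [Algebra K A] [StarModule K A]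


/-- `star ze * ze = y' + star y'` -/
theorem ident {g : Aˣ} {p z x : A} (hp : star p * p = g + star (g : A)) (hx : x + star x = star z * z) :
    star (z + p * ↑g⁻¹ * x) * (z + p * ↑g⁻¹ * x) =
      (star x + g + star z * p) * ↑g⁻¹ * x + star ((star x + g + star z * p) * ↑g⁻¹ * x) := by
  have h1 : star (↑g⁻¹ : A) * star (g : A) = 1 := by rw [← star_mul, g.mul_inv, star_one]
  have h2 : star x * star (↑g⁻¹ : A) * (star p * p) * ↑g⁻¹ * x =
      star x * star (↑g⁻¹ : A) * x + star x * ↑g⁻¹ * x := by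
    rw [hp, mul_add, add_mul, add_mul, Units.mul_inv_cancel_right, mul_assoc (star x) _ (star _), h1,
      mul_one]
  have h3 : star x * (star (↑g⁻¹ : A) * star (g : A)) = star x := by rw [h1, mul_one]
  have h4 : (g : A) * (↑g⁻¹ * x) = x := g.mul_inv_cancel_left x
  simp only [star_add, star_mul, star_star, add_mul, mul_add, mul_assoc] at h2 ⊢
  rw [h2, h3, h4, ← hx]
  abel


end Ring

section Core

variable {K A : Type*} [Field K] [StarRing K] [Ring A] [StarRing A] [Algebra K A]

/-- the conclusion of the local lemma -/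
def Concl (g p q : Aˣ) (c : K) : Prop :=
  ∃ (a s : A) (v z ze ze' : Aˣ), star a = -a ∧ star s = -s ∧ IsUnit (1 - a) ∧ (1 - a) * v = 1 + a ∧
    IsUnit ((v : A) * q - p) ∧ star (z : A) * (v * q - p) = (1 - c) • (g : A) ∧
    (ze : A) = z + p * ↑g⁻¹ * ((2⁻¹ : K) • (star (z : A) * z) - s) ∧
    (ze' : A) = z + c⁻¹ • (v * q * ↑g⁻¹ * ((2⁻¹ : K) • (star (z : A) * z) - s)) ∧
    ∃ R : Multiset K,
      aeval (star ((ze' : A) * ↑ze⁻¹) * (ze' * ↑ze⁻¹)) (R.map fun r => X - C r).prod = 0 ∧
        ∀ r ∈ R, r = c⁻¹ ∨ r = star c⁻¹ ∨ ∃ μ, μ ≠ 0 ∧ r = star μ * μ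

variable [CharZero K] [StarModule K A] {V : Type*} [AddCommGroup V] [Module K V]
  [FiniteDimensional K V] {F : HF K V} {W : Submodule K V} (φ : A ≃ₐ[K] End K V)

omit [StarRing K] [StarRing A] [CharZero K] [StarModule K A] [FiniteDimensional K V] in
theorem inj_of_unit {a : A} (ha : IsUnit a) (x : V) (h : φ a x = 0) : x = 0 :=
  ((End.isUnit_iff _).1 (ha.map φ)).1 (h.trans (map_zero _).symm)

theorem exV (hne : ∃ c : K, star c ≠ c) (F : HF K V) (W : Submodule K V) (T : Aˣ) :
    ∃ (a : A) (v : Aˣ), star a = -a ∧ IsUnit (1 - a) ∧ (1 - a) * v = 1 + a ∧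
      IsUnit ((v * T : Aˣ) - 1 : A) ∧ (∀ w ∈ W, φ (v * T : Aˣ) w ∈ perp F W → w = 0) ∧
      ∀ w ∈ W, φ ((v * T)⁻¹ : Aˣ) w ∈ perp F W → w = 0 := by
  have : FiniteDimensional K A := φ.symm.toLinearEquiv.finiteDimensional
  let j : V ≃ₗ[K] W × perp F W := LinearEquiv.ofFinrankEq _ _ (by rw [finrank_prod, finrank_perp])
  obtain ⟨i1, h1⟩ := φ.surjective (W.subtype ∘ₗ LinearMap.fst K _ _ ∘ₗ j.toLinearMap)
  obtain ⟨i2, h2⟩ := φ.surjective ((perp F W).subtype ∘ₗ LinearMap.snd K _ _ ∘ₗ j.toLinearMap)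
  have hi : ∀ w ∈ W, ∀ w' ∈ perp F W, ∃ y, φ i1 y = w ∧ φ i2 y = w' := fun w hw w' hw' =>
    ⟨j.symm (⟨w, hw⟩, ⟨w', hw'⟩), by simp [h1], by simp [h2]⟩
  have hi0 : ∀ y, φ i1 y = 0 → φ i2 y = 0 → y = 0 := fun y a b =>
    j.map_eq_zero_iff.1 (Prod.ext (by simpa [h1] using a) (by simpa [h2] using b))
  have hT := inj_of_unit φ T.isUnit
  have key : ∀ X Y : A, (∀ x, φ X x = 0 → φ Y x = 0 → x = 0) →
      ∃ b ∈ (⊤ : Submodule K A), IsUnit (X - Y + b * (X + Y)) := fun X Y h => by
    obtain ⟨a, ha⟩ := exA (φ (X - Y)) (φ (X + Y)) fun x a b => by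
      rw [map_sub, LinearMap.sub_apply, sub_eq_zero] at a
      rw [map_add, LinearMap.add_apply, a, ← two_smul K, smul_eq_zero] at b
      exact h x (a.trans (b.resolve_left two_ne_zero)) (b.resolve_left two_ne_zero)
    obtain ⟨b, rfl⟩ := φ.surjective a
    exact ⟨b, trivial, by rwa [← map_mul, ← map_add, isUnit_map_iff] at ha⟩
  let X : Fin 4 → A := ![0, 1, i1, i2]
  let Y : Fin 4 → A := ![1, 1, i2, i1]
  obtain ⟨a, -, ha, h⟩ := exD hne ⊤ (fun _ _ => trivial) Finset.univ (fun i => T * X i - Y i)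
    (fun i => T * X i + Y i) fun i _ => key _ _ fun x a b => by
      rw [map_mul] at a
      have a := hT _ a
      fin_cases i
      · simpa [Y] using b
      · simpa [Y] using b
      · exact hi0 x a b
      · exact hi0 x b a
  have u1 : IsUnit (1 - a) := by simpa [X, Y, neg_add_eq_sub] using (h 0 (Finset.mem_univ _)).neg
  have u2 : IsUnit (1 + a) := by simpa [ha] using u1.star
  obtain ⟨v, hv⟩ : ∃ v : Aˣ, (1 - a) * v = 1 + a := ⟨u1.unit⁻¹ * u2.unit, by
    rw [Units.val_mul, ← mul_assoc, IsUnit.mul_val_inv, one_mul, IsUnit.unit_spec]⟩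
  have h' : ∀ i, IsUnit ((v * T : Aˣ) * X i - Y i) := fun i => by
    have e : T * X i - Y i + a * (T * X i + Y i) = u1.unit * ((v * T : Aˣ) * X i - Y i) := by
      rw [IsUnit.unit_spec, mul_sub, Units.val_mul, ← mul_assoc, ← mul_assoc, hv]; noncomm_ring
    exact (Units.isUnit_units_mul _ _).1 (e ▸ h i (Finset.mem_univ _))
  refine ⟨a, v, ha, u1, hv, by simpa [X, Y] using h' 1, fun w hw hw' => ?_, fun w hw hw' => ?_⟩
  · obtain ⟨y, y1, y2⟩ := hi w hw _ hw'
    rw [← y1, inj_of_unit φ (h' 2) y (by simp [X, Y, y1, y2]), map_zero]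
  · obtain ⟨y, y1, y2⟩ := hi w hw _ hw'
    rw [← y1, inj_of_unit φ (h' 3) y ?_, map_zero]
    show φ (_ * i2 - i1) y = 0
    rw [map_sub, map_mul, LinearMap.sub_apply, End.mul_apply, y1, y2, ← End.mul_apply, ← map_mul,
      Units.mul_inv, map_one, End.one_apply, sub_self]

theorem exXi (hne : ∃ c : K, star c ≠ c) (adj : ∀ a x y, F.h (φ a x) y = F.h x (φ (star a) y))
    (m : Mx F W) {ι : Type*} (I : Finset ι) (N : ι → A)
    (h : ∀ i ∈ I, ∀ w ∈ W, φ (N i) w ∈ perp F W → w = 0) :
    ∃ ξ : A, ξ + star ξ = 1 ∧ (∀ w ∈ W, φ ξ w = 0) ∧ ∀ i ∈ I, IsUnit (N i + ξ) := by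
  have : FiniteDimensional K A := φ.symm.toLinearEquiv.finiteDimensional
  obtain ⟨C, hC⟩ := W.exists_isCompl
  obtain ⟨π, hπ⟩ := φ.surjective (W.projection C hC)
  have st : ∀ b : A, (∀ x, φ b x ∈ perp F W) → ∀ w ∈ W, φ (star b) w = 0 := fun b hb w hw =>
    F.nd' fun x => by rw [← adj, hb x w hw]
  obtain ⟨ξ, hξ⟩ : ∃ ξ : A, ξ = (2⁻¹ : K) • (1 - π + star π) := ⟨_, rfl⟩
  have x0 : ∀ w ∈ W, φ ξ w = 0 := fun w hw => by
    simp [hξ, hπ, Submodule.projection_apply_of_mem_left hC hw,
      st π (fun x => hπ ▸ m.iso (Submodule.projection_apply_mem hC x)) w hw]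
  let S : Submodule K A :=
    { carrier := {b | ∀ w ∈ W, φ b w = 0 ∧ φ (star b) w = 0}
      add_mem' := fun ha hb w hw => by simp [ha w hw, hb w hw]
      zero_mem' := fun w _ => by simp
      smul_mem' := fun c b hb w hw => by simp [hb w hw] }
  obtain ⟨s, sS, hs, hI⟩ := exD hne S (fun b hb w hw => by simpa [and_comm] using hb w hw) I
    (fun i => N i + ξ) (fun _ => 1) fun i hi => by
      obtain ⟨β, b1, b2, b3⟩ := exB (finrank_perp F W) (φ (N i + ξ)) fun w hw hw' =>
        h i hi w hw (by simpa [x0 w hw] using hw')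
      obtain ⟨b, rfl⟩ := φ.surjective β
      exact ⟨b, fun w hw => ⟨b1 w hw, st b b2 w hw⟩, by
        rwa [← map_add, isUnit_map_iff, ← mul_one b] at b3⟩
  refine ⟨ξ + s, ?_, fun w hw => by simp [x0 w hw, sS w hw], fun i hi => by
    simpa [add_assoc] using hI i hi⟩
  rw [star_add, hs, add_add_add_comm, add_neg_cancel, add_zero, hξ, star_smul, star_inv₀, star_ofNat,
    ← smul_add, star_add, star_sub, star_one, star_star,
    show 1 - π + star π + (1 - star π + π) = (2 : K) • (1 : A) by rw [two_smul]; abel, smul_smul]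
  simp

theorem core (adj : ∀ a x y, F.h (φ a x) y = F.h x (φ (star a) y))
    (hK : LocR K ∨ LocP K ∧ Odd (finrank K V)) (g p q : Aˣ) {c : K} (hc : star c ≠ c) :
    Concl g p q c := by
  have c0 : c ≠ 0 := fun h => hc (by simp [h])
  have c1 : 1 - c ≠ 0 := fun h => hc (by simp [← sub_eq_zero.1 h])
  obtain ⟨W, m⟩ := exists_mx F
  obtain ⟨a, v, ha, u1, hv, ⟨R, hR⟩, t1, t2⟩ := exV φ ⟨c, hc⟩ F W (q * p⁻¹)
  obtain ⟨M, hM⟩ : ∃ M, M = v * (q * p⁻¹) := ⟨_, rfl⟩
  rw [← hM] at hR t1 t2
  have vq : (v : A) * q = M * p := by simp [hM, mul_assoc]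
  have vqp : (v : A) * q - p = R * p := by rw [vq, hR, sub_mul, one_mul]
  obtain ⟨z, hz⟩ : ∃ z : Aˣ, star (z : A) = (1 - c) • (g * ↑p⁻¹ * ↑R⁻¹ : A) :=
    ⟨star (Units.mk0 _ c1 • (g * p⁻¹ * R⁻¹)), star_star _⟩
  obtain ⟨ξ, x1, x0, hu⟩ := exXi φ ⟨c, hc⟩ adj m Finset.univ
    ![(1 - c)⁻¹ • (R : A), (c * (1 - c)⁻¹) • (R * ↑M⁻¹ : A)] fun i _ w hw hw' => by
      fin_cases i
      · refine t1 w hw ?_
        simpa [hR, c1] using add_mem (Submodule.smul_mem _ (1 - c) hw') (m.iso hw)
      · refine t2 w hw ?_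
        have : (c * (1 - c)⁻¹) • φ (R * ↑M⁻¹) w ∈ perp F W := by simpa using hw'
        rw [Submodule.smul_mem_iff _ (mul_ne_zero c0 (inv_ne_zero c1)), hR, sub_mul, M.mul_inv] at this
        simpa using sub_mem (m.iso hw) this
  obtain ⟨E, hE⟩ : IsUnit (1 + (1 - c) • (↑R⁻¹ * ξ)) := by
    have := (Units.mk0 _ c1 • R⁻¹).isUnit.mul (hu 0 (Finset.mem_univ _))
    simpa [Units.smul_def, mul_add, smul_smul, c1] using this
  obtain ⟨E', hE'⟩ : IsUnit (1 + (c⁻¹ * (1 - c)) • (M * ↑R⁻¹ * ξ)) := by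
    have := (Units.mk0 _ (mul_ne_zero (inv_ne_zero c0) c1) • (M * R⁻¹)).isUnit.mul
      (hu 1 (Finset.mem_univ _))
    simpa [Units.smul_def, mul_add, smul_smul, mul_assoc,
      show c * ((1 - c)⁻¹ * (c⁻¹ * (1 - c))) = 1 by field_simp] using this
  have xs : star ξ = 1 - ξ := eq_sub_of_add_eq' x1
  have EE : (E' : A) = c⁻¹ • (E : A) + (1 - c⁻¹) • star ξ := by
    rw [hE, hE', xs, show (M : A) = R + 1 by rw [hR, sub_add_cancel], add_mul, add_mul, Units.mul_inv,
      one_mul, one_mul, show c⁻¹ * (1 - c) = c⁻¹ - 1 by field_simp, smul_add, smul_add, smul_smul,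
      show c⁻¹ * (1 - c) = c⁻¹ - 1 by field_simp]
    module
  have w1 : ∀ w ∈ W, φ (↑E⁻¹ : A) w = w := fun w hw => by
    have : φ E w = w := by simp [hE, x0 w hw]
    nth_rw 1 [← this]
    rw [← End.mul_apply, ← map_mul, Units.inv_mul, map_one, End.one_apply]
  obtain ⟨Q, hQ, hQ'⟩ := m.spec hK (u := φ (E' * ↑E⁻¹)) (l := φ (star (E' * ↑E⁻¹ : A) * (E' * ↑E⁻¹)))
    (c := c⁻¹) ((End.isUnit_iff _).1 ((E' * E⁻¹).isUnit.map φ)).1
    (fun x y => by rw [map_mul, End.mul_apply, adj, star_star])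
    (fun w hw => by simp [w1 w hw, hE', x0 w hw])
    (fun x w hw => by
      rw [EE, add_mul, smul_mul_assoc, Units.mul_inv]
      simp [adj, x0 w hw])
  refine ⟨a, (2⁻¹ : K) • (star (z : A) * z) - star (z : A) * ξ * z, v, z, E * z, E' * z, ha, ?_, u1, hv,
    vqp ▸ (R * p).isUnit, by simp [hz, vqp, mul_assoc], ?_, ?_, Q, φ.injective ?_, hQ'⟩
  · rw [star_sub, star_smul, star_inv₀, star_ofNat, star_mul, star_mul, star_mul, star_star, xs,
      sub_mul, one_mul, mul_sub, mul_assoc, ← sub_eq_zero]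
    generalize star (z : A) * z = y
    generalize star (z : A) * (ξ * z) = y'
    module
  · simp [hE, hz, add_mul, mul_assoc]
  · simp [hE', hz, vq, add_mul, mul_assoc, smul_smul]
  · rw [← aeval_algHom_apply φ, map_zero, ← hQ]
    simp [mul_assoc]

/-- **STAB (L)**, the local lemma -/
theorem loc {n : Type*} [Fintype n] [DecidableEq n] [Nonempty n] (e : A ≃ₐ[K] Matrix n n K)
    (hK : LocR K ∨ LocP K ∧ Odd (Fintype.card n)) (g p q : Aˣ) {c : K} (hc : star c ≠ c) :
    Concl g p q c := by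
  obtain ⟨H, hH, h⟩ := Csa.exists_twist (K := K) (B := Matrix n n K) ⟨c, hc⟩
    { toFun := fun x => e (star (e.symm x)), map_zero' := by simp, map_add' := by simp }
    (fun x y => by simp) (fun x => by simp)
    (fun t => by simp [Algebra.algebraMap_eq_smul_one])
  let F : HF K (n → K) :=
    { h := fun x y => star y ⬝ᵥ (H : Matrix n n K).mulVec x
      add_left := fun x y z => by simp [Matrix.mulVec_add]
      smul_left := fun a x y => by simp [Matrix.mulVec_smul]
      symm := fun x y => by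
        rw [← Matrix.star_dotProduct_star, star_star, Matrix.star_mulVec, ← Matrix.dotProduct_mulVec,
          ← Matrix.star_eq_conjTranspose, hH]
      nd := fun x hx => (Matrix.mulVec_injective_iff_isUnit.2 H.isUnit) (funext fun i => by
        simpa using hx (Pi.single i 1))
      sk := (Csa.exists_skew ⟨c, hc⟩).imp fun θ h => ⟨h.1, h.2, mul_comm θ⟩ }
  refine core (F := F) (e.trans Matrix.toLinAlgEquiv') (fun a x y => ?_) (by simpa using hK) g p q hc
  have := h (e (star a))
  simp only [AddMonoidHom.coe_mk, ZeroHom.coe_mk, AlgEquiv.symm_apply_apply, star_star] at this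
  show star y ⬝ᵥ (H : Matrix n n K).mulVec ((e a).mulVec x) =
    star ((e (star a)).mulVec y) ⬝ᵥ (H : Matrix n n K).mulVec x
  rw [Matrix.star_mulVec, ← Matrix.dotProduct_mulVec, Matrix.mulVec_mulVec, Matrix.mulVec_mulVec, this,
    Matrix.star_eq_conjTranspose]

end Core

end Crest.Agent.T24.Stab.L66
end
end

-- ▼ part T24/StabM_66
section

/-! # Row 24, STAB (L): the hypotheses `LocP`, `LocR` at the non-split places (helper66) -/

set_option autoImplicit false

noncomputable section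

namespace Crest.Agent.T24.Stab.L66

open Module NumberField

/-- norms -/
def Nm {E : Type*} [Field E] [StarRing E] (t : E) : Prop := ∃ z, t = star z * z

section
variable {E : Type*} [Field E] [StarRing E]

theorem Nm.mul {a b : E} (ha : Nm a) (hb : Nm b) : Nm (a * b) := by
  obtain ⟨x, rfl⟩ := ha
  obtain ⟨y, rfl⟩ := hb
  exact ⟨x * y, by rw [star_mul']; ring⟩

theorem Nm.of_sq {a b : E} (ha : star a = a) (h0 : a ≠ 0) (h : Nm (a * a * b)) : Nm b := by
  obtain ⟨x, h⟩ := h
  exact ⟨x / a, by rw [star_div₀, ha]; field_simp; linear_combination h⟩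

theorem locP_of (idx : ∀ a b : E, star a = a → star b = b → a ≠ 0 → b ≠ 0 → Nm a ∨ Nm b ∨ Nm (a * b))
    (sos : ∃ (s : E) (n : ℕ), star s * s + n = -1) : LocP E := by
  have two : ∀ a b : E, star a = a → a ≠ 0 → Nm (-(a * b)) → ∃ x : E, a * (star x * x) + b = 0 := by
    rintro a b ha h0 ⟨x, h⟩
    exact ⟨x / a, by rw [star_div₀, ha]; field_simp; linear_combination -h⟩
  intro a b c ha hb hc
  by_cases a0 : a = 0
  · exact ⟨1, 0, 0, by simp, by simp [a0]⟩
  by_cases b0 : b = 0
  · exact ⟨0, 1, 0, by simp, by simp [b0]⟩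
  by_cases c0 : c = 0
  · exact ⟨0, 0, 1, by simp, by simp [c0]⟩
  by_cases ab : Nm (-(a * b))
  · obtain ⟨x, h⟩ := two a b ha a0 ab
    exact ⟨x, 1, 0, by simp, by simpa using h⟩
  by_cases ac : Nm (-(a * c))
  · obtain ⟨x, h⟩ := two a c ha a0 ac
    exact ⟨x, 0, 1, by simp, by simpa using h⟩
  by_cases bc : Nm (-(b * c))
  · obtain ⟨x, h⟩ := two b c hb b0 bc
    exact ⟨0, x, 1, by simp, by simpa using h⟩
  have m1 : ¬Nm (-1 : E) := fun h => bc (by
    have := ((idx _ _ (by simp [ha, hb]) (by simp [ha, hc]) (by simp [a0, b0])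
      (by simp [a0, c0])).resolve_left ab).resolve_left ac
    simpa using h.mul (Nm.of_sq (b := b * c) ha a0 (by convert this using 1; ring)))
  have neg : ∀ t : E, star t = t → t ≠ 0 → ¬Nm t → Nm (-t) := fun t ht t0 h => by
    simpa using ((idx _ _ (by simp) ht (by simp) t0).resolve_left m1).resolve_left h
  obtain ⟨β, hβ⟩ := neg _ (by simp [ha, hb]) (by simp [a0, b0]) ab
  obtain ⟨γ, hγ⟩ := neg _ (by simp [ha, hc]) (by simp [a0, c0]) ac
  rw [neg_neg] at hβ hγ
  have β0 : β ≠ 0 := by rintro rfl; simp [a0, b0] at hβ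
  have γ0 : γ ≠ 0 := by rintro rfl; simp [a0, c0] at hγ
  by_contra hn
  have add : ∀ s t : E, Nm s → Nm t → Nm (s + t) := by
    rintro _ _ ⟨x, rfl⟩ ⟨y, rfl⟩
    by_contra h
    have t0 : star x * x + star y * y ≠ 0 := fun h0 => h ⟨0, by simp [h0]⟩
    obtain ⟨z, hz⟩ := neg _ (by simp [mul_comm]) t0 h
    have := star_ne_zero.2 β0
    have := star_ne_zero.2 γ0
    refine hn ⟨x, y * a / β, z * a / γ, .inr (.inr ?_), ?_⟩
    · have : z ≠ 0 := by rintro rfl; exact t0 (by simpa using neg_eq_iff_eq_neg.1 hz)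
      simp [*]
    · rw [show b = star β * β / a by rw [← hβ]; field_simp, show c = star γ * γ / a by rw [← hγ]; field_simp]
      simp only [star_div₀, star_mul', ha]
      field_simp
      linear_combination (-a) * hz
  obtain ⟨s, n, h⟩ := sos
  refine m1 (h ▸ add _ _ ⟨s, rfl⟩ ?_)
  clear h
  induction n with
  | zero => exact ⟨0, by simp⟩
  | succ n ih => exact Nat.cast_succ (R := E) n ▸ add _ _ ih ⟨1, by simp⟩

end

/-- hermitian forms in three variables over a quadratic extension of `k_v` are isotropic -/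
theorem locP_adic {k : Type*} [Field k] [NumberField k] (v : Asa.Pl k) (E : Type*) [Field E]
    [StarRing E] [Algebra (Kv v) E] [Quad (Kv v) E] : LocP E := by
  have : CharZero (Kv v) := algebraRat.charZero _
  have : CharZero E := charZero_of_injective_algebraMap (algebraMap (Kv v) E).injective
  have hk := Quad.star_k (k := Kv v) (K := E)
  have fx := fun {c : E} (hc : star c = c) =>
    Csa.exists_of_star_eq (Quad.fr (k := Kv v)) hk (Quad.ne (k := Kv v)) hc
  have L := Hil.lc_inl v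
  have sq := fun {c : Kv v} (hc : c ≠ 0) => L.exists_sq (v.denseRange_algebraMap k) hc
  obtain ⟨θ, h0, hθ⟩ := Csa.exists_skew (Quad.ne (k := Kv v) (K := E))
  obtain ⟨d, hd⟩ := fx (c := θ * θ) (by simp [hθ])
  have d0 : d ≠ 0 := by rintro rfl; simp [eq_comm, h0] at hd
  obtain ⟨δ, r, hr⟩ := sq d0
  rw [div_eq_iff d0] at hr
  have nm : ∀ (a : Kv v) (a' : kˣ) (s : Kv v), a ≠ 0 → algebraMap k _ (a' : k) / a = s * s →
      Hil.hil (.inl v) a' δ = 1 → Nm (algebraMap _ E a) := fun a a' s a0 hs h => by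
    obtain ⟨x, y, h⟩ := (L.nm _ _).1 (Hil.hil_eq_one.1 h)
    have s0 : s ≠ 0 := by rintro rfl; simp [a0] at hs
    refine Nm.of_sq (hk s) (by simpa using s0) ⟨algebraMap _ E x + algebraMap _ E (y * r) * θ, ?_⟩
    rw [← map_mul, ← hs, ← map_mul, div_mul_cancel₀ _ a0, h, hr]
    simp only [star_add, star_mul', hk, hθ, map_sub, map_mul, map_pow, hd]
    ring
  refine locP_of (fun a b ha hb a0 b0 => ?_) ?_
  · obtain ⟨a, rfl⟩ := fx ha
    obtain ⟨b, rfl⟩ := fx hb
    rw [map_ne_zero] at a0 b0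
    obtain ⟨a', s, hs⟩ := sq a0
    obtain ⟨b', t, ht⟩ := sq b0
    rcases Int.units_eq_one_or (Hil.hil (.inl v) a' δ) with h1 | h1
    · exact .inl (nm a a' s a0 hs h1)
    rcases Int.units_eq_one_or (Hil.hil (.inl v) b' δ) with h2 | h2
    · exact .inr (.inl (nm b b' t b0 ht h2))
    refine .inr (.inr (map_mul (algebraMap _ E) a b ▸ nm _ (a' * b') (s * t) (mul_ne_zero a0 b0) ?_
      (by rw [Hil.hil_mul_left, h1, h2]; rfl)))
    rw [Units.val_mul, map_mul, ← div_mul_div_comm, hs, ht]; ring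
  · obtain ⟨N, hN⟩ : ∃ N, Ideal.absNorm v.asIdeal = N + 1 :=
      Nat.exists_eq_succ_of_ne_zero (HeightOneSpectrum.one_lt_absNorm v).ne_bot
    have h1 : v.valuation k ((N + 1 : ℕ) : k) < 1 := by
      simpa [hN] using (v.valuation_lt_one_iff_mem (K := k) _).2 (Ideal.absNorm_mem v.asIdeal)
    have h2 : (1 - 4 * ((N + 1 : ℕ) : k)) ≠ 0 := by
      rw [sub_ne_zero]; norm_cast; omega
    obtain ⟨s, hs⟩ := (L.sq (Units.mk0 _ h2)).1 ⟨1, by
      have : v.valuation k 4 ≠ 0 := by simp
      simpa using mul_lt_mul_of_pos_left h1 (zero_lt_iff.2 this)⟩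
    refine ⟨algebraMap _ E s, 4 * N + 2, ?_⟩
    rw [hk, ← map_mul, ← hs]
    simp [map_ofNat]
    ring

theorem locR_complex : LocR ℂ := ⟨inferInstance, fun x y => ⟨√(Complex.normSq x + Complex.normSq y), by
  simp only [RCLike.star_def, ← Complex.normSq_eq_conj_mul_self, Complex.normSq_ofReal]
  rw [Real.mul_self_sqrt (add_nonneg (Complex.normSq_nonneg _) (Complex.normSq_nonneg _))]
  simp⟩⟩

theorem LocR.of_equiv {E E' : Type*} [Field E] [StarRing E] [Field E'] [StarRing E'] (h : LocR E')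
    (e : E ≃+* E') (he : ∀ x, e (star x) = star (e x)) : LocR E := by
  have := h.1
  refine ⟨IsAlgClosed.of_exists_root _ fun p _ hp => ?_, fun x y => ?_⟩
  · obtain ⟨x, hx⟩ := IsAlgClosed.exists_root (p.map e.toRingHom) (by
      rw [Polynomial.degree_map]; exact (Polynomial.degree_pos_of_irreducible hp).ne')
    obtain ⟨x, rfl⟩ := e.surjective x
    exact ⟨x, hx.of_map e.injective⟩
  obtain ⟨z, hz⟩ := h.2 (e x) (e y)
  obtain ⟨z, rfl⟩ := e.surjective z
  exact ⟨z, e.injective (by simpa [he] using hz)⟩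

/-- a quadratic extension of `ℝ` with its involution is `ℂ` -/
theorem exists_equiv_complex (E : Type*) [Field E] [StarRing E] [Algebra ℝ E] [Quad ℝ E] :
    ∃ e : E ≃ₐ[ℝ] ℂ, ∀ x, e (star x) = star (e x) := by
  have := finite_kK ℝ E
  let f : E →ₐ[ℝ] ℂ := IsAlgClosed.lift
  let e := AlgEquiv.ofBijective f ⟨f.injective,
    (LinearMap.injective_iff_surjective_of_finrank_eq_finrank (f := f.toLinearMap)
      (by rw [Quad.fr, Complex.finrank_real_complex])).1 f.injective⟩
  rcases Complex.real_algHom_eq_id_or_conj ((e.symm.trans (sig ℝ E)).trans e).toAlgHom with h | h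
  · obtain ⟨c, hc⟩ := Quad.ne (k := ℝ) (K := E)
    exact absurd (e.injective (by simpa using AlgHom.congr_fun h (e c))) hc
  · exact ⟨e, fun x => by simpa using AlgHom.congr_fun h (e x)⟩

theorem locR_real (E : Type*) [Field E] [StarRing E] [Algebra ℝ E] [Quad ℝ E] : LocR E :=
  let ⟨e, he⟩ := exists_equiv_complex E
  locR_complex.of_equiv e.toRingEquiv he

/-- the same over a copy of `ℝ` -/
theorem locR_real' {F : Type*} [Field F] (i : F ≃+* ℝ) (E : Type*) [Field E] [StarRing E] [Algebra F E]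
    [Quad F E] : LocR E := by
  let _ : Algebra ℝ E := ((algebraMap F E).comp i.symm.toRingHom).toAlgebra
  have : Quad ℝ E := ⟨(Algebra.finrank_eq_of_equiv_equiv i (RingEquiv.refl E) (RingHom.ext fun x =>
    congrArg (algebraMap F E) (i.symm_apply_apply x))).symm.trans Quad.fr,
    fun c => Quad.star_k (i.symm c), Quad.ne F⟩
  exact locR_real E

end Crest.Agent.T24.Stab.L66
end
end

-- ▼ part T24/StabN_66
section

/-! # Row 24, STAB: open sets of good parameters at the non-split places (helper66) -/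

set_option autoImplicit false
set_option linter.unusedSectionVars false

noncomputable section

namespace Crest.Agent.T24.Stab

open Ring Module Polynomial Filter Topology Csa Asa

universe u v w

namespace L66

theorem norm_of_roots {k : Type u} [Field k] [CharZero k] (f : k[X]) (hf : f.Monic) (d : k)
    (h : ∀ (F : Type u) [Field F] [Algebra k F] (l : F), aeval l f = 0 →
      l ≠ 0 ∧ ∃ x y : F, l = x ^ 2 - algebraMap k F d * y ^ 2) :
    ∃ p q : k[X], f ∣ X - (p ^ 2 - C d * q ^ 2) := by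
  have : Module.Finite k (AdjoinRoot f) := hf.finite_adjoinRoot
  obtain ⟨x, y, hxy⟩ := Lan.norm_of_residue (k := k) (algebraMap k (AdjoinRoot f) d)
    (AdjoinRoot.root f) fun m hm => by
      let _ : Field (AdjoinRoot f ⧸ m) := Ideal.Quotient.field m
      obtain ⟨h0, x, y, hxy⟩ := h (AdjoinRoot f ⧸ m) (Ideal.Quotient.mkₐ k m (AdjoinRoot.root f))
        (by rw [aeval_algHom_apply, AdjoinRoot.aeval_eq, AdjoinRoot.mk_self, map_zero])
      obtain ⟨x, rfl⟩ := Ideal.Quotient.mk_surjective x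
      obtain ⟨y, rfl⟩ := Ideal.Quotient.mk_surjective y
      refine ⟨fun h => h0 (Ideal.Quotient.eq_zero_iff_mem.mpr h), x, y, Ideal.Quotient.eq.mp ?_⟩
      rw [map_sub, map_mul, map_pow, map_pow]
      exact hxy
  obtain ⟨p, rfl⟩ := AdjoinRoot.mk_surjective x
  obtain ⟨q, rfl⟩ := AdjoinRoot.mk_surjective y
  refine ⟨p, q, AdjoinRoot.mk_eq_mk.mp ?_⟩
  rw [map_sub, map_mul, map_pow, map_pow, AdjoinRoot.mk_X, AdjoinRoot.mk_C]
  exact hxy

/-- `l` is a unit and a norm from `F[l, √δ]` -/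
def NP {F A : Type*} [Field F] [Ring A] [Algebra F A] (δ : F) (l : A) : Prop :=
  IsUnit l ∧ ∃ P Q : F[X], l = aeval l (P ^ 2 - C δ * Q ^ 2)

theorem map_EL {K B E A : Type*} [Field K] [StarRing K] [Ring B] [StarRing B] [Algebra K B]
    [Field E] [StarRing E] [Ring A] [StarRing A] [Algebra E A] (ι : K →+* E) (ψ : B →+* A)
    (h1 : ∀ x, ψ (star x) = star (ψ x)) (h2 : ∀ (c : K) x, ψ (c • x) = ι c • ψ x)
    (h3 : ∀ x, ψ (inverse x) = inverse (ψ x)) (c : K) (g q a s : B) :
    ψ (EL c g q a s) = EL (ι c) (ψ g) (ψ q) (ψ a) (ψ s) := by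
  simp only [EL, el, ka, ze, x1, zz, cv, h1, h2, h3, map_mul, map_add, map_sub, map_one, map_inv₀,
    map_ofNat]

section Abs

variable {F E A : Type*} [Field E] [StarRing E] [Ring A] [StarRing A] [Algebra E A] [StarModule E A]

theorem np_of [Field F] [CharZero E] [Algebra F E] [Quad F E] [Algebra F A] [IsScalarTower F E A]
    {θ : E} {δ : F} (h0 : θ ≠ 0) (hθ : star θ = -θ) (hδ : algebraMap F E δ = θ * θ) {l : A}
    (hl : IsUnit l) {R : Multiset E} (h : aeval l (R.map fun r => X - C r).prod = 0)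
    (hR : ∀ r ∈ R, star r ≠ r ∨ ∃ μ, μ ≠ 0 ∧ r = star μ * μ) : NP δ l := by
  have : CharZero F := RingHom.charZero (algebraMap F E)
  have hk := Quad.star_k (k := F) (K := E)
  have co := exists_coord (Quad.fr (k := F) (K := E)) hk h0 hθ
  have nm : ∀ a b : F, star (algebraMap F E a + algebraMap F E b * θ) *
      (algebraMap F E a + algebraMap F E b * θ) = algebraMap F E (a ^ 2 - δ * b ^ 2) := fun a b => by
    simp only [star_add, star_mul', hk, hθ, map_sub, map_mul, map_pow, hδ]; ring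
  have : ∀ r ∈ R, ∃ a b : F, r = algebraMap F E a + algebraMap F E b * θ ∧ a ^ 2 - δ * b ^ 2 ≠ 0 ∧
      (b = 0 → ∃ x y, a = x ^ 2 - δ * y ^ 2) := fun r hr => by
    rcases hR r hr with h | ⟨μ, μ0, h⟩
    · obtain ⟨a, b, rfl⟩ := co r
      refine ⟨a, b, rfl, fun e => h ?_, fun e => absurd (by simp [e, hk]) h⟩
      have := nm a b
      rw [e, map_zero, mul_eq_zero, star_eq_zero, or_self] at this
      rw [this, star_zero]
    · obtain ⟨a, b, rfl⟩ := co μ
      refine ⟨a ^ 2 - δ * b ^ 2, 0, by rw [h, nm]; simp, fun e => ?_, fun _ => ⟨a, b, rfl⟩⟩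
      have := nm a b
      rw [show a ^ 2 - δ * b ^ 2 = 0 by simpa using e, map_zero, mul_eq_zero, star_eq_zero,
        or_self] at this
      exact μ0 this
  choose! a b h1 h2 h3 using this
  obtain ⟨P, Q, T, hT⟩ := norm_of_roots (R.map fun r => (X - C (a r)) ^ 2 - C (δ * b r ^ 2)).prod
    (monic_multiset_prod_of_monic _ _ fun r _ => by monicity!) δ fun M _ _ x hx => by
      rw [map_multiset_prod, Multiset.prod_eq_zero_iff, Multiset.map_map] at hx
      obtain ⟨r, hr, hx⟩ := Multiset.mem_map.1 hx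
      simp only [Function.comp, map_sub, map_pow, map_mul, aeval_X, aeval_C] at hx
      have inj := (algebraMap F M).injective
      have : CharZero M := charZero_of_injective_algebraMap inj
      refine ⟨fun e => h2 r hr (inj (by simpa [e] using hx)), ?_⟩
      by_cases hb : b r = 0
      · obtain ⟨s, t, e⟩ := h3 r hr hb
        refine ⟨algebraMap F M s, algebraMap F M t, ?_⟩
        have : x - algebraMap F M (a r) = 0 := by simpa [hb] using hx
        simpa [e] using sub_eq_zero.1 this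
      · have hb' : algebraMap F M (b r) ≠ 0 := by simpa using hb
        refine Hil.nm_of_sq (fun e => h0 ?_) ⟨(x - algebraMap F M (a r)) / algebraMap F M (b r), by
          field_simp; linear_combination -hx⟩
        simpa [inj (e.trans (map_zero _).symm)] using hδ.symm
  refine ⟨hl, P, Q, ?_⟩
  have e : ((R.map fun r => (X - C (a r)) ^ 2 - C (δ * b r ^ 2)).prod).map (algebraMap F E) =
      (R.map fun r => X - C r).prod * (R.map fun r => X - C (star r)).prod := by
    rw [← Multiset.prod_map_mul, Polynomial.map_multiset_prod, Multiset.map_map]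
    refine congrArg _ (Multiset.map_congr rfl fun r hr => ?_)
    conv_rhs => rw [h1 r hr]
    simp only [Function.comp, Polynomial.map_sub, Polynomial.map_pow, map_X, map_C, star_add, star_mul',
      hk, hθ, map_mul, map_pow, hδ, map_add, map_neg, Polynomial.map_mul]
    ring
  have := congrArg (aeval l) hT
  rwa [map_mul, ← aeval_map_algebraMap E l (Multiset.prod _), e, map_mul, h, zero_mul, zero_mul,
    map_sub, aeval_X, sub_eq_zero] at this

variable [NontriviallyNormedField F] [CompleteSpace F] [Algebra F A] [FiniteDimensional F A]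
  [TopologicalSpace A] [IsTopologicalAddGroup A] [ContinuousSMul F A] [T2Space A]

theorem NP.near [CharZero F] {δ : F} {l : A} (h : NP δ l) : ∀ᶠ y in 𝓝 l, NP δ y := by
  have := Opn.topRing F (A := A)
  obtain ⟨hu, P, Q, h⟩ := h
  have c1 := (Opn.continuous_aeval F (A := A) (P ^ 2 - C δ * Q ^ 2)).tendsto l
  rw [← h] at c1
  have c2 := (tendsto_id (x := 𝓝 l)).mul ((Opn.inverse_continuousAt F hu).tendsto.comp c1)
  rw [mul_inverse_cancel _ hu] at c2
  filter_upwards [Opn.ev_isUnit F hu, c1.eventually (Opn.ev_isUnit F hu),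
    c2.eventually (Opn.root_one F (n := 2) (by norm_num) univ_mem)] with y h1 h2 ⟨ρ, h3, _, h4⟩
  have : ρ ∈ Algebra.adjoin F {y} := Algebra.adjoin_le (Set.singleton_subset_iff.2 (mul_mem
    (Algebra.self_mem_adjoin_singleton F y) (Opn.inverse_mem F _ (aeval_mem_adjoin_singleton F _)))) h3
  rw [Algebra.adjoin_singleton_eq_range_aeval] at this
  obtain ⟨T, rfl⟩ := this
  refine ⟨h1, T * P, T * Q, ?_⟩
  rw [show (T * P) ^ 2 - C δ * (T * Q) ^ 2 = T ^ 2 * (P ^ 2 - C δ * Q ^ 2) by ring, map_mul, map_pow]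
  exact ((congrArg (· * _) h4).trans (inverse_mul_cancel_right _ _ h2)).symm

include F in
theorem cont_EL [ContinuousStar A] (c : E) (g q : A) {a s : A} (h1 : IsUnit (1 - a))
    (h2 : IsUnit (cv a * q - 1)) (h3 : IsUnit (ze (x1 c g q a s) g (zz c g q a) 1)) :
    ContinuousAt (fun p : A × A => EL c g q p.1 p.2) (a, s) := by
  have := Opn.topRing F (A := A)
  have : ContinuousConstSMul E A := ⟨fun c => by simp only [Algebra.smul_def]; fun_prop⟩
  have inv : ∀ {f : A × A → A}, ContinuousAt f (a, s) → IsUnit (f (a, s)) →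
      ContinuousAt (fun p => inverse (f p)) (a, s) := fun hf hu =>
    (Opn.inverse_continuousAt F hu).comp hf
  have c1 : ContinuousAt (fun p : A × A => cv p.1) (a, s) :=
    (inv (f := fun p => 1 - p.1) (by fun_prop) h1).mul (by fun_prop)
  have c2 : ContinuousAt (fun p : A × A => zz c g q p.1) (a, s) :=
    ((continuousAt_const.mul (inv (f := fun p => cv p.1 * q - 1) (by fun_prop) h2)).const_smul _).star
  have c3 : ContinuousAt (fun p : A × A => x1 c g q p.1 p.2) (a, s) := by unfold x1; fun_prop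
  have c4 : ContinuousAt (fun p : A × A =>
      ka c (x1 c g q p.1 p.2) g (zz c g q p.1) 1 (cv p.1 * q)) (a, s) :=
    ContinuousAt.mul (by unfold ze; fun_prop)
      (inv (f := fun p => ze (x1 c g q p.1 p.2) g (zz c g q p.1) 1) (by unfold ze; fun_prop) h3)
  exact c4.star.mul c4

theorem near_abs [ContinuousStar A] [CharZero E] [Algebra F E] [Quad F E] [IsScalarTower F E A]
    {θ : E} {δ : F} (h0 : θ ≠ 0) (hθ : star θ = -θ) (hδ : algebraMap F E δ = θ * θ)
    {n : Type*} [Fintype n] [DecidableEq n] [Nonempty n] (e : A ≃ₐ[E] Matrix n n E)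
    (hE : LocR E ∨ LocP E ∧ Odd (Fintype.card n)) {c : E} (hc : star c ≠ c) {g q : A} (ug : IsUnit g)
    (uq : IsUnit q) : ∃ a s : A, star a = -a ∧ star s = -s ∧
      ∀ᶠ p in 𝓝 (a, s), NP δ (EL c g q p.1 p.2) := by
  have : CharZero F := RingHom.charZero (algebraMap F E)
  lift g to Aˣ using ug
  lift q to Aˣ using uq
  obtain ⟨a, s, v, z, ζ, ζ', ha, hs, u1, hv, u2, hz, e1, e2, R, hR, hR'⟩ := loc e hE g 1 q hc
  have c0 : c ≠ 0 := fun h => hc (by simp [h])
  rw [Units.val_one] at u2 hz e1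
  have f1 : cv a = v := by rw [cv, ← hv, inverse_mul_cancel_left _ _ u1]
  have f2 : zz c (g : A) q a = z := by
    rw [zz, f1, ← smul_mul_assoc, ← hz, mul_inverse_cancel_right _ _ u2, star_star]
  have f3 : star (x1 c (g : A) q a s) = (2⁻¹ : E) • (star (z : A) * z) - s := by
    simp [x1, f2, hs, sub_eq_add_neg]
  have f4 : ze (x1 c (g : A) q a s) g (zz c (g : A) q a) 1 = ζ := by rw [ze, f2, f3, inverse_unit, e1]
  have f5 : EL c (g : A) q a s = star ((ζ' : A) * ↑ζ⁻¹) * (ζ' * ↑ζ⁻¹) := by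
    rw [EL, el, ka, f4, ze, f2, f3, f1, inv_smul c0 g.isUnit, inverse_unit, inverse_unit, e2,
      mul_smul_comm, smul_mul_assoc]
  refine ⟨a, s, ha, hs, (cont_EL (F := F) c _ _ u1 (f1 ▸ u2) (f4 ▸ ζ.isUnit)).eventually (NP.near ?_)⟩
  beta_reduce
  rw [f5]
  refine np_of h0 hθ hδ ((ζ' * ζ⁻¹).isUnit.star.mul (ζ' * ζ⁻¹).isUnit) hR fun r hr => ?_
  rcases hR' r hr with rfl | rfl | h
  · exact .inl (by simpa using hc)
  · exact .inl (by simpa using hc.symm)
  · exact .inr h

end Abs

/-- a central simple algebra with an involution of the second kind over a local field is split -/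
theorem exists_mat (F : Type*) [NontriviallyNormedField F] [ProperSpace F] [IsUltrametricDist F]
    {E A : Type*} [Field E] [StarRing E] [Algebra F E] [Quad F E] [Ring A] [StarRing A] [Algebra E A]
    [StarModule E A] [Algebra.IsCentral E A] [IsSimpleRing A] [FiniteDimensional E A] :
    Nonempty (A ≃ₐ[E] Matrix (Fin (deg E A)) (Fin (deg E A)) E) := by
  have := finite_kK F E
  obtain ⟨c, hc⟩ := NontriviallyNormedField.non_trivial (α := F)
  let _ : NontriviallyNormedField E :=
    { toField := inferInstance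
      toNorm := (Loc.ndr F E).toNorm
      toMetricSpace := (Loc.ndr F E).toMetricSpace
      dist_eq := (Loc.ndr F E).dist_eq
      norm_mul := (Loc.ndr F E).norm_mul
      non_trivial := ⟨algebraMap F E c, hc.trans_eq (Loc.nm_algebraMap F c).symm⟩ }
  let _ : NormedAlgebra F E := { norm_smul_le := fun c x => (Loc.nm_smul F c x).le }
  have : IsUltrametricDist E := Loc.ultra F E
  have : ProperSpace E := FiniteDimensional.proper F E
  exact Loc.Inv2.split (s := starRingEnd E) (τ := Lan.stA A) (finrank_eq_deg_sq E A)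
    ⟨star_mul, star_star, Csa.star_algebraMap⟩ (starL F E E).continuous_of_finiteDimensional
    (Quad.ne F)

section Glob

variable {k : Type u} {K : Type v} {B : Type w} [Field k] [NumberField k] [Field K] [NumberField K]
  [Algebra k K] [StarRing K] [Quad k K] [Ring B] [StarRing B] [Algebra K B] [StarModule K B]
  [Algebra.IsCentral K B] [IsSimpleRing B] [FiniteDimensional K B] [Algebra k B] [IsScalarTower k K B]
  [Module.Finite k B] {F : Type*} [NontriviallyNormedField F] [CompleteSpace F] [Algebra k F]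

theorem nhds_mat {V : Set (BC k K B F)} (hV : V ∈ 𝓝 0) : ∃ ε > 0, ∀ y : B,
    (∀ i j, ‖algebraMap k F (mat k y i j)‖ < ε) → BC.inc k K B F y ∈ V := by
  let b := finBasis k B
  let L : (Fin (finrank k B) → Fin (finrank k B) → F) → BC k K B F := fun M =>
    ∑ i, (∑ j, M i j * algebraMap k F (b.repr 1 j)) • BC.inc k K B F (b i)
  have hL : Continuous L := by fun_prop
  obtain ⟨ε, h0, h⟩ := Metric.mem_nhds_iff.1 (hL.continuousAt.preimage_mem_nhds (x := 0)
    (by simpa [L] using hV))
  refine ⟨ε, h0, fun y hy => ?_⟩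
  have := h (a := fun i j => algebraMap k F (mat k y i j)) (mem_ball_zero_iff.2
    ((pi_norm_lt_iff h0).2 fun i => (pi_norm_lt_iff h0).2 (hy i)))
  refine Set.mem_of_eq_of_mem ((BC.eq_sum b _).trans (Finset.sum_congr rfl fun i _ => ?_)) this
  rw [BC.repr_inc, ← mul_one y, ← Algebra.leftMulMatrix_mulVec_repr, mul_one]
  simp [Matrix.mulVec, dotProduct, mat, b]

theorem NP.root {δ : F} {l : B} (h : NP δ (BC.inc k K B F l)) {M : Type*} [Field M] (f : F →+* M)
    {x : M} (hx : (minpoly k l).eval₂ (f.comp (algebraMap k F)) x = 0) :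
    x ≠ 0 ∧ ∃ a b, x = a ^ 2 - f δ * b ^ 2 := by
  have key : ∀ S : F[X], aeval (BC.inc k K B F l) S = 0 → S.eval₂ f x = 0 := fun S hS => by
    obtain ⟨T, rfl⟩ := (Emb.minpoly_one_tmul F l).symm.dvd.trans (minpoly.dvd F _ hS)
    rw [eval₂_mul, eval₂_map, hx, zero_mul]
  obtain ⟨hu, P, Q, h⟩ := h
  have h1 := Opn.inverse_mem F _ (Algebra.self_mem_adjoin_singleton F (BC.inc k K B F l))
  rw [Algebra.adjoin_singleton_eq_range_aeval] at h1
  obtain ⟨T, hT⟩ := h1
  have h2 := key (X * T - 1) (by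
    rw [map_sub, map_mul, aeval_X, map_one, sub_eq_zero]
    exact (congrArg (_ * ·) hT).trans (mul_inverse_cancel _ hu))
  have h3 := key (X - (P ^ 2 - C δ * Q ^ 2)) (by rw [map_sub, aeval_X, ← h, sub_self])
  exact ⟨fun e => by simp [e] at h2, P.eval₂ f x, Q.eval₂ f x, by
    simpa [sub_eq_zero, eval₂_pow] using h3⟩

theorem near_glob [IsEmpty (K →ₐ[k] F)] (hd : DenseRange (algebraMap k F)) {θ : K} {δ : kˣ}
    (h : Th θ δ) {n : Type*} [Fintype n] [DecidableEq n] [Nonempty n]
    (e : BC k K B F ≃ₐ[BC k K K F] Matrix n n (BC k K K F))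
    (hE : LocR (BC k K K F) ∨ LocP (BC k K K F) ∧ Odd (Fintype.card n)) {c : K} {g q : B}
    (hc : star c ≠ c) (ug : IsUnit g) (uq : IsUnit q) : ∃ a s : B, star a = -a ∧ star s = -s ∧
      ∃ ε > 0, ∀ a' s' : B, (∀ i j, ‖algebraMap k F (mat k (a' - a) i j)‖ < ε) →
        (∀ i j, ‖algebraMap k F (mat k (s' - s) i j)‖ < ε) →
        NP (algebraMap k F δ) (BC.inc k K B F (EL c g q a' s')) := by
  have inj := BC.inc_injective k K K F
  obtain ⟨a, s, ha, hs, hN⟩ := near_abs (F := F) (θ := BC.inc k K K F θ) (δ := algebraMap k F δ)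
    (fun e => δ.ne_zero ((algebraMap k K).injective (by
      rw [h.sq, inj (e.trans (map_zero _).symm), mul_zero, map_zero])))
    (by rw [BC.star_inc, h.sk, map_neg])
    (by rw [← map_mul, ← h.sq, AlgHom.commutes, ← IsScalarTower.algebraMap_apply]) e hE
    (c := BC.inc k K K F c) (fun e => hc (inj e)) (ug.map (BC.inc k K B F)) (uq.map (BC.inc k K B F))
  let sk : BC k K B F → BC k K B F := fun x => algebraMap k _ 2⁻¹ * (x - star x)
  have s1 : ∀ x, star x = -x → sk x = x := fun x hx => by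
    simp only [sk, hx, sub_neg_eq_add, ← two_smul k x, ← Algebra.smul_def, smul_smul]; simp
  have s2 : ContinuousAt (Prod.map sk sk) (a, s) := by fun_prop
  have dr := Lan.denseRange_inc k K B F hd
  obtain ⟨⟨b, t⟩, hb⟩ := (dr.prodMap dr).mem_nhds (s2.eventually (by
    rw [Prod.map_apply, s1 a ha, s1 s hs]; exact hN.eventually_nhds))
  have s3 : ∀ x : B, star ((2⁻¹ : k) • (x - star x)) = -((2⁻¹ : k) • (x - star x)) := fun x => by
    rw [star_ksmul k K, star_sub, star_star, ← smul_neg, neg_sub]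
  have s4 : ∀ x : B, sk (BC.inc k K B F x) = BC.inc k K B F ((2⁻¹ : k) • (x - star x)) := fun x => by
    simp only [sk, map_smul, map_sub, BC.star_inc, ← Algebra.smul_def]
  simp only [Set.mem_ofPred_eq, Prod.map_apply, s4] at hb
  refine ⟨_, _, s3 b, s3 t, ?_⟩
  generalize (2⁻¹ : k) • (b - star b) = b at hb
  generalize (2⁻¹ : k) • (t - star t) = t at hb
  have s5 : ContinuousAt (fun p : BC k K B F × BC k K B F =>
      (p.1 + BC.inc k K B F b, p.2 + BC.inc k K B F t)) (0, 0) := by fun_prop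
  have s6 := s5.eventually (by simpa using hb)
  rw [nhds_prod_eq] at s6
  obtain ⟨V, hV, hV'⟩ := mem_prod_same_iff.1 s6
  obtain ⟨ε, h0, hε⟩ := nhds_mat hV
  refine ⟨ε, h0, fun a' s' h1 h2 => ?_⟩
  have := hV' (Set.mk_mem_prod (hε _ h1) (hε _ h2))
  simp only [Set.mem_ofPred_eq, map_sub, sub_add_cancel] at this
  have inj' := BC.inc_injective k K B F
  exact map_EL (BC.inc k K K F).toRingHom (BC.inc k K B F).toRingHom (fun x => rfl)
    (BC.inc_smul k K B F) (fun x => by
      by_cases hx : IsUnit x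
      · exact Opn.map_inverse _ hx
      · rw [inverse_non_unit _ hx, inverse_non_unit _ fun h => hx (Opn.isUnit_of_map k _ inj' h),
          map_zero]) c g q a' s' ▸ this

open scoped Valued in
theorem nearF (ho : Odd (deg K B)) : NearF k K B := fun θ δ h c g q hD v hv => by
  have h0 : θ ≠ 0 := fun e => δ.ne_zero ((algebraMap k K).injective (by simp [h.sq, e]))
  have : IsEmpty (K →ₐ[k] Kv v) := not_nonempty_iff.1 fun hn =>
    hv ((Hn.Loc.mem_Sq_iff v δ).2 ((BC.nonempty_emb_iff k K _ h0 h.sk h.sq).1 hn))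
  have := Loc.proper_adic k v
  obtain ⟨e⟩ := exists_mat (Kv v) (E := BC k K K (Kv v)) (A := BC k K B (Kv v))
  have : Nonempty (Fin (deg (BC k K K (Kv v)) (BC k K B (Kv v)))) := ⟨⟨0, deg_pos _ _⟩⟩
  obtain ⟨a, s, ha, hs, ε, h1, h2⟩ := near_glob (v.denseRange_algebraMap k) h e
    (.inr ⟨locP_adic v _, by rwa [Fintype.card_fin, BC.deg_E]⟩) hD.hc hD.ug hD.uq
  obtain ⟨m, hm⟩ := Lan.exists_depth v h1
  refine ⟨a, s, ha, hs, m, fun a' s' _ _ h3 h4 L _ _ _ x hx p hp => ?_⟩
  subst hp
  obtain ⟨-, y, z, h5⟩ := (h2 a' s' (fun i j => hm _ (h3 i j)) fun i j => hm _ (h4 i j)).root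
    (Hsm.cmap k p).toRingHom (x := algebraMap L _ (x : L)) (by
      rw [Hsm.cmap_comp, ← aeval_def, aeval_algebraMap_apply, hx, map_zero])
  refine (Hn.Loc.mem_LN_iff p _ x).2 ⟨y, z, h5.trans ?_⟩
  rw [← IsScalarTower.algebraMap_apply]
  exact congrArg (fun t => y ^ 2 - t * z ^ 2) ((Hsm.cmap k p).commutes δ)

theorem nearR : NearR k K B := fun θ δ h c g q hD φ hφ => by
  have h0 : θ ≠ 0 := fun e => δ.ne_zero ((algebraMap k K).injective (by simp [h.sq, e]))
  have : IsEmpty (K →ₐ[k] Emb.Rp φ) := not_nonempty_iff.1 fun hn =>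
    hφ.not_ge (IsSquare.nonneg (R := ℝ) ((BC.nonempty_emb_iff k K _ h0 h.sk h.sq).1 hn))
  have hE := locR_real' (F := Emb.Rp φ) (RingEquiv.refl ℝ) (BC k K K (Emb.Rp φ))
  have := hE.1
  obtain ⟨n, _, ⟨e⟩⟩ := IsSimpleRing.exists_algEquiv_matrix_of_isAlgClosed (BC k K K (Emb.Rp φ))
    (BC k K B (Emb.Rp φ))
  obtain ⟨a, s, ha, hs, ε, h1, h2⟩ := near_glob (F := Emb.Rp φ) (Lan.dense_real φ) h e (.inl hE)
    hD.hc hD.ug hD.uq
  refine ⟨a, s, ha, hs, ε, h1, fun a' s' _ _ h3 h4 x hx => ?_⟩
  obtain ⟨h5, y, z, h6⟩ := (h2 a' s' h3 h4).root (M := ℝ) (RingHom.id ℝ) hx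
  have h6 : x = y ^ 2 - φ δ * z ^ 2 := h6
  exact lt_of_le_of_ne (by nlinarith [sq_nonneg y, sq_nonneg z]) h5.symm

end Glob

end L66

theorem nearFStmt : NearFStmt.{u, v, w} := fun _ => L66.nearF

theorem nearRStmt : NearRStmt.{u, v, w} := fun _ => L66.nearR

end Crest.Agent.T24.Stab
end
end

-- ▼ part T24/StabN_50
section

/-!
# Row 24, stability (helper50): the Hasse norm theorem in `k[l]`
-/

set_option autoImplicit false

namespace Crest.Agent.T24.Stab

open Polynomial Asa

universe u v w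

theorem root_ne_zero {k B F : Type*} [Field k] [Ring B] [Algebra k B] [Module.Finite k B] [Field F]
    [Algebra k F] {l : B} (hl : IsUnit l) {x : F} (hx : aeval x (minpoly k l) = 0) : x ≠ 0 := by
  rintro rfl
  rw [← coeff_zero_eq_aeval_zero', map_eq_zero, ← X_dvd_iff] at hx
  obtain ⟨g, hg⟩ := hx
  have hm := minpoly.monic (Algebra.IsIntegral.isIntegral (R := k) l)
  have h0 : aeval l g = 0 := by
    have := minpoly.aeval k l
    rwa [hg, map_mul, aeval_X, hl.mul_right_eq_zero] at this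
  have hg0 : g ≠ 0 := by
    rintro rfl
    exact hm.ne_zero (by rw [hg, mul_zero])
  have := minpoly.degree_le_of_ne_zero k l hg0 h0
  rw [hg, mul_comm] at this
  exact absurd (degree_lt_degree_mul_X hg0) this.not_gt

theorem nrmStmt : NrmStmt.{u, v, w} := by
  intro D θ δ hθ l hl hu hf hr
  have hm := minpoly.monic (Algebra.IsIntegral.isIntegral (R := D.k) l)
  obtain ⟨p, q, c, hc⟩ := Lan.norm_of_roots _ hm (δ : D.k) fun F _ _ _ x hx => by
    have h0 := root_ne_zero hu hx
    refine ⟨h0, Hn.hnStmt F (Units.map (algebraMap D.k F).toMonoidHom δ) (Units.mk0 x h0)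
      (fun P => hf _ F _ hx P rfl) fun φ hφ => hr (φ.comp (algebraMap D.k F)) hφ _ ?_⟩
    rw [← hom_eval₂, ← aeval_def]
    exact (congrArg φ hx).trans (map_zero φ)
  have h1 := congrArg (aeval l) hc
  rw [map_mul, minpoly.aeval, zero_mul, map_sub, aeval_X, sub_eq_zero, map_sub, map_mul, map_pow,
    map_pow, aeval_C, ← Algebra.smul_def] at h1
  have h2 : aeval l q * aeval l p = aeval l p * aeval l q := by
    rw [← map_mul, mul_comm, map_mul]
  have hs : ∀ r : D.k[X], star (aeval l r) = aeval l r := fun r =>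
    Lan.tau_aeval (Lan.isInv D.k D.K D.B) hl r
  have hc : ∀ y, Commute l y → Commute (aeval l p + θ • aeval l q) y := fun y hy => by
    have h3 : ∀ r : D.k[X], Commute (aeval l r) y := fun r => by
      induction r using Polynomial.induction_on' with
      | add p q hp hq => rw [map_add]; exact hp.add_left hq
      | monomial n c => rw [aeval_monomial, ← Algebra.smul_def]; exact (hy.pow_left n).smul_left c
    exact (h3 p).add_left ((h3 q).smul_left θ)
  have h4 : star (aeval l p + θ • aeval l q) * (aeval l p + θ • aeval l q) = l := by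
    rw [star_add, star_smul, hs, hs, hθ.sk]
    simp only [mul_add, add_mul, smul_mul_assoc, mul_smul_comm, h2, neg_smul, neg_mul, smul_neg,
      smul_add, smul_smul]
    rw [← hθ.sq, algebraMap_smul, ← sq, ← sq]
    conv_rhs => rw [h1]
    abel
  refine ⟨_, ?_, h4, hc⟩
  rw [← h4] at hu
  have : IsArtinianRing D.B := IsArtinianRing.of_finite D.K D.B
  exact isUnit_of_mul_isUnit_right hu

end Crest.Agent.T24.Stab
end

-- ▼ part T24/StabNt_37
section

/-!
# Row 24, stability: deep parameters at the places of `T`.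
-/

set_option autoImplicit false
set_option linter.unusedSectionVars false

noncomputable section

namespace Crest.Agent.T24.Stab

open Ring Module WithZero Csa Asa Filter NumberField

universe u v w

namespace Nt37

section Abs
variable {B : Type*} [Ring B] {α : Type*} (ν : Valuation B ℤᵐ⁰) (l : Filter α)

/-- convergence to `0` -/
def Z0 (f : α → B) : Prop := ∀ γ : ℤᵐ⁰, γ ≠ 0 → ∀ᶠ p in l, ν (f p) < γ

/-- convergence -/
def Tn (f : α → B) (y : B) : Prop := Z0 ν l fun p => f p - y

variable {ν l} {f g : α → B} {a b : B}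

theorem Z0.add (hf : Z0 ν l f) (hg : Z0 ν l g) : Z0 ν l fun p => f p + g p := fun γ hγ => by
  filter_upwards [hf γ hγ, hg γ hγ] with p h1 h2 using ν.map_add_lt h1 h2

theorem Z0.mul_right (hf : Z0 ν l f) {C : ℤᵐ⁰} (hg : ∀ᶠ p in l, ν (g p) ≤ C) :
    Z0 ν l fun p => f p * g p := fun γ hγ => by
  have hC : (0 : ℤᵐ⁰) < max C 1 := lt_max_of_lt_right zero_lt_one
  filter_upwards [hf (γ / max C 1) (div_ne_zero hγ hC.ne'), hg] with p h1 h2
  rw [map_mul]
  rw [lt_div_iff₀ hC] at h1
  exact lt_of_le_of_lt (mul_le_mul_right (h2.trans (le_max_left _ _)) _) h1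

theorem Z0.mul_left (hf : Z0 ν l f) {C : ℤᵐ⁰} (hg : ∀ᶠ p in l, ν (g p) ≤ C) :
    Z0 ν l fun p => g p * f p := fun γ hγ => by
  filter_upwards [hf.mul_right hg γ hγ] with p h
  rwa [map_mul, mul_comm, ← map_mul] at h

theorem Z0.congr (hf : Z0 ν l f) (h : ∀ᶠ p in l, f p = g p) : Z0 ν l g := fun γ hγ => by
  filter_upwards [hf γ hγ, h] with p h1 h2 using h2 ▸ h1

theorem Tn.const (a : B) : Tn ν l (fun _ => a) a := fun γ hγ =>
  Eventually.of_forall fun _ => by simpa using zero_lt_iff.2 hγ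

theorem Tn.bdd (hf : Tn ν l f a) : ∀ᶠ p in l, ν (f p) ≤ max (ν a) 1 := by
  filter_upwards [hf 1 one_ne_zero] with p h
  have := ν.map_add a (f p - a)
  rw [add_sub_cancel] at this
  exact this.trans (max_le_max le_rfl h.le)

theorem Tn.add (hf : Tn ν l f a) (hg : Tn ν l g b) : Tn ν l (fun p => f p + g p) (a + b) :=
  (Z0.add hf hg).congr (Eventually.of_forall fun p => by beta_reduce; abel)

theorem Tn.mul (hf : Tn ν l f a) (hg : Tn ν l g b) : Tn ν l (fun p => f p * g p) (a * b) :=
  ((Z0.mul_right hf hg.bdd).add (Z0.mul_left hg (g := fun _ => a)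
    (Eventually.of_forall fun _ => le_rfl))).congr (Eventually.of_forall fun p => by noncomm_ring)

theorem Tn.neg (hf : Tn ν l f a) : Tn ν l (fun p => -f p) (-a) := fun γ hγ => by
  filter_upwards [hf γ hγ] with p h
  rwa [show -f p - -a = -(f p - a) by abel, ν.map_neg]

theorem val_inverse {x : B} (hx : IsUnit x) : ν (inverse x) = (ν x)⁻¹ :=
  eq_inv_of_mul_eq_one_left (by rw [← map_mul, inverse_mul_cancel x hx, map_one])

theorem val_ne {x : B} (hx : IsUnit x) : ν x ≠ 0 := fun h => by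
  have := congrArg ν (mul_inverse_cancel x hx)
  rw [map_mul, h, zero_mul, map_one] at this
  exact zero_ne_one this

theorem Tn.inv (hB : ∀ x : B, x ≠ 0 → IsUnit x) (hf : Tn ν l f a) (ha : a ≠ 0) :
    Tn ν l (fun p => inverse (f p)) (inverse a) := by
  have ua := hB a ha
  have h1 : ∀ᶠ p in l, ν (f p) = ν a := by
    filter_upwards [hf (ν a) (val_ne ua)] with p h
    exact Valuation.map_eq_of_sub_lt ν h
  have h2 : ∀ᶠ p in l, IsUnit (f p) := by
    filter_upwards [h1] with p h
    refine hB _ fun h0 => val_ne (ν := ν) ua ?_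
    rw [← h, h0, map_zero]
  refine (((Z0.mul_left hf (g := fun p => -inverse (f p)) (C := (ν a)⁻¹) ?_)).mul_right
    (g := fun _ => inverse a) (Eventually.of_forall fun _ => le_rfl)).congr ?_
  · filter_upwards [h1, h2] with p h h'
    rw [ν.map_neg, val_inverse h', h]
  · filter_upwards [h2] with p h
    have e1 := inverse_mul_cancel _ h
    have e2 := mul_inverse_cancel _ ua
    linear_combination (norm := noncomm_ring) -e1 * inverse a + inverse (f p) * e2

theorem Tn.lt (hf : Tn ν l f a) {γ : ℤᵐ⁰} (h : ν a < γ) : ∀ᶠ p in l, ν (f p) < γ := by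
  filter_upwards [hf γ (ne_of_gt (lt_of_le_of_lt zero_le h))] with p hp
  have := ν.map_add_lt h hp
  rwa [add_sub_cancel] at this

variable [StarRing B]

variable (ν l) in
/-- convergence together with the adjoints -/
def T2 (f : α → B) (y : B) : Prop := Tn ν l f y ∧ Tn ν l (fun p => star (f p)) (star y)

theorem T2.const (a : B) : T2 ν l (fun _ => a) a := ⟨Tn.const _, Tn.const _⟩

theorem T2.add (hf : T2 ν l f a) (hg : T2 ν l g b) : T2 ν l (fun p => f p + g p) (a + b) :=
  ⟨hf.1.add hg.1, by simpa only [star_add] using hf.2.add hg.2⟩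

theorem T2.neg (hf : T2 ν l f a) : T2 ν l (fun p => -f p) (-a) :=
  ⟨hf.1.neg, by simpa only [star_neg] using hf.2.neg⟩

theorem T2.sub (hf : T2 ν l f a) (hg : T2 ν l g b) : T2 ν l (fun p => f p - g p) (a - b) := by
  simpa only [sub_eq_add_neg] using hf.add hg.neg

theorem T2.mul (hf : T2 ν l f a) (hg : T2 ν l g b) : T2 ν l (fun p => f p * g p) (a * b) :=
  ⟨hf.1.mul hg.1, by simpa only [star_mul] using hg.2.mul hf.2⟩

theorem T2.star (hf : T2 ν l f a) : T2 ν l (fun p => star (f p)) (star a) :=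
  ⟨hf.2, by simpa only [star_star] using hf.1⟩

theorem T2.inv (hB : ∀ x : B, x ≠ 0 → IsUnit x) (hf : T2 ν l f a) (ha : a ≠ 0) :
    T2 ν l (fun p => inverse (f p)) (inverse a) :=
  ⟨hf.1.inv hB ha, by simpa only [Ring.inverse_star] using hf.2.inv hB (star_ne_zero.2 ha)⟩

theorem T2.skew (hf : Tn ν l f a) (ha : Star.star a = -a) (h : ∀ᶠ p in l, Star.star (f p) = -f p) :
    T2 ν l f a :=
  ⟨hf, Z0.congr hf.neg (by filter_upwards [h] with p hp; rw [hp, ha])⟩

omit [StarRing B] in
/-- a large summand -/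
theorem large (hB : ∀ x : B, x ≠ 0 → IsUnit x) {s : α → B} (hs : ∀ γ, ∀ᶠ j in l, γ < ν (s j))
    (y p p' : B) {γ : ℤᵐ⁰} (hγ : γ ≠ 0) :
    ∀ᶠ j in l, y + s j ≠ 0 ∧ ν (p * inverse (y + s j) * p') < γ := by
  filter_upwards [hs (ν y), hs (ν p * ν p' / γ)] with j h1 h2
  have h3 : ν (y + s j) = ν (s j) := Valuation.map_add_eq_of_lt_right ν h1
  have h4 : 0 < ν (s j) := lt_of_le_of_lt zero_le h1
  have h5 : y + s j ≠ 0 := fun h => by rw [h, map_zero] at h3; exact h4.ne h3
  refine ⟨h5, ?_⟩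
  rw [map_mul, map_mul, val_inverse (hB _ h5), h3, mul_right_comm, ← div_eq_mul_inv,
    div_lt_iff₀ h4, mul_comm γ, ← div_lt_iff₀ (zero_lt_iff.2 hγ)]
  exact h2

end Abs

variable {k : Type u} {K : Type v} {B : Type w} [Field k] [NumberField k] [Field K] [NumberField K]
  [Algebra k K] [StarRing K] [Quad k K] [Ring B] [StarRing B] [Algebra K B] [StarModule K B]
  [Algebra.IsCentral K B] [IsSimpleRing B] [FiniteDimensional K B] [Algebra k B]
  [IsScalarTower k K B] [Module.Finite k B]

theorem finite_fib (v : Pl k) : {w : Pl K | below k w = v}.Finite := by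
  obtain ⟨c, hc, h⟩ := exists_deep {v} 1
  refine (finite_ne_one (x := algebraMap k K c) (by simpa using hc)).subset fun w hw => ?_
  refine ((below_lt_one w (c : k)).2 ?_).ne
  rw [show below k w = v from hw]
  exact (h v (by simp)).trans_lt (exp_neg_lt_one one_pos)

theorem cl_small {w : Pl K} (h : Ultra B w) {γ : ℤᵐ⁰} (hγ : γ ≠ 0) :
    ∀ᶠ m : ℕ in atTop, ∀ x : B, Cl (below k w) m x → val w x < γ := by
  let e := Module.finBasis k B
  let r := e.repr 1
  have hx : ∀ x : B, x = ∑ j, ∑ i, algebraMap k K (mat k x i j) • (r j • e i) := by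
    intro x
    conv_lhs => rw [← mul_one x, ← e.sum_repr 1, Finset.mul_sum]
    refine Finset.sum_congr rfl fun j _ => ?_
    rw [mul_smul_comm, ← e.sum_repr (x * e j), Finset.smul_sum]
    refine Finset.sum_congr rfl fun i _ => ?_
    rw [algebraMap_smul, smul_comm, mat, Algebra.leftMulMatrix_eq_repr_mul]
  have h1 : ∀ y : B, ∀ᶠ m : ℕ in atTop, exp (-(m : ℤ)) * val w y < γ := by
    intro y
    have hC : (0 : ℤᵐ⁰) < max (val w y) 1 := lt_max_of_lt_right zero_lt_one
    obtain ⟨m, hm⟩ := exists_exp_le (div_ne_zero hγ hC.ne')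
    filter_upwards [eventually_gt_atTop m] with n hn
    have h2 : exp (-(n : ℤ)) < γ / max (val w y) 1 :=
      lt_of_lt_of_le (exp_lt_exp.2 (by omega)) hm
    rw [lt_div_iff₀ hC] at h2
    exact lt_of_le_of_lt (mul_le_mul_right (le_max_left _ _) _) h2
  have h2 : ∀ᶠ m : ℕ in atTop, ∀ j i, exp (-(m : ℤ)) * val w (r j • e i) < γ :=
    eventually_all.2 fun j => eventually_all.2 fun i => h1 _
  filter_upwards [h2] with m hm x hc
  rw [hx x]
  refine (P53.vw h).map_sum_lt hγ fun j _ => (P53.vw h).map_sum_lt hγ fun i _ => ?_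
  change val w _ < γ
  rw [P53.val_smul]
  refine lt_of_le_of_lt (mul_le_mul_left ?_ _) (hm j i)
  have h3 := below_le_exp w _ m (hc i j)
  exact (pow_le_of_le_one zero_le (h3.trans (exp_neg_le_one m)) (deg_pos K B).ne').trans h3

theorem cl_anti {v : Pl k} {m n : ℕ} (h : m ≤ n) {x : B} (hx : Cl v n x) : Cl v m x :=
  fun i j => (hx i j).trans (exp_neg_anti h)

end Nt37

open Nt37 in
theorem nearT (k : Type u) (K : Type v) (B : Type w) [Field k] [NumberField k] [Field K]
    [NumberField K] [Algebra k K] [StarRing K] [Quad k K] [Ring B] [StarRing B] [Algebra K B]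
    [StarModule K B] [Algebra.IsCentral K B] [IsSimpleRing B] [FiniteDimensional K B] [Algebra k B]
    [IsScalarTower k K B] [Module.Finite k B] : NearT k K B := by
  intro n c g q _ v
  by_cases hT : ∃ w ∈ TT K B, below k w = v
  swap
  · exact ⟨0, 0, by simp, by simp, 0, fun _ _ _ _ _ _ w hw hv => absurd ⟨w, hw, hv⟩ hT⟩
  obtain ⟨w₀, hw₀, -⟩ := hT
  have hB : ∀ x : B, x ≠ 0 → IsUnit x := fun x hx => P53.isUnit_of_ultra hw₀.2 hx
  obtain ⟨θ, hθ0, hθ⟩ := exists_skew (Quad.ne (k := k) (K := K))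
  have hW : {w : Pl K | w ∈ TT K B ∧ below k w = v}.Finite :=
    (finite_fib v).subset fun w hw => hw.2
  have h2 : (2 : B) ≠ 0 := by
    have : algebraMap K B 2 ≠ 0 := (map_ne_zero _).2 two_ne_zero
    rwa [map_ofNat] at this
  have hsk : ∀ a : B, star a = -a → 1 - a ≠ 0 := by
    intro a ha h
    rw [sub_eq_zero] at h
    rw [← h, star_one] at ha
    exact h2 (by rw [← one_add_one_eq_two]; exact add_eq_zero_iff_eq_neg.2 ha)
  obtain ⟨a, ha, haq⟩ : ∃ a : B, star a = -a ∧ cv a * q - 1 ≠ 0 := by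
    by_cases hq : q = 1
    · have hs : star (algebraMap K B θ) = -algebraMap K B θ := by
        rw [star_algebraMap, hθ, map_neg]
      refine ⟨algebraMap K B θ, hs, fun h => ?_⟩
      have e := mul_inverse_cancel _ (hB _ (hsk _ hs))
      rw [hq, mul_one, cv, sub_eq_zero] at h
      have h3 : algebraMap K B (2 * θ) = 0 := by
        rw [map_mul, map_ofNat]
        linear_combination (norm := noncomm_ring)
          (1 - algebraMap K B θ) * h - e * (1 + algebraMap K B θ)
      exact hθ0 (by simpa using (map_eq_zero _).1 h3)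
    · exact ⟨0, by simp, by simpa [cv, sub_eq_zero] using hq⟩
  obtain ⟨π, hπ0, hπ⟩ := exists_deep {v} 1
  have hπ0' : (π : k) ≠ 0 := by simpa using hπ0
  let s : ℕ → B := fun j => algebraMap K B (algebraMap k K ((π : k)⁻¹ ^ j) * θ)
  have hss : ∀ j, star (s j) = -s j := fun j => by
    simp only [s]
    rw [star_algebraMap, star_mul', Quad.star_k, hθ, mul_neg, map_neg]
  have hs : ∀ w : Pl K, below k w = v → ∀ γ, ∀ᶠ j in atTop, γ < val w (s j) := by
    intro w hw γ
    have h1 : w.valuation K (algebraMap k K π) < 1 := (below_lt_one w (π : k)).2 (by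
      rw [hw]; exact (hπ v (by simp)).trans_lt (exp_neg_lt_one one_pos))
    have h0 : 0 < w.valuation K (algebraMap k K π) :=
      zero_lt_iff.2 (val_ne_zero w (by simpa using hπ0))
    have h3 : 1 < ((w.valuation K (algebraMap k K π))⁻¹) ^ deg K B :=
      one_lt_pow₀ ((one_lt_inv₀ h0).2 h1) (deg_pos K B).ne'
    have h4 : 0 < w.valuation K θ ^ deg K B := pow_pos (zero_lt_iff.2 (val_ne_zero w hθ0)) _
    obtain ⟨m, hm⟩ := MulArchimedean.arch (γ / w.valuation K θ ^ deg K B) h3
    filter_upwards [eventually_gt_atTop m] with j hj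
    have h5 := hm.trans_lt (pow_lt_pow_right₀ h3 hj)
    rw [div_lt_iff₀ h4] at h5
    refine h5.trans_eq ?_
    simp only [s]
    rw [val, Nrd_algebraMap, map_pow, map_mul, map_pow, map_pow, map_inv₀, map_inv₀, mul_pow,
      ← pow_mul, ← pow_mul, mul_comm j]
  set z := zz c g q a with hz
  have h5 : ∀ᶠ j in atTop, ∀ w ∈ {w : Pl K | w ∈ TT K B ∧ below k w = v},
      ((2⁻¹ : K) • (star z * z) + s j ≠ 0 ∧
        val w (z * inverse ((2⁻¹ : K) • (star z * z) + s j) * star z) < exp (-(n : ℤ))) ∧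
      ((2⁻¹ : K) • (star z * z) + g + star z * 1 + s j ≠ 0 ∧
        val w ((z + 1) * inverse ((2⁻¹ : K) • (star z * z) + g + star z * 1 + s j) *
          star (z + 1)) < exp (-(n : ℤ))) := by
    rw [eventually_all_finite hW]
    intro w hw
    exact (large (ν := P53.vw hw.1.2) hB (hs w hw.2) _ _ _ exp_ne_zero).and
      (large (ν := P53.vw hw.1.2) hB (hs w hw.2) _ _ _ exp_ne_zero)
  obtain ⟨j, hj⟩ := h5.exists
  refine ⟨a, s j, ha, hss j, ?_⟩
  let S : ℕ → Set (B × B) := fun m =>
    {p | star p.1 = -p.1 ∧ star p.2 = -p.2 ∧ Cl v m (p.1 - a) ∧ Cl v m (p.2 - s j)}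
  have hS : Antitone S := fun m m' h p hp => ⟨hp.1, hp.2.1, cl_anti h hp.2.2.1, cl_anti h hp.2.2.2⟩
  have hb := Filter.hasBasis_iInf_principal hS.directed_ge
  have key : ∀ᶠ p in ⨅ m, 𝓟 (S m), ∀ w ∈ {w : Pl K | w ∈ TT K B ∧ below k w = v},
      val w (rho (x1 c g q p.1 p.2) (zz c g q p.1) - 1) < exp (-(n : ℤ)) ∧
      val w (rho (xx (x1 c g q p.1 p.2) g (zz c g q p.1) 1) (zz c g q p.1 + 1) - 1) <
        exp (-(n : ℤ)) := by
    rw [eventually_all_finite hW]
    intro w hw
    obtain ⟨⟨n1, v1⟩, n2, v2⟩ := hj w hw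
    set l := ⨅ m, 𝓟 (S m)
    have t1 : T2 (P53.vw hw.1.2) l (fun p => p.1) a := by
      refine T2.skew (fun γ hγ => ?_) ha (hb.eventually_iff.2 ⟨0, trivial, fun p hp => hp.1⟩)
      obtain ⟨m, hm⟩ := (cl_small (k := k) hw.1.2 hγ).exists
      exact hb.eventually_iff.2 ⟨m, trivial, fun p hp => hm _ (hw.2 ▸ hp.2.2.1)⟩
    have t2 : T2 (P53.vw hw.1.2) l (fun p => p.2) (s j) := by
      refine T2.skew (fun γ hγ => ?_) (hss j) (hb.eventually_iff.2 ⟨0, trivial, fun p hp => hp.2.1⟩)
      obtain ⟨m, hm⟩ := (cl_small (k := k) hw.1.2 hγ).exists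
      exact hb.eventually_iff.2 ⟨m, trivial, fun p hp => hm _ (hw.2 ▸ hp.2.2.2)⟩
    have t3 : T2 (P53.vw hw.1.2) l (fun p => cv p.1) (cv a) :=
      (((T2.const 1).sub t1).inv hB (hsk a ha)).mul ((T2.const 1).add t1)
    have t4 : T2 (P53.vw hw.1.2) l (fun p => zz c g q p.1) z := by
      simp only [hz, zz, Algebra.smul_def]
      exact ((T2.const _).mul ((T2.const g).mul
        (((t3.mul (T2.const q)).sub (T2.const 1)).inv hB haq))).star
    have t5 : T2 (P53.vw hw.1.2) l (fun p => x1 c g q p.1 p.2)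
        ((2⁻¹ : K) • (star z * z) + s j) := by
      simp only [x1, Algebra.smul_def]
      exact ((T2.const _).mul (t4.star.mul t4)).add t2
    have t6 : T2 (P53.vw hw.1.2) l (fun p => xx (x1 c g q p.1 p.2) g (zz c g q p.1) 1)
        ((2⁻¹ : K) • (star z * z) + g + star z * 1 + s j) := by
      have := (t5.add (T2.const g)).add (t4.star.mul (T2.const 1))
      rwa [show (2⁻¹ : K) • (star z * z) + s j + g + star z * 1 =
        (2⁻¹ : K) • (star z * z) + g + star z * 1 + s j by abel] at this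
    have t7 := ((t4.mul (t5.inv hB n1)).mul t4.star).1.lt v1
    have t8 := (((t4.add (T2.const 1)).mul (t6.inv hB n2)).mul (t4.add (T2.const 1)).star).1.lt v2
    filter_upwards [t7, t8] with p h1 h2
    simp only [rho, sub_sub_cancel_left, val_neg]
    exact ⟨h1, h2⟩
  obtain ⟨m, -, hm⟩ := hb.eventually_iff.1 key
  exact ⟨m, fun a' s' h1 h2 h3 h4 w hw hv => hm (x := (a', s')) ⟨h1, h2, h3, h4⟩ w ⟨hw, hv⟩⟩

/-- an open set of deep parameters at a place of `T` -/
theorem nearTStmt : NearTStmt.{u, v, w} := fun D => nearT D.k D.K D.B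

end Crest.Agent.T24.Stab
end
end

-- ▼ part T24/StabLg_41
section

/-!
# Row 24, stability, part (O): `s` large (`LargeStmt`) (helper41)
-/

set_option autoImplicit false
set_option linter.unusedSectionVars false

noncomputable section

namespace Crest.Agent.T24.Stab

open Ring Module WithZero Csa Asa Filter

universe u v w

namespace L41

section nm
variable {k : Type u} [Field k] [NumberField k] {B : Type*} [Ring B] [Algebra k B] [Module.Finite k B]
  {v : Pl k}

/-- the maximum norm of the matrix of `x` -/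
def nm (v : Pl k) (x : B) : ℤᵐ⁰ :=
  Finset.univ.sup fun p : Fin (finrank k B) × Fin (finrank k B) => v.valuation k (mat k x p.1 p.2)

theorem nm_le {x : B} {γ : ℤᵐ⁰} : nm v x ≤ γ ↔ ∀ i j, v.valuation k (mat k x i j) ≤ γ := by
  simp [nm]

theorem le_nm (x : B) (i j) : v.valuation k (mat k x i j) ≤ nm v x := nm_le.1 le_rfl i j

theorem cl_iff {x : B} : Cl v 0 x ↔ nm v x ≤ 1 := by simp [nm_le, Cl]

theorem nm_add (x y : B) : nm v (x + y) ≤ max (nm v x) (nm v y) := nm_le.2 fun i j => by
  rw [map_add, Matrix.add_apply]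
  exact (Valuation.map_add _ _ _).trans (max_le_max (le_nm x i j) (le_nm y i j))

theorem nm_sub (x y : B) : nm v (x - y) ≤ max (nm v x) (nm v y) := nm_le.2 fun i j => by
  rw [map_sub, Matrix.sub_apply]
  exact (Valuation.map_sub _ _ _).trans (max_le_max (le_nm x i j) (le_nm y i j))

theorem nm_mul (x y : B) : nm v (x * y) ≤ nm v x * nm v y := nm_le.2 fun i j => by
  rw [map_mul, Matrix.mul_apply]
  exact Valuation.map_sum_le _ fun l _ => by
    rw [map_mul]; exact mul_le_mul' (le_nm x i l) (le_nm y l j)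

theorem nm_smul (r : k) (x : B) : nm v (r • x) ≤ v.valuation k r * nm v x := nm_le.2 fun i j => by
  rw [map_smul, Matrix.smul_apply, smul_eq_mul, map_mul]
  exact mul_le_mul_right (le_nm x i j) _

theorem nm_one : nm v (1 : B) ≤ 1 := nm_le.2 fun i j => by
  rw [map_one, Matrix.one_apply]; split_ifs <;> simp

theorem nm_zero : nm v (0 : B) ≤ 0 := nm_le.2 fun i j => by simp

theorem eq_zero {x : B} (h : nm v x ≤ 0) : x = 0 :=
  Algebra.leftMulMatrix_injective (Module.finBasis k B) (Matrix.ext fun i j => by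
    have := nm_le.1 h i j
    rw [le_zero_iff, Valuation.zero_iff] at this
    rw [map_zero]; exact this)

theorem fix {n x y : B} (hn : nm v n < 1) (h : (1 - n) * x = y) : nm v x ≤ nm v y := by
  by_contra h1
  rw [not_le] at h1
  have h2 : nm v x ≤ max (nm v y) (nm v n * nm v x) := by
    conv_lhs => rw [show x = y + n * x by rw [← h]; noncomm_ring]
    exact (nm_add _ _).trans (max_le_max le_rfl (nm_mul _ _))
  exact h2.not_gt (max_lt h1 (mul_lt_of_lt_one_left (zero_le.trans_lt h1) hn))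

theorem nm_ae (x : B) : ∀ᶠ v : Pl k in cofinite, nm v x ≤ 1 := by
  simp only [nm_le]
  exact eventually_all.2 fun i => eventually_all.2 fun j => finite_not_le _

/-- integral units -/
structure IU (v : Pl k) (x : B) : Prop where
  un : IsUnit x
  int : nm v x ≤ 1
  inv : nm v (inverse x) ≤ 1

theorem IU.mul {x y : B} (hx : IU v x) (hy : IU v y) : IU v (x * y) :=
  ⟨hx.un.mul hy.un, (nm_mul _ _).trans (mul_le_one' hx.int hy.int), by
    rw [Ring.inverse_mul (Or.inl hx.un)]
    exact (nm_mul _ _).trans (mul_le_one' hy.inv hx.inv)⟩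

theorem IU.inverse {x : B} (hx : IU v x) : IU v (inverse x) :=
  ⟨hx.un.ringInverse, hx.inv, by rw [Ring.inverse_inverse hx.un]; exact hx.int⟩

theorem IU.star [StarRing B] {x : B} (hs : ∀ y : B, Cl v 0 y → Cl v 0 (star y)) (hx : IU v x) :
    IU v (star x) :=
  ⟨hx.un.star, cl_iff.1 (hs _ (cl_iff.2 hx.int)), by
    rw [Ring.inverse_star]; exact cl_iff.1 (hs _ (cl_iff.2 hx.inv))⟩

theorem iu_one_sub {n : B} (hn : nm v n < 1) : IU v (1 - n) := by
  have h : IsUnit (1 - n) := by
    rw [← Algebra.lmul_isUnit_iff (R := k), LinearMap.isUnit_iff_ker_eq_bot, LinearMap.ker_eq_bot']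
    exact fun x hx => eq_zero ((fix hn hx).trans nm_zero)
  exact ⟨h, (nm_sub _ _).trans (max_le nm_one hn.le), (fix hn (mul_inverse_cancel _ h)).trans nm_one⟩

theorem iu_ae {x : B} (hx : IsUnit x) : ∀ᶠ v : Pl k in cofinite, IU v x :=
  ((nm_ae x).and (nm_ae (inverse x))).mono fun _ h => ⟨hx, h.1, h.2⟩

theorem exists_small (v : Pl k) (γ : ℤᵐ⁰) : ∃ r : k, r ≠ 0 ∧ v.valuation k r * γ < 1 := by
  have hC : (0 : ℤᵐ⁰) < max γ 1 := lt_max_of_lt_right zero_lt_one
  obtain ⟨m, hm⟩ := exists_exp_le (inv_ne_zero hC.ne')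
  obtain ⟨c, hc, h⟩ := exists_deep {v} (m + 1)
  refine ⟨c, by simpa using hc, ?_⟩
  have h1 : v.valuation k (c : k) < (max γ 1)⁻¹ :=
    (h v (by simp)).trans_lt (lt_of_lt_of_le (exp_lt_exp.2 (by push_cast; omega)) hm)
  rw [← one_div, lt_div_iff₀ hC] at h1
  exact (mul_le_mul_right (le_max_left _ _) _).trans_lt h1

end nm

section alg
variable {K B : Type*} [Field K] [StarRing K] [Ring B] [StarRing B] [Algebra K B] [StarModule K B]

theorem EL_eq {c κ : K} {g q a s n n' : B} (hc : c ≠ 0) (hκ : κ ≠ 0) (ug : IsUnit g) (uq : IsUnit q)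
    (hs : star s = -s) (hv : star (cv a) * cv a = 1) (uv : IsUnit (cv a)) (un : IsUnit (1 - n))
    (h1 : g * zz c g q a + (2⁻¹ : K) • (star (zz c g q a) * zz c g q a) - s = κ • (1 - n))
    (h2 : c • (g * inverse (cv a * q) * zz c g q a) + (2⁻¹ : K) • (star (zz c g q a) * zz c g q a) - s =
      κ • (1 - n')) :
    EL c g q a s = star (algebraMap K B c⁻¹ * q * inverse g * (1 - n') * inverse (1 - n) * g) *
      (algebraMap K B c⁻¹ * q * inverse g * (1 - n') * inverse (1 - n) * g) := by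
  have e0 : star (x1 c g q a s) = (2⁻¹ : K) • (star (zz c g q a) * zz c g q a) - s := by
    simp [x1, hs, sub_eq_add_neg]
  have e1 : ze (x1 c g q a s) g (zz c g q a) 1 = κ • (inverse g * (1 - n)) := by
    rw [ze, e0, ← mul_smul_comm κ, ← h1, add_sub_assoc, mul_add, inverse_mul_cancel_left _ _ ug, one_mul]
  have e2 : ze (x1 c g q a s) (c • g) (zz c g q a) (cv a * q) =
      cv a * (algebraMap K B c⁻¹ * q * inverse g * (1 - n') * inverse (1 - n) * g) *
        (κ • (inverse g * (1 - n))) := by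
    have e3 : cv a * (algebraMap K B c⁻¹ * q * inverse g * (1 - n') * inverse (1 - n) * g) *
        (κ • (inverse g * (1 - n))) = c⁻¹ • (cv a * q * inverse g * (κ • (1 - n'))) := by
      simp only [mul_smul_comm, mul_assoc, mul_inverse_cancel_left _ _ ug, inverse_mul_cancel _ un,
        mul_one, ← Algebra.smul_def, smul_mul_assoc, smul_comm κ]
    rw [e3, ← h2, ze, e0, inv_smul hc ug, add_sub_assoc, mul_add, smul_add, mul_smul_comm c, smul_smul,
      inv_mul_cancel₀ hc, one_smul, mul_smul_comm, smul_mul_assoc, mul_assoc g, mul_assoc _ (inverse g) (g * _),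
      inverse_mul_cancel_left _ _ ug, mul_inverse_cancel_left _ _ (uv.mul uq)]
  rw [EL, el, ka, e1, e2, mul_inverse_cancel_right _ _ (isUnit_smul hκ (ug.ringInverse.mul un)), star_mul,
    mul_assoc, ← mul_assoc (star (cv a)), hv, one_mul]

theorem cv_unitary {a : B} (ha : star a = -a) (h1 : IsUnit (1 - a)) :
    star (cv a) * cv a = 1 ∧ IsUnit (cv a) := by
  have h2 : IsUnit (1 + a) := by simpa [ha] using h1.star
  have hc : Commute (1 - a) (1 + a) :=
    ((Commute.one_left _).sub_left ((Commute.one_right a).add_right (Commute.refl a)))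
  refine ⟨?_, h1.ringInverse.mul h2⟩
  have e : star (cv a) = (1 - a) * inverse (1 + a) := by
    simp [cv, ← Ring.inverse_star, ha, sub_eq_add_neg]
  rw [e, cv, (comm_inv h1 hc).eq, mul_assoc, inverse_mul_cancel_left _ _ h2, mul_inverse_cancel _ h1]

end alg

end L41

open L41 in
theorem largeStmt (hT : ToolStmt.{u, v, w}) : LargeStmt.{u, v, w} := by
  intro D δ c g q h
  have hc := ne_zero_of_hq h.uq h.hq
  have hθ : c - star c ≠ 0 := sub_ne_zero.2 h.hc.symm
  filter_upwards [(hT D).uni δ, (hT D).str, iu_ae (k := D.k) h.ug, iu_ae (k := D.k) h.uq,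
    iu_ae (k := D.k) ((IsUnit.mk0 _ (inv_ne_zero hc)).map (algebraMap D.K D.B))]
    with v h1 h2 ig iq ic a ha ua _
  obtain ⟨hv, uv⟩ := cv_unitary ha ua
  obtain ⟨A, hA⟩ : ∃ A, A = g * zz c g q a + (2⁻¹ : D.K) • (star (zz c g q a) * zz c g q a) := ⟨_, rfl⟩
  obtain ⟨A', hA'⟩ : ∃ A', A' = c • (g * inverse (cv a * q) * zz c g q a) +
    (2⁻¹ : D.K) • (star (zz c g q a) * zz c g q a) := ⟨_, rfl⟩
  obtain ⟨r, hr, hr'⟩ := exists_small v
    (nm v (algebraMap D.K D.B (c - star c)⁻¹) * max (max (nm v A) (nm v A')) 1)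
  obtain ⟨κ, hκ⟩ : ∃ κ, κ = algebraMap D.k D.K r⁻¹ * (c - star c) := ⟨_, rfl⟩
  have hκ0 : κ ≠ 0 := hκ ▸ mul_ne_zero (by simpa using hr) hθ
  refine ⟨-algebraMap D.K D.B κ, ?_, 0, fun s' hs' he => ?_⟩
  · rw [star_neg, star_algebraMap, hκ, star_mul', Quad.star_k, star_sub, star_star, ← map_neg, ← map_neg,
      ← map_neg, neg_neg, ← mul_neg, neg_sub]
  have k1 : ∀ X : D.B, X - s' = κ • (1 - κ⁻¹ • (s' - -algebraMap D.K D.B κ - X)) := fun X => by
    rw [smul_sub, smul_smul, mul_inv_cancel₀ hκ0, one_smul, ← Algebra.algebraMap_eq_smul_one]; abel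
  have k2 : ∀ X : D.B, nm v X ≤ max (nm v A) (nm v A') →
      IU v (1 - κ⁻¹ • (s' - -algebraMap D.K D.B κ - X)) := fun X hX => by
    refine iu_one_sub (lt_of_le_of_lt ?_ hr')
    have e : ∀ Y : D.B, κ⁻¹ • Y = r • (algebraMap D.K D.B (c - star c)⁻¹ * Y) := fun Y => by
      rw [hκ, mul_inv, ← map_inv₀, inv_inv, mul_smul, algebraMap_smul, Algebra.smul_def (_ : D.K)]
    rw [e]
    refine (nm_smul _ _).trans (mul_le_mul_right ((nm_mul _ _).trans (mul_le_mul_right ?_ _)) _)
    exact (nm_sub _ _).trans (max_le ((cl_iff.1 he).trans (le_max_right _ _)) (hX.trans (le_max_left _ _)))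
  have i1 := k2 A (le_max_left _ _)
  have i2 := k2 A' (le_max_right _ _)
  have iW := ((((ic.mul iq).mul ig.inverse).mul i2).mul i1.inverse).mul ig
  have iE := (iW.star h2).mul iW
  rw [EL_eq hc hκ0 h.ug h.uq hs' hv uv i1.un (by rw [← hA]; exact k1 A) (by rw [← hA']; exact k1 A')]
  exact h1 _ iE.un (cl_iff.2 iE.int) (cl_iff.2 iE.inv)

end Crest.Agent.T24.Stab
end
end

-- ▼ part T24/StabZ_6
section

/-!
# Row 24, stability (helper6): normalisation `p = 1` and the glue
-/

set_option autoImplicit false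
set_option linter.unusedSectionVars false

noncomputable section

namespace Crest.Agent.T24.Stab.O6

open Ring

universe u v w

section Alg
variable {B : Type*} [Ring B] [StarRing B] {p : B} (hp : IsUnit p)
include hp

theorem inv_cong (x : B) : p * inverse (star p * x * p) * star p = inverse x := by
  rw [Ring.inverse_mul (.inr hp), Ring.inverse_mul (.inl hp.star), mul_inverse_cancel_left _ _ hp,
    inverse_mul_cancel_right _ _ hp.star]

theorem rho_cong (x z : B) : rho (star p * x * p) (z * p) = rho x z := by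
  rw [rho, rho, ← inv_cong hp x, star_mul]
  simp only [mul_assoc]

theorem ze_cong (x g z r : B) :
    ze (star p * x * p) (star p * g * p) (z * p) (r * p) = ze x g z r * p := by
  rw [ze, ze, ← inv_cong hp g]
  simp only [star_mul, star_star, mul_assoc, add_mul]

omit hp in
theorem xx_cong (x g z r : B) :
    xx (star p * x * p) (star p * g * p) (z * p) (r * p) = star p * xx x g z r * p := by
  simp only [xx, star_mul, mul_assoc, add_mul, mul_add]

end Alg

section Glob
variable {K : Type v} {B : Type w} [Field K] [NumberField K] [StarRing K] [Ring B] [StarRing B]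
  [Algebra K B] [StarModule K B] [Algebra.IsCentral K B] [IsSimpleRing B] [FiniteDimensional K B]

theorem out_of_par (H : Par K B) : Out K B := by
  intro m c g p q hc ug up uq hg hq
  obtain ⟨g, rfl⟩ : ∃ g1, g = star p * g1 * p := ⟨inverse (star p) * (g * inverse p), by
    rw [mul_inverse_cancel_left _ _ up.star, inverse_mul_cancel_right _ _ up]⟩
  obtain ⟨q, rfl⟩ : ∃ q1, q = q1 * p := ⟨q * inverse p, (inverse_mul_cancel_right _ _ up).symm⟩
  have can : ∀ {x y : B}, star p * x * p = star p * y * p → x = y := fun h =>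
    up.star.mul_left_cancel (up.mul_right_cancel h)
  have ec : c • (star p * g * p) = star p * (c • g) * p := by simp
  have h : Dt c g q := ⟨hc, up.star.mul_left_iff.1 (up.mul_right_iff.1 ug), up.mul_right_iff.1 uq,
    can (by simpa [mul_add, add_mul, mul_assoc] using hg),
    can (by simpa [mul_add, add_mul, mul_assoc] using hq)⟩
  obtain ⟨a, s, μ, ha, hs, h1, h2, u1, u2, u3, u4, u5, d1, d2, m1, m2, m3⟩ := H m c g q h
  have e1 := ze_cong up (x1 c g q a s) g (zz c g q a) 1
  have e2 := xx_cong (p := p) (x1 c g q a s) g (zz c g q a) 1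
  have e3 := ze_cong up (x1 c g q a s) (c • g) (zz c g q a) (cv a * q)
  rw [one_mul] at e1 e2
  rw [← ec, mul_assoc (cv a)] at e3
  have e4 : el c (star p * x1 c g q a s * p) (star p * g * p) (zz c g q a * p) p (cv a * (q * p)) =
      EL c g q a s := by
    rw [EL, el, el, ka, ka, e1, e3, Ring.inverse_mul (.inr up), mul_assoc _ p,
      mul_inverse_cancel_left _ _ up]
  have e5 : zz c g q a * p + p = (zz c g q a + 1) * p := by rw [add_mul, one_mul]
  refine ⟨star p * x1 c g q a s * p, zz c g q a * p, cv a, μ,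
    ⟨vf_unitary ha h1, vf_unitary' ha h1⟩, ?_, ?_, (up.star.mul u1).mul up,
    e2 ▸ (up.star.mul u2).mul up, e5 ▸ u3.mul up, e1 ▸ u4.mul up, e3 ▸ u5.mul up,
    (rho_cong up _ _).symm ▸ d1, by rwa [e2, e5, rho_cong up], m1, e4 ▸ m2, e4 ▸ m3⟩
  · have : x1 c g q a s + star (x1 c g q a s) = star (zz c g q a) * zz c g q a := by
      simp only [x1, star_add, hs, star_smul, star_mul, star_star, star_inv₀, star_ofNat]
      rw [add_add_add_comm, add_neg_cancel, add_zero, ← add_smul]
      norm_num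
    simpa [mul_add, add_mul, mul_assoc] using congrArg (star p * · * p) this
  · have : star (zz c g q a) * (cv a * q - 1) = (1 - c) • g := by
      rw [zz, star_star, smul_mul_assoc, inverse_mul_cancel_right _ _ h2]
    simpa [mul_sub, sub_mul, mul_assoc] using congrArg (star p * · * p) this

end Glob

theorem outStmt_of (H : ParStmt.{u, v, w}) : OutStmt.{u, v, w} :=
  fun D h3 hd => out_of_par (H D h3 hd)

/-- **stability** from the toolkit -/
theorem stabStmt_of_tool (T : ToolStmt.{u, v, w}) : StabStmt.{u, v, w} :=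
  stabStmt_of (outStmt_of (parStmt nrmStmt nearFStmt nearRStmt nearTStmt T (largeStmt T)))

end Crest.Agent.T24.Stab.O6
end
end

-- ▼ part T24/StabTl_6
section

/-!
# Row 24, stability (helper6): the toolkit, and the unconditional stability statement
-/

set_option autoImplicit false
set_option linter.unusedSectionVars false

noncomputable section

namespace Crest.Agent.T24.Stab.O6

open Module WithZero Csa Asa Filter NumberField Polynomial IsDedekindDomain

universe u v w

section Glob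
variable {k : Type u} {K : Type v} {B : Type w} [Field k] [NumberField k] [Field K] [NumberField K]
  [Algebra k K] [StarRing K] [Quad k K] [Ring B] [StarRing B] [Algebra K B] [StarModule K B]
  [Algebra.IsCentral K B] [IsSimpleRing B] [FiniteDimensional K B] [Algebra k B] [IsScalarTower k K B]
  [Module.Finite k B]

theorem repr_eq (y : B) (i) :
    (finBasis k B).repr y i = ∑ j, mat k y i j * (finBasis k B).repr 1 j := by
  conv_lhs => rw [← mul_one y]
  exact (congrFun (Algebra.leftMulMatrix_mulVec_repr (finBasis k B) y 1) i).symm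

theorem val_det_le {ι : Type*} [Fintype ι] [DecidableEq ι] (w : Pl K) {M : Matrix ι ι K} {γ : ℤᵐ⁰}
    (h : ∀ i j, w.valuation K (M i j) ≤ γ) : w.valuation K M.det ≤ γ ^ Fintype.card ι := by
  rw [Matrix.det_apply']
  refine Valuation.map_sum_le _ fun σ _ => ?_
  rw [map_mul, map_prod]
  refine (mul_le_mul' ?_ (Finset.prod_le_pow_card _ _ _ fun i _ => h _ _)).trans_eq (one_mul _)
  rcases Int.units_eq_one_or (Equiv.Perm.sign σ) with h | h <;> simp [h]

theorem val_le_one (w : Pl K) (y : B) (hy : Cl (below k w) 0 y) : val w y ≤ 1 := by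
  classical
  set e := finBasis k B
  set f := finBasis K B
  obtain ⟨γ, hγ⟩ := (Set.finite_range fun p : _ × _ × _ × _ => w.valuation K
    (Algebra.leftMulMatrix f (e.repr 1 p.1 • e p.2.1) p.2.2.1 p.2.2.2)).bddAbove
  have key : ∀ y : B, Cl (below k w) 0 y → val w y ^ deg K B ≤ γ ^ finrank K B := fun y hy => by
    rw [val, ← map_pow, Nrd_pow, ← LinearMap.det_toMatrix f]
    refine (val_det_le w fun a b => ?_).trans_eq (by rw [Fintype.card_fin])
    change w.valuation K (Algebra.leftMulMatrix f y a b) ≤ γ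
    rw [← e.sum_repr y]
    simp only [e, repr_eq y, Finset.sum_smul, mul_smul, map_sum, Matrix.sum_apply,
      smul_k (K := K) (mat k y _ _), map_smul, Matrix.smul_apply, smul_eq_mul]
    refine Valuation.map_sum_le _ fun i _ => Valuation.map_sum_le _ fun j _ => ?_
    rw [map_mul]
    exact (mul_le_mul' ((below_le_one w _).2 (by simpa using hy i j))
      (hγ ⟨(j, i, a, b), rfl⟩)).trans_eq (one_mul _)
  by_contra! h
  have hd : deg K B ≠ 0 := fun h0 => by
    have := finrank_eq_deg_sq K B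
    rw [h0] at this
    exact finrank_pos.ne' this
  have hp : ∀ n : ℕ, Cl (below k w) 0 (y ^ (n + 1)) := fun n => by
    induction n with
    | zero => simpa using hy
    | succ n ih => rw [pow_succ]; exact cl_mul ih hy
  have h1 := one_lt_pow₀ h hd
  obtain ⟨n, hn⟩ := MulArchimedean.arch (γ ^ finrank K B) h1
  have h2 := key _ (hp n)
  rw [val, map_pow, map_pow, ← pow_mul, mul_comm, pow_mul] at h2
  exact (pow_lt_pow_right₀ h1 (Nat.lt_succ_self n)).not_ge (h2.trans hn)

theorem val_norm {v : Pl k} {c : K} (h : ∀ w : Pl K, below k w = v → w.valuation K c = 1) :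
    v.valuation k (Algebra.norm k c) = 1 := by
  have : Module.Finite k K := Module.finite_of_finrank_eq_succ (Quad.fr (k := k) (K := K))
  have : Algebra.IsQuadraticExtension k K := { finrank_eq_two' := Quad.fr }
  obtain ⟨w, rfl⟩ : ∃ w : Pl K, below k w = v := Hn.exists_un K v
  rw [← below_eq_one, Algebra.norm_eq_prod_automorphisms, map_prod]
  refine Finset.prod_eq_one fun σ _ => ?_
  obtain ⟨w', hw⟩ := Loc.exists_conj_place σ.toRingEquiv w
  refine (hw c).symm.trans (h w' ?_)
  ext a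
  have h1 := below_lt_one (k := k) w' (a : k)
  have h2 := below_lt_one (k := k) w (a : k)
  rw [hw, show σ.toRingEquiv (algebraMap k K a) = _ from σ.commutes _, h2] at h1
  rw [← HeightOneSpectrum.valuation_lt_one_iff_mem (K := k),
    ← HeightOneSpectrum.valuation_lt_one_iff_mem (K := k)]
  exact h1.symm

theorem cl_inv (v : Pl k) (y : B) (hy : Cl v 0 y) (h : ∀ w : Pl K, below k w = v → val w y = 1) :
    Cl v 0 (Ring.inverse y) := by
  have : Module.Finite k K := Module.finite_of_finrank_eq_succ (Quad.fr (k := k) (K := K))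
  have hd : (mat k y).det = Algebra.norm k (Nrd K y ^ deg K B) := by
    rw [Nrd_pow, ← LinearMap.det_restrictScalars, ← LinearMap.det_toMatrix (finBasis k B)]
    rfl
  have h1 : v.valuation k (mat k y).det = 1 :=
    hd ▸ val_norm fun w hw => by rw [map_pow, show w.valuation K _ = 1 from h w hw, one_pow]
  by_cases hu : IsUnit y
  · intro i j
    rw [show mat k (Ring.inverse y) = _ from Opn.map_inverse (mat k).toRingHom hu,
      ← Matrix.nonsing_inv_eq_ringInverse, Matrix.inv_def, Ring.inverse_eq_inv']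
    simpa [h1] using Lan.val_adjugate (v.valuation k) (M := mat k y) (by simpa [Cl] using hy) i j
  · intro i j
    simp [Ring.inverse_non_unit _ hu]

variable (k K B) in
theorem tool : Tool k K B where
  uni δ := by
    filter_upwards [(finite_ne_one (two_ne_zero (α := k))).compl_mem_cofinite,
      (finite_ne_one δ.ne_zero).compl_mem_cofinite] with v h2 hδ l hl h1 h3 F _ _ _ x hx p hp
    subst hp
    have hc : aeval (x : F) (mat k l).charpoly = 0 := by
      refine aeval_eq_zero_of_dvd_aeval_eq_zero ?_ hx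
      rw [← minpoly.algHom_eq (mat k) (Algebra.leftMulMatrix_injective _)]
      exact Matrix.minpoly_dvd_charpoly _
    obtain ⟨V, hV, he⟩ := Lan.exists_eigvec _ hc
    obtain ⟨h0, he'⟩ := Lan.eig_inv (N' := (mat k (Ring.inverse l)).map (algebraMap k F))
      (by rw [← Matrix.map_mul, ← map_mul, Ring.inverse_mul_cancel _ hl, map_one,
        Matrix.map_one _ (map_zero _) (map_one _)]) hV he
    obtain ⟨i, j, H⟩ := Lan.val_eig (p.valuation F) hV he
    obtain ⟨i', j', H'⟩ := Lan.val_eig (p.valuation F) hV he'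
    have H1 := H.trans ((below_le_one p _).2 (by simpa using h1 i j))
    have H2 := H'.trans ((below_le_one p _).2 (by simpa using h3 i' j'))
    refine Hn.Loc.mem_LN_of_odd p ?_ ((below_eq_one p _).2 (not_not.1 hδ)) (le_antisymm H1 ?_)
    · simpa [map_ofNat] using (below_eq_one p (2 : k)).2 (not_not.1 h2)
    · rwa [map_inv₀, inv_le_one₀ (zero_lt_iff.2 (val_ne_zero p h0))] at H2
  inv := .of_forall cl_inv
  str := by
    set e := finBasis k B
    let τ : B →ₗ[k] B := ⟨(starAddEquiv (R := B)).toAddMonoidHom.toAddHom, star_ksmul K⟩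
    filter_upwards [Lan.ev_in e 1, eventually_all.2 fun i => eventually_all.2 fun j =>
      Lan.ev_in e (e i * e j), eventually_all.2 fun i => Lan.ev_in e (τ (e i))] with v h1 h2 h3 y hy i j
    refine (Lan.In.mat h2 (Lan.In.lin τ h3 fun i => ?_) i j).trans_eq (by simp)
    rw [repr_eq]
    refine Valuation.map_sum_le _ fun j _ => ?_
    simpa using mul_le_mul' (hy i j) (h1 j)
  nrd := val_le_one
  spl δ v hv l F _ _ _ x _ p hp := by
    subst hp
    rw [show algebraMap k F δ = (Units.map (algebraMap k F : k →* F) δ : Fˣ) from rfl,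
      Hn.LN_eq_top p _ (Lan.map_mem_Sq p hv)]
    trivial

end Glob

theorem toolStmt : ToolStmt.{u, v, w} := fun D => tool D.k D.K D.B

/-- **stability**, unconditional -/
theorem stabStmt : StabStmt.{u, v, w} := stabStmt_of_tool toolStmt

end Crest.Agent.T24.Stab.O6
end
end

-- ▼ part T24/HolTop_95

/-!
# Row 24, holonomy step (helper95): assembly
-/

set_option autoImplicit false

namespace Crest.Agent.T24.Hol

open In

universe u v w

theorem holStmt : HolZ.HolStmt.{u, v, w} := by
  intro D hd ho _ A _ n hn hA m f hf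
  obtain ⟨N, hN, hT⟩ := HolZ.exists_N (Loc.valStmt D (by omega)).1
  refine hol_of (Quad.ne (k := D.k)) hd hN hn hA (Stab.O6.stabStmt D hd ho) (lh1Stmt D ho N hN)
    ((HolZ.deep_nr (Loc.cofStmt D) (by omega) hT m).filter_mono (ng_le_nr _))
    (fun F Adm ψ S => HolR.hyp ⟨S.unit, S.C, S.I, S.H, S.S, S.O⟩ hN)
    (HolC.constStmt HolI.idealStmt H80.chainStmt H80.span0Stmt H80.nodes0Stmt)
    (fun n hn hA φ h => ?_) hf
  obtain ⟨N', h1, h2, -, h3⟩ :=
    HolE.endAll hN ho hn hA ⟨h.one, h.inv, h.st, h.cg, h.sc, h.re, h.dd⟩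
  exact ⟨N', h1, ng_le_of_dvd h2 _, h3⟩

end Crest.Agent.T24.Hol
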