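import Mathlib

/-!
# Row 24, inner step (helper71), part A: the `N`-adic filter on rational vector spaces

`ZN N` is the ring of rationals with denominator prime to `N`; `sm N V` is the filter of
`N`-adically small vectors, `nr N a` the filter of vectors `N`-adically near `a`.
-/

set_option autoImplicit false

namespace Crest.Agent.T24.In

open Filter

/-- rationals whose denominator is prime to `N` -/
def ZN (N : ℕ) : Subring ℚ where
  carrier := {q | q.den.Coprime N}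
  mul_mem' {a b} ha hb := (Nat.Coprime.mul_left ha hb).coprime_dvd_left (Rat.mul_den_dvd a b)
  one_mem' := by simp
  add_mem' {a b} ha hb := (Nat.Coprime.mul_left ha hb).coprime_dvd_left (Rat.add_den_dvd a b)
  zero_mem' := by simp
  neg_mem' {a} ha := by simpa using ha

variable {N : ℕ}

theorem mem_ZN {q : ℚ} : q ∈ ZN N ↔ q.den.Coprime N := Iff.rfl

theorem inv_mem_ZN {b : ℕ} (hb : b.Coprime N) : ((b : ℚ))⁻¹ ∈ ZN N := by
  rw [mem_ZN, Rat.inv_natCast_den]
  split_ifs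
  · simp
  · exact hb

theorem exists_dvd (N : ℕ) {n : ℕ} (hn : n ≠ 0) :
    ∃ k b : ℕ, b ≠ 0 ∧ b.Coprime N ∧ n ∣ N ^ k * b := by
  induction n using induction_on_primes with
  | zero => exact absurd rfl hn
  | one => exact ⟨0, 1, one_ne_zero, by simp, by simp⟩
  | prime_mul p a hp ih =>
    obtain ⟨k, b, hb0, hb, h⟩ := ih (right_ne_zero_of_mul hn)
    by_cases hpN : p ∣ N
    · refine ⟨k + 1, b, hb0, hb, ?_⟩
      rw [pow_succ, mul_comm (N ^ k), mul_assoc]
      exact mul_dvd_mul hpN h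
    · refine ⟨k, p * b, mul_ne_zero hp.ne_zero hb0,
        Nat.Coprime.mul_left ((Nat.Prime.coprime_iff_not_dvd hp).2 hpN) hb, ?_⟩
      rw [mul_left_comm]
      exact mul_dvd_mul_left p h

theorem exists_pow_mul_mem (N : ℕ) (q : ℚ) : ∃ k : ℕ, (N : ℚ) ^ k * q ∈ ZN N := by
  obtain ⟨k, b, hb0, hb, c, hc⟩ := exists_dvd N q.den_nz
  refine ⟨k, ?_⟩
  have h1 : (N : ℚ) ^ k * b = q.den * c := by exact_mod_cast hc
  have hb' : (b : ℚ) ≠ 0 := by exact_mod_cast hb0
  have hd : (q.den : ℚ) ≠ 0 := by exact_mod_cast q.den_nz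
  have : (N : ℚ) ^ k * q = (q.num * c : ℚ) * (b : ℚ)⁻¹ := by
    have h2 : (q.num : ℚ) = q * q.den := (Rat.mul_den_eq_num q).symm
    rw [h2]
    field_simp
    linear_combination q * h1
  rw [this]
  exact mul_mem (mul_mem (intCast_mem _ _) (natCast_mem _ _)) (inv_mem_ZN hb)

theorem isUnit_one_add (hN : 2 ≤ N) (q : ZN N) : IsUnit (1 + (N : ZN N) * q) := by
  have hq : (q : ℚ).den.Coprime N := q.2
  set z : ℤ := (q : ℚ).den + N * (q : ℚ).num with hz
  have hc : z.natAbs.Coprime N := by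
    have : IsCoprime z (N : ℤ) := by
      have h := (Nat.isCoprime_iff_coprime.2 hq).add_mul_left_left (q : ℚ).num
      exact h
    have h2 := Int.isCoprime_iff_gcd_eq_one.1 this
    rwa [Int.gcd, Int.natAbs_natCast] at h2
  have hz0 : z ≠ 0 := by
    intro h
    rw [h] at hc
    simp at hc
    omega
  have hzi : ((z : ℚ))⁻¹ ∈ ZN N := by
    rw [mem_ZN, Rat.inv_intCast_den, if_neg hz0]
    exact hc
  refine IsUnit.of_mul_eq_one ⟨(q : ℚ).den * (z : ℚ)⁻¹, mul_mem (natCast_mem _ _) hzi⟩ ?_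
  apply Subtype.ext
  have hz' : (z : ℚ) ≠ 0 := by exact_mod_cast hz0
  have h2 : ((q : ℚ).num : ℚ) = (q : ℚ) * (q : ℚ).den := (Rat.mul_den_eq_num _).symm
  have h3 : (z : ℚ) = (q : ℚ).den + N * ((q : ℚ) * (q : ℚ).den) := by
    rw [hz]; push_cast; rw [h2]
  push_cast
  field_simp
  rw [h3]; ring

theorem span_le_jacobson (hN : 2 ≤ N) :
    Ideal.span {(N : ZN N)} ≤ Ideal.jacobson (⊥ : Ideal (ZN N)) := by
  rw [Ideal.span_le, Set.singleton_subset_iff, SetLike.mem_coe, Ideal.mem_jacobson_bot]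
  intro y
  rw [add_comm]
  exact isUnit_one_add hN y

section Vec

variable {V W : Type*} [AddCommGroup V] [Module ℚ V] [AddCommGroup W] [Module ℚ W]

theorem zsmul_mem {Λ : Submodule (ZN N) V} {q : ℚ} (hq : q ∈ ZN N) {x : V} (hx : x ∈ Λ) :
    q • x ∈ Λ := Λ.smul_mem ⟨q, hq⟩ hx

theorem pow_mem_ZN (k : ℕ) : (N : ℚ) ^ k ∈ ZN N := pow_mem (natCast_mem _ _) k

theorem pow_smul_mem {Λ : Submodule (ZN N) V} (k : ℕ) {x : V} (hx : x ∈ Λ) :
    (N : ℚ) ^ k • x ∈ Λ := zsmul_mem (pow_mem_ZN k) hx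

theorem pow_smul_of_le {Λ : Submodule (ZN N) V} {k l : ℕ} (h : k ≤ l) {x : V}
    (hx : (N : ℚ) ^ k • x ∈ Λ) : (N : ℚ) ^ l • x ∈ Λ := by
  obtain ⟨j, rfl⟩ := Nat.exists_eq_add_of_le h
  rw [add_comm, pow_add, mul_smul]
  exact pow_smul_mem j hx

/-- a full finitely generated `ZN N`-lattice -/
structure Lat (N : ℕ) (Λ : Submodule (ZN N) V) : Prop where
  fg : Λ.FG
  abs : ∀ x, ∃ k : ℕ, (N : ℚ) ^ k • x ∈ Λ

variable (N V) in
/-- the filter of `N`-adically small vectors -/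
def sm : Filter V where
  sets := {U | ∀ Λ : Submodule (ZN N) V, Λ.FG → ∃ m : ℕ, ∀ x ∈ Λ, (N : ℚ) ^ m • x ∈ U}
  univ_sets := fun _ _ => ⟨0, fun _ _ => trivial⟩
  sets_of_superset := fun h hs Λ hΛ => (h Λ hΛ).imp fun _ hm x hx => hs (hm x hx)
  inter_sets := fun h1 h2 Λ hΛ => by
    obtain ⟨m₁, h₁⟩ := h1 Λ hΛ
    obtain ⟨m₂, h₂⟩ := h2 Λ hΛ
    refine ⟨m₁ + m₂, fun x hx => ⟨?_, ?_⟩⟩
    · rw [pow_add, mul_smul]; exact h₁ _ (pow_smul_mem _ hx)
    · rw [add_comm, pow_add, mul_smul]; exact h₂ _ (pow_smul_mem _ hx)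


/-- `N ^ m Λ` -/
def dp (Λ : Submodule (ZN N) V) (m : ℕ) : Submodule (ZN N) V where
  carrier := {y | ∃ x ∈ Λ, (N : ℚ) ^ m • x = y}
  add_mem' := by
    rintro _ _ ⟨x, hx, rfl⟩ ⟨y, hy, rfl⟩
    exact ⟨x + y, add_mem hx hy, smul_add _ _ _⟩
  zero_mem' := ⟨0, zero_mem _, smul_zero _⟩
  smul_mem' := by
    rintro c _ ⟨x, hx, rfl⟩
    exact ⟨c • x, Λ.smul_mem c hx, smul_comm _ _ _⟩


theorem smul_mem_dp {Λ : Submodule (ZN N) V} (m : ℕ) {x : V} (hx : x ∈ Λ) :
    (N : ℚ) ^ m • x ∈ dp Λ m := ⟨x, hx, rfl⟩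

theorem dp_anti (Λ : Submodule (ZN N) V) {k l : ℕ} (h : k ≤ l) : dp Λ l ≤ dp Λ k := by
  rintro _ ⟨x, hx, rfl⟩
  obtain ⟨j, rfl⟩ := Nat.exists_eq_add_of_le h
  exact ⟨_, pow_smul_mem j hx, by rw [pow_add, mul_smul]⟩

theorem dp_le (Λ : Submodule (ZN N) V) (k : ℕ) : dp Λ k ≤ Λ := by
  rintro _ ⟨x, hx, rfl⟩
  exact pow_smul_mem k hx


theorem exists_dp_subset {U : Set V} (hU : U ∈ sm N V) {Λ : Submodule (ZN N) V} (h : Λ.FG) :
    ∃ m, ∀ x ∈ dp Λ m, x ∈ U := by
  obtain ⟨m, hm⟩ := hU Λ h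
  exact ⟨m, by rintro _ ⟨x, hx, rfl⟩; exact hm x hx⟩

theorem Lat.absorb {Λ : Submodule (ZN N) V} (h : Lat N Λ) {Λ' : Submodule (ZN N) V}
    (h' : Λ'.FG) : ∃ k : ℕ, ∀ x ∈ Λ', (N : ℚ) ^ k • x ∈ Λ := by
  obtain ⟨s, rfl⟩ := h'
  choose k hk using h.abs
  refine ⟨s.sup k, fun x hx => ?_⟩
  induction hx using Submodule.span_induction with
  | mem x hx => exact pow_smul_of_le (Finset.le_sup hx) (hk x)
  | zero => simp
  | add x y _ _ hx hy => rw [smul_add]; exact add_mem hx hy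
  | smul a x _ hx => rw [smul_comm]; exact Λ.smul_mem a hx

theorem Lat.dp_mem {Λ : Submodule (ZN N) V} (h : Lat N Λ) (m : ℕ) :
    (dp Λ m : Set V) ∈ sm N V := by
  intro Λ' h'
  obtain ⟨k, hk⟩ := h.absorb h'
  exact ⟨m + k, fun x hx => ⟨_, hk x hx, by rw [pow_add, mul_smul]⟩⟩

theorem Lat.hasBasis {Λ : Submodule (ZN N) V} (h : Lat N Λ) :
    (sm N V).HasBasis (fun _ : ℕ => True) fun m => (dp Λ m : Set V) :=
  ⟨fun _ => ⟨fun hU => (exists_dp_subset hU h.fg).imp fun _ hm => ⟨trivial, hm⟩,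
    fun ⟨m, _, hm⟩ => mem_of_superset (h.dp_mem m) hm⟩⟩

theorem Lat.ev {Λ : Submodule (ZN N) V} (h : Lat N Λ) (m : ℕ) : ∀ᶠ x in sm N V, x ∈ dp Λ m :=
  h.dp_mem m

theorem lat_span {ι : Type*} [Finite ι] (b : ι → V) (hb : Submodule.span ℚ (Set.range b) = ⊤) :
    Lat N (Submodule.span (ZN N) (Set.range b)) := by
  refine ⟨Submodule.fg_span (Set.finite_range b), fun x => ?_⟩
  have hx : x ∈ Submodule.span ℚ (Set.range b) := hb ▸ Submodule.mem_top
  induction hx using Submodule.span_induction with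
  | mem x hx => exact ⟨0, by simpa using Submodule.subset_span hx⟩
  | zero => exact ⟨0, by simp⟩
  | add x y _ _ hx hy =>
    obtain ⟨k, hk⟩ := hx
    obtain ⟨l, hl⟩ := hy
    exact ⟨k + l, by
      rw [smul_add]
      exact add_mem (pow_smul_of_le (by omega) hk) (pow_smul_of_le (by omega) hl)⟩
  | smul a x _ hx =>
    obtain ⟨k, hk⟩ := hx
    obtain ⟨l, hl⟩ := exists_pow_mul_mem N a
    refine ⟨l + k, ?_⟩
    have : (N : ℚ) ^ (l + k) • a • x = ((N : ℚ) ^ l * a) • (N : ℚ) ^ k • x := by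
      rw [smul_smul, smul_smul]; congr 1; ring
    rw [this]
    exact zsmul_mem hl hk

variable (N V) in
theorem exists_lat [FiniteDimensional ℚ V] : ∃ Λ : Submodule (ZN N) V, Lat N Λ :=
  ⟨_, lat_span (Module.finBasis ℚ V) (Module.finBasis ℚ V).span_eq⟩

theorem Lat.of_le {Λ Λ' : Submodule (ZN N) V} (h : Lat N Λ) (h' : Λ'.FG) (hle : Λ ≤ Λ') :
    Lat N Λ' := ⟨h', fun x => (h.abs x).imp fun _ hk => hle hk⟩

theorem tendsto_sm_map (f : V →+ W) : Tendsto f (sm N V) (sm N W) := by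
  intro U hU Λ hΛ
  obtain ⟨m, hm⟩ := hU (Λ.map (f.toRatLinearMap.restrictScalars (ZN N))) (hΛ.map _)
  refine ⟨m, fun x hx => ?_⟩
  have := hm (f x) ⟨x, hx, rfl⟩
  rwa [← map_rat_smul] at this

theorem zero_mem_of_sm {U : Set V} (hU : U ∈ sm N V) : (0 : V) ∈ U := by
  obtain ⟨m, hm⟩ := hU ⊥ Submodule.fg_bot
  simpa using hm 0 (zero_mem _)

theorem tendsto_pow_smul (x : V) : Tendsto (fun k : ℕ => (N : ℚ) ^ k • x) atTop (sm N V) := by
  intro U hU
  obtain ⟨m, hm⟩ := exists_dp_subset hU (Submodule.fg_span_singleton x)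
  rw [mem_map]
  filter_upwards [eventually_ge_atTop m] with k hk
  exact hm _ (dp_anti _ hk (smul_mem_dp k (Submodule.mem_span_singleton_self x)))

variable (N) in
/-- the filter of vectors `N`-adically near `a` -/
def nr (a : V) : Filter V := comap (fun x => x - a) (sm N V)

variable {α : Type*} {l : Filter α}

theorem tendsto_nr {f : α → V} {a : V} :
    Tendsto f l (nr N a) ↔ Tendsto (fun i => f i - a) l (sm N V) := tendsto_comap_iff

theorem nr_zero : nr N (0 : V) = sm N V := by simp [nr, comap_id']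

theorem self_of_nr {a : V} {p : V → Prop} (h : ∀ᶠ x in nr N a, p x) : p a := by
  obtain ⟨U, hU, h'⟩ := mem_comap.1 h
  exact h' (show a - a ∈ U by simpa using zero_mem_of_sm hU)

instance (a : V) : (nr N a).NeBot :=
  ⟨fun h => self_of_nr (N := N) (a := a) (p := fun _ => False) (by rw [h]; exact eventually_bot)⟩

theorem nr_const (a : V) : Tendsto (fun _ : α => a) l (nr N a) :=
  fun U hU => by
    have : a ∈ U := self_of_nr (N := N) (p := (· ∈ U)) hU
    exact mem_map.2 (univ_mem' fun _ => this)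

theorem nr_map (f : V →+ W) (a : V) : Tendsto f (nr N a) (nr N (f a)) := by
  rw [tendsto_nr]
  have := (tendsto_sm_map (N := N) f).comp (tendsto_nr.1 (tendsto_id (x := nr N a)))
  refine this.congr fun x => ?_
  simp

theorem nr_lin {f : α → V} {a : V} (g : V →+ W) (h : Tendsto f l (nr N a)) :
    Tendsto (fun i => g (f i)) l (nr N (g a)) := (nr_map g a).comp h

theorem Lat.nr_basis {Λ : Submodule (ZN N) V} (h : Lat N Λ) (a : V) :
    (nr N a).HasBasis (fun _ : ℕ => True) fun m => {x | x - a ∈ dp Λ m} :=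
  h.hasBasis.comap _

theorem Lat.ev_nr {Λ : Submodule (ZN N) V} (h : Lat N Λ) (a : V) (m : ℕ) :
    ∀ᶠ x in nr N a, x - a ∈ dp Λ m := (h.nr_basis a).mem_of_mem trivial

theorem exists_of_nr {a : V} {p : V → Prop} (hp : ∀ᶠ x in nr N a, p x)
    {Λ : Submodule (ZN N) V} (h : Λ.FG) : ∃ m, ∀ x, x - a ∈ dp Λ m → p x := by
  obtain ⟨U, hU, h'⟩ := mem_comap.1 hp
  obtain ⟨m, hm⟩ := exists_dp_subset hU h
  exact ⟨m, fun x hx => h' (hm _ hx)⟩

theorem Lat.tendsto_nr {Λ : Submodule (ZN N) V} (h : Lat N Λ) {f : α → V} {a : V} :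
    Tendsto f l (nr N a) ↔ ∀ m, ∀ᶠ i in l, f i - a ∈ dp Λ m := by
  rw [(h.nr_basis a).tendsto_right_iff]
  simp

variable [FiniteDimensional ℚ V]

theorem nr_add {f g : α → V} {a b : V} (hf : Tendsto f l (nr N a)) (hg : Tendsto g l (nr N b)) :
    Tendsto (fun i => f i + g i) l (nr N (a + b)) := by
  obtain ⟨Λ, h⟩ := exists_lat N V
  rw [h.tendsto_nr] at *
  intro m
  filter_upwards [hf m, hg m] with i h1 h2
  have := add_mem h1 h2
  rwa [sub_add_sub_comm] at this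

omit [FiniteDimensional ℚ V] in
theorem nr_neg {f : α → V} {a : V} (hf : Tendsto f l (nr N a)) :
    Tendsto (fun i => -f i) l (nr N (-a)) := nr_lin (-AddMonoidHom.id V) hf

theorem nr_sub {f g : α → V} {a b : V} (hf : Tendsto f l (nr N a)) (hg : Tendsto g l (nr N b)) :
    Tendsto (fun i => f i - g i) l (nr N (a - b)) := by
  simpa only [sub_eq_add_neg] using nr_add hf (nr_neg hg)

theorem nr_sum {ι : Type*} (s : Finset ι) {f : ι → α → V} {a : ι → V}
    (h : ∀ j ∈ s, Tendsto (f j) l (nr N (a j))) :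
    Tendsto (fun i => ∑ j ∈ s, f j i) l (nr N (∑ j ∈ s, a j)) := by
  classical
  induction s using Finset.induction_on with
  | empty => simpa using nr_const (0 : V)
  | insert j s hj ih =>
    simp only [Finset.sum_insert hj]
    exact nr_add (h j (Finset.mem_insert_self _ _))
      (ih fun j hj => h j (Finset.mem_insert_of_mem hj))

omit [FiniteDimensional ℚ V] in
/-- convergence can be tested after an injective additive map -/
theorem nr_of_inj (g : V →+ W) (hg : Function.Injective g) {f : α → V} {a : V}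
    (h : Tendsto (fun i => g (f i)) l (nr N (g a))) : Tendsto f l (nr N a) := by
  obtain ⟨p, hp⟩ := g.toRatLinearMap.exists_leftInverse_of_injective (LinearMap.ker_eq_bot.2 hg)
  have hp' : ∀ x, p (g x) = x := fun x => LinearMap.congr_fun hp x
  have := nr_lin p.toAddMonoidHom h
  simpa [hp'] using this


end Vec

section Alg

variable {B : Type*} [Ring B] [Algebra ℚ B]

theorem mul_mem_dp (O : Subalgebra (ZN N) B) {k l : ℕ} {x y : B}
    (hx : x ∈ dp O.toSubmodule k) (hy : y ∈ dp O.toSubmodule l) :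
    x * y ∈ dp O.toSubmodule (k + l) := by
  obtain ⟨x, hx, rfl⟩ := hx
  obtain ⟨y, hy, rfl⟩ := hy
  exact ⟨x * y, O.mul_mem hx hy, by rw [smul_mul_smul_comm, pow_add]⟩

theorem mem_dp_zero {V : Type*} [AddCommGroup V] [Module ℚ V] {Λ : Submodule (ZN N) V} {x : V}
    (hx : x ∈ Λ) : x ∈ dp Λ 0 := ⟨x, hx, by simp⟩

theorem mul_mem_dp_left (O : Subalgebra (ZN N) B) {l : ℕ} {x y : B}
    (hx : x ∈ O) (hy : y ∈ dp O.toSubmodule l) : x * y ∈ dp O.toSubmodule l := by
  simpa using mul_mem_dp O (mem_dp_zero (Λ := O.toSubmodule) hx) hy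

theorem mul_mem_dp_right (O : Subalgebra (ZN N) B) {l : ℕ} {x y : B}
    (hx : x ∈ dp O.toSubmodule l) (hy : y ∈ O) : x * y ∈ dp O.toSubmodule l := by
  simpa using mul_mem_dp O hx (mem_dp_zero (Λ := O.toSubmodule) hy)

variable [FiniteDimensional ℚ B]

variable (N B) in
/-- orders exist -/
theorem exists_od : ∃ O : Subalgebra (ZN N) B, Lat N O.toSubmodule := by
  obtain ⟨Λ, h⟩ := exists_lat N B
  obtain ⟨k, hk⟩ := h.absorb (h.fg.mul h.fg)
  have hfg : (dp Λ k).FG := by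
    have : dp Λ k = Λ.map (LinearMap.lsmul (ZN N) B ⟨_, pow_mem_ZN k⟩) := by
      ext y; exact Iff.rfl
    rw [this]; exact h.fg.map _
  have hmul : ∀ x ∈ dp Λ k, ∀ y ∈ dp Λ k, x * y ∈ dp Λ k := by
    rintro _ ⟨x, hx, rfl⟩ _ ⟨y, hy, rfl⟩
    refine ⟨_, hk _ (Submodule.mul_mem_mul hx hy), ?_⟩
    rw [smul_mul_smul_comm, smul_smul]
  let S : Submodule (ZN N) B := Submodule.span (ZN N) {1} ⊔ dp Λ k
  have hS : ∀ x ∈ S, ∀ y ∈ S, x * y ∈ S := by
    intro x' hx' y' hy'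
    obtain ⟨_, hx1, x, hx, rfl⟩ := Submodule.mem_sup.1 hx'
    obtain ⟨_, hy1, y, hy, rfl⟩ := Submodule.mem_sup.1 hy'
    obtain ⟨a, rfl⟩ := Submodule.mem_span_singleton.1 hx1
    obtain ⟨b, rfl⟩ := Submodule.mem_span_singleton.1 hy1
    have h1 : (1 : B) ∈ S := Submodule.mem_sup_left (Submodule.mem_span_singleton_self _)
    simp only [add_mul, mul_add, smul_mul_assoc, mul_smul_comm, one_mul, mul_one]
    exact add_mem (S.smul_mem _ (add_mem (S.smul_mem _ h1) (Submodule.mem_sup_right hx)))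
      (add_mem (S.smul_mem _ (Submodule.mem_sup_right hy)) (Submodule.mem_sup_right (hmul _ hx _ hy)))
  refine ⟨S.toSubalgebra (Submodule.mem_sup_left (Submodule.mem_span_singleton_self _))
    (fun x y hx hy => hS x hx y hy), (Submodule.fg_span_singleton _).sup hfg, fun x => ?_⟩
  obtain ⟨j, hj⟩ := h.abs x
  exact ⟨k + j, Submodule.mem_sup_right ⟨_, hj, by rw [pow_add, mul_smul]⟩⟩

theorem dedekind : IsDedekindFiniteMonoid B :=
  IsDedekindFiniteMonoid.of_injective (Algebra.lmul ℚ B) Algebra.lmul_injective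

/-- `1 + N O` consists of units of `O` -/
theorem exists_inv (hN : 2 ≤ N) {O : Subalgebra (ZN N) B} (h : O.toSubmodule.FG) {x : B}
    (hx : x ∈ dp O.toSubmodule 1) : ∃ y ∈ O, (1 + x) * y = 1 ∧ y * (1 + x) = 1 := by
  have := dedekind (B := B)
  let P : Submodule (ZN N) B := O.toSubmodule.map (LinearMap.mulLeft (ZN N) (1 + x))
  have hle : O.toSubmodule ≤ P := by
    refine Submodule.le_of_le_smul_of_le_jacobson_bot h (span_le_jacobson hN) fun y hy => ?_
    obtain ⟨x, hx, rfl⟩ := hx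
    have e : y = (1 + (N : ℚ) ^ 1 • x) * y + (N : ZN N) • (-(x * y)) := by
      change y = _ + (N : ℚ) • _
      simp [add_mul]
    rw [e]
    exact Submodule.add_mem_sup ⟨y, hy, rfl⟩ (Submodule.smul_mem_smul
      (Ideal.mem_span_singleton_self _) (neg_mem (O.mul_mem hx hy)))
  obtain ⟨y, hy, e⟩ := hle O.one_mem
  exact ⟨y, hy, e, mul_eq_one_comm.1 e⟩

/-- quasi-inverses stay at the same depth -/
theorem exists_qinv (hN : 2 ≤ N) {O : Subalgebra (ZN N) B} (h : O.toSubmodule.FG) {m : ℕ}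
    (hm : 1 ≤ m) {x : B} (hx : x ∈ dp O.toSubmodule m) :
    ∃ y ∈ dp O.toSubmodule m, (1 + x) * (1 + y) = 1 ∧ (1 + y) * (1 + x) = 1 := by
  obtain ⟨y, hy, h1, h2⟩ := exists_inv hN h (dp_anti _ hm hx)
  have e : 1 + -(x * y) = y := by
    rw [add_mul, one_mul] at h1
    rw [← h1]; abel
  refine ⟨-(x * y), neg_mem (mul_mem_dp_right O hx hy), ?_, ?_⟩ <;> rw [e] <;> assumption

variable {α : Type*} {l : Filter α}

theorem nr_mul {f g : α → B} {a b : B} (hf : Tendsto f l (nr N a))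
    (hg : Tendsto g l (nr N b)) : Tendsto (fun i => f i * g i) l (nr N (a * b)) := by
  obtain ⟨O, h⟩ := exists_od N B
  have h1 : Tendsto (fun i => (f i - a) * (g i - b)) l (nr N 0) := by
    rw [h.tendsto_nr] at *
    intro m
    filter_upwards [hf m, hg 0] with i h1 h2
    simpa using mul_mem_dp O h1 h2
  have h2 := nr_add (nr_add h1 (nr_lin (AddMonoidHom.mulRight b) hf))
    (nr_sub (nr_lin (AddMonoidHom.mulLeft a) hg) (nr_const (a * b)))
  convert h2 using 2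
  · simp only [AddMonoidHom.coe_mulRight, AddMonoidHom.coe_mulLeft]; noncomm_ring
  · simp

theorem nr_mul_one {f g : α → B} (hf : Tendsto f l (nr N 1))
    (hg : Tendsto g l (nr N 1)) : Tendsto (fun i => f i * g i) l (nr N 1) := by
  simpa using nr_mul hf hg

theorem nr_pow {f : α → B} {a : B} (hf : Tendsto f l (nr N a)) (n : ℕ) :
    Tendsto (fun i => f i ^ n) l (nr N (a ^ n)) := by
  induction n with
  | zero => simpa using nr_const (1 : B)
  | succ n ih => simpa only [pow_succ] using nr_mul ih hf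

theorem ev_isUnit (hN : 2 ≤ N) : ∀ᶠ x in nr N (1 : B), IsUnit x := by
  obtain ⟨O, h⟩ := exists_od N B
  filter_upwards [h.ev_nr 1 1] with x hx
  obtain ⟨y, -, h1, h2⟩ := exists_inv hN h.fg hx
  rw [add_sub_cancel] at h1 h2
  exact ⟨⟨x, y, h1, h2⟩, rfl⟩

theorem nr_inverse (hN : 2 ≤ N) : Tendsto (Ring.inverse : B → B) (nr N 1) (nr N 1) := by
  obtain ⟨O, h⟩ := exists_od N B
  rw [h.tendsto_nr]
  intro m
  filter_upwards [h.ev_nr 1 (m + 1)] with x hx
  obtain ⟨y, hy, h1, h2⟩ := exists_qinv hN h.fg (by omega) hx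
  rw [add_sub_cancel] at h1 h2
  have : Ring.inverse x = 1 + y := Ring.inverse_unit ⟨x, 1 + y, h1, h2⟩
  rw [this, add_sub_cancel_left]
  exact dp_anti _ (by omega) hy

end Alg

section Comm

variable {R : Type*} [CommRing R] [Algebra ℚ R] [FiniteDimensional ℚ R] {α : Type*} {l : Filter α}



end Comm


/-- roots of elements near `1` in a number field -/
theorem ev_root (hN : 2 ≤ N) (K : Type*) [Field K] [CharZero K] [FiniteDimensional ℚ K] {r : ℕ}
    (hr : r ≠ 0) : ∃ W ∈ nr N (1 : K), ∀ {α : Type} (l : Filter α) (f : α → K),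
      (∀ᶠ i in l, f i ∈ W) → Tendsto (fun i => f i ^ r) l (nr N 1) → Tendsto f l (nr N 1) := by
  obtain ⟨O, h⟩ := exists_od N K
  have hr' : (r : K) ≠ 0 := by exact_mod_cast hr
  have h1 : Tendsto (fun u : K => (r : K)⁻¹ * ∑ i ∈ Finset.range r, u ^ i) (nr N 1) (nr N 1) := by
    have := nr_mul (nr_const (l := nr N (1 : K)) (r : K)⁻¹)
      (nr_sum (Finset.range r) fun i _ => nr_pow (tendsto_id (x := nr N (1 : K))) i)
    simpa [hr'] using this
  refine ⟨_, h1.eventually (h.ev_nr 1 1), fun l f hf ht => ?_⟩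
  have h2 := nr_mul (nr_const (l := l) (r : K)⁻¹) ht
  rw [h.tendsto_nr] at h2 ⊢
  intro m
  filter_upwards [hf, h2 m] with i h3 h4
  obtain ⟨y, hy, h5, -⟩ := exists_inv hN h.fg h3
  rw [add_sub_cancel] at h5
  have := mul_mem_dp_right O h4 hy
  convert this using 1
  have h6 := mul_geom_sum (f i) r
  calc f i - 1 = (f i - 1) * (((r : K)⁻¹ * ∑ j ∈ Finset.range r, f i ^ j) * y) := by
        rw [h5, mul_one]
    _ = (r : K)⁻¹ * ((f i - 1) * ∑ j ∈ Finset.range r, f i ^ j) * y := by ring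
    _ = _ := by rw [h6]; ring



end Crest.Agent.T24.In
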