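import Crest.Agent.T24.LocB_59
import Crest.Agent.T24.HsmA_23
import Crest.Agent.T24.CsaN_50

/-!
# Row 24 (helper59): reduced norm and trace of a local division algebra; unimodular orders split
-/

set_option autoImplicit false

namespace Crest.Agent.T24.Loc

open Finset Module Csa

namespace Cyc
variable {F : Type*} [NontriviallyNormedField F] {D : Type*} [NormedDivisionRing D] [NormedAlgebra F D]
  {π ζ : D} {M r : ℕ} [FiniteDimensional F D] (h : Cyc F π ζ M r) [IsUltrametricDist D]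
  [Algebra.IsCentral F D] [CompleteSpace F]
include h

/-- the basis `π ^ j` is orthogonal -/
theorem norm_repr (x : D) (j : Fin h.n) : ‖h.bas.repr x j‖ * ‖π‖ ^ (j : ℕ) ≤ ‖x‖ := by
  classical
  let f : Fin h.n → D := fun j => h.bas.repr x j • h.bas j
  have hf : ∀ j, ‖f j‖ = ‖h.bas.repr x j‖ * ‖π‖ ^ (j : ℕ) := fun j => by
    rw [← norm_pow, ← h.bas_apply]; exact norm_mul _ _
  have h1 : ∀ j, f j ≠ 0 → ∃ k : ℤ, ‖f j‖ = ‖π‖ ^ (h.n * k + j) := fun j hj => by
    obtain ⟨k, hk⟩ := h.val_comm (comm_WW' (h.bas.repr x j).2 (self_mem_WW ζ)) (left_ne_zero_of_mul hj)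
    exact ⟨k, by rw [hf, norm_WW, hk, norm_vp, zpow_add₀ h.norm_pos.ne', zpow_mul, zpow_natCast, zpow_natCast]⟩
  by_cases hj : f j = 0
  · rw [← hf, hj, norm_zero]; exact norm_nonneg _
  have h2 := IsUltrametricDist.nnnorm_sum_eq_sup_of_pairwise_ne (s := univ.filter fun j => f j ≠ 0) (f := f)
    fun a ha b hb hab h3 => by
      obtain ⟨k, hk⟩ := h1 a (by simpa using ha)
      obtain ⟨l, hl⟩ := h1 b (by simpa using hb)
      have h4 : ‖f a‖ = ‖f b‖ := congrArg NNReal.toReal h3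
      rw [hk, hl] at h4
      have h5 := congrArg (· % (h.n : ℤ)) (zpow_right_injective₀ h.norm_pos h.lt.ne h4)
      simp only [Int.mul_add_emod_self_left] at h5
      rw [Int.emod_eq_of_lt (by omega) (by omega), Int.emod_eq_of_lt (by omega) (by omega)] at h5
      exact hab (Fin.ext (by omega))
  rw [sum_filter_ne_zero, h.bas.sum_repr] at h2
  rw [← hf]
  exact_mod_cast h2 ▸ le_sup (f := fun i => ‖f i‖₊) (show j ∈ univ.filter fun j => f j ≠ 0 by simpa using hj)

theorem norm_rep (x : D) (i j : Fin h.n) : ‖h.rep x i j‖ * ‖π‖ ^ (j : ℕ) ≤ ‖π‖ ^ (i : ℕ) * ‖x‖ :=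
  (h.norm_repr _ j).trans_eq (by rw [norm_mul, norm_pow])

omit [IsUltrametricDist D] in
theorem deg_eq : deg F D = h.n := Csa.deg_eq F h.rank

variable [CharZero F]

theorem norm_Trd (x : D) : ‖Trd F x‖ ≤ ‖x‖ := by
  have : IsUltrametricDist (WW F ζ) := inferInstance
  rw [← norm_algebraMap' (WW F ζ), ← Csa.trace_eq h.rep (by rw [h.rank, Fintype.card_fin]), Matrix.trace]
  refine IsUltrametricDist.norm_sum_le_of_forall_le_of_nonneg (norm_nonneg _) fun i _ => ?_
  exact le_of_mul_le_mul_left ((mul_comm _ _).trans_le (h.norm_rep x i i)) (pow_pos h.norm_pos _)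

omit [IsUltrametricDist D] in
theorem Nrd_W (w : WW F ζ) : Nrd F (w : D) = Algebra.norm F w :=
  Nrd_maxField (WW F ζ).val (by rw [h.rankW, h.deg_eq]) w


end Cyc

section D
variable (F : Type*) [NontriviallyNormedField F] {D : Type*} [DivisionRing D] [Algebra F D]
  [FiniteDimensional F D] [Algebra.IsCentral F D] [CharZero F]

theorem nm_pow_deg (x : D) : nm F x ^ deg F D = ‖Nrd F x‖ := by
  refine (pow_left_inj₀ (pow_nonneg (nm_nonneg F x) _) (norm_nonneg _) (deg_pos F D).ne').1 ?_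
  rw [← pow_mul, ← sq, ← finrank_eq_deg_sq, nm_pow_finrank, ← norm_pow, Nrd_pow, Algebra.norm_apply]

variable [ProperSpace F] [IsUltrametricDist F]

theorem norm_Trd_le (x : D) : ‖Trd F x‖ ≤ nm F x := by
  let := ndr F D
  let := nalg F D
  have := ultra F D
  obtain ⟨π, ζ, M, r, h⟩ := exists_cyc (F := F) (D := D)
  exact h.norm_Trd x

omit [CharZero F] in
/-- an unramified central division algebra is trivial -/
theorem rank_one_of_unram (h : ∀ x : D, nm F x < 1 → ∃ c : F, ‖c‖ < 1 ∧ nm F x ≤ ‖c‖) : finrank F D = 1 := by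
  let := ndr F D
  let := nalg F D
  have := ultra F D
  obtain ⟨π, ζ, M, r, hc⟩ := exists_cyc (F := F) (D := D)
  obtain ⟨c, h1, h2⟩ := h π hc.lt
  have h3 : ‖π‖ ^ 1 ≤ ‖π‖ ^ hc.n := by rw [pow_one, ← hc.norm_vp]; exact h2.trans (hc.le_vp' h1)
  rw [pow_le_pow_iff_right_of_lt_one₀ hc.norm_pos hc.lt] at h3
  rw [hc.rank, le_antisymm h3 hc.n_pos, one_pow]

end D

/-- conjugation that makes an order integral -/
theorem conjR (R : Type*) {F A : Type*} [CommRing R] [IsDomain R] [IsPrincipalIdealRing R] [Field F]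
    [Algebra R F] [IsFractionRing R F] [Ring A] [Algebra F A] {n : ℕ}
    (φ : A →ₐ[F] Matrix (Fin n) (Fin n) F) {ι : Type*} [Fintype ι] (e : Basis ι F A)
    (he : ∀ i j k, e.repr (e i * e j) k ∈ Set.range (algebraMap R F)) :
    ∃ ψ : A →ₐ[F] Matrix (Fin n) (Fin n) F, ∀ k i j, ψ (e k) i j ∈ Set.range (algebraMap R F) := by
  classical
  let Λ : Submodule R (Fin n → F) :=
    Submodule.span R (Set.range fun p : ι × Fin n => (φ (e p.1)).mulVec (Pi.single p.2 1))
  have h0 : ∀ x j, (φ x).mulVec (Pi.single j 1) = ∑ k, e.repr x k • (φ (e k)).mulVec (Pi.single j 1) :=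
    fun x j => by
      conv_lhs => rw [← e.sum_repr x, map_sum, Matrix.sum_mulVec]
      exact sum_congr rfl fun k _ => by rw [map_smul, Matrix.smul_mulVec]
  have hsp : Submodule.span F (Λ : Set (Fin n → F)) = ⊤ := by
    rw [eq_top_iff, ← (Pi.basisFun F (Fin n)).span_eq, Submodule.span_le]
    rintro _ ⟨j, rfl⟩
    have := h0 1 j
    rw [map_one, Matrix.one_mulVec] at this
    rw [Pi.basisFun_apply, this]
    exact Submodule.sum_mem _ fun k _ => Submodule.smul_mem _ _
      (Submodule.subset_span (Submodule.subset_span ⟨(k, j), rfl⟩))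
  have : Submodule.IsLattice F Λ := ⟨Submodule.fg_span (Set.finite_range _), hsp⟩
  let B : Basis (Fin n) R Λ := Module.finBasisOfFinrankEq R Λ
    (by rw [Submodule.IsLattice.finrank_of_pi F Λ, Fintype.card_fin])
  let B' : Basis (Fin n) F (Fin n → F) := B.extendOfIsLattice F
  have hB : Submodule.span R (Set.range B') = Λ := by
    have : Set.range B' = Λ.subtype '' Set.range B := by
      rw [← Set.range_comp]
      congr 1
      funext k
      simp [B']
    rw [this, ← Submodule.map_span, B.span_eq, Submodule.map_subtype_top]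
  refine ⟨((LinearMap.toMatrixAlgEquiv B').toAlgHom.comp
    (Matrix.toLinAlgEquiv' (R := F) (n := Fin n)).toAlgHom).comp φ, fun k i j => ?_⟩
  have h2 : ∀ z ∈ Λ, (φ (e k)).mulVec z ∈ Λ := by
    intro z hz
    induction hz using Submodule.span_induction with
    | mem y hy =>
      obtain ⟨p, rfl⟩ := hy
      rw [Matrix.mulVec_mulVec, ← map_mul, h0]
      refine Submodule.sum_mem _ fun l _ => ?_
      obtain ⟨c, hc⟩ := he k p.1 l
      rw [← hc, algebraMap_smul]
      exact Submodule.smul_mem _ _ (Submodule.subset_span ⟨(l, p.2), rfl⟩)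
    | zero => simp
    | add y z _ _ hy hz => rw [Matrix.mulVec_add]; exact add_mem hy hz
    | smul c y _ hy =>
      rw [Matrix.mulVec_smul]
      exact Submodule.smul_mem _ _ hy
  have h3 : (φ (e k)).mulVec (B' j) ∈ Submodule.span R (Set.range B') := by
    rw [hB]
    exact h2 _ (hB ▸ Submodule.subset_span ⟨j, rfl⟩)
  have h4 := (B'.mem_span_iff_repr_mem R _).1 h3 i
  simpa [LinearMap.toMatrixAlgEquiv_apply, Matrix.toLinAlgEquiv'_apply] using h4

section unim
variable {F : Type*} [NontriviallyNormedField F] [CharZero F] {A : Type*} [Ring A] [Algebra F A]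
  [Algebra.IsCentral F A] [IsSimpleRing A] [FiniteDimensional F A] {ι : Type*} [Fintype ι]

/-- the lattice spanned by `e` is closed under multiplication and self-dual for the trace form -/
structure Unim (e : Basis ι F A) : Prop where
  mul : ∀ i j k, ‖e.repr (e i * e j) k‖ ≤ 1
  dual : ∃ g : ι → A, (∀ i k, ‖e.repr (g i) k‖ ≤ 1) ∧ ∀ x, x = ∑ i, Trd F (x * e i) • g i

variable {e : Basis ι F A} [IsUltrametricDist F]

omit [CharZero F] [Algebra.IsCentral F A] [IsSimpleRing A] [FiniteDimensional F A] [IsUltrametricDist F] in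
theorem norm_lin {E : Type*} [NormedAddCommGroup E] [IsUltrametricDist E] [NormedSpace F E] (l : A →ₗ[F] E)
    {x : A} {a b : ℝ} (ha : 0 ≤ a) (hb : 0 ≤ b) (h1 : ∀ k, ‖e.repr x k‖ ≤ a) (h2 : ∀ k, ‖l (e k)‖ ≤ b) :
    ‖l x‖ ≤ a * b := by
  rw [← e.sum_repr x, map_sum]
  refine IsUltrametricDist.norm_sum_le_of_forall_le_of_nonneg (by positivity) fun k _ => ?_
  rw [map_smul, norm_smul]
  exact mul_le_mul (h1 k) (h2 k) (norm_nonneg _) ha

theorem Unim.mul_left (h : Unim e) {x : A} {a : ℝ} (ha : 0 ≤ a) (h1 : ∀ k, ‖e.repr x k‖ ≤ a) (i k : ι) :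
    ‖e.repr (e i * x) k‖ ≤ a := by
  simpa using norm_lin (e.coord k ∘ₗ LinearMap.mulLeft F (e i)) ha zero_le_one h1 fun j => h.mul i j k

theorem Unim.le_of_Trd (h : Unim e) {x : A} {a : ℝ} (ha : 0 ≤ a) (h1 : ∀ i, ‖Trd F (x * e i)‖ ≤ a) (k : ι) :
    ‖e.repr x k‖ ≤ a := by
  obtain ⟨g, h2, h3⟩ := h.dual
  rw [h3 x, map_sum, Finsupp.finsetSum_apply]
  refine IsUltrametricDist.norm_sum_le_of_forall_le_of_nonneg ha fun i _ => ?_
  rw [map_smul, Finsupp.smul_apply, norm_smul]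
  exact (mul_le_of_le_one_right (norm_nonneg _) (h2 i k)).trans (h1 i)

variable [ProperSpace F]

theorem Unim.rank_one (h : Unim e) {D : Type*} [DivisionRing D] [Algebra F D] [FiniteDimensional F D]
    [Algebra.IsCentral F D] {m : ℕ} (hm : 0 < m) (ψ : A ≃ₐ[F] Matrix (Fin m) (Fin m) D) : finrank F D = 1 := by
  let := ndr F D
  let := nalg F D
  have := ultra F D
  have : Nonempty (Fin m) := ⟨⟨0, hm⟩⟩
  have := e.index_nonempty
  refine rank_one_of_unram F fun π (hπ : ‖π‖ < 1) => ?_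
  obtain ⟨⟨i, j, l⟩, -, hd⟩ := exists_max_image univ (fun p : ι × Fin m × Fin m => ‖ψ (e p.1) p.2.1 p.2.2‖)
    univ_nonempty
  set d := ψ (e i) j l with hdd
  have hb : ∀ {x : A} {a : ℝ}, 0 ≤ a → (∀ k, ‖e.repr x k‖ ≤ a) → ∀ s t, ‖ψ x s t‖ ≤ a * ‖d‖ :=
    fun ha h1 s t => norm_lin (Matrix.entryLinearMap F D s t ∘ₗ ψ.toLinearMap) ha (norm_nonneg _) h1
      fun k => hd (k, s, t) (mem_univ _)
  have hd0 : d ≠ 0 := fun h0 => by
    have := hb (x := 1) (norm_nonneg (e.equivFun 1)) (fun k => norm_le_pi_norm (e.equivFun 1) k) j j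
    simp [h0, not_le.2 one_pos] at this
  have hd1 := norm_pos_iff.2 hd0
  set x := ψ.symm (Matrix.single l j (π * d⁻¹)) * e i with hx
  have h1 : ∀ k, ‖e.repr x k‖ ≤ ‖π‖ := h.le_of_Trd (norm_nonneg _) fun k => by
    have := Trd_map (RingHom.id F) ψ.toRingEquiv.toRingHom ψ.commutes ψ.toLinearEquiv.finrank_eq.symm (x * e k)
    rw [RingHom.id_apply] at this
    rw [← this, Trd_matrix, sum_eq_single l _ (by simp)]
    · refine (norm_Trd_le F _).trans ?_
      change ‖ψ (x * e k) l l‖ ≤ _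
      rw [hx, mul_assoc, map_mul, ψ.apply_symm_apply, Matrix.single_mul_apply_same, norm_mul, norm_mul, norm_inv,
        mul_assoc]
      refine mul_le_of_le_one_right (norm_nonneg _) ?_
      rw [inv_mul_le_iff₀ hd1, mul_comm]
      exact hb zero_le_one (h.mul i k) j l
    · intro s _ hs
      change Trd F (ψ (x * e k) s s) = 0
      rw [hx, mul_assoc, map_mul, ψ.apply_symm_apply, Matrix.single_mul_apply_of_ne _ _ _ _ _ hs, map_zero]
  obtain ⟨k, -, hk⟩ := exists_max_image univ (fun k => ‖e.repr x k‖) univ_nonempty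
  refine ⟨_, (h1 k).trans_lt hπ, ?_⟩
  have h2 := hb (norm_nonneg _) (h.mul_left (norm_nonneg _) (fun k' => hk k' (mem_univ _)) i) j l
  rw [hx, ← mul_assoc, map_mul, map_mul, ψ.apply_symm_apply, mul_assoc, Matrix.mul_apply, sum_eq_single l _ (by simp),
    Matrix.single_mul_apply_same, ← hdd, inv_mul_cancel_right₀ hd0, norm_mul, mul_comm] at h2
  · exact le_of_mul_le_mul_right h2 hd1
  · intro s _ hs
    rw [Matrix.single_mul_apply_of_ne _ _ _ _ _ hs, mul_zero]

theorem Unim.split0 (h : Unim e) {d : ℕ} (hd : finrank F A = d ^ 2) :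
    Nonempty (A →ₐ[F] Matrix (Fin d) (Fin d) F) := by
  obtain ⟨m, n, D, _, _, _, _, hm, -, h1, h2, ⟨ψ⟩⟩ := Hsm.exists_wedderburn F A hd
  have h3 := h.rank_one hm ψ
  obtain rfl : n = 1 := by simpa [h2] using h3
  obtain rfl : d = m := by simpa using h1
  have q : F ≃ₐ[F] D := AlgEquiv.ofBijective (Algebra.ofId F D) ⟨(algebraMap F D).injective, fun x =>
    Algebra.mem_bot.1 (Subalgebra.bot_eq_top_iff_finrank_eq_one.2 h3 ▸ Algebra.mem_top)⟩
  exact ⟨q.symm.toAlgHom.mapMatrix.comp ψ.toAlgHom⟩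

/-- a unimodular order is a matrix ring -/
theorem Unim.split (h : Unim e) (R : Type*) [CommRing R] [IsDomain R] [IsPrincipalIdealRing R] [Algebra R F]
    [IsFractionRing R F] (hR : ∀ c : F, c ∈ Set.range (algebraMap R F) ↔ ‖c‖ ≤ 1) {d : ℕ}
    (hd : finrank F A = d ^ 2) : ∃ ψ : A ≃ₐ[F] Matrix (Fin d) (Fin d) F,
      ∀ (x : A) (a : ℝ), 0 ≤ a → ((∀ k, ‖e.repr x k‖ ≤ a) ↔ ∀ i j, ‖ψ x i j‖ ≤ a) := by
  obtain ⟨φ⟩ := h.split0 hd
  obtain ⟨ψ, hψ⟩ := conjR R φ e fun i j k => (hR _).2 (h.mul i j k)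
  have hd' : finrank F A = Fintype.card (Fin d) ^ 2 := by simpa using hd
  have : Nonempty (Fin d) := Fintype.card_pos_iff.1 (pos_of_ne_zero fun h0 =>
    (finrank_pos (R := F) (M := A)).ne' (by rw [hd', h0]; rfl))
  have h1 : Function.Injective ψ := RingHom.injective ψ.toRingHom
  refine ⟨AlgEquiv.ofBijective ψ ⟨h1, (LinearMap.injective_iff_surjective_of_finrank_eq_finrank
    (f := ψ.toLinearMap) (by rw [hd', finrank_mat])).1 h1⟩, fun x a ha => ⟨fun h2 i j => ?_, fun h2 => ?_⟩⟩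
  · exact (norm_lin (Matrix.entryLinearMap F F i j ∘ₗ ψ.toLinearMap) ha zero_le_one h2
      fun k => (hR _).1 (hψ k i j)).trans_eq (mul_one a)
  · refine h.le_of_Trd ha fun k => ?_
    rw [← norm_algebraMap' F, ← Csa.trace_eq ψ hd', map_mul, Matrix.trace]
    refine IsUltrametricDist.norm_sum_le_of_forall_le_of_nonneg ha fun i _ => ?_
    rw [Matrix.diag_apply, Matrix.mul_apply]
    refine IsUltrametricDist.norm_sum_le_of_forall_le_of_nonneg ha fun j _ => ?_
    rw [norm_mul]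
    exact (mul_le_of_le_one_right (norm_nonneg _) ((hR _).1 (hψ k j i))).trans (h2 i j)

end unim

end Crest.Agent.T24.Loc
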