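import Crest.Agent.T24.NaInstDef_3
import Crest.Agent.T24.TLink_31
import Crest.Agent.T24.NstK_39
import Crest.Agent.T24.NaDef_18
import Crest.Agent.T24.HgtDef_88

-- ▼ part T24/NaG_50
section

/-!
# Row 24, NA + TW instance (helper50): the open subgroup `G2`, units of `AS`, the local field
-/

set_option autoImplicit false
set_option linter.unusedSectionVars false

noncomputable section

namespace Crest.Agent.T24.Na.G50

open Module NumberField IsDedekindDomain WithZero Csa Asa Topology Filter BC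
open scoped NumberField Valued

variable {k K B : Type*} [Field k] [NumberField k] [Field K] [NumberField K] [Algebra k K]
  [StarRing K] [Quad k K] [Ring B] [StarRing B] [Algebra K B] [StarModule K B]
  [Algebra.IsCentral K B] [IsSimpleRing B] [FiniteDimensional K B] [Algebra k B]
  [IsScalarTower k K B]

/-! ### units -/

theorem inv_cont_BC {R : Type*} [CommRing R] [Algebra k R] [TopologicalSpace R]
    [IsTopologicalRing R] (hR : ∀ r : R, IsUnit r → ContinuousAt Ring.inverse r)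
    {x : BC k K B R} (hx : IsUnit x) : ContinuousWithinAt Ring.inverse {y | IsUnit y} x := by
  have := finite_kB k K B
  let b := bas k K B R (finBasis k B)
  have hL : Continuous (Algebra.leftMulMatrix b) :=
    IsModuleTopology.continuous_of_linearMap (Algebra.leftMulMatrix b).toLinearMap
  have h1 : ContinuousAt (fun y => (crd k K B R (finBasis k B)).symm
      ((Algebra.leftMulMatrix b y)⁻¹.mulVec (b.repr 1))) x := by
    refine (crd k K B R (finBasis k B)).symm.continuous.continuousAt.comp ?_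
    have h2 := (continuousAt_matrix_inv _ (hR _ ((Matrix.isUnit_iff_isUnit_det _).1
      (hx.map (Algebra.leftMulMatrix b))))).comp hL.continuousAt
    exact (continuous_id.matrix_mulVec continuous_const).continuousAt.comp h2
  have h3 : ∀ y : BC k K B R, IsUnit y → Ring.inverse y = (crd k K B R (finBasis k B)).symm
      ((Algebra.leftMulMatrix b y)⁻¹.mulVec (b.repr 1)) := by
    rintro _ ⟨u, rfl⟩
    rw [Ring.inverse_unit, Matrix.inv_eq_left_inv (B := Algebra.leftMulMatrix b ↑u⁻¹)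
      (by rw [← map_mul, u.inv_mul, map_one]), Algebra.leftMulMatrix_mulVec_repr, mul_one,
      ContinuousLinearEquiv.eq_symm_apply]
    rfl
  exact h1.continuousWithinAt.congr h3 (h3 x hx)

variable (S : Finset (Pl k))

theorem isUnit_AS {x : AS k K B S} : IsUnit x ↔ IsUnit x.1 ∧ ∀ v, IsUnit (x.2 v) := by
  rw [Prod.isUnit_iff, Pi.isUnit_iff]

theorem inverse_AS {x : AS k K B S} (hx : IsUnit x) :
    Ring.inverse x = (Ring.inverse x.1, fun v => Ring.inverse (x.2 v)) := by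
  obtain ⟨h1, h2⟩ := (isUnit_AS S).1 hx
  refine (hx.mul_right_inj).1 ?_
  rw [Ring.mul_inverse_cancel _ hx]
  exact Prod.ext (Ring.mul_inverse_cancel _ h1).symm
    (funext fun v => (Ring.mul_inverse_cancel _ (h2 v)).symm)

variable (K B) in
theorem unit_open : IsOpen {y : AS k K B S | IsUnit y} := by
  simp only [isUnit_AS, Set.ofPred_and, Set.ofPred_forall]
  exact ((BC.isOpen_isUnit Units.isOpen).preimage continuous_fst).inter (isOpen_iInter_of_finite
    fun v => (BC.isOpen_isUnit (R := Kv v.1) Units.isOpen).preimage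
      (f := fun y : AS k K B S => y.2 v) ((continuous_apply v).comp continuous_snd))

variable (K B) in
theorem inv_cont : ContinuousOn Ring.inverse {y : AS k K B S | IsUnit y} := by
  refine ContinuousOn.congr (fun x hx => ?_) fun x hx => inverse_AS S hx
  obtain ⟨h1, h2⟩ := (isUnit_AS S).1 hx
  refine ContinuousWithinAt.prodMk ?_ (continuousWithinAt_pi.2 fun v => ?_)
  · exact (inv_cont_BC (by rintro _ ⟨r, rfl⟩; exact NormedRing.inverse_continuousAt r) h1).comp
      continuous_fst.continuousWithinAt fun y hy => ((isUnit_AS S).1 hy).1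
  · exact (inv_cont_BC (by rintro _ ⟨r, rfl⟩; exact NormedRing.inverse_continuousAt r) (h2 v)).comp
      (f := fun y : AS k K B S => y.2 v)
      ((continuous_apply v).comp continuous_snd).continuousWithinAt
      fun y hy => ((isUnit_AS S).1 hy).2 v

/-! ### depth in the completions -/

variable (K B) in
/-- small at the anisotropic places over `v` -/
def DI (v : Pl k) (m : ℕ) : AddSubgroup B where
  carrier := {x | ∀ w ∈ TT K B, below k w = v → val w x < exp (-(m : ℤ))}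
  zero_mem' w _ _ := by simp
  add_mem' hx hy w hw hv := (hw.2 _ _).trans_lt (max_lt (hx w hw hv) (hy w hw hv))
  neg_mem' hx w hw hv := by rw [val_neg]; exact hx w hw hv

theorem DI_mul {v : Pl k} {m : ℕ} {x y : B} (hx : x ∈ DI K B v m) (hy : y ∈ DI K B v m) :
    x * y ∈ DI K B v m := fun w hw hv => by
  rw [val_mul]
  exact (mul_le_of_le_one_right' ((hy w hw hv).le.trans (exp_neg_le_one m))).trans_lt (hx w hw hv)

theorem DI_star {v : Pl k} {m : ℕ} {x : B} (hx : x ∈ DI K B v m) : star x ∈ DI K B v m :=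
  fun w hw hv => by
    obtain ⟨w', h1, -, h2, -, h3⟩ := TL31.exists_conj k hw
    rw [← h3]; exact hx w' h1 (h2.trans hv)

variable (K B) in
/-- the closure of `DI` -/
def DA (v : Pl k) (m : ℕ) : AddSubgroup (BC k K B (Kv v)) :=
  ((DI K B v m).map (inc k K B (Kv v) : B →+ _)).topologicalClosure


theorem exists_nhds (hd : 2 ≤ deg K B) (v : Pl k) (m : ℕ) :
    ∃ V ∈ 𝓝 (0 : BC k K B (Kv v)), ∀ x : B, inc k K B (Kv v) x ∈ V → x ∈ DI K B v m := by
  by_cases hv : v ∈ Tk k K B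
  · exact (TL31.tLink k K B hd v hv).2.2 m
  · exact ⟨_, univ_mem, fun x _ w hw e => absurd ⟨w, hw, e⟩ hv⟩

theorem isOpen_DA (hd : 2 ≤ deg K B) (v : Pl k) (m : ℕ) :
    IsOpen (DA K B v m : Set (BC k K B (Kv v))) := by
  obtain ⟨V, hV, h⟩ := exists_nhds hd v m
  refine AddSubgroup.isOpen_of_mem_nhds _ (g := 0) (mem_of_superset (interior_mem_nhds.2 hV) ?_)
  refine ((TL31.dense_inc k K B v).open_subset_closure_inter isOpen_interior).trans
    (closure_mono ?_)
  rintro _ ⟨h1, x, rfl⟩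
  exact ⟨x, h x (interior_subset h1), rfl⟩

theorem inc_mem_DA (hd : 2 ≤ deg K B) {v : Pl k} {m : ℕ} {x : B} :
    inc k K B (Kv v) x ∈ DA K B v m ↔ x ∈ DI K B v m := by
  refine ⟨fun hx => ?_, fun hx => AddSubgroup.le_topologicalClosure _ ⟨x, hx, rfl⟩⟩
  obtain ⟨V, hV, h⟩ := exists_nhds hd v m
  have hc : ContinuousAt (fun y => inc k K B (Kv v) x - y) (inc k K B (Kv v) x) := by fun_prop
  obtain ⟨_, h1, y, hy, rfl⟩ := mem_closure_iff_nhds.1 hx _
    (hc.preimage_mem_nhds (by rwa [sub_self]))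
  simpa using add_mem (h (x - y) (by rw [map_sub]; exact h1)) hy


theorem DA_mul {v : Pl k} {m : ℕ} {x y : BC k K B (Kv v)} (hx : x ∈ DA K B v m)
    (hy : y ∈ DA K B v m) : x * y ∈ DA K B v m :=
  map_mem_closure₂ continuous_mul hx hy (by
    rintro _ ⟨a, ha, rfl⟩ _ ⟨b, hb, rfl⟩
    exact ⟨a * b, DI_mul ha hb, map_mul (inc k K B (Kv v)) a b⟩)

theorem DA_star {v : Pl k} {m : ℕ} {x : BC k K B (Kv v)} (hx : x ∈ DA K B v m) :
    star x ∈ DA K B v m :=
  map_mem_closure continuous_star hx (by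
    rintro _ ⟨a, ha, rfl⟩
    exact ⟨star a, DI_star ha, rfl⟩)

variable (K B) in
/-- the local group away from `v₀` -/
def G2 (m : ℕ) : Subgroup (unitary (AS k K B S)) where
  carrier := {g | ∀ v : S, (g : AS k K B S).2 v - 1 ∈ DA K B v.1 m}
  one_mem' v := by simp
  mul_mem' {a b} ha hb v := by
    have := add_mem (add_mem (DA_mul (ha v) (hb v)) (ha v)) (hb v)
    convert this using 1
    change (a : AS k K B S).2 v * (b : AS k K B S).2 v - 1 = _
    noncomm_ring
  inv_mem' {a} ha v := by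
    have := DA_star (ha v)
    rwa [star_sub, star_one] at this

variable {S}



theorem cont_comp (v : S) : Continuous fun g : unitary (AS k K B S) => (g : AS k K B S).2 v - 1 :=
  ((continuous_apply v).comp (continuous_snd.comp continuous_subtype_val)).sub continuous_const

variable (S)

theorem isOpen_G2 (hd : 2 ≤ deg K B) (m : ℕ) :
    IsOpen (G2 K B S m : Set (unitary (AS k K B S))) := by
  change IsOpen {g : unitary (AS k K B S) | ∀ v : S, (g : AS k K B S).2 v - 1 ∈ DA K B v.1 m}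
  rw [Set.ofPred_forall]
  exact isOpen_iInter_of_finite fun v => (isOpen_DA hd v.1 m).preimage (cont_comp v)

variable {S}

theorem jAU_mem (hd : 2 ≤ deg K B) {m : ℕ} {u : unitary B} (hu : u ∈ Um K B m) :
    jAU k K B S u ∈ G2 K B S m := fun v => by
  have := (inc_mem_DA hd (v := v.1) (m := m) (x := (u : B) - 1)).2 fun w hw _ => hu w hw
  rwa [map_sub, map_one] at this

theorem mem_Um_of (hd : 2 ≤ deg K B) (hS : ∀ v ∈ Tk k K B, v ∈ S) {m : ℕ} {u : unitary B}
    (hu : jAU k K B S u ∈ G2 K B S m) : u ∈ Um K B m := fun w hw => by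
  refine (inc_mem_DA hd (v := below k w) (m := m) (x := (u : B) - 1)).1 ?_ w hw rfl
  rw [map_sub, map_one]
  exact hu ⟨_, hS _ ⟨w, hw, rfl⟩⟩

theorem exists_G2 (hd : 2 ≤ deg K B) (hS : ∀ v ∈ Tk k K B, v ∈ S) (m : ℕ) :
    ∃ G : Subgroup (unitary (AS k K B S)), (∀ u : unitary B, jAU k K B S u ∈ G ↔ u ∈ Um K B m) ∧
      IsOpen (G : Set (unitary (AS k K B S))) :=
  ⟨G2 K B S m, fun _ => ⟨mem_Um_of hd hS, jAU_mem hd⟩, isOpen_G2 S hd m⟩

/-! ### the local field -/

theorem lf (v : Pl k) (h6 : v.valuation k (6 : k) = 1) {π : Kv v} (hπ : Valued.v π = exp (-1 : ℤ)) :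
    Lf (v.adicCompletionIntegers k).toSubring π := by
  have hmem : ∀ x : Kv v, x ∈ (v.adicCompletionIntegers k).toSubring ↔ Valued.v x ≤ 1 :=
    fun _ => Iff.rfl
  obtain ⟨π', h⟩ := NstK39.locF v h6
  have h1 : Valued.v π < 1 := by rw [hπ]; exact exp_neg_lt_one one_pos
  have h0 : π ≠ 0 := by rintro rfl; rw [map_zero] at hπ; exact exp_ne_zero hπ.symm
  have ht := tendsto_pow_atTop_nhds_zero_of_norm_lt_one
    (Valued.toNormedField.norm_lt_one_iff.2 h1)
  refine ⟨⟨h.cpt, h0, ht, fun x => ?_, h.res⟩, Valued.isOpen_valuationSubring _, h1.le,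
    (v.adicCompletionIntegers k).mem_or_inv_mem, fun y hy => ?_⟩
  · have h1 := ht.mul_const x
    rw [zero_mul] at h1
    obtain ⟨n, hn⟩ := (h1.eventually (Metric.closedBall_mem_nhds (0 : Kv v) one_pos)).exists
    exact ⟨n, by rw [← SetLike.mem_coe, NstK39.int_eq_ball]; exact hn⟩
  · rcases ((hmem y).1 hy).eq_or_lt with h2 | h2
    · refine Or.inl ⟨by rw [hmem, map_inv₀, h2, inv_one], ?_⟩
      rintro rfl
      simp at h2
    · refine Or.inr ⟨π⁻¹ * y, ?_, by rw [mul_inv_cancel_left₀ h0]⟩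
      rw [hmem, map_mul, map_inv₀, hπ, inv_mul_le_one₀ (exp_pos)]
      exact (lt_mul_exp_iff_le exp_ne_zero).1 (by rwa [← exp_add, neg_add_cancel, exp_zero])

theorem exists_lf (v : Pl k) (h6 : v.valuation k (6 : k) = 1) : ∃ p : k,
    v.valuation k p = exp (-1 : ℤ) ∧
      Lf (v.adicCompletionIntegers k).toSubring (algebraMap k (Kv v) p) := by
  obtain ⟨p, hp⟩ := v.valuation_exists_uniformizer k
  exact ⟨p, hp, lf v h6 (by rw [NstK39.val_alg, hp])⟩

end Crest.Agent.T24.Na.G50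
end
end

-- ▼ part T24/NaCen_23

/-!
# Row 24, module NA (helper23): good centres exist; affine maps preserve `O[1/M]`
-/

set_option autoImplicit false
set_option linter.unusedSectionVars false

noncomputable section

namespace Crest.Agent.T24.Na

open Topology Filter Matrix

universe u v w

namespace C23

section Mat
variable {F : Type*} [Field F] {d : ℕ}

theorem unit_one_add {a b : Fin d → F} (h : 1 + b ⬝ᵥ a ≠ 0) : IsUnit (1 + vecMulVec a b) := by
  rw [isUnit_iff_isUnit_det, vecMulVec_eq Unit, det_one_add_replicateCol_mul_replicateRow]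
  exact h.isUnit

theorem conj_single {a b : Fin d → F} (h : b ⬝ᵥ a = 1) : ∃ (i : Fin d) (g : GL (Fin d) F),
    (g : Mt d F) * vecMulVec a b * ((g⁻¹ : GL (Fin d) F) : Mt d F) = single i i 1 := by
  obtain ⟨i, hi⟩ : ∃ i, a i ≠ 0 := by
    by_contra hn
    push Not at hn
    simp [dotProduct, hn] at h
  obtain ⟨u, hu⟩ := unit_one_add (a := a - Pi.single i 1) (b := Pi.single i 1) (by simpa using hi)
  have h1 : (u : Mt d F) *ᵥ Pi.single i 1 = a := by
    rw [hu, add_mulVec, vecMulVec_mulVec, one_mulVec]; simp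
  have h2 : (b ᵥ* (u : Mt d F)) i = 1 := by
    rw [← h, ← h1, dotProduct_mulVec]; simp
  obtain ⟨t, ht⟩ := unit_one_add (a := Pi.single i 1) (b := b ᵥ* (u : Mt d F) - Pi.single i 1)
    (by simp [h2])
  have h3 : vecMulVec a b * u = u * vecMulVec (Pi.single i 1) (b ᵥ* (u : Mt d F)) := by
    rw [vecMulVec_mul, mul_vecMulVec, h1]
  have h4 : (t : Mt d F) * vecMulVec (Pi.single i 1) (b ᵥ* (u : Mt d F)) = single i i 1 * t.1 := by
    rw [single_eq_single_vecMulVec_single, vecMulVec_mul, mul_vecMulVec, ht, add_mulVec,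
      vecMulVec_mulVec, vecMul_add, vecMul_vecMulVec, one_mulVec, vecMul_one]
    simp [h2]
  refine ⟨i, t * u⁻¹, ?_⟩
  rw [_root_.mul_inv_rev, inv_inv, Units.val_mul, Units.val_mul, mul_assoc, ← mul_assoc _ u.1, h3,
    mul_assoc, mul_assoc, Units.inv_mul_cancel_left, ← mul_assoc, h4, Units.mul_inv_cancel_right]

variable [TopologicalSpace F] [IsTopologicalDivisionRing F] [T2Space F] {O : Subring F} {π : F}

theorem ev_dom (hl : Lf O π) {a b : Fin d → F} (h : b ⬝ᵥ a ≠ 0) (C : Mt d F) :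
    ∀ᶠ m : ℕ in atTop, Dom O π ((π ^ (m + 1))⁻¹ • vecMulVec a b + C) := by
  obtain ⟨i, g, hg⟩ := conj_single (a := (b ⬝ᵥ a)⁻¹ • a) (b := b) (by simp [h])
  have h1 (y : F) : ∀ᶠ m : ℕ in atTop, π ^ m * y ∈ O :=
    (hl.loc.tend.mul_const y).eventually (hl.opn.mem_nhds (by simp))
  filter_upwards [eventually_all.2 fun p => eventually_all.2 fun q => h1 ((b ⬝ᵥ a)⁻¹ *
    ((g : Mt d F) * C * ((g⁻¹ : GL (Fin d) F) : Mt d F)) p q)] with m hm
  refine ⟨i, g, π ^ (m + 1) * (b ⬝ᵥ a)⁻¹, fun p q => ⟨_, hm p q, ?_⟩⟩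
  rw [← hg, smul_vecMulVec, mul_add, add_mul, smul_add, Matrix.mul_smul, Matrix.smul_mul,
    Matrix.mul_smul, Matrix.smul_mul, smul_smul, mul_right_comm,
    mul_inv_cancel₀ (pow_ne_zero _ hl.loc.ne), one_mul, add_sub_cancel_left, Matrix.smul_apply,
    smul_eq_mul]
  ring

theorem ev_unit (hl : Lf O π) (a b : Fin d → F) {C : Mt d F} (hC : IsUnit C) :
    ∀ᶠ m : ℕ in atTop, IsUnit ((π ^ (m + 1))⁻¹ • vecMulVec a b + C) := by
  obtain ⟨u, rfl⟩ := hC
  have h1 : ∀ᶠ m : ℕ in atTop, π ^ (m + 1) + b ⬝ᵥ (u⁻¹).1 *ᵥ a ≠ 0 := by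
    rcases eq_or_ne (b ⬝ᵥ (u⁻¹).1 *ᵥ a) 0 with h | h
    · exact Eventually.of_forall fun m => by rw [h, add_zero]; exact pow_ne_zero _ hl.loc.ne
    · exact ((hl.loc.tend.comp (tendsto_add_atTop_nat 1)).add_const _).eventually_ne
        (by rwa [zero_add])
  filter_upwards [h1] with m hm
  have h0 := pow_ne_zero (m + 1) hl.loc.ne
  have := u.isUnit.mul (unit_one_add (a := (π ^ (m + 1))⁻¹ • (u⁻¹).1 *ᵥ a) (b := b) (by
    rw [dotProduct_smul, smul_eq_mul, ← inv_mul_cancel₀ h0, ← mul_add]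
    exact mul_ne_zero (inv_ne_zero h0) hm))
  rwa [mul_add, mul_one, mul_vecMulVec, mulVec_smul, mulVec_mulVec, Units.mul_inv, one_mulVec,
    smul_vecMulVec, add_comm] at this

end Mat

theorem cy_mem {A : Type*} [Ring A] [StarRing A] {θ z : A} (hθ : star θ = -θ) (hz : star z = z)
    (hc : θ * z = z * θ) (hu : IsUnit (z - θ)) : cy θ z ∈ unitary A := by
  have h1 : z + θ = star (z - θ) := by rw [star_sub, hθ, hz, sub_neg_eq_add]
  have h2 : Commute (z - θ) (star (z - θ)) := by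
    rw [← h1, Commute, SemiconjBy, mul_add, sub_mul, sub_mul, mul_sub, add_mul, add_mul, hc]; abel
  obtain ⟨u, hu⟩ := hu
  rw [cy, h1, ← hu, Ring.inverse_unit]
  rw [← hu] at h2
  have h3 : Commute (u⁻¹).1 (star (u⁻¹).1) := (Commute.units_inv_left_iff.2
    (show Commute u.1 ((star u)⁻¹).1 from Commute.units_inv_right h2))
  constructor
  · rw [star_mul, star_star, mul_assoc, ← mul_assoc u.1, h2.eq, mul_assoc, Units.mul_inv, mul_one,
      ← star_mul, Units.mul_inv, star_one]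
  · rw [star_mul, star_star, mul_assoc, ← mul_assoc (u⁻¹).1, h3.eq, mul_assoc, Units.inv_mul,
      mul_one, ← star_mul, Units.inv_mul, star_one]

variable (S : Sys.{u, v, w}) (h : S.Ok) {I : Type*} [Finite I] (g : I → Aff S.k S.B)

include h in
theorem exists_snd : ∃ y : Mt S.d S.F, ∀ j, Dom S.O S.π (S.ap₀ (g j) y) ∧
    IsUnit (S.ap₀ (g j) y - S.ψ S.θ) ∧ IsUnit (S.ap₀ (g j) y + S.ψ S.θ) := by
  have hd := h.hd
  let i : Fin S.d := ⟨0, by omega⟩
  have : Nonempty (Fin S.d) := ⟨i⟩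
  have : Infinite (Mt S.d S.F) := .of_injective _ (S.ψ.comp (algebraMap S.k S.B)).injective
  have : Infinite S.F := not_finite_iff_infinite.1 fun _ => not_finite (Mt S.d S.F)
  let P j := S.ψ (algebraMap _ _ ((g j).κ : S.k)) * S.ψ (star ((g j).p : S.B))
  obtain ⟨u, hu⟩ := Module.Dual.exists_forall_ne_zero_of_forall_exists
    (fun j => LinearMap.proj i ∘ₗ (S.ψ (g j).p * P j).mulVecLin) fun j => by
      obtain ⟨t, ht⟩ := ((g j).p.isUnit.map S.ψ).mul ((((g j).κ.isUnit.map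
        (algebraMap S.k S.B)).map S.ψ).mul ((g j).p.isUnit.star.map S.ψ))
      refine ⟨(t⁻¹).1 *ᵥ Pi.single i 1, ?_⟩
      change ((S.ψ (g j).p * P j) *ᵥ _) i ≠ 0
      rw [← ht, mulVec_mulVec, Units.mul_inv, one_mulVec]
      simp
  have e j (c : S.F) : S.ap₀ (g j) (c • vecMulVec u (Pi.single i 1)) =
      c • vecMulVec (P j *ᵥ u) (Pi.single i 1 ᵥ* S.ψ (g j).p) + S.ψ (g j).b := by
    rw [Sys.ap₀, ← vecMulVec_mul, ← mul_vecMulVec]
    simp only [P, Matrix.mul_smul, Matrix.smul_mul, mul_assoc]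
  obtain ⟨m, hm⟩ := (eventually_all.2 fun j => (ev_dom h.lf (a := P j *ᵥ u)
    (b := Pi.single i 1 ᵥ* S.ψ (g j).p) (by
      rw [← dotProduct_mulVec, mulVec_mulVec]; simpa using hu j) (S.ψ (g j).b)).and
    ((ev_unit h.lf (P j *ᵥ u) (Pi.single i 1 ᵥ* S.ψ (g j).p)
      ((h.aniso ⟨_, (g j).hb⟩).map S.ψ)).and (ev_unit h.lf (P j *ᵥ u)
      (Pi.single i 1 ᵥ* S.ψ (g j).p) ((h.aniso (-⟨_, (g j).hb⟩)).neg.map S.ψ)))).exists
  refine ⟨(S.π ^ (m + 1))⁻¹ • vecMulVec u (Pi.single i 1), fun j => ?_⟩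
  rw [e]
  refine ⟨(hm j).1, ?_, ?_⟩
  · simpa [add_sub_assoc] using (hm j).2.1
  · simpa [add_assoc, add_comm (S.ψ S.θ)] using (hm j).2.2

include h in
theorem exists_fst {W : Set S.A} (hW : IsOpen W) (h1 : 1 ∈ W) : ∃ y : selfAdjoint S.A, ∀ j,
    ∀ᶠ p : selfAdjoint S.A × ℕ in 𝓝 y ×ˢ atTop, ∀ z : S.A, S.ρ p.2 * z = p.1 →
      IsUnit (S.ap₂ (g j) z - S.inc S.θ) ∧ cy (S.inc S.θ) (S.ap₂ (g j) z) ∈ W := by
  let P j := S.inc (algebraMap _ _ ((g j).κ : S.k)) * S.inc (star ((g j).p : S.B))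
  let D j := S.inc (g j).b - S.inc S.θ
  let Φ j (x : S.A × S.A) := P j * x.1 * S.inc (g j).p + x.2 * D j
  have hΦ j : Continuous (Φ j) := by fun_prop
  have hO j : IsOpen {x : S.A × S.A | IsUnit (Φ j x) ∧
      1 + (S.inc S.θ + S.inc S.θ) * (Ring.inverse (Φ j x) * x.2) ∈ W} :=
    ContinuousOn.isOpen_inter_preimage (s := Φ j ⁻¹' {y | IsUnit y}) (continuousOn_const.add
      (continuousOn_const.mul ((h.inv_cont.comp (hΦ j).continuousOn fun _ hx => hx).mul
        continuousOn_snd))) (h.unit_open.preimage (hΦ j)) hW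
  have h2 := eventually_all.2 fun j => ((Continuous.prodMk_right (1 : S.A)).tendsto 0).eventually
    ((hO j).mem_nhds ⟨by
      simpa [Φ, P] using ((((g j).κ.isUnit.map (algebraMap S.k S.B)).map S.inc).mul
        ((g j).p.isUnit.star.map S.inc)).mul ((g j).p.isUnit.map S.inc), by simpa using h1⟩)
  obtain ⟨m, hm, h3⟩ := h.full 1
  obtain ⟨n, hn⟩ := h.L_small (Prod.fst ⁻¹' _) (continuous_fst.continuousAt.preimage_mem_nhds h2)
  replace hn := hn _ h3
  obtain ⟨r, hr, e⟩ : ∃ r : S.k, r ≠ 0 ∧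
      ((S.N ^ n • m • 1 : S.X) : S.B) = algebraMap _ _ r :=
    ⟨S.N ^ n * m, by simp [h.N_ne, hm], by simp⟩
  rw [e] at hn
  let c (r : S.k) := S.ε * S.inc (algebraMap _ _ r) + (1 - S.ε)
  have c1 (r : S.k) (y : S.A) : c r * y = y * c r := by
    simp only [c, add_mul, mul_add, sub_mul, mul_sub, one_mul, mul_one, mul_assoc, h.k_comm r y,
      h.eps_comm y]
    rw [← mul_assoc, h.eps_comm y, mul_assoc]
  have c2 (r : S.k) : c r * S.ε = S.ε * S.inc (algebraMap _ _ r) := by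
    rw [c1, mul_add, ← mul_assoc, mul_sub, h.eps_idem, mul_one, sub_self, add_zero]
  have c3 : c r * c r⁻¹ = 1 := by
    rw [mul_add, ← mul_assoc, c2, mul_sub, c2, mul_assoc, ← map_mul, ← map_mul, mul_inv_cancel₀ hr]
    simp [c]
  have c4 : star (c r⁻¹) = c r⁻¹ := by
    simp only [c, star_add, star_sub, star_mul, star_one, h.eps_star, ← h.inc_star,
      Algebra.algebraMap_eq_smul_one, h.star_k]
    rw [h.eps_comm]
  refine ⟨⟨_, c4⟩, fun j => ?_⟩
  have t : Tendsto (fun p : selfAdjoint S.A × ℕ => (c r * p.1, c r * S.ρ p.2))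
      (𝓝 ⟨_, c4⟩ ×ˢ atTop) (𝓝 (1, S.ε * S.inc (algebraMap _ _ r))) := by
    rw [← c3, ← c2]
    exact (((continuous_subtype_val.tendsto _).comp tendsto_fst).const_mul _).prodMk_nhds
      ((h.rho_tend.comp tendsto_snd).const_mul _)
  filter_upwards [t.eventually ((hO j).mem_nhds (hn j))] with p ⟨p1, p2⟩ z hz
  have c5 (y : S.A) : c r * S.ρ p.2 * y = y * (c r * S.ρ p.2) := by
    rw [mul_assoc, h.rho_comm, ← mul_assoc, c1, mul_assoc]
  have e1 : Φ j (c r * p.1, c r * S.ρ p.2) = c r * S.ρ p.2 * (S.ap₂ (g j) z - S.inc S.θ) := by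
    simp only [Φ, P, D, Sys.ap₂, ← hz, add_sub_assoc, mul_add]
    rw [← mul_assoc (c r), ← mul_assoc _ _ z, ← c5]
    simp only [mul_assoc]
  have u1 : IsUnit (S.ap₂ (g j) z - S.inc S.θ) :=
    ((Commute.isUnit_mul_iff (c5 _)).1 (e1 ▸ p1)).2
  refine ⟨u1, ?_⟩
  have e2 : Ring.inverse (Φ j (c r * p.1, c r * S.ρ p.2)) * (c r * S.ρ p.2) =
      Ring.inverse (S.ap₂ (g j) z - S.inc S.θ) := by
    rw [← u1.mul_left_inj, Ring.inverse_mul_cancel _ u1, mul_assoc, ← e1,
      Ring.inverse_mul_cancel _ p1]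
  rwa [e2, ← Ring.mul_inverse_cancel _ u1, ← add_mul, ← add_assoc, sub_add_cancel] at p2

end C23

/-- good centres exist -/
theorem exists_cen (S : Sys.{u, v, w}) (h : S.Ok) {I : Type*} [Finite I] (g : I → Aff S.k S.B) :
    ∃ z₀ : S.Z, ∀ j, S.Cen (g j) z₀ := by
  obtain ⟨W, hW, e⟩ := isOpen_induced_iff.1 h.G_open
  obtain ⟨y, hy⟩ := C23.exists_fst S h g hW (show (1 : unitary S.A) ∈ Subtype.val ⁻¹' W from
    e ▸ S.G₂.one_mem)
  obtain ⟨y', hy'⟩ := C23.exists_snd S h g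
  refine ⟨(y, y'), fun j => ⟨(hy' j).1, ?_⟩⟩
  obtain ⟨U, hU, R, hR, H⟩ := eventually_prod_iff.1 (hy j)
  have h1 (C : Mt S.d S.F) (hC : IsUnit (S.ap₀ (g j) y' + C)) :
      ∀ᶠ x in 𝓝 y', IsUnit (S.ap₀ (g j) x + C) := by
    simp only [isUnit_iff_isUnit_det, isUnit_iff_ne_zero] at hC ⊢
    exact (Continuous.continuousAt (by unfold Sys.ap₀; fun_prop)).eventually_ne hC
  refine ⟨_, prod_mem_nhds hU ((h1 _ (sub_eq_add_neg _ (S.ψ S.θ) ▸ (hy' j).2.1)).and
    (h1 _ (hy' j).2.2)), hR.mono fun n hn z z' hz h2 h3 => ?_⟩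
  obtain ⟨h4, h5⟩ := H hz.1 hn z.1 (h.sc_fst n z).symm
  have h6 := hz.2
  rw [h.sc_snd, Set.mem_ofPred_eq, ← h3, ← sub_eq_add_neg] at h6
  rw [← h2] at h4 h5
  have h7 := C23.cy_mem (by rw [← h.inc_star, h.th_star, map_neg]) z'.1.2 (h.th_comm _) h4
  exact ⟨h4, ⟨⟨⟨_, h7⟩, show _ ∈ (S.G₂ : Set (unitary S.A)) from e ▸ h5⟩, rfl⟩, h6⟩

section Lin
variable {k B : Type*} [Field k] [Ring B] [StarRing B] [Algebra k B] [Algebra ℚ B] {O : Subring B}

/-- finitely many elements lie in `O[1/M]` for `M` divisible enough -/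
theorem exists_OS (hO : ∀ x : B, ∃ m : ℕ, m ≠ 0 ∧ (m : B) * x ∈ O) {I : Type*} [Finite I]
    (x : I → B) : ∃ M₀ : ℕ, M₀ ≠ 0 ∧ ∀ M, M₀ ∣ M → ∀ j, x j ∈ Hgt.OS O M := by
  have := Fintype.ofFinite I
  choose m h0 hm using hO
  refine ⟨∏ j, m (x j), Finset.prod_ne_zero_iff.2 fun j _ => h0 _, fun M hM j => ⟨1, ?_⟩⟩
  obtain ⟨c, rfl⟩ := (Finset.dvd_prod_of_mem _ (Finset.mem_univ j)).trans hM
  rw [pow_one, mul_comm, Nat.cast_mul, mul_assoc]
  exact O.mul_mem (natCast_mem O c) (hm _)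


end Lin

end Crest.Agent.T24.Na
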